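import Mathlib
import Vale.Agent.P347.MathlibUsed
import Vale.Agent.P254.MathlibUsed
import Vale.Agent.P254.Defs

set_option linter.all false

section

/-! # P227, moment map route: the Legendre side

From a moment potential `φ` on the `y` space with gradient `g` and Hessian `T` we build the dual potential
`ψ` on the `x` space, with gradient `h = g⁻¹` and Hessian `S = (T ∘ h)⁻¹`. -/

open MeasureTheory Set Metric Filter Topology
open scoped ENNReal NNReal

namespace Vale.Agent.P227.M.DUAL

variable {E : Type*} [NormedAddCommGroup E] [InnerProductSpace ℝ E]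

theorem dual_strong_mono {G : E → E} {T : E → E →L[ℝ] E} (hG : ∀ y, HasFDerivAt G (T y) y) {a : ℝ}
    (hT : ∀ y v, a * ‖v‖ ^ 2 ≤ inner ℝ (T y v) v) (y z : E) :
    a * ‖y - z‖ ^ 2 ≤ inner ℝ (G y - G z) (y - z) := by
  set v : E := y - z with hv
  have hγ : ∀ t : ℝ, HasDerivAt (fun t : ℝ => z + t • v) v t := fun t => by
    simpa using ((hasDerivAt_id t).smul_const v).const_add z
  have hd : ∀ t : ℝ, HasDerivAt (fun t : ℝ => inner ℝ (G (z + t • v)) v) (inner ℝ (T (z + t • v) v) v) t := fun t => by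
    have h1 : HasDerivAt (fun t : ℝ => G (z + t • v)) (T (z + t • v) v) t := (hG (z + t • v)).comp_hasDerivAt t (hγ t)
    simpa using h1.inner ℝ (hasDerivAt_const t v)
  obtain ⟨c, -, hc⟩ := exists_hasDerivAt_eq_slope (fun t : ℝ => inner ℝ (G (z + t • v)) v) _ (zero_lt_one' ℝ)
    (fun t _ => (hd t).continuousAt.continuousWithinAt) (fun t _ => hd t)
  have h2 := hT (z + c • v) v
  rw [hc] at h2
  simp only [one_smul, zero_smul, add_zero, sub_zero, div_one] at h2
  rw [← inner_sub_left] at h2
  have h3 : z + v = y := by rw [hv]; abel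
  rwa [h3] at h2

theorem dual_anti {G : E → E} {T : E → E →L[ℝ] E} (hG : ∀ y, HasFDerivAt G (T y) y) {a : ℝ}
    (hT : ∀ y v, a * ‖v‖ ^ 2 ≤ inner ℝ (T y v) v) (y z : E) : a * ‖y - z‖ ≤ ‖G y - G z‖ := by
  rcases eq_or_ne y z with rfl | hne
  · simp
  have h0 : 0 < ‖y - z‖ := norm_pos_iff.2 (sub_ne_zero.2 hne)
  have h1 := (dual_strong_mono hG hT y z).trans (real_inner_le_norm _ _)
  have h2 : (a * ‖y - z‖) * ‖y - z‖ ≤ ‖G y - G z‖ * ‖y - z‖ := by nlinarith
  exact le_of_mul_le_mul_right h2 h0

theorem dual_clm_anti {T : E →L[ℝ] E} {a : ℝ} (hT : ∀ v, a * ‖v‖ ^ 2 ≤ inner ℝ (T v) v) (v : E) :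
    a * ‖v‖ ≤ ‖T v‖ := by
  rcases eq_or_ne v 0 with rfl | hne
  · simp
  have h0 : 0 < ‖v‖ := norm_pos_iff.2 hne
  have h1 := (hT v).trans (real_inner_le_norm _ _)
  have h2 : (a * ‖v‖) * ‖v‖ ≤ ‖T v‖ * ‖v‖ := by nlinarith
  exact le_of_mul_le_mul_right h2 h0

theorem dual_symm {φ : E → ℝ} {g : E → E} {T : E → E →L[ℝ] E} [CompleteSpace E]
    (hφ : ∀ y, HasGradientAt φ (g y) y) (hg : ∀ y, HasFDerivAt g (T y) y) (y u v : E) :
    (inner ℝ (T y u) v : ℝ) = inner ℝ u (T y v) := by
  have h1 : ∀ z, HasFDerivAt φ (innerSL ℝ (g z)) z := fun z => (hφ z).hasFDerivAt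
  have h2 : HasFDerivAt (fun z => innerSL ℝ (g z)) ((innerSL ℝ : E →L[ℝ] E →L[ℝ] ℝ).comp (T y)) y :=
    (innerSL ℝ : E →L[ℝ] E →L[ℝ] ℝ).hasFDerivAt.comp y (hg y)
  have h3 := second_derivative_symmetric h1 h2 u v
  simp only [ContinuousLinearMap.comp_apply, innerSL_apply_apply] at h3
  rw [h3, real_inner_comm]

variable [FiniteDimensional ℝ E]

/-- the inverse of a coercive endomorphism -/
theorem dual_exists_equiv {T : E →L[ℝ] E} {a : ℝ} (ha : 0 < a) (hT : ∀ v, a * ‖v‖ ^ 2 ≤ inner ℝ (T v) v) :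
    ∃ e : E ≃L[ℝ] E, (e : E →L[ℝ] E) = T := by
  have hinj : Function.Injective (T : E →ₗ[ℝ] E) := by
    rw [← LinearMap.ker_eq_bot, LinearMap.ker_eq_bot']
    intro v hv
    have h1 := dual_clm_anti hT v
    have h2 : T v = 0 := hv
    rw [h2, norm_zero] at h1
    have h3 : ‖v‖ ≤ 0 := by
      by_contra h
      push Not at h
      have := mul_pos ha h
      linarith
    exact norm_le_zero_iff.1 h3
  refine ⟨(LinearEquiv.ofInjectiveEndo (T : E →ₗ[ℝ] E) hinj).toContinuousLinearEquiv, ?_⟩
  ext v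
  rfl

theorem dual_bij {G : E → E} {T : E → E →L[ℝ] E} (hG : ∀ y, HasFDerivAt G (T y) y) {a : ℝ} (ha : 0 < a)
    (hTc : Continuous T) (hT : ∀ y v, a * ‖v‖ ^ 2 ≤ inner ℝ (T y v) v) : Function.Bijective G := by
  have hanti := dual_anti hG hT
  have hc : Continuous G := continuous_iff_continuousAt.2 fun y => (hG y).continuousAt
  refine ⟨fun y z h => ?_, ?_⟩
  · have h1 := hanti y z
    rw [h, sub_self, norm_zero] at h1
    have h2 : ‖y - z‖ ≤ 0 := by
      by_contra hh
      push Not at hh
      have := mul_pos ha hh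
      linarith
    exact sub_eq_zero.1 (norm_le_zero_iff.1 h2)
  · have hopen : IsOpen (range G) := by
      rw [isOpen_iff_mem_nhds]
      rintro _ ⟨y, rfl⟩
      obtain ⟨e, he⟩ := dual_exists_equiv ha (hT y)
      have hs : HasStrictFDerivAt G (T y) y :=
        hasStrictFDerivAt_of_hasFDerivAt_of_continuousAt (Eventually.of_forall hG) hTc.continuousAt
      rw [← he] at hs
      rw [← hs.map_nhds_eq_of_equiv]
      exact Filter.range_mem_map
    have hclosed : IsClosed (range G) := by
      refine IsSeqClosed.isClosed fun u x hu hx => ?_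
      choose w hw using hu
      have hcau : CauchySeq w := by
        refine Metric.cauchySeq_iff.2 fun ε hε => ?_
        obtain ⟨N, hN⟩ := Metric.cauchySeq_iff.1 hx.cauchySeq (a * ε) (mul_pos ha hε)
        refine ⟨N, fun m hm k hk => ?_⟩
        have h1 := hN m hm k hk
        rw [dist_eq_norm, ← hw m, ← hw k] at h1
        rw [dist_eq_norm]
        exact lt_of_mul_lt_mul_left ((hanti (w m) (w k)).trans_lt h1) ha.le
      obtain ⟨y, hy⟩ := cauchySeq_tendsto_of_complete hcau
      refine ⟨y, ?_⟩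
      have h2 : Tendsto (fun n => G (w n)) atTop (𝓝 (G y)) := (hc.tendsto y).comp hy
      have h3 : (fun n => G (w n)) = u := funext hw
      rw [h3] at h2
      exact tendsto_nhds_unique h2 hx
    have hne : (range G).Nonempty := range_nonempty G
    have := IsClopen.eq_univ ⟨hclosed, hopen⟩ hne
    exact range_eq_univ.1 this

/-- **The Legendre side.** -/
theorem exists_dual {φ : E → ℝ} {g : E → E} {T : E → E →L[ℝ] E} {a A M : ℝ} (ha : 0 < a) (hA : 0 ≤ A) (hM : 0 ≤ M)
    (hφ : ∀ y, HasGradientAt φ (g y) y) (hg : ∀ y, HasFDerivAt g (T y) y)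
    (hTa : ∀ y v, a * ‖v‖ ^ 2 ≤ inner ℝ (T y v) v) (hTA : ∀ y v, inner ℝ (T y v) v ≤ A * ‖v‖ ^ 2)
    (hTM : ∀ y z, ‖T y - T z‖ ≤ M * ‖y - z‖) (hev : ∀ y, φ (-y) = φ y) :
    ∃ (ψ : E → ℝ) (h : E → E) (S : E → E →L[ℝ] E),
      (∀ y, h (g y) = y) ∧ (∀ x, g (h x) = x) ∧
      (∀ x, HasGradientAt ψ (h x) x) ∧ (∀ x, HasFDerivAt h (S x) x) ∧
      (∀ x v, S x (T (h x) v) = v) ∧ (∀ x v, T (h x) (S x v) = v) ∧
      (∀ x u v, (inner ℝ (S x u) v : ℝ) = inner ℝ u (S x v)) ∧
      (∀ x v, A⁻¹ * ‖v‖ ^ 2 ≤ inner ℝ (S x v) v) ∧ (∀ x, ‖S x‖ ≤ a⁻¹) ∧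
      (∀ x z, ‖S x - S z‖ ≤ M / a ^ 3 * ‖x - z‖) ∧ (∀ x z, ‖h x - h z‖ ≤ a⁻¹ * ‖x - z‖) ∧
      (∀ x, h (-x) = -h x) ∧ (∀ x, ψ (-x) = ψ x) ∧ (∀ x, φ (h x) = inner ℝ x (h x) - ψ x) := by
  have hTc : Continuous T := by
    have hL : LipschitzWith (Real.toNNReal M) T := LipschitzWith.of_dist_le_mul fun y z => by
      rw [dist_eq_norm, dist_eq_norm, Real.coe_toNNReal M hM]
      exact hTM y z
    exact hL.continuous
  have hbij := dual_bij hg ha hTc hTa
  obtain ⟨h, hl, hr⟩ := Function.bijective_iff_has_inverse.1 hbij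
  have hl' : ∀ y, h (g y) = y := hl
  have hr' : ∀ x, g (h x) = x := hr
  choose e he using fun y => dual_exists_equiv ha (hTa y)
  have heT : ∀ y v, e y v = T y v := fun y v => by rw [← he y]; rfl
  have hsymmT := dual_symm hφ hg
  -- `g` is odd
  have hgodd : ∀ y, g (-y) = -g y := by
    intro y
    have h1 : HasGradientAt (fun z => φ (-z)) (-g (-y)) y := by
      have h2 : HasFDerivAt (fun z => φ (-z)) ((InnerProductSpace.toDual ℝ E (g (-y))).comp
          (-(ContinuousLinearMap.id ℝ E))) y :=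
        (hφ (-y)).hasFDerivAt.comp y (hasFDerivAt_id y).neg
      rw [hasGradientAt_iff_hasFDerivAt]
      have h5 : InnerProductSpace.toDual ℝ E (-g (-y)) =
          (InnerProductSpace.toDual ℝ E (g (-y))).comp (-(ContinuousLinearMap.id ℝ E)) := by
        ext v
        simp
      rw [h5]
      exact h2
    have h3 : (fun z => φ (-z)) = φ := funext hev
    rw [h3] at h1
    have h4 := h1.unique (hφ y)
    rw [← h4, neg_neg]
  have hhodd : ∀ x, h (-x) = -h x := fun x => by
    rw [← hl' (-h x), hgodd, hr']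
  have hanti := dual_anti hg hTa
  have hhlip : ∀ x z, ‖h x - h z‖ ≤ a⁻¹ * ‖x - z‖ := fun x z => by
    have := hanti (h x) (h z)
    rw [hr', hr'] at this
    rw [inv_mul_eq_div, le_div_iff₀ ha]
    linarith
  have hhc : Continuous h := by
    have hL : LipschitzWith (Real.toNNReal a⁻¹) h := LipschitzWith.of_dist_le_mul fun x z => by
      rw [dist_eq_norm, dist_eq_norm, Real.coe_toNNReal _ (inv_nonneg.2 ha.le)]
      exact hhlip x z
    exact hL.continuous
  let S : E → E →L[ℝ] E := fun x => ((e (h x)).symm : E →L[ℝ] E)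
  have hSd : ∀ x, HasFDerivAt h (S x) x := fun x => by
    have h1 : HasFDerivAt g ((e (h x) : E ≃L[ℝ] E) : E →L[ℝ] E) (h x) := by
      rw [he]
      exact hg (h x)
    exact HasFDerivAt.of_local_left_inverse hhc.continuousAt h1 (Eventually.of_forall hr')
  have hST : ∀ x v, S x (T (h x) v) = v := fun x v => by
    rw [← heT]
    exact (e (h x)).symm_apply_apply v
  have hTS : ∀ x v, T (h x) (S x v) = v := fun x v => by
    rw [← heT]
    exact (e (h x)).apply_symm_apply v
  have hSsymm : ∀ x u v, (inner ℝ (S x u) v : ℝ) = inner ℝ u (S x v) := fun x u v => by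
    conv_lhs => rw [← hTS x v]
    rw [← hsymmT, hTS]
  have hSn : ∀ x v, a * ‖S x v‖ ≤ ‖v‖ := fun x v => by
    have := dual_clm_anti (hTa (h x)) (S x v)
    rwa [hTS] at this
  have hSnorm : ∀ x, ‖S x‖ ≤ a⁻¹ := fun x => by
    refine ContinuousLinearMap.opNorm_le_bound _ (inv_nonneg.2 ha.le) fun v => ?_
    rw [inv_mul_eq_div, le_div_iff₀ ha]
    have := hSn x v
    linarith
  have hSlow : ∀ x v, A⁻¹ * ‖v‖ ^ 2 ≤ inner ℝ (S x v) v := fun x v => by
    -- generalized Cauchy-Schwarz for the form `T`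
    rcases hA.eq_or_lt with hA0 | hApos
    · rw [← hA0, inv_zero, zero_mul]
      have h1 := hTa (h x) (S x v)
      rw [hTS, real_inner_comm] at h1
      exact le_trans (by positivity) h1
    set w : E := S x v with hw
    have hTw : T (h x) w = v := hTS x v
    -- `‖v‖² = ⟨T w, v⟩` and `⟨T w, v⟩² ≤ ⟨T w, w⟩ ⟨T v, v⟩`
    have hpos : ∀ t : ℝ, 0 ≤ inner ℝ (T (h x) (w - t • v)) (w - t • v) := fun t =>
      le_trans (by positivity) (hTa (h x) (w - t • v))
    have hTv : inner ℝ (T (h x) v) v ≤ A * ‖v‖ ^ 2 := hTA (h x) v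
    have hexp : ∀ t : ℝ, (inner ℝ (T (h x) (w - t • v)) (w - t • v) : ℝ) =
        inner ℝ w v - 2 * t * ‖v‖ ^ 2 + t ^ 2 * inner ℝ (T (h x) v) v := fun t => by
      rw [map_sub, map_smul, hTw, inner_sub_left, inner_sub_right, inner_sub_right, inner_smul_left, inner_smul_left,
        inner_smul_right, inner_smul_right]
      have h5 : (inner ℝ (T (h x) v) w : ℝ) = ‖v‖ ^ 2 := by
        rw [hsymmT, hTw, real_inner_self_eq_norm_sq]
      rw [h5, real_inner_self_eq_norm_sq, real_inner_comm v w]
      simp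
      ring
    have h6 := hpos A⁻¹
    rw [hexp] at h6
    have h7 : (A⁻¹) ^ 2 * inner ℝ (T (h x) v) v ≤ (A⁻¹) ^ 2 * (A * ‖v‖ ^ 2) :=
      mul_le_mul_of_nonneg_left hTv (by positivity)
    have h8 : (A⁻¹) ^ 2 * (A * ‖v‖ ^ 2) = A⁻¹ * ‖v‖ ^ 2 := by
      field_simp
    rw [h8] at h7
    linarith
  have hSlip : ∀ x z, ‖S x - S z‖ ≤ M / a ^ 3 * ‖x - z‖ := fun x z => by
    refine ContinuousLinearMap.opNorm_le_bound _ (by positivity) fun v => ?_
    -- `S x v - S z v = S x (T (h z) - T (h x)) S z v`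
    have h1 : (S x - S z) v = S x ((T (h z) - T (h x)) (S z v)) := by
      simp only [sub_apply, map_sub, hTS, hST]
    rw [h1]
    have h2 : ‖S x ((T (h z) - T (h x)) (S z v))‖ ≤ a⁻¹ * ‖(T (h z) - T (h x)) (S z v)‖ := by
      rw [inv_mul_eq_div, le_div_iff₀ ha]
      have := hSn x ((T (h z) - T (h x)) (S z v))
      linarith
    have h3 : ‖(T (h z) - T (h x)) (S z v)‖ ≤ (M * (a⁻¹ * ‖x - z‖)) * (a⁻¹ * ‖v‖) := by
      refine (ContinuousLinearMap.le_opNorm _ _).trans ?_
      have h4 : ‖T (h z) - T (h x)‖ ≤ M * (a⁻¹ * ‖x - z‖) := by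
        refine (hTM _ _).trans (mul_le_mul_of_nonneg_left ?_ hM)
        rw [← norm_neg, neg_sub]
        exact hhlip x z
      have h5 : ‖S z v‖ ≤ a⁻¹ * ‖v‖ := by
        rw [inv_mul_eq_div, le_div_iff₀ ha]
        have := hSn z v
        linarith
      exact mul_le_mul h4 h5 (norm_nonneg _) (by positivity)
    calc ‖S x ((T (h z) - T (h x)) (S z v))‖ ≤ a⁻¹ * ((M * (a⁻¹ * ‖x - z‖)) * (a⁻¹ * ‖v‖)) :=
        h2.trans (mul_le_mul_of_nonneg_left h3 (by positivity))
      _ = M / a ^ 3 * ‖x - z‖ * ‖v‖ := by field_simp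
  refine ⟨fun x => inner ℝ x (h x) - φ (h x), h, S, hl', hr', fun x => ?_, hSd, hST, hTS, hSsymm, hSlow, hSnorm,
    hSlip, hhlip, hhodd, fun x => ?_, fun x => by ring⟩
  · have h1 := (hasFDerivAt_id x).inner ℝ (hSd x)
    have h2 := (hφ (h x)).hasFDerivAt.comp x (hSd x)
    have h3 := h1.sub h2
    rw [hasGradientAt_iff_hasFDerivAt]
    have h5 : InnerProductSpace.toDual ℝ E (h x) =
        ((fderivInnerCLM ℝ (id x, h x)).comp ((ContinuousLinearMap.id ℝ E).prod (S x)) -
          (InnerProductSpace.toDual ℝ E (g (h x))).comp (S x)) := by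
      ext v
      simp only [InnerProductSpace.toDual_apply_apply, sub_apply, ContinuousLinearMap.comp_apply,
        ContinuousLinearMap.prod_apply, fderivInnerCLM_apply, id, ContinuousLinearMap.id_apply, hr']
      rw [real_inner_comm v (h x)]
      ring
    rw [h5]
    exact h3
  · show (inner ℝ (-x) (h (-x)) : ℝ) - φ (h (-x)) = inner ℝ x (h x) - φ (h x)
    rw [hhodd, hev, inner_neg_neg]

end Vale.Agent.P227.M.DUAL
end

section
attribute [-instance] ProperSMul.toContinuousSMul IsTopologicalTorsor.toContinuousSMul IdemSemiring.toCanonicallyOrderedAdd IdemSemiring.toMulLeftMono IdemSemiring.toMulRightMono AddQuantale.instAddLeftMono AddQuantale.instAddRightMono Quantale.instMulLeftMono Quantale.instMulRightMono FiniteDimensional.rclike_to_real IsScalarTower.complexToReal FiniteDimensional.complexToReal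

/-! Core definitions for P347 (no theorems with content here). -/

open MeasureTheory Filter Module
open scoped ENNReal NNReal

namespace Vale.Agent.P347

variable {E : Type*} [NormedAddCommGroup E] [InnerProductSpace ℝ E] [FiniteDimensional ℝ E]
  [MeasurableSpace E] [BorelSpace E]

/-- Gibbs probability measure with density proportional to `exp (-U)`. -/
noncomputable def gibbs (U : E → ℝ) : Measure E := (volume : Measure E).tilted (fun x => -U x)

/-- Standard Gaussian measure on `E` (as a Gibbs measure). -/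
noncomputable def gam (E : Type*) [NormedAddCommGroup E] [InnerProductSpace ℝ E]
    [FiniteDimensional ℝ E] [MeasurableSpace E] [BorelSpace E] : Measure E :=
  gibbs (fun x : E => ‖x‖ ^ 2 / 2)

/-- Admissible potentials: continuous with quadratic lower growth. -/
structure Adm (U : E → ℝ) : Prop where
  cont : Continuous U
  low : ∃ a > 0, ∃ b, ∀ x, a * ‖x‖ ^ 2 - b ≤ U x

/-- Polynomially bounded functions. -/
def PG {F : Type*} [NormedAddCommGroup F] (f : E → F) : Prop :=
  ∃ (C : ℝ) (k : ℕ), ∀ x, ‖f x‖ ≤ C * (1 + ‖x‖) ^ k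

/-- Convex potential `W` with gradient field `F` which is `2`-Lipschitz. -/
structure CPot (W : E → ℝ) (F : E → E) : Prop where
  grad : ∀ x, HasFDerivAt W (innerSL ℝ (F x)) x
  mono : ∀ x y, 0 ≤ inner ℝ (F x - F y) (x - y)
  lip : ∀ x y, ‖F x - F y‖ ≤ 2 * ‖x - y‖

/-- The potentials of the problem: gradient `G`, Hessian `H` with `I ≤ H ≤ 2 I`. -/
structure Pot (V : E → ℝ) (G : E → E) (H : E → E →L[ℝ] E) : Prop where
  grad : ∀ x, HasFDerivAt V (innerSL ℝ (G x)) x
  hess : ∀ x, HasFDerivAt G (H x) x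
  contH : Continuous H
  symm : ∀ x u v, inner ℝ (H x u) (v) = inner ℝ (u) (H x v)
  lo : ∀ x v, ‖v‖ ^ 2 ≤ inner ℝ (H x v) (v)
  hi : ∀ x v, inner ℝ (H x v) (v) ≤ 2 * ‖v‖ ^ 2
  zero : V 0 = 0
  gzero : G 0 = 0

/-- The potential of the posterior law `ρ_y` of `X` given `X + √s Z = y`. -/
noncomputable def post (V : E → ℝ) (s : ℝ) (y : E) : E → ℝ :=
  fun x => V x + ‖x - y‖ ^ 2 / (2 * s)

/-- The smoothed potential `W = - log (exp (-V) * Gaussian)` (unnormalised). -/
noncomputable def Wp (V : E → ℝ) (s : ℝ) (y : E) : ℝ :=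
  -Real.log (∫ x, Real.exp (-post V s y x))

/-- The gradient of the smoothed potential: posterior mean of `G`. -/
noncomputable def Fp (V : E → ℝ) (G : E → E) (s : ℝ) (y : E) : E :=
  ∫ x, G x ∂(gibbs (post V s y))

/-- Evaluation point of the gradient estimator. -/
noncomputable def ev (G : E → E) (s : ℝ) (y z : E) : E := y - s • G y + √s • z

/-- Mean of the gradient estimator. -/
noncomputable def Gb (G : E → E) (s : ℝ) (y : E) : E := ∫ z, G (ev G s y z) ∂(gam E)

end Vale.Agent.P347
end

section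

/-! Task A (P347): basic calculus of Gibbs measures. -/

open MeasureTheory Filter Module
open scoped ENNReal NNReal

namespace Vale.Agent.P347

variable {E : Type*} [NormedAddCommGroup E] [InnerProductSpace ℝ E] [FiniteDimensional ℝ E]
  [MeasurableSpace E] [BorelSpace E]
variable {F : Type*} [NormedAddCommGroup F] [NormedSpace ℝ F]

/-! ### Polynomial growth -/

section pg

omit [FiniteDimensional ℝ E] [MeasurableSpace E] [BorelSpace E]

theorem one_le_one_add_norm (x : E) : 1 ≤ 1 + ‖x‖ := by linarith [norm_nonneg x]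

omit [NormedSpace ℝ F] in
theorem PG.nonneg_bound {f : E → F} (hf : PG f) :
    ∃ (C : ℝ) (k : ℕ), 0 ≤ C ∧ ∀ x, ‖f x‖ ≤ C * (1 + ‖x‖) ^ k := by
  obtain ⟨C, k, h⟩ := hf
  refine ⟨|C|, k, abs_nonneg _, fun x => (h x).trans ?_⟩
  have := one_le_one_add_norm x
  gcongr
  exact le_abs_self C

omit [NormedSpace ℝ F] in
theorem PG.const (c : F) : PG (fun _ : E => c) := ⟨‖c‖, 0, fun x => by simp⟩

theorem PG.id : PG (fun x : E => x) := ⟨1, 1, fun x => by simp⟩

omit [NormedSpace ℝ F] in
theorem PG.add {f g : E → F} (hf : PG f) (hg : PG g) : PG (fun x => f x + g x) := by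
  obtain ⟨C, k, hC, h⟩ := hf.nonneg_bound
  obtain ⟨C', k', hC', h'⟩ := hg.nonneg_bound
  refine ⟨C + C', k + k', fun x => (norm_add_le _ _).trans ?_⟩
  have h1 := one_le_one_add_norm x
  have h2 : (1 + ‖x‖) ^ k ≤ (1 + ‖x‖) ^ (k + k') := pow_le_pow_right₀ h1 (by omega)
  have h3 : (1 + ‖x‖) ^ k' ≤ (1 + ‖x‖) ^ (k + k') := pow_le_pow_right₀ h1 (by omega)
  have h4 := mul_le_mul_of_nonneg_left h2 hC
  have h5 := mul_le_mul_of_nonneg_left h3 hC'
  linarith [h x, h' x]

omit [NormedSpace ℝ F] in
theorem PG.neg {f : E → F} (hf : PG f) : PG (fun x => -f x) := by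
  obtain ⟨C, k, h⟩ := hf
  exact ⟨C, k, fun x => by rw [norm_neg]; exact h x⟩

omit [NormedSpace ℝ F] in
theorem PG.sub {f g : E → F} (hf : PG f) (hg : PG g) : PG (fun x => f x - g x) := by
  simpa only [sub_eq_add_neg] using hf.add hg.neg

theorem PG.smul {f : E → ℝ} {g : E → F} (hf : PG f) (hg : PG g) :
    PG (fun x => f x • g x) := by
  obtain ⟨C, k, hC, h⟩ := hf.nonneg_bound
  obtain ⟨C', k', hC', h'⟩ := hg.nonneg_bound
  refine ⟨C * C', k + k', fun x => ?_⟩
  have h1 := one_le_one_add_norm x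
  rw [norm_smul, pow_add]
  calc ‖f x‖ * ‖g x‖ ≤ (C * (1 + ‖x‖) ^ k) * (C' * (1 + ‖x‖) ^ k') :=
        mul_le_mul (h x) (h' x) (norm_nonneg _) (by positivity)
    _ = _ := by ring

theorem PG.mul {f g : E → ℝ} (hf : PG f) (hg : PG g) : PG (fun x => f x * g x) := hf.smul hg

omit [NormedSpace ℝ F] in
theorem PG.norm {f : E → F} (hf : PG f) : PG (fun x => ‖f x‖) := by
  obtain ⟨C, k, h⟩ := hf
  exact ⟨C, k, fun x => by rw [norm_norm]; exact h x⟩

omit [NormedSpace ℝ F] in
theorem PG.of_le {F' : Type*} [NormedAddCommGroup F'] {f : E → F} {g : E → F'} (hf : PG f)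
    (h : ∀ x, ‖g x‖ ≤ ‖f x‖) : PG g := by
  obtain ⟨C, k, h'⟩ := hf
  exact ⟨C, k, fun x => (h x).trans (h' x)⟩

theorem PG.inner {f g : E → E} (hf : PG f) (hg : PG g) :
    PG (fun x => (inner ℝ (f x) (g x) : ℝ)) := by
  refine (hf.norm.mul hg.norm).of_le fun x => ?_
  rw [norm_mul, norm_norm, norm_norm]
  exact norm_inner_le_norm _ _

theorem PG.pow {f : E → ℝ} (hf : PG f) (k : ℕ) : PG (fun x => f x ^ k) := by
  induction k with
  | zero => simpa using PG.const (E := E) (1 : ℝ)
  | succ k ih => simpa only [pow_succ] using ih.mul hf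

omit [NormedSpace ℝ F] in
/-- Lipschitz maps have polynomial growth. -/
theorem PG.of_lip {f : E → F} {L : ℝ} (h : ∀ x y, ‖f x - f y‖ ≤ L * ‖x - y‖) : PG f := by
  refine ⟨‖f 0‖ + |L|, 1, fun x => ?_⟩
  have h1 := h x 0
  rw [sub_zero] at h1
  have h2 : ‖f x‖ ≤ ‖f x - f 0‖ + ‖f 0‖ := by
    have := norm_add_le (f x - f 0) (f 0)
    rwa [sub_add_cancel] at this
  have h3 : L * ‖x‖ ≤ |L| * ‖x‖ := mul_le_mul_of_nonneg_right (le_abs_self L) (norm_nonneg _)
  have h4 := mul_nonneg (norm_nonneg (f 0)) (norm_nonneg x)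
  have h5 := abs_nonneg L
  rw [pow_one]
  linarith

end pg

/-! ### Integrability -/

theorem integrable_exp_neg_sq {b : ℝ} (hb : 0 < b) :
    Integrable (fun v : E => Real.exp (-(b * ‖v‖ ^ 2))) := by
  have h := GaussianFourier.integrable_cexp_neg_mul_sq_norm_add (V := E) (b := (b : ℂ))
    (by simpa using hb) 0 0
  have h2 := h.norm
  refine h2.congr (Eventually.of_forall fun v => ?_)
  simp only [Complex.norm_exp]
  congr 1
  simp [← Complex.ofReal_pow]

/-- The elementary bound `(1+r)^k exp(-a r^2) ≤ C exp(-(a/2) r^2)`. -/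
theorem pow_mul_exp_le {a : ℝ} (ha : 0 < a) (k : ℕ) {r : ℝ} (hr : 0 ≤ r) :
    (1 + r) ^ k * Real.exp (-(a * r ^ 2)) ≤
      (k.factorial * Real.exp (1 + 1 / (2 * a))) * Real.exp (-(a / 2 * r ^ 2)) := by
  have h1 : (1 + r) ^ k ≤ k.factorial * Real.exp (1 + r) := by
    have h2 := Real.pow_div_factorial_le_exp (1 + r) (by linarith) k
    rw [div_le_iff₀ (by positivity)] at h2
    linarith
  have h3 : r ≤ a / 2 * r ^ 2 + 1 / (2 * a) := by
    have h4 : 0 ≤ (a * r - 1) ^ 2 / (2 * a) := by positivity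
    have h5 : (a * r - 1) ^ 2 / (2 * a) = a / 2 * r ^ 2 - r + 1 / (2 * a) := by
      field_simp
      ring
    linarith
  calc (1 + r) ^ k * Real.exp (-(a * r ^ 2))
      ≤ (k.factorial * Real.exp (1 + r)) * Real.exp (-(a * r ^ 2)) :=
        mul_le_mul_of_nonneg_right h1 (Real.exp_pos _).le
    _ = k.factorial * Real.exp (1 + r + -(a * r ^ 2)) := by rw [mul_assoc, ← Real.exp_add]
    _ ≤ k.factorial * Real.exp ((1 + 1 / (2 * a)) + -(a / 2 * r ^ 2)) := by
        apply mul_le_mul_of_nonneg_left _ (by positivity)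
        apply Real.exp_le_exp.2
        linarith
    _ = _ := by rw [Real.exp_add, mul_assoc]

theorem integrable_pow_mul_exp {a : ℝ} (ha : 0 < a) (C : ℝ) (k : ℕ) (b : ℝ) :
    Integrable (fun x : E => C * (1 + ‖x‖) ^ k * Real.exp (b - a * ‖x‖ ^ 2)) := by
  have h1 : Integrable (fun x : E => (1 + ‖x‖) ^ k * Real.exp (-(a * ‖x‖ ^ 2))) := by
    refine ((integrable_exp_neg_sq (E := E) (half_pos ha)).const_mul
      (k.factorial * Real.exp (1 + 1 / (2 * a)))).mono' ?_ (Eventually.of_forall fun x => ?_)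
    · exact Continuous.aestronglyMeasurable (by fun_prop)
    · rw [Real.norm_eq_abs, abs_of_nonneg (by positivity)]
      exact pow_mul_exp_le ha k (norm_nonneg x)
  refine (h1.const_mul (C * Real.exp b)).congr (Eventually.of_forall fun x => ?_)
  simp only
  rw [sub_eq_add_neg, Real.exp_add]
  ring

theorem Adm.integrable_exp {U : E → ℝ} (hU : Adm U) :
    Integrable (fun x => Real.exp (-U x)) (volume : Measure E) := by
  obtain ⟨a, ha, b, hab⟩ := hU.low
  have hc := hU.cont
  refine (integrable_pow_mul_exp (E := E) ha 1 0 b).mono'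
    (Real.continuous_exp.comp hc.neg).aestronglyMeasurable (Eventually.of_forall fun x => ?_)
  rw [Real.norm_eq_abs, abs_of_pos (Real.exp_pos _), pow_zero, mul_one, one_mul]
  apply Real.exp_le_exp.2
  linarith [hab x]

theorem Adm.integral_exp_pos {U : E → ℝ} (hU : Adm U) :
    0 < ∫ x, Real.exp (-U x) := MeasureTheory.integral_exp_pos hU.integrable_exp

theorem Adm.isProb {U : E → ℝ} (hU : Adm U) : IsProbabilityMeasure (gibbs U) :=
  isProbabilityMeasure_tilted hU.integrable_exp

theorem Adm.integrable {U : E → ℝ} (hU : Adm U) {f : E → F} (hf : PG f)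
    (hm : AEStronglyMeasurable f volume) : Integrable f (gibbs U) := by
  obtain ⟨a, ha, b, hab⟩ := hU.low
  obtain ⟨C, k, hC, hCk⟩ := hf.nonneg_bound
  have hc := hU.cont
  unfold gibbs
  rw [integrable_tilted_iff hU.integrable_exp]
  refine (integrable_pow_mul_exp (E := E) ha C k b).mono'
    ((Real.continuous_exp.comp hc.neg).aestronglyMeasurable.smul hm)
    (Eventually.of_forall fun x => ?_)
  rw [norm_smul, Real.norm_eq_abs, abs_of_pos (Real.exp_pos _), mul_comm]
  apply mul_le_mul (hCk x) _ (Real.exp_pos _).le (by positivity)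
  apply Real.exp_le_exp.2
  linarith [hab x]

/-- Exponential integrability with a small quadratic exponent. -/
theorem Adm.integrable_exp_mul {U : E → ℝ} {a b : ℝ} (ha : 0 < a) (hc : Continuous U)
    (hlow : ∀ x, a * ‖x‖ ^ 2 - b ≤ U x) {f : E → ℝ} (hf : Continuous f) {c C : ℝ} (hca : c < a)
    (hfc : ∀ x, f x ≤ c * ‖x‖ ^ 2 + C) :
    Integrable (fun x => Real.exp (f x)) (gibbs U) := by
  have hU : Adm U := ⟨hc, a, ha, b, hlow⟩
  unfold gibbs
  rw [integrable_tilted_iff hU.integrable_exp]
  refine (integrable_pow_mul_exp (E := E) (sub_pos.2 hca) 1 0 (b + C)).mono'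
    ((Real.continuous_exp.comp hc.neg).smul (Real.continuous_exp.comp hf)).aestronglyMeasurable
    (Eventually.of_forall fun x => ?_)
  rw [smul_eq_mul, ← Real.exp_add, Real.norm_eq_abs, abs_of_pos (Real.exp_pos _), pow_zero,
    mul_one, one_mul]
  apply Real.exp_le_exp.2
  have h1 := hlow x
  have h2 := hfc x
  nlinarith

theorem gibbs_integral {U : E → ℝ} (f : E → F) :
    ∫ x, f x ∂(gibbs U) = (∫ x, Real.exp (-U x))⁻¹ • ∫ x, Real.exp (-U x) • f x := by
  unfold gibbs
  rw [integral_tilted, ← integral_smul]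
  refine integral_congr_ae (Eventually.of_forall fun x => ?_)
  simp only
  rw [smul_smul, div_eq_inv_mul]

/-- Gibbs measures do not see additive constants. -/
theorem gibbs_add_const (U : E → ℝ) (c : ℝ) : gibbs (fun x => U x + c) = gibbs U := by
  unfold gibbs Measure.tilted
  congr 1
  funext x
  have h1 : ∀ x, Real.exp (-(U x + c)) = Real.exp (-U x) * Real.exp (-c) := fun x => by
    rw [← Real.exp_add]; congr 1; ring
  simp_rw [h1]
  rw [integral_mul_const, mul_div_mul_right _ _ (Real.exp_pos _).ne']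

/-- Integration by parts in direction `v`. -/
theorem gibbs_ibp {U : E → ℝ} (hU : Adm U) {g : E → E}
    (hg : ∀ x, HasFDerivAt U (innerSL ℝ (g x)) x) (hgc : Continuous g) (hgp : PG g)
    {f : E → ℝ} {f' : E → E} (hf : ∀ x, HasFDerivAt f (innerSL ℝ (f' x)) x)
    (hfc : Continuous f') (hfp : PG f) (hfp' : PG f') (v : E) :
    ∫ x, (inner ℝ (f' x) v : ℝ) ∂(gibbs U) = ∫ x, f x * inner ℝ (g x) v ∂(gibbs U) := by
  have hfcont : Continuous f := continuous_iff_continuousAt.2 fun x => (hf x).continuousAt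
  have hexp : ∀ x, HasFDerivAt (fun x => Real.exp (-U x))
      (Real.exp (-U x) • -(innerSL ℝ (g x))) x := fun x => ((hg x).neg).exp
  have key := integral_bilinear_hasFDerivAt_right_eq_neg_left_of_integrable
    (μ := (volume : Measure E)) (f := f) (f' := fun x => innerSL ℝ (f' x))
    (g := fun x => Real.exp (-U x)) (g' := fun x => Real.exp (-U x) • -(innerSL ℝ (g x)))
    (v := v) (B := ContinuousLinearMap.mul ℝ ℝ) ?_ ?_ ?_ (fun x _ => hf x) (fun x _ => hexp x)
  · simp only [ContinuousLinearMap.mul_apply', ContinuousLinearMap.smul_apply,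
      ContinuousLinearMap.neg_apply, innerSL_apply_apply, smul_eq_mul] at key
    rw [gibbs_integral, gibbs_integral]
    congr 1
    have h1 : ∫ x, Real.exp (-U x) • (inner ℝ (f' x) v : ℝ) =
        ∫ x, inner ℝ (f' x) v * Real.exp (-U x) :=
      integral_congr_ae (Eventually.of_forall fun x => by simp only [smul_eq_mul]; ring)
    have h2 : ∫ x, f x * (Real.exp (-U x) * -(inner ℝ (g x) v : ℝ)) =
        -∫ x, Real.exp (-U x) • (f x * inner ℝ (g x) v) := by
      rw [← integral_neg]
      refine integral_congr_ae (Eventually.of_forall fun x => ?_)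
      simp only [smul_eq_mul]
      ring
    rw [h2] at key
    rw [h1]
    exact (neg_injective key).symm
  all_goals
    simp only [ContinuousLinearMap.mul_apply', ContinuousLinearMap.smul_apply,
      ContinuousLinearMap.neg_apply, innerSL_apply_apply, smul_eq_mul]
  · have h1 := hU.integrable (f := fun x => (inner ℝ (f' x) v : ℝ))
      (hfp'.inner (PG.const v)) (hfc.inner continuous_const).aestronglyMeasurable
    unfold gibbs at h1
    rw [integrable_tilted_iff hU.integrable_exp] at h1
    refine h1.congr (Eventually.of_forall fun x => ?_)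
    simp only [smul_eq_mul]
    ring
  · have h1 := hU.integrable (f := fun x => -(f x * (inner ℝ (g x) v : ℝ)))
      (hfp.mul (hgp.inner (PG.const v))).neg
      (hfcont.mul (hgc.inner continuous_const)).neg.aestronglyMeasurable
    unfold gibbs at h1
    rw [integrable_tilted_iff hU.integrable_exp] at h1
    refine h1.congr (Eventually.of_forall fun x => ?_)
    simp only [smul_eq_mul]
    ring
  · have h1 := hU.integrable (f := f) hfp hfcont.aestronglyMeasurable
    unfold gibbs at h1
    rw [integrable_tilted_iff hU.integrable_exp] at h1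
    refine h1.congr (Eventually.of_forall fun x => ?_)
    simp only [smul_eq_mul]
    ring

/-- Derivative of an integral against the unnormalised Gibbs density. -/
theorem gibbs_num_hasDerivAt {U U' : ℝ → E → ℝ} {h h' : ℝ → E → F} {t0 r a b C : ℝ} {k : ℕ}
    (hr : 0 < r) (ha : 0 < a)
    (hU : ∀ t, |t - t0| < r → ∀ x, HasDerivAt (fun t => U t x) (U' t x) t)
    (hh : ∀ t, |t - t0| < r → ∀ x, HasDerivAt (fun t => h t x) (h' t x) t)
    (cU : ∀ t, |t - t0| < r → Continuous (U t)) (cU' : ∀ t, |t - t0| < r → Continuous (U' t))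
    (ch : ∀ t, |t - t0| < r → Continuous (h t)) (ch' : ∀ t, |t - t0| < r → Continuous (h' t))
    (low : ∀ t, |t - t0| < r → ∀ x, a * ‖x‖ ^ 2 - b ≤ U t x)
    (bU' : ∀ t, |t - t0| < r → ∀ x, |U' t x| ≤ C * (1 + ‖x‖) ^ k)
    (bh : ∀ t, |t - t0| < r → ∀ x, ‖h t x‖ ≤ C * (1 + ‖x‖) ^ k)
    (bh' : ∀ t, |t - t0| < r → ∀ x, ‖h' t x‖ ≤ C * (1 + ‖x‖) ^ k) :
    HasDerivAt (fun t => ∫ x, Real.exp (-U t x) • h t x)
      (∫ x, (Real.exp (-U t0 x) • h' t0 x - Real.exp (-U t0 x) • (U' t0 x • h t0 x))) t0 := by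
  have hball : ∀ t, t ∈ Metric.ball t0 r ↔ |t - t0| < r := fun t => by
    rw [Metric.mem_ball, Real.dist_eq]
  have ht0 : |t0 - t0| < r := by simpa using hr
  have hC : 0 ≤ C := by
    have := bU' t0 ht0 0
    rw [norm_zero, add_zero, one_pow, mul_one] at this
    exact (abs_nonneg _).trans this
  have h1 := hasDerivAt_integral_of_dominated_loc_of_deriv_le (μ := (volume : Measure E))
    (F := fun t x => Real.exp (-U t x) • h t x)
    (F' := fun t x => Real.exp (-U t x) • h' t x - Real.exp (-U t x) • (U' t x • h t x))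
    (x₀ := t0) (s := Metric.ball t0 r)
    (bound := fun x => (C + C * C) * (1 + ‖x‖) ^ (k + k) * Real.exp (b - a * ‖x‖ ^ 2))
    (Metric.ball_mem_nhds t0 hr) ?_ ?_ ?_ ?_ ?_ ?_
  · exact h1.2
  · filter_upwards [Metric.ball_mem_nhds t0 hr] with t ht
    have ht' := (hball t).1 ht
    exact ((Real.continuous_exp.comp (cU t ht').neg).smul (ch t ht')).aestronglyMeasurable
  · refine (integrable_pow_mul_exp (E := E) ha C k b).mono'
      ((Real.continuous_exp.comp (cU t0 ht0).neg).smul (ch t0 ht0)).aestronglyMeasurable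
      (Eventually.of_forall fun x => ?_)
    rw [norm_smul, Real.norm_eq_abs, abs_of_pos (Real.exp_pos _), mul_comm]
    apply mul_le_mul (bh t0 ht0 x) _ (Real.exp_pos _).le (by positivity)
    apply Real.exp_le_exp.2
    linarith [low t0 ht0 x]
  · exact (((Real.continuous_exp.comp (cU t0 ht0).neg).smul (ch' t0 ht0)).sub
      ((Real.continuous_exp.comp (cU t0 ht0).neg).smul
        ((cU' t0 ht0).smul (ch t0 ht0)))).aestronglyMeasurable
  · refine Eventually.of_forall fun x t ht => ?_
    have ht' := (hball t).1 ht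
    have hx := one_le_one_add_norm x
    have e1 : Real.exp (-U t x) ≤ Real.exp (b - a * ‖x‖ ^ 2) := by
      apply Real.exp_le_exp.2
      linarith [low t ht' x]
    have e2 : ‖h' t x - U' t x • h t x‖ ≤ (C + C * C) * (1 + ‖x‖) ^ (k + k) := by
      refine (norm_sub_le _ _).trans ?_
      rw [norm_smul, Real.norm_eq_abs]
      have e3 := bh' t ht' x
      have e4 : |U' t x| * ‖h t x‖ ≤ (C * (1 + ‖x‖) ^ k) * (C * (1 + ‖x‖) ^ k) :=
        mul_le_mul (bU' t ht' x) (bh t ht' x) (norm_nonneg _) (by positivity)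
      have e5 : C * (1 + ‖x‖) ^ k ≤ C * (1 + ‖x‖) ^ (k + k) :=
        mul_le_mul_of_nonneg_left (pow_le_pow_right₀ hx (by omega)) hC
      calc ‖h' t x‖ + |U' t x| * ‖h t x‖
          ≤ C * (1 + ‖x‖) ^ (k + k) + (C * (1 + ‖x‖) ^ k) * (C * (1 + ‖x‖) ^ k) :=
            add_le_add (e3.trans e5) e4
        _ = _ := by rw [pow_add]; ring
    rw [← smul_sub, norm_smul, Real.norm_eq_abs, abs_of_pos (Real.exp_pos _), mul_comm]
    exact mul_le_mul e2 e1 (Real.exp_pos _).le (by positivity)
  · exact integrable_pow_mul_exp (E := E) ha _ _ b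
  · refine Eventually.of_forall fun x t ht => ?_
    have ht' := (hball t).1 ht
    have e1 : HasDerivAt (fun t => Real.exp (-U t x)) (Real.exp (-U t x) * -U' t x) t :=
      ((hU t ht' x).neg).exp
    refine HasDerivAt.congr_deriv (e1.smul (hh t ht' x)) ?_
    rw [mul_neg, neg_smul, mul_smul, sub_eq_add_neg]

/-- Derivative of a Gibbs expectation along a one-parameter family of potentials. -/
theorem gibbs_hasDerivAt {U U' : ℝ → E → ℝ} {h h' : ℝ → E → F} {t0 r a b C : ℝ} {k : ℕ}
    (hr : 0 < r) (ha : 0 < a)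
    (hU : ∀ t, |t - t0| < r → ∀ x, HasDerivAt (fun t => U t x) (U' t x) t)
    (hh : ∀ t, |t - t0| < r → ∀ x, HasDerivAt (fun t => h t x) (h' t x) t)
    (cU : ∀ t, |t - t0| < r → Continuous (U t)) (cU' : ∀ t, |t - t0| < r → Continuous (U' t))
    (ch : ∀ t, |t - t0| < r → Continuous (h t)) (ch' : ∀ t, |t - t0| < r → Continuous (h' t))
    (low : ∀ t, |t - t0| < r → ∀ x, a * ‖x‖ ^ 2 - b ≤ U t x)
    (bU' : ∀ t, |t - t0| < r → ∀ x, |U' t x| ≤ C * (1 + ‖x‖) ^ k)
    (bh : ∀ t, |t - t0| < r → ∀ x, ‖h t x‖ ≤ C * (1 + ‖x‖) ^ k)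
    (bh' : ∀ t, |t - t0| < r → ∀ x, ‖h' t x‖ ≤ C * (1 + ‖x‖) ^ k) :
    HasDerivAt (fun t => ∫ x, h t x ∂(gibbs (U t)))
      ((∫ x, h' t0 x ∂(gibbs (U t0)))
        - ((∫ x, U' t0 x • h t0 x ∂(gibbs (U t0)))
          - (∫ x, U' t0 x ∂(gibbs (U t0))) • ∫ x, h t0 x ∂(gibbs (U t0)))) t0 := by
  have ht0 : |t0 - t0| < r := by simpa using hr
  have hadm : Adm (U t0) := ⟨cU t0 ht0, a, ha, b, low t0 ht0⟩
  have hC : 0 ≤ C := by
    have := bU' t0 ht0 0
    rw [norm_zero, add_zero, one_pow, mul_one] at this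
    exact (abs_nonneg _).trans this
  have hnum := gibbs_num_hasDerivAt hr ha hU hh cU cU' ch ch' low bU' bh bh'
  have hden := gibbs_num_hasDerivAt (h := fun _ _ => (1 : ℝ)) (h' := fun _ _ => (0 : ℝ))
    (C := C + 1) (k := k) hr ha hU (fun t _ x => hasDerivAt_const _ _) cU cU'
    (fun t _ => continuous_const) (fun t _ => continuous_const) low
    (fun t ht x => (bU' t ht x).trans (by
      have := one_le_one_add_norm x
      gcongr
      linarith))
    (fun t ht x => by
      have h1 : 1 ≤ (1 + ‖x‖) ^ k := one_le_pow₀ (one_le_one_add_norm x)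
      rw [norm_one]
      nlinarith)
    (fun t ht x => by
      rw [norm_zero]
      have := one_le_one_add_norm x
      positivity)
  simp only [smul_eq_mul, mul_one, mul_zero, zero_sub] at hden
  set Dn : ℝ → ℝ := fun t => ∫ x, Real.exp (-U t x) with hDn
  have hD0 : Dn t0 ≠ 0 := hadm.integral_exp_pos.ne'
  have hq := (hden.inv hD0).smul hnum
  have hfun : (fun t => ∫ x, h t x ∂(gibbs (U t))) =
      fun t => (Dn t)⁻¹ • ∫ x, Real.exp (-U t x) • h t x := by
    funext t
    exact gibbs_integral _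
  rw [hfun]
  refine HasDerivAt.congr_deriv hq ?_
  rw [gibbs_integral, gibbs_integral, gibbs_integral, gibbs_integral]
  have i1 : Integrable (fun x => Real.exp (-U t0 x) • h' t0 x) := by
    have := hadm.integrable (f := h' t0) ⟨C, k, bh' t0 ht0⟩ (ch' t0 ht0).aestronglyMeasurable
    unfold gibbs at this
    rwa [integrable_tilted_iff hadm.integrable_exp] at this
  have i2 : Integrable (fun x => Real.exp (-U t0 x) • (U' t0 x • h t0 x)) := by
    have hp1 : PG (U' t0) := ⟨C, k, bU' t0 ht0⟩
    have hp2 : PG (h t0) := ⟨C, k, bh t0 ht0⟩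
    have := hadm.integrable (f := fun x => U' t0 x • h t0 x) (hp1.smul hp2)
      ((cU' t0 ht0).smul (ch t0 ht0)).aestronglyMeasurable
    unfold gibbs at this
    rwa [integrable_tilted_iff hadm.integrable_exp] at this
  rw [integral_sub i1 i2, integral_neg]
  have e0 : ∫ x, Real.exp (-U t0 x) • U' t0 x = ∫ x, Real.exp (-U t0 x) * U' t0 x := rfl
  rw [e0]
  change (Dn t0)⁻¹ • ((∫ x, Real.exp (-U t0 x) • h' t0 x) -
      ∫ x, Real.exp (-U t0 x) • (U' t0 x • h t0 x)) +
    (-(-∫ x, Real.exp (-U t0 x) * U' t0 x) / Dn t0 ^ 2) • (∫ x, Real.exp (-U t0 x) • h t0 x) =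
    (Dn t0)⁻¹ • (∫ x, Real.exp (-U t0 x) • h' t0 x) -
    ((Dn t0)⁻¹ • (∫ x, Real.exp (-U t0 x) • (U' t0 x • h t0 x)) -
      ((Dn t0)⁻¹ • (∫ x, Real.exp (-U t0 x) * U' t0 x)) •
        ((Dn t0)⁻¹ • ∫ x, Real.exp (-U t0 x) • h t0 x))
  rw [smul_sub, neg_neg, smul_smul, smul_eq_mul]
  have e1 : (∫ x, Real.exp (-U t0 x) * U' t0 x) / Dn t0 ^ 2 =
      (Dn t0)⁻¹ * (∫ x, Real.exp (-U t0 x) * U' t0 x) * (Dn t0)⁻¹ := by
    field_simp
  rw [e1]
  abel

end Vale.Agent.P347
end

section

open MeasureTheory Set Real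
open scoped Pointwise

namespace Vale.Agent.P254

variable {n : ℕ}

/-- The closed positive orthant. -/
def orth (n : ℕ) : Set (Fin n → ℝ) := {v | ∀ i, 0 ≤ v i}

lemma isClosed_orth : IsClosed (orth n) := by
  have : orth n = ⋂ i, {v : Fin n → ℝ | 0 ≤ v i} := by ext; simp [orth]
  rw [this]
  exact isClosed_iInter fun i => isClosed_le continuous_const (continuous_apply i)

lemma measurableSet_orth : MeasurableSet (orth n) := isClosed_orth.measurableSet

lemma orth_smul {t : ℝ} (ht : 0 < t) : t • orth n = orth n := by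
  ext v
  rw [Set.mem_smul_set_iff_inv_smul_mem₀ ht.ne']
  simp only [orth, mem_ofPred_eq, Pi.smul_apply, smul_eq_mul]
  refine forall_congr' fun i => ?_
  constructor
  · intro h
    have := mul_nonneg ht.le h
    rwa [mul_inv_cancel_left₀ ht.ne'] at this
  · intro h
    exact mul_nonneg (inv_nonneg.2 ht.le) h

lemma sum_nonneg_of_orth {v : Fin n → ℝ} (hv : v ∈ orth n) : 0 ≤ ∑ i, v i :=
  Finset.sum_nonneg fun i _ => hv i

/-- integrability of `exp (-a * sum)` on the orthant. -/
lemma integrableOn_exp_sum {a : ℝ} (ha : 0 < a) :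
    IntegrableOn (fun v : Fin n → ℝ => Real.exp (-(a * ∑ i, v i))) (orth n) := by
  have h1 : Integrable (fun v : Fin n → ℝ => ∏ i, (Ici (0:ℝ)).indicator (fun t => Real.exp (-(a * t))) (v i)) := by
    apply Integrable.fintype_prod (f := fun _ : Fin n => (Ici (0:ℝ)).indicator (fun t => Real.exp (-(a * t))))
    intro i
    rw [integrable_indicator_iff measurableSet_Ici, integrableOn_Ici_iff_integrableOn_Ioi]
    have := integrableOn_exp_mul_Ioi (a := -a) (by linarith) 0
    refine this.congr_fun (fun x _ => ?_) measurableSet_Ioi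
    simp
  rw [← integrable_indicator_iff measurableSet_orth]
  refine h1.congr (Filter.Eventually.of_forall fun v => ?_)
  simp only
  by_cases hv : v ∈ orth n
  · rw [indicator_of_mem hv, Finset.mul_sum, ← Finset.sum_neg_distrib, Real.exp_sum]
    refine Finset.prod_congr rfl fun i _ => ?_
    rw [indicator_of_mem]
    exact hv i
  · rw [indicator_of_notMem hv]
    simp only [orth, mem_ofPred_eq, not_forall, not_le] at hv
    obtain ⟨i, hi⟩ := hv
    refine Finset.prod_eq_zero (Finset.mem_univ i) ?_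
    rw [indicator_of_notMem]
    simpa using hi

/-- polynomial times exponential bound -/
lemma pow_mul_exp_le (k : ℕ) : ∃ C : ℝ, 0 ≤ C ∧ ∀ s : ℝ, 0 ≤ s → (1 + s) ^ k * Real.exp (-s) ≤ C * Real.exp (-(1 / 2 * s)) := by
  have h := tendsto_pow_mul_exp_neg_atTop_nhds_zero k
  refine ⟨(2 ^ k * k.factorial) * Real.exp (1/2), by positivity, fun s hs => ?_⟩
  have h2 : ((1 + s) / 2) ^ k / k.factorial ≤ Real.exp ((1 + s) / 2) :=
    Real.pow_div_factorial_le_exp _ (by linarith) k
  have h3 : (1 + s) ^ k ≤ (2 ^ k * k.factorial) * Real.exp ((1 + s) / 2) := by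
    rw [div_le_iff₀ (by positivity), div_pow, div_le_iff₀ (by positivity)] at h2
    linarith
  calc (1 + s) ^ k * Real.exp (-s) ≤ (2 ^ k * k.factorial) * Real.exp ((1 + s) / 2) * Real.exp (-s) := by
        gcongr
    _ = (2 ^ k * k.factorial) * Real.exp (1/2) * Real.exp (-(1 / 2 * s)) := by
        rw [mul_assoc, mul_assoc (2 ^ k * (k.factorial : ℝ)) (Real.exp (1/2)), ← Real.exp_add, ← Real.exp_add]
        congr 2
        ring

lemma integrableOn_of_bound {f : (Fin n → ℝ) → ℝ} (hf : AEStronglyMeasurable f (volume.restrict (orth n)))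
    (C : ℝ) (k : ℕ) (hb : ∀ v ∈ orth n, |f v| ≤ C * (1 + ∑ i, v i) ^ k * Real.exp (-∑ i, v i)) :
    IntegrableOn f (orth n) := by
  obtain ⟨D, hD0, hD⟩ := pow_mul_exp_le k
  have hC : 0 ≤ C ∨ C < 0 := le_or_gt 0 C
  have h1 := (integrableOn_exp_sum (n := n) (a := 1/2) (by norm_num)).const_mul (|C| * D)
  refine Integrable.mono' h1 hf ?_
  rw [ae_restrict_iff' measurableSet_orth]
  refine Filter.Eventually.of_forall fun v hv => ?_
  have hs := sum_nonneg_of_orth hv
  have h2 := hD _ hs
  have h3 := hb v hv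
  rw [Real.norm_eq_abs]
  calc |f v| ≤ C * (1 + ∑ i, v i) ^ k * Real.exp (-∑ i, v i) := h3
    _ ≤ |C| * ((1 + ∑ i, v i) ^ k * Real.exp (-∑ i, v i)) := by
        rw [mul_assoc]
        gcongr
        exact le_abs_self C
    _ ≤ |C| * (D * Real.exp (-(1/2 * ∑ i, v i))) := by gcongr
    _ = |C| * D * Real.exp (-(1/2 * ∑ i, v i)) := by ring

/-- Scaling identity. -/
lemma integral_scale {f : (Fin n → ℝ) → ℝ} {t : ℝ} (ht : 0 < t) :
    ∫ v in orth n, f (t • v) = (t ^ n)⁻¹ * ∫ v in orth n, f v := by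
  have := MeasureTheory.Measure.setIntegral_comp_smul_of_pos (volume : Measure (Fin n → ℝ)) f (orth n) ht
  rw [orth_smul ht] at this
  simpa using this

lemma integrableOn_scale {f : (Fin n → ℝ) → ℝ} {t : ℝ} (ht : 0 < t) (hf : IntegrableOn f (orth n)) :
    IntegrableOn (fun v => f (t • v)) (orth n) := by
  rw [← integrable_indicator_iff measurableSet_orth] at hf ⊢
  have := (integrable_comp_smul_iff (volume : Measure (Fin n → ℝ)) ((orth n).indicator f) ht.ne').2 hf
  refine this.congr (Filter.Eventually.of_forall fun v => ?_)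
  simp only
  by_cases hv : v ∈ orth n
  · rw [indicator_of_mem hv, indicator_of_mem]
    rw [← orth_smul ht]
    exact smul_mem_smul_set hv
  · rw [indicator_of_notMem hv, indicator_of_notMem]
    rw [← orth_smul ht, smul_mem_smul_set_iff₀ ht.ne']
    exact hv

/-- Homogeneity identity: `∫ ℓ f e^{-ℓ} = (n+k) ∫ f e^{-ℓ}` for `f` homogeneous of degree `k`. -/
lemma homog_ibp (ℓ f : (Fin n → ℝ) → ℝ) (k : ℕ)
    (hℓ : ∀ t : ℝ, ∀ v, ℓ (t • v) = t * ℓ v)
    (hf : ∀ t : ℝ, 0 < t → ∀ v ∈ orth n, f (t • v) = t ^ k * f v)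
    (hfn : ∀ v ∈ orth n, 0 ≤ f v)
    (h1 : IntegrableOn (fun v => f v * Real.exp (-ℓ v)) (orth n))
    (h2 : IntegrableOn (fun v => ℓ v * (f v * Real.exp (-ℓ v))) (orth n)) :
    ∫ v in orth n, ℓ v * (f v * Real.exp (-ℓ v)) = (n + k) * ∫ v in orth n, f v * Real.exp (-ℓ v) := by
  set I := ∫ v in orth n, f v * Real.exp (-ℓ v) with hI
  set J := ∫ v in orth n, ℓ v * (f v * Real.exp (-ℓ v)) with hJ
  have key : ∀ t : ℝ, 0 < t → 0 ≤ (t ^ (n + k))⁻¹ * I - I + (t - 1) * J := by
    intro t ht
    have hs := integral_scale (f := fun v => f v * Real.exp (-ℓ v)) ht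
    have hi := integrableOn_scale ht h1
    have e1 : ∫ v in orth n, f (t • v) * Real.exp (-ℓ (t • v)) = t ^ k * ∫ v in orth n, f v * Real.exp (-(t * ℓ v)) := by
      rw [← integral_const_mul]
      refine setIntegral_congr_fun measurableSet_orth fun v hv => ?_
      beta_reduce
      rw [hf t ht v hv, hℓ]
      ring
    have hi2 : IntegrableOn (fun v => f v * Real.exp (-(t * ℓ v))) (orth n) := by
      have := hi.const_mul ((t ^ k)⁻¹)
      refine IntegrableOn.congr_fun this (fun v hv => ?_) measurableSet_orth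
      beta_reduce
      rw [hf t ht v hv, hℓ]
      field_simp
    have e2 : ∫ v in orth n, f v * Real.exp (-(t * ℓ v)) = (t ^ (n + k))⁻¹ * I := by
      rw [e1] at hs
      have : t ^ k ≠ 0 := by positivity
      rw [pow_add, mul_inv, hI]
      field_simp
      field_simp at hs
      linarith
    have e3 : ∫ v in orth n, (f v * Real.exp (-ℓ v) - (t - 1) * (ℓ v * (f v * Real.exp (-ℓ v))))
        ≤ ∫ v in orth n, f v * Real.exp (-(t * ℓ v)) := by
      refine setIntegral_mono_on (h1.sub (h2.const_mul (t - 1))) hi2 measurableSet_orth fun v hv => ?_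
      have h3 : -((t - 1) * ℓ v) + 1 ≤ Real.exp (-((t - 1) * ℓ v)) := Real.add_one_le_exp _
      have h4 : Real.exp (-(t * ℓ v)) = Real.exp (-ℓ v) * Real.exp (-((t - 1) * ℓ v)) := by
        rw [← Real.exp_add]; congr 1; ring
      rw [h4]
      have h5 : 0 ≤ f v * Real.exp (-ℓ v) := mul_nonneg (hfn v hv) (Real.exp_pos _).le
      nlinarith
    rw [integral_sub h1 (h2.const_mul (t - 1)), integral_const_mul, e2, ← hI, ← hJ] at e3
    linarith
  -- derivative at 1
  have hd : HasDerivAt (fun t : ℝ => (t ^ (n + k))⁻¹ * I - I + (t - 1) * J) (-((n + k : ℕ) : ℝ) * I + J) 1 := by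
    have h3 : HasDerivAt (fun t : ℝ => (t ^ (n + k))⁻¹) (-((n + k : ℕ) : ℝ)) 1 := by
      have := (hasDerivAt_pow (n + k) (1 : ℝ)).fun_inv (by simp)
      simpa using this
    have h4 : HasDerivAt (fun t : ℝ => (t - 1) * J) (1 * J) 1 :=
      ((hasDerivAt_id (1:ℝ)).sub_const 1).mul_const J
    have h5 := ((h3.mul_const I).sub_const I).fun_add h4
    simpa using h5
  have hmin : IsLocalMin (fun t : ℝ => (t ^ (n + k))⁻¹ * I - I + (t - 1) * J) 1 := by
    filter_upwards [lt_mem_nhds (show (0:ℝ) < 1 by norm_num)] with t ht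
    simpa using key t ht
  have := hmin.hasDerivAt_eq_zero hd
  push_cast at this
  linarith

end Vale.Agent.P254
end

section

open MeasureTheory Set Real
open scoped Pointwise

namespace Vale.Agent.P254

variable {n : ℕ}

lemma integral_Ioi_pow_mul_exp (k : ℕ) {c : ℝ} (hc : 0 < c) :
    ∫ t in Ioi (0:ℝ), t ^ k * Real.exp (-(c * t)) = k.factorial / c ^ (k + 1) := by
  have h := Real.integral_rpow_mul_exp_neg_mul_Ioi (a := (k:ℝ) + 1) (r := c) (by positivity) hc
  rw [Real.Gamma_nat_eq_factorial] at h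
  have e : (fun t : ℝ => t ^ ((k:ℝ) + 1 - 1) * Real.exp (-(c * t))) = fun t => t ^ k * Real.exp (-(c * t)) := by
    ext t
    rw [add_sub_cancel_right, Real.rpow_natCast]
  rw [e] at h
  rw [h]
  have : (1 / c) ^ ((k:ℝ) + 1) = (1 / c) ^ (k + 1) := by
    rw [← Real.rpow_natCast]; push_cast; rfl
  rw [this]
  rw [one_div, inv_pow]
  field_simp

lemma integrableOn_pow_mul_exp (k : ℕ) {c : ℝ} (hc : 0 < c) :
    IntegrableOn (fun t : ℝ => t ^ k * Real.exp (-(c * t))) (Ioi 0) := by
  have h := integrableOn_rpow_mul_exp_neg_mul_rpow (s := (k:ℝ)) (p := 1) (b := c)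
    (by have := k.cast_nonneg (α := ℝ); linarith) one_pos hc
  refine h.congr_fun (fun t ht => ?_) measurableSet_Ioi
  simp

lemma integral_Ici_ind_exp {a : ℝ} (ha : 0 ≤ a) :
    ∫ t in Ioi (0:ℝ), (Ici a).indicator (fun t => Real.exp (-t)) t = Real.exp (-a) := by
  rw [setIntegral_indicator measurableSet_Ici]
  have : ∫ t in Ioi (0:ℝ) ∩ Ici a, Real.exp (-t) = ∫ t in Ioi a, Real.exp (-t) := by
    refine setIntegral_congr_set ?_
    have h1 : (Ioi (0:ℝ) ∩ Ici a : Set ℝ) =ᵐ[volume] (Ici (0:ℝ) ∩ Ici a : Set ℝ) :=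
      (Ioi_ae_eq_Ici).inter (Filter.EventuallyEq.refl _ _)
    have h2 : (Ici (0:ℝ) ∩ Ici a : Set ℝ) = Ici a := by
      rw [Ici_inter_Ici, sup_eq_right.2 ha]
    rw [h2] at h1
    exact h1.trans Ioi_ae_eq_Ici.symm
  rw [this]
  exact integral_exp_neg_Ioi a

/-- Layer cake formula for homogeneous functions. -/
lemma layer_cake (g h : (Fin n → ℝ) → ℝ) (d : ℕ) (hgm : Measurable g) (hhm : Measurable h)
    (hg : ∀ t : ℝ, 0 < t → ∀ v ∈ orth n, g (t • v) = t * g v)
    (hgn : ∀ v ∈ orth n, 0 ≤ g v)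
    (hh : ∀ t : ℝ, 0 < t → ∀ v ∈ orth n, h (t • v) = t ^ d * h v)
    (hi : IntegrableOn (fun v => h v * Real.exp (-g v)) (orth n)) :
    ∫ v in orth n, h v * Real.exp (-g v) =
      ((n + d).factorial : ℝ) * ∫ v in orth n ∩ {v | g v ≤ 1}, h v := by
  set F : (Fin n → ℝ) → ℝ → ℝ := fun v t => h v * (Ici (g v)).indicator (fun t => Real.exp (-t)) t with hF
  have hFm : Measurable (Function.uncurry F) := by
    have : Function.uncurry F = fun p : (Fin n → ℝ) × ℝ => h p.1 *
        ({p : (Fin n → ℝ) × ℝ | g p.1 ≤ p.2}.indicator (fun p => Real.exp (-p.2)) p) := by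
      ext p
      rfl
    rw [this]
    refine (hhm.comp measurable_fst).mul (Measurable.indicator (by fun_prop) ?_)
    exact measurableSet_le (hgm.comp measurable_fst) measurable_snd
  have e1 : ∫ v in orth n, h v * Real.exp (-g v) = ∫ v in orth n, ∫ t in Ioi (0:ℝ), F v t := by
    refine setIntegral_congr_fun measurableSet_orth fun v hv => ?_
    simp only [hF]
    rw [integral_const_mul, integral_Ici_ind_exp (hgn v hv)]
  have hint : Integrable (Function.uncurry F) ((volume.restrict (orth n)).prod (volume.restrict (Ioi (0:ℝ)))) := by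
    rw [integrable_prod_iff hFm.aestronglyMeasurable]
    constructor
    · refine Filter.Eventually.of_forall fun v => ?_
      simp only [Function.uncurry, hF]
      refine Integrable.const_mul ?_ _
      refine Integrable.indicator ?_ measurableSet_Ici
      have := integrableOn_pow_mul_exp 0 (c := 1) one_pos
      simp only [pow_zero, one_mul] at this
      exact this
    · have : IntegrableOn (fun v => |h v * Real.exp (-g v)|) (orth n) := hi.abs
      refine IntegrableOn.congr_fun this (fun v hv => ?_) measurableSet_orth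
      simp only [Function.uncurry, hF, norm_mul, Real.norm_eq_abs]
      rw [integral_const_mul, abs_mul, abs_of_pos (Real.exp_pos _)]
      congr 1
      rw [← integral_Ici_ind_exp (hgn v hv)]
      refine integral_congr_ae (Filter.Eventually.of_forall fun t => ?_)
      simp only
      by_cases ht : t ∈ Ici (g v)
      · rw [indicator_of_mem ht, abs_of_pos (Real.exp_pos _)]
      · rw [indicator_of_notMem ht, abs_zero]
  rw [e1, integral_integral_swap hint]
  have e2 : ∀ t ∈ Ioi (0:ℝ), ∫ v in orth n, F v t =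
      t ^ (n + d) * Real.exp (-(1 * t)) * ∫ v in orth n ∩ {v | g v ≤ 1}, h v := by
    intro t ht
    have ht : 0 < t := ht
    have hs := integral_scale (f := fun v => {v | g v ≤ 1}.indicator h v) (n := n) (inv_pos.2 ht)
    rw [setIntegral_indicator (measurableSet_le hgm measurable_const)] at hs
    have e3 : ∫ v in orth n, {v | g v ≤ 1}.indicator h (t⁻¹ • v) =
        (t ^ d)⁻¹ * (Real.exp t * ∫ v in orth n, F v t) := by
      rw [← integral_const_mul, ← integral_const_mul]
      refine setIntegral_congr_fun measurableSet_orth fun v hv => ?_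
      have hiff : g (t⁻¹ • v) ≤ 1 ↔ g v ≤ t := by
        rw [hg _ (inv_pos.2 ht) v hv, inv_mul_le_iff₀ ht, mul_one]
      simp only [hF]
      by_cases hc : g v ≤ t
      · rw [indicator_of_mem (show t⁻¹ • v ∈ {v | g v ≤ 1} from hiff.2 hc),
          indicator_of_mem (show t ∈ Ici (g v) from hc), hh _ (inv_pos.2 ht) v hv,
          inv_pow, mul_comm (h v) (Real.exp (-t)), ← mul_assoc (Real.exp t), ← Real.exp_add, add_neg_cancel,
          Real.exp_zero, one_mul]
      · rw [indicator_of_notMem (show t⁻¹ • v ∉ {v | g v ≤ 1} from fun h => hc (hiff.1 h)),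
          indicator_of_notMem (show t ∉ Ici (g v) from hc)]
        simp
    rw [e3] at hs
    have h1 : t ^ d ≠ 0 := by positivity
    have h2 : t ^ n ≠ 0 := by positivity
    rw [inv_pow, inv_inv] at hs
    rw [one_mul, Real.exp_neg, pow_add]
    have h3 := Real.exp_ne_zero t
    field_simp
    field_simp at hs
    linarith
  rw [setIntegral_congr_fun measurableSet_Ioi e2, integral_mul_const, integral_Ioi_pow_mul_exp _ one_pos]
  simp

end Vale.Agent.P254
end

section

open MeasureTheory Set Real Matrix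
open scoped Pointwise

namespace Vale.Agent.P254

variable {n : ℕ}

lemma det_rank_one (u v : Fin n → ℝ) : (1 + vecMulVec u v).det = 1 + ∑ i, v i * u i := by
  have h := det_one_add_replicateCol_mul_replicateRow (ι := Unit) u v
  have e : vecMulVec u v = replicateCol Unit u * replicateRow Unit v := by
    ext i j
    simp [vecMulVec, Matrix.mul_apply]
  rw [e, h]
  rfl

lemma integral_image_affine (A : Matrix (Fin n) (Fin n) ℝ) (b : Fin n → ℝ) (hA : A.det ≠ 0)
    {s : Set (Fin n → ℝ)} (hs : MeasurableSet s) (f : (Fin n → ℝ) → ℝ) :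
    ∫ x in (fun v => A *ᵥ v + b) '' s, f x = |A.det| * ∫ x in s, f (A *ᵥ x + b) := by
  have hd : ∀ x ∈ s, HasFDerivWithinAt (fun v => A *ᵥ v + b)
      (LinearMap.toContinuousLinearMap (Matrix.toLin' A)) s x := by
    intro x _
    have h := (LinearMap.toContinuousLinearMap (Matrix.toLin' A)).hasFDerivAt (x := x)
    exact (h.add_const b).hasFDerivWithinAt
  have hinj : InjOn (fun v => A *ᵥ v + b) s := by
    intro x _ y _ hxy
    have h1 : A *ᵥ x = A *ᵥ y := add_right_cancel hxy
    exact Matrix.mulVec_injective_of_isUnit ((Matrix.isUnit_iff_isUnit_det _).2 hA.isUnit) h1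
  have := integral_image_eq_integral_abs_det_fderiv_smul volume hs hd hinj f
  rw [this]
  simp only [LinearMap.det_toContinuousLinearMap, LinearMap.det_toLin', smul_eq_mul]
  rw [integral_const_mul]

lemma volume_image_affine (A : Matrix (Fin n) (Fin n) ℝ) (b : Fin n → ℝ)
    (s : Set (Fin n → ℝ)) :
    volume ((fun v => A *ᵥ v + b) '' s) = ENNReal.ofReal |A.det| * volume s := by
  have h1 : (fun v => A *ᵥ v + b) '' s = (fun v => v + b) '' ((Matrix.toLin' A) '' s) := by
    rw [Set.image_image]; rfl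
  rw [h1, image_add_right, measure_preimage_add_right, Measure.addHaar_image_linearMap,
    LinearMap.det_toLin']

/-- Partition of a set by the index of the smallest of finitely many functions. -/
lemma integral_argmin {m : ℕ} (hm : 0 < m) (φ : Fin m → (Fin n → ℝ) → ℝ)
    (hφ : ∀ i, Continuous (φ i))
    (hne : ∀ i j, i ≠ j → volume {x | φ i x = φ j x} = 0)
    {s : Set (Fin n → ℝ)} (hs : MeasurableSet s) {f : (Fin n → ℝ) → ℝ} (hf : IntegrableOn f s) :
    ∫ x in s, f x = ∑ k, ∫ x in s ∩ {x | ∀ i, φ k x ≤ φ i x}, f x := by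
  have hmeas : ∀ k, MeasurableSet (s ∩ {x | ∀ i, φ k x ≤ φ i x}) := by
    intro k
    refine hs.inter ?_
    have : {x | ∀ i, φ k x ≤ φ i x} = ⋂ i, {x | φ k x ≤ φ i x} := by ext; simp
    rw [this]
    exact MeasurableSet.iInter fun i => (isClosed_le (hφ k) (hφ i)).measurableSet
  have hU : s = ⋃ k, (s ∩ {x | ∀ i, φ k x ≤ φ i x}) := by
    ext x
    simp only [mem_iUnion, mem_inter_iff, mem_ofPred_eq]
    constructor
    · intro hx
      haveI : Nonempty (Fin m) := ⟨⟨0, hm⟩⟩
      obtain ⟨k, hk⟩ := Finite.exists_min (fun i => φ i x)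
      exact ⟨k, hx, hk⟩
    · rintro ⟨k, hx, -⟩
      exact hx
  have hd : Pairwise (Function.onFun (AEDisjoint volume) fun k => s ∩ {x | ∀ i, φ k x ≤ φ i x}) := by
    intro i j hij
    refine measure_mono_null (t := {x | φ i x = φ j x}) ?_ (hne i j hij)
    rintro x ⟨⟨-, h1⟩, ⟨-, h2⟩⟩
    exact le_antisymm (h1 j) (h2 i)
  conv_lhs => rw [hU]
  rw [integral_iUnion_ae (fun k => (hmeas k).nullMeasurableSet) hd]
  · rw [tsum_fintype]
  · rw [← hU]; exact hf

end Vale.Agent.P254
end

section

open MeasureTheory Set Real Matrix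
open scoped Pointwise

namespace Vale.Agent.P254

variable {n : ℕ}

/-- Continuous functions of polynomial growth on the orthant. -/
def Tame (f : (Fin n → ℝ) → ℝ) : Prop :=
  Continuous f ∧ ∃ C : ℝ, ∃ k : ℕ, 0 ≤ C ∧ ∀ v ∈ orth n, |f v| ≤ C * (1 + ∑ i, v i) ^ k

lemma Tame.of_bound {f : (Fin n → ℝ) → ℝ} (hf : Continuous f) (C : ℝ)
    (h : ∀ v ∈ orth n, |f v| ≤ C * (1 + ∑ i, v i)) : Tame f := by
  refine ⟨hf, |C|, 1, abs_nonneg _, fun v hv => ?_⟩
  have := sum_nonneg_of_orth hv
  rw [pow_one]
  refine (h v hv).trans ?_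
  gcongr
  exact le_abs_self C

lemma Tame.const (c : ℝ) : Tame (fun _ : Fin n → ℝ => c) := by
  refine Tame.of_bound continuous_const |c| fun v hv => ?_
  have := sum_nonneg_of_orth hv
  nlinarith [abs_nonneg c]

lemma Tame.coord (j : Fin n) : Tame (fun v : Fin n → ℝ => v j) := by
  refine Tame.of_bound (continuous_apply j) 1 fun v hv => ?_
  have h1 : v j ≤ ∑ i, v i := Finset.single_le_sum (fun i _ => hv i) (Finset.mem_univ j)
  rw [abs_of_nonneg (hv j)]
  linarith

lemma Tame.add {f g : (Fin n → ℝ) → ℝ} (hf : Tame f) (hg : Tame g) : Tame (fun v => f v + g v) := by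
  obtain ⟨hfc, C, k, hC, hCb⟩ := hf
  obtain ⟨hgc, D, l, hD, hDb⟩ := hg
  refine ⟨hfc.add hgc, C + D, k + l, by positivity, fun v hv => ?_⟩
  have hs := sum_nonneg_of_orth hv
  have h1 : (1:ℝ) ≤ 1 + ∑ i, v i := by linarith
  calc |f v + g v| ≤ |f v| + |g v| := abs_add_le _ _
    _ ≤ C * (1 + ∑ i, v i) ^ k + D * (1 + ∑ i, v i) ^ l := add_le_add (hCb v hv) (hDb v hv)
    _ ≤ C * (1 + ∑ i, v i) ^ (k + l) + D * (1 + ∑ i, v i) ^ (k + l) := by
        gcongr <;> simp
    _ = _ := by ring

lemma Tame.mul {f g : (Fin n → ℝ) → ℝ} (hf : Tame f) (hg : Tame g) : Tame (fun v => f v * g v) := by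
  obtain ⟨hfc, C, k, hC, hCb⟩ := hf
  obtain ⟨hgc, D, l, hD, hDb⟩ := hg
  refine ⟨hfc.mul hgc, C * D, k + l, by positivity, fun v hv => ?_⟩
  have hs := sum_nonneg_of_orth hv
  calc |f v * g v| = |f v| * |g v| := abs_mul _ _
    _ ≤ (C * (1 + ∑ i, v i) ^ k) * (D * (1 + ∑ i, v i) ^ l) :=
        mul_le_mul (hCb v hv) (hDb v hv) (abs_nonneg _) (by positivity)
    _ = _ := by ring

lemma Tame.neg {f : (Fin n → ℝ) → ℝ} (hf : Tame f) : Tame (fun v => -f v) := by
  have := (Tame.const (-1)).mul hf
  simpa using this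

lemma Tame.sub {f g : (Fin n → ℝ) → ℝ} (hf : Tame f) (hg : Tame g) : Tame (fun v => f v - g v) := by
  have := hf.add hg.neg
  simpa [sub_eq_add_neg] using this

lemma Tame.sum {ι : Type*} (s : Finset ι) {f : ι → (Fin n → ℝ) → ℝ} (hf : ∀ i ∈ s, Tame (f i)) :
    Tame (fun v => ∑ i ∈ s, f i v) := by
  classical
  induction s using Finset.induction_on with
  | empty => simpa using Tame.const 0
  | insert a s ha ih =>
    simp only [Finset.sum_insert ha]
    exact (hf a (Finset.mem_insert_self a s)).add (ih fun i hi => hf i (Finset.mem_insert_of_mem hi))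

lemma Tame.pow {f : (Fin n → ℝ) → ℝ} (hf : Tame f) (k : ℕ) : Tame (fun v => f v ^ k) := by
  induction k with
  | zero => simpa using Tame.const 1
  | succ k ih => simpa only [pow_succ] using ih.mul hf

lemma Tame.integrable {f : (Fin n → ℝ) → ℝ} (hf : Tame f) {ℓ : (Fin n → ℝ) → ℝ} (hℓ : Continuous ℓ)
    (hℓs : ∀ v ∈ orth n, ∑ i, v i ≤ ℓ v) :
    IntegrableOn (fun v => f v * Real.exp (-ℓ v)) (orth n) := by
  obtain ⟨hfc, C, k, hC, hCb⟩ := hf
  refine integrableOn_of_bound (Continuous.aestronglyMeasurable (by fun_prop)) C k fun v hv => ?_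
  have hs := sum_nonneg_of_orth hv
  rw [abs_mul, abs_of_pos (Real.exp_pos _)]
  refine mul_le_mul (hCb v hv) ?_ (Real.exp_pos _).le (by positivity)
  exact Real.exp_le_exp.2 (neg_le_neg (hℓs v hv))

/-- Fubini in one coordinate. -/
lemma integral_orth_mul_eq_zero (j : Fin n) (φ : ℝ → ℝ) (Q : (Fin n → ℝ) → ℝ)
    (hQ : ∀ v t, Q (Function.update v j t) = Q v) (hφ : ∫ t in Ioi (0:ℝ), φ t = 0) :
    ∫ v in orth n, φ (v j) * Q v = 0 := by
  rcases n with _ | m
  · exact j.elim0
  have hmp := volume_preserving_piFinSuccAbove (fun _ : Fin (m+1) => ℝ) j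
  set F : ℝ × (Fin m → ℝ) → ℝ := fun p =>
    (Ici (0:ℝ)).indicator φ p.1 * (orth m).indicator (fun w => Q (j.insertNth 0 w)) p.2 with hF
  have h1 := hmp.integral_comp' F
  have h2 : ∫ p, F p ∂(volume : Measure (ℝ × (Fin m → ℝ))) = 0 := by
    have : (volume : Measure (ℝ × (Fin m → ℝ))) = (volume : Measure ℝ).prod volume := rfl
    rw [this, hF]
    rw [integral_prod_mul ((Ici (0:ℝ)).indicator φ) ((orth m).indicator (fun w => Q (j.insertNth 0 w)))]
    rw [integral_indicator measurableSet_Ici, integral_Ici_eq_integral_Ioi, hφ, zero_mul]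
  rw [h2] at h1
  rw [← integral_indicator measurableSet_orth, ← h1]
  refine integral_congr_ae (Filter.Eventually.of_forall fun v => ?_)
  have h3 : (MeasurableEquiv.piFinSuccAbove (fun _ : Fin (m+1) => ℝ) j) v = (v j, j.removeNth v) := rfl
  beta_reduce
  rw [h3]
  simp only [hF]
  have h4 : Q (j.insertNth 0 (j.removeNth v)) = Q v := by
    rw [Fin.insertNth_removeNth, hQ]
  by_cases hj : 0 ≤ v j
  · by_cases hr : j.removeNth v ∈ orth m
    · have hv : v ∈ orth (m+1) := by
        intro i
        rcases Fin.eq_self_or_eq_succAbove j i with rfl | ⟨i', rfl⟩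
        · exact hj
        · exact hr i'
      rw [indicator_of_mem hv, indicator_of_mem (show v j ∈ Ici (0:ℝ) from hj), indicator_of_mem hr, h4]
    · have hv : v ∉ orth (m+1) := fun hv => hr fun i => hv _
      rw [indicator_of_notMem hv, indicator_of_notMem hr, mul_zero]
  · have hv : v ∉ orth (m+1) := fun hv => hj (hv j)
    rw [indicator_of_notMem hv, indicator_of_notMem (show v j ∉ Ici (0:ℝ) from hj), zero_mul]

lemma convex_interp {h : ℝ → ℝ} (hc : ConvexOn ℝ univ h) {a b : ℝ} (hab : a < b) (t : ℝ) :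
    0 ≤ (t - a) * (t - b) * (h t - (h a + (t - a) / (b - a) * (h b - h a))) := by
  have hba : 0 < b - a := by linarith
  have key : 0 ≤ (t - a) * (t - b) * ((b - a) * h t - ((b - a) * h a + (t - a) * (h b - h a))) := by
    rcases lt_trichotomy t a with h1 | h1 | h1
    · -- t < a < b
      have h2 := hc.2 (mem_univ t) (mem_univ b) (show 0 ≤ (b - a) / (b - t) by apply div_nonneg <;> linarith)
        (show 0 ≤ (a - t) / (b - t) by apply div_nonneg <;> linarith)
        (by rw [← add_div]; rw [div_eq_one_iff_eq (by linarith)]; ring)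
      have h3 : ((b - a) / (b - t)) • t + ((a - t) / (b - t)) • b = a := by
        have : b - t ≠ 0 := by linarith
        simp only [smul_eq_mul]; field_simp; ring
      rw [h3] at h2
      simp only [smul_eq_mul] at h2
      have h4 : (b - t) * h a ≤ (b - a) * h t + (a - t) * h b := by
        have hbt : 0 < b - t := by linarith
        have := mul_le_mul_of_nonneg_left h2 hbt.le
        calc (b - t) * h a ≤ (b - t) * ((b - a) / (b - t) * h t + (a - t) / (b - t) * h b) := this
          _ = _ := by field_simp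
      have h5 : 0 ≤ (b - a) * h t - ((b - a) * h a + (t - a) * (h b - h a)) := by nlinarith
      exact mul_nonneg (mul_nonneg_of_nonpos_of_nonpos (by linarith) (by linarith)) h5
    · subst h1; simp
    · rcases lt_trichotomy t b with h6 | h6 | h6
      · -- a < t < b
        have h2 := hc.2 (mem_univ a) (mem_univ b) (show 0 ≤ (b - t) / (b - a) by apply div_nonneg <;> linarith)
          (show 0 ≤ (t - a) / (b - a) by apply div_nonneg <;> linarith)
          (by rw [← add_div]; rw [div_eq_one_iff_eq (by linarith)]; ring)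
        have h3 : ((b - t) / (b - a)) • a + ((t - a) / (b - a)) • b = t := by
          simp only [smul_eq_mul]; field_simp; ring
        rw [h3] at h2
        simp only [smul_eq_mul] at h2
        have h4 : (b - a) * h t ≤ (b - t) * h a + (t - a) * h b := by
          have := mul_le_mul_of_nonneg_left h2 hba.le
          calc (b - a) * h t ≤ (b - a) * ((b - t) / (b - a) * h a + (t - a) / (b - a) * h b) := this
            _ = _ := by field_simp
        have h5 : (b - a) * h t - ((b - a) * h a + (t - a) * (h b - h a)) ≤ 0 := by nlinarith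
        exact mul_nonneg_of_nonpos_of_nonpos (mul_nonpos_of_nonneg_of_nonpos (by linarith) (by linarith)) h5
      · subst h6; simp
      · -- a < b < t
        have h2 := hc.2 (mem_univ a) (mem_univ t) (show 0 ≤ (t - b) / (t - a) by apply div_nonneg <;> linarith)
          (show 0 ≤ (b - a) / (t - a) by apply div_nonneg <;> linarith)
          (by rw [← add_div]; rw [div_eq_one_iff_eq (by linarith)]; ring)
        have h3 : ((t - b) / (t - a)) • a + ((b - a) / (t - a)) • t = b := by
          have : t - a ≠ 0 := by linarith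
          simp only [smul_eq_mul]; field_simp; ring
        rw [h3] at h2
        simp only [smul_eq_mul] at h2
        have h4 : (t - a) * h b ≤ (t - b) * h a + (b - a) * h t := by
          have hta : 0 < t - a := by linarith
          have := mul_le_mul_of_nonneg_left h2 hta.le
          calc (t - a) * h b ≤ (t - a) * ((t - b) / (t - a) * h a + (b - a) / (t - a) * h t) := this
            _ = _ := by field_simp
        have h5 : 0 ≤ (b - a) * h t - ((b - a) * h a + (t - a) * (h b - h a)) := by nlinarith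
        exact mul_nonneg (mul_nonneg (by linarith) (by linarith)) h5
  have h6 : (t - a) * (t - b) * (h t - (h a + (t - a) / (b - a) * (h b - h a))) =
      ((t - a) * (t - b) * ((b - a) * h t - ((b - a) * h a + (t - a) * (h b - h a)))) / (b - a) := by
    field_simp
  rw [h6]
  positivity

end Vale.Agent.P254
end

section

open MeasureTheory Set Real Matrix
open scoped Pointwise

namespace Vale.Agent.P254

variable {n : ℕ}

/-- the shear `v ↦ v + v_k (1 - e_k)`. -/
def sh (k : Fin n) (v : Fin n → ℝ) : Fin n → ℝ := fun i => v i + if i = k then 0 else v k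

/-- the sum of the coordinates of `sh k v`. -/
def lk (k : Fin n) (v : Fin n → ℝ) : ℝ := ∑ i, sh k v i

lemma sh_add (k : Fin n) (v w : Fin n → ℝ) : sh k (v + w) = sh k v + sh k w := by
  ext i; simp only [sh, Pi.add_apply]; split_ifs <;> ring

lemma sh_smul (k : Fin n) (t : ℝ) (v : Fin n → ℝ) : sh k (t • v) = t • sh k v := by
  ext i; simp only [sh, Pi.smul_apply, smul_eq_mul]; split_ifs <;> ring

@[fun_prop]
lemma continuous_sh (k : Fin n) : Continuous (sh k) := by
  refine continuous_pi fun i => ?_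
  by_cases h : i = k
  · simp only [sh, h, if_true]; fun_prop
  · simp only [sh, h, if_false]; fun_prop

lemma lk_eq (k : Fin n) (v : Fin n → ℝ) : lk k v = ∑ i, v i + (n - 1) * v k := by
  simp only [lk, sh, Finset.sum_add_distrib]
  congr 1
  have : ∀ i : Fin n, (if i = k then (0:ℝ) else v k) = v k - if i = k then v k else 0 := by
    intro i; split_ifs <;> simp
  simp only [this, Finset.sum_sub_distrib, Finset.sum_const, Finset.card_univ, Fintype.card_fin,
    nsmul_eq_mul, Finset.sum_ite_eq', Finset.mem_univ, if_true]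
  ring

@[fun_prop]
lemma continuous_lk (k : Fin n) : Continuous (lk k) := by
  have : lk k = fun v => ∑ i, v i + ((n:ℝ) - 1) * v k := funext (lk_eq k)
  rw [this]; fun_prop

lemma one_le_n (k : Fin n) : (1:ℝ) ≤ n := by
  have : 1 ≤ n := k.pos
  exact_mod_cast this

lemma sum_le_lk (k : Fin n) {v : Fin n → ℝ} (hv : v ∈ orth n) : ∑ i, v i ≤ lk k v := by
  rw [lk_eq]
  have := hv k
  have h1 := one_le_n k
  nlinarith

lemma lk_le (k : Fin n) {v : Fin n → ℝ} (hv : v ∈ orth n) : lk k v ≤ n * ∑ i, v i := by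
  rw [lk_eq]
  have h0 : v k ≤ ∑ i, v i := Finset.single_le_sum (fun i _ => hv i) (Finset.mem_univ k)
  have h1 := one_le_n k
  nlinarith

lemma lk_smul (k : Fin n) (t : ℝ) (v : Fin n → ℝ) : lk k (t • v) = t * lk k v := by
  simp only [lk, sh_smul, Pi.smul_apply, smul_eq_mul, Finset.mul_sum]

lemma sh_mem_orth (k : Fin n) {v : Fin n → ℝ} (hv : v ∈ orth n) : sh k v ∈ orth n := by
  intro i
  simp only [sh]
  have h1 := hv i
  have h2 := hv k
  split_ifs <;> linarith

lemma sum_sq_sh (k : Fin n) (v : Fin n → ℝ) :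
    ∑ i, (sh k v i) ^ 2 = ∑ i, (v i) ^ 2 + 2 * v k * (∑ i, v i - v k) + (n - 1) * v k ^ 2 := by
  have : ∀ i, (sh k v i) ^ 2 = (v i) ^ 2 + 2 * v k * v i + v k ^ 2
      - if i = k then 2 * v k * v k + v k ^ 2 else 0 := by
    intro i
    simp only [sh]
    split_ifs with h
    · rw [h]; ring
    · ring
  simp only [this, Finset.sum_sub_distrib, Finset.sum_add_distrib, ← Finset.mul_sum,
    Finset.sum_const, Finset.card_univ, Fintype.card_fin, nsmul_eq_mul, Finset.sum_ite_eq',
    Finset.mem_univ, if_true]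
  ring

lemma sum_update (j : Fin n) (v : Fin n → ℝ) (a : ℝ) :
    ∑ i, Function.update v j a i = ∑ i, v i - v j + a := by
  rw [← Finset.add_sum_erase _ _ (Finset.mem_univ j), ← Finset.add_sum_erase _ v (Finset.mem_univ j)]
  have : ∑ i ∈ Finset.univ.erase j, Function.update v j a i = ∑ i ∈ Finset.univ.erase j, v i :=
    Finset.sum_congr rfl fun i hi => Function.update_of_ne (Finset.ne_of_mem_erase hi) _ _
  rw [this, Function.update_self]
  ring

lemma update_mem_orth (j : Fin n) {v : Fin n → ℝ} (hv : v ∈ orth n) {a : ℝ} (ha : 0 ≤ a) :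
    Function.update v j a ∈ orth n := by
  intro i
  rcases eq_or_ne i j with rfl | h
  · simpa using ha
  · rw [Function.update_of_ne h]; exact hv i

lemma Tame.comp_update {f : (Fin n → ℝ) → ℝ} (hf : Tame f) (j : Fin n) {a : ℝ} (ha : 0 ≤ a) :
    Tame (fun v => f (Function.update v j a)) := by
  obtain ⟨hc, C, k, hC, hb⟩ := hf
  refine ⟨hc.comp (continuous_id.update j continuous_const), C * (1 + a) ^ k, k, by positivity, fun v hv => ?_⟩
  have hs := sum_nonneg_of_orth hv
  refine (hb _ (update_mem_orth j hv ha)).trans ?_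
  rw [sum_update, mul_assoc, ← mul_pow]
  have h1 := hv j
  have h2 : 0 ≤ ∑ i, v i - v j := by
    have := Finset.single_le_sum (fun i _ => hv i) (Finset.mem_univ j) (f := v)
    linarith
  gcongr
  nlinarith

/-- weighted integral over the orthant -/
noncomputable def W (ℓ : (Fin n → ℝ) → ℝ) (f : (Fin n → ℝ) → ℝ) : ℝ :=
  ∫ v in orth n, f v * Real.exp (-ℓ v)

section W

variable {ℓ : (Fin n → ℝ) → ℝ} (hℓ : Continuous ℓ) (hℓs : ∀ v ∈ orth n, ∑ i, v i ≤ ℓ v)
include hℓ hℓs

lemma W_add {f g : (Fin n → ℝ) → ℝ} (hf : Tame f) (hg : Tame g) :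
    W ℓ (fun v => f v + g v) = W ℓ f + W ℓ g := by
  simp only [W, add_mul]
  exact integral_add (hf.integrable hℓ hℓs) (hg.integrable hℓ hℓs)

lemma W_sub {f g : (Fin n → ℝ) → ℝ} (hf : Tame f) (hg : Tame g) :
    W ℓ (fun v => f v - g v) = W ℓ f - W ℓ g := by
  simp only [W, sub_mul]
  exact integral_sub (hf.integrable hℓ hℓs) (hg.integrable hℓ hℓs)

omit hℓ hℓs in
lemma W_const_mul (c : ℝ) (f : (Fin n → ℝ) → ℝ) :
    W ℓ (fun v => c * f v) = c * W ℓ f := by
  simp only [W, mul_assoc]
  exact integral_const_mul _ _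

lemma W_sum {ι : Type*} (s : Finset ι) {f : ι → (Fin n → ℝ) → ℝ} (hf : ∀ i ∈ s, Tame (f i)) :
    W ℓ (fun v => ∑ i ∈ s, f i v) = ∑ i ∈ s, W ℓ (f i) := by
  simp only [W, Finset.sum_mul]
  exact integral_finsetSum _ fun i hi => (hf i hi).integrable hℓ hℓs

lemma W_mono {f g : (Fin n → ℝ) → ℝ} (hf : Tame f) (hg : Tame g) (h : ∀ v ∈ orth n, f v ≤ g v) :
    W ℓ f ≤ W ℓ g := by
  refine setIntegral_mono_on (hf.integrable hℓ hℓs) (hg.integrable hℓ hℓs) measurableSet_orth fun v hv => ?_
  exact mul_le_mul_of_nonneg_right (h v hv) (Real.exp_pos _).le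

/-- homogeneity identity for tame functions -/
lemma W_homog (k : ℕ) {f : (Fin n → ℝ) → ℝ} (hf : Tame f)
    (hlin : ∀ t : ℝ, ∀ v, ℓ (t • v) = t * ℓ v) (hlt : Tame ℓ)
    (hfh : ∀ t : ℝ, 0 < t → ∀ v ∈ orth n, f (t • v) = t ^ k * f v)
    (hfn : ∀ v ∈ orth n, 0 ≤ f v) :
    W ℓ (fun v => ℓ v * f v) = (n + k) * W ℓ f := by
  have h := homog_ibp ℓ f k hlin hfh hfn (hf.integrable hℓ hℓs)
    (by
      have := (hlt.mul hf).integrable hℓ hℓs
      refine this.congr_fun (fun v _ => ?_) measurableSet_orth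
      ring)
  simp only [W]
  rw [← h]
  refine integral_congr_ae (Filter.Eventually.of_forall fun v => ?_)
  ring

end W

/-- Sublinear functions used in the argument. -/
structure SubLin (G : (Fin n → ℝ) → ℝ) (ε : ℝ) : Prop where
  cont : Continuous G
  add : ∀ u v, G (u + v) ≤ G u + G v
  smul : ∀ t : ℝ, 0 ≤ t → ∀ u, G (t • u) = t * G u
  nonneg : ∀ u ∈ orth n, 0 ≤ G u
  one : G (fun _ => 1) ≤ 0
  le : ∀ u ∈ orth n, G u ≤ ε * ∑ i, u i

namespace SubLin

variable {G : (Fin n → ℝ) → ℝ} {ε : ℝ} (hG : SubLin G ε)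
include hG

lemma tame_comp_sh (k : Fin n) : Tame (fun v => G (sh k v)) := by
  refine Tame.of_bound (hG.cont.comp (continuous_sh k)) (|ε| * n) fun v hv => ?_
  have h1 := hG.nonneg _ (sh_mem_orth k hv)
  have h2 := hG.le _ (sh_mem_orth k hv)
  have h3 := lk_le k hv
  have h4 := sum_nonneg_of_orth hv
  have h5 := sum_nonneg_of_orth (sh_mem_orth k hv)
  rw [abs_of_nonneg h1]
  calc G (sh k v) ≤ ε * ∑ i, sh k v i := h2
    _ ≤ |ε| * ∑ i, sh k v i := by gcongr; exact le_abs_self _
    _ ≤ |ε| * (n * ∑ i, v i) := by gcongr; exact h3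
    _ ≤ |ε| * n * (1 + ∑ i, v i) := by
        have : 0 ≤ |ε| * n := by positivity
        nlinarith

lemma tame : Tame G := by
  refine Tame.of_bound hG.cont |ε| fun v hv => ?_
  rw [abs_of_nonneg (hG.nonneg v hv)]
  have h4 := sum_nonneg_of_orth hv
  calc G v ≤ ε * ∑ i, v i := hG.le v hv
    _ ≤ |ε| * ∑ i, v i := by gcongr; exact le_abs_self _
    _ ≤ |ε| * (1 + ∑ i, v i) := by
        have := abs_nonneg ε
        nlinarith

lemma convex_line (k j : Fin n) (v : Fin n → ℝ) :
    ConvexOn ℝ univ (fun t => G (sh k (Function.update v j t))) := by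
  refine ⟨convex_univ, fun x _ y _ a b ha hb hab => ?_⟩
  have e : Function.update v j (a • x + b • y) =
      a • Function.update v j x + b • Function.update v j y := by
    ext i
    rcases eq_or_ne i j with rfl | h
    · simp
    · simp only [Pi.add_apply, Pi.smul_apply, Function.update_of_ne h, smul_eq_mul]
      rw [← add_mul, hab, one_mul]
  simp only
  rw [e, sh_add, sh_smul, sh_smul]
  refine (hG.add _ _).trans ?_
  rw [hG.smul a ha, hG.smul b hb]
  rfl

lemma antitone_line (k : Fin n) (v : Fin n → ℝ) {h : ℝ} (hh : 0 ≤ h) :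
    G (sh k (Function.update v k (v k + h))) ≤ G (sh k v) := by
  have e : sh k (Function.update v k (v k + h)) = sh k v + h • (fun _ => (1:ℝ)) := by
    ext i
    simp only [sh, Pi.add_apply, Pi.smul_apply, smul_eq_mul, mul_one, Function.update_self]
    rcases eq_or_ne i k with rfl | hi
    · simp
    · rw [Function.update_of_ne hi, if_neg hi, if_neg hi]; ring
  rw [e]
  refine (hG.add _ _).trans ?_
  rw [hG.smul h hh]
  have := mul_nonpos_of_nonneg_of_nonpos hh hG.one
  linarith

end SubLin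

end Vale.Agent.P254
end

section

open MeasureTheory Set Real Matrix
open scoped Pointwise

namespace Vale.Agent.P254

variable {n : ℕ}

lemma tame_lk (k : Fin n) : Tame (lk k) := by
  refine Tame.of_bound (continuous_lk k) n fun v hv => ?_
  have h1 := sum_nonneg_of_orth (sh_mem_orth k hv)
  have h2 := lk_le k hv
  have h3 := one_le_n k
  have : (∑ i, sh k v i) = lk k v := rfl
  rw [this] at h1
  rw [abs_of_nonneg h1]
  linarith

lemma one_dim_L : ∫ t in Ioi (0:ℝ), (t ^ 2 - 4 * t + 2) * Real.exp (-t) = 0 := by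
  have h0 := integral_Ioi_pow_mul_exp 0 (c := 1) one_pos
  have h1 := integral_Ioi_pow_mul_exp 1 (c := 1) one_pos
  have h2 := integral_Ioi_pow_mul_exp 2 (c := 1) one_pos
  have i0 := integrableOn_pow_mul_exp 0 (c := 1) one_pos
  have i1 := integrableOn_pow_mul_exp 1 (c := 1) one_pos
  have i2 := integrableOn_pow_mul_exp 2 (c := 1) one_pos
  have e : ∀ t : ℝ, (t ^ 2 - 4 * t + 2) * Real.exp (-t) =
      t ^ 2 * Real.exp (-(1 * t)) - 4 * (t ^ 1 * Real.exp (-(1 * t))) + 2 * (t ^ 0 * Real.exp (-(1 * t))) := by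
    intro t; rw [one_mul]; ring
  simp only [e]
  have i3 : IntegrableOn (fun t : ℝ => t ^ 2 * Real.exp (-(1 * t)) - 4 * (t ^ 1 * Real.exp (-(1 * t)))) (Ioi 0) :=
    i2.sub (i1.const_mul 4)
  rw [integral_add i3 (i0.const_mul 2), integral_sub i2 (i1.const_mul 4),
    integral_const_mul, integral_const_mul, h0, h1, h2]
  norm_num

lemma one_dim_tL : ∫ t in Ioi (0:ℝ), ((t ^ 2 - 4 * t + 2) * t) * Real.exp (-t) = 0 := by
  have h0 := integral_Ioi_pow_mul_exp 1 (c := 1) one_pos
  have h1 := integral_Ioi_pow_mul_exp 2 (c := 1) one_pos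
  have h2 := integral_Ioi_pow_mul_exp 3 (c := 1) one_pos
  have i0 := integrableOn_pow_mul_exp 1 (c := 1) one_pos
  have i1 := integrableOn_pow_mul_exp 2 (c := 1) one_pos
  have i2 := integrableOn_pow_mul_exp 3 (c := 1) one_pos
  have e : ∀ t : ℝ, ((t ^ 2 - 4 * t + 2) * t) * Real.exp (-t) =
      t ^ 3 * Real.exp (-(1 * t)) - 4 * (t ^ 2 * Real.exp (-(1 * t))) + 2 * (t ^ 1 * Real.exp (-(1 * t))) := by
    intro t; rw [one_mul]; ring
  simp only [e]
  have i3 : IntegrableOn (fun t : ℝ => t ^ 3 * Real.exp (-(1 * t)) - 4 * (t ^ 2 * Real.exp (-(1 * t)))) (Ioi 0) :=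
    i2.sub (i1.const_mul 4)
  rw [integral_add i3 (i0.const_mul 2), integral_sub i2 (i1.const_mul 4),
    integral_const_mul, integral_const_mul, h0, h1, h2]
  norm_num [Nat.factorial]

lemma one_dim_B1 {c : ℝ} (hc : 0 < c) : ∫ t in Ioi (0:ℝ), (1 - c * t) * Real.exp (-(c * t)) = 0 := by
  have h0 := integral_Ioi_pow_mul_exp 0 hc
  have h1 := integral_Ioi_pow_mul_exp 1 hc
  have i0 := integrableOn_pow_mul_exp 0 hc
  have i1 := integrableOn_pow_mul_exp 1 hc
  have e : ∀ t : ℝ, (1 - c * t) * Real.exp (-(c * t)) =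
      (t ^ 0 * Real.exp (-(c * t))) - c * (t ^ 1 * Real.exp (-(c * t))) := by
    intro t; ring
  simp only [e]
  rw [integral_sub i0 (i1.const_mul c), integral_const_mul, h0, h1]
  field_simp
  norm_num
  ring

lemma one_dim_B2 {c : ℝ} (hc : 0 < c) : ∫ t in Ioi (0:ℝ), (2 - (c * t) ^ 2) * Real.exp (-(c * t)) = 0 := by
  have h0 := integral_Ioi_pow_mul_exp 0 hc
  have h1 := integral_Ioi_pow_mul_exp 2 hc
  have i0 := integrableOn_pow_mul_exp 0 hc
  have i1 := integrableOn_pow_mul_exp 2 hc
  have e : ∀ t : ℝ, (2 - (c * t) ^ 2) * Real.exp (-(c * t)) =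
      2 * (t ^ 0 * Real.exp (-(c * t))) - c ^ 2 * (t ^ 2 * Real.exp (-(c * t))) := by
    intro t; ring
  simp only [e]
  rw [integral_sub (i0.const_mul 2) (i1.const_mul (c^2)), integral_const_mul, integral_const_mul, h0, h1]
  field_simp
  norm_num [Nat.factorial]
  ring

namespace SubLin

variable {G : (Fin n → ℝ) → ℝ} {ε : ℝ} (hG : SubLin G ε)
include hG

/-- coordinatewise convexity -/
lemma key_a {j k : Fin n} (hjk : j ≠ k) :
    0 ≤ W (lk k) (fun v => (v j ^ 2 - 4 * v j + 2) * G (sh k v)) := by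
  set a : ℝ := 2 - √2 with ha
  set b : ℝ := 2 + √2 with hb
  have hs2 : √2 * √2 = 2 := Real.mul_self_sqrt (by norm_num)
  have hs1 : 0 < √2 := by positivity
  have hs3 : √2 < 2 := by nlinarith
  have hab : a < b := by rw [ha, hb]; linarith
  have ha0 : 0 ≤ a := by rw [ha]; linarith
  have hb0 : 0 ≤ b := by linarith
  have hL : ∀ t : ℝ, t ^ 2 - 4 * t + 2 = (t - a) * (t - b) := by
    intro t; rw [ha, hb]; linear_combination hs2
  set P : (Fin n → ℝ) → ℝ := fun v => G (sh k v) with hP
  have hPt : Tame P := hG.tame_comp_sh k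
  have hPa : Tame (fun v => P (Function.update v j a)) := hPt.comp_update j ha0
  have hPb : Tame (fun v => P (Function.update v j b)) := hPt.comp_update j hb0
  set D : (Fin n → ℝ) → ℝ := fun v => (b - a)⁻¹ * (P (Function.update v j b) - P (Function.update v j a)) with hD
  have hDt : Tame D := (Tame.const _).mul (hPb.sub hPa)
  set E : (Fin n → ℝ) → ℝ := fun v => P (Function.update v j a) - a * D v with hE
  have hEt : Tame E := hPa.sub ((Tame.const _).mul hDt)
  have hLt : Tame (fun v : Fin n → ℝ => v j ^ 2 - 4 * v j + 2) :=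
    (((Tame.coord j).pow 2).sub ((Tame.const 4).mul (Tame.coord j))).add (Tame.const 2)
  have hDu : ∀ v t, D (Function.update v j t) = D v := by intro v t; simp [hD]
  have hEu : ∀ v t, E (Function.update v j t) = E v := by
    intro v t; simp only [hE, hDu]; simp
  have hlu : ∀ v t, lk k (Function.update v j t) - (Function.update v j t) j = lk k v - v j := by
    intro v t
    rw [lk_eq, lk_eq, sum_update, Function.update_self, Function.update_of_ne hjk.symm]
    ring
  -- the comparison function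
  have h1 : W (lk k) (fun v => (v j ^ 2 - 4 * v j + 2) * (E v + v j * D v)) ≤
      W (lk k) (fun v => (v j ^ 2 - 4 * v j + 2) * P v) := by
    refine W_mono (continuous_lk k) (fun v hv => sum_le_lk k hv)
      (hLt.mul (hEt.add ((Tame.coord j).mul hDt))) (hLt.mul hPt) fun v hv => ?_
    have h := convex_interp (hG.convex_line k j v) hab (v j)
    simp only [Function.update_eq_self] at h
    have e : (v j - a) * (v j - b) * (G (sh k v) - (G (sh k (Function.update v j a)) +
        (v j - a) / (b - a) * (G (sh k (Function.update v j b)) - G (sh k (Function.update v j a))))) =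
        (v j ^ 2 - 4 * v j + 2) * P v - (v j ^ 2 - 4 * v j + 2) * (E v + v j * D v) := by
      rw [hL (v j)]
      simp only [hE, hD, hP]
      ring
    rw [e] at h
    linarith
  have h2 : W (lk k) (fun v => (v j ^ 2 - 4 * v j + 2) * (E v + v j * D v)) = 0 := by
    have e1 : (fun v : Fin n → ℝ => (v j ^ 2 - 4 * v j + 2) * (E v + v j * D v)) =
        fun v => (v j ^ 2 - 4 * v j + 2) * E v + ((v j ^ 2 - 4 * v j + 2) * v j) * D v := by
      ext v; ring
    rw [e1, W_add (continuous_lk k) (fun v hv => sum_le_lk k hv) (hLt.mul hEt)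
      ((hLt.mul (Tame.coord j)).mul hDt)]
    have z1 : W (lk k) (fun v => (v j ^ 2 - 4 * v j + 2) * E v) = 0 := by
      have := integral_orth_mul_eq_zero j (fun t => (t ^ 2 - 4 * t + 2) * Real.exp (-t))
        (fun v => E v * Real.exp (-(lk k v - v j)))
        (by intro v t; simp only [hEu, hlu]) one_dim_L
      rw [← this]
      simp only [W]
      refine integral_congr_ae (Filter.Eventually.of_forall fun v => ?_)
      have : Real.exp (-lk k v) = Real.exp (-(v j)) * Real.exp (-(lk k v - v j)) := by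
        rw [← Real.exp_add]; congr 1; ring
      beta_reduce
      rw [this]; ring
    have z2 : W (lk k) (fun v => ((v j ^ 2 - 4 * v j + 2) * v j) * D v) = 0 := by
      have := integral_orth_mul_eq_zero j (fun t => ((t ^ 2 - 4 * t + 2) * t) * Real.exp (-t))
        (fun v => D v * Real.exp (-(lk k v - v j)))
        (by intro v t; simp only [hDu, hlu]) one_dim_tL
      rw [← this]
      simp only [W]
      refine integral_congr_ae (Filter.Eventually.of_forall fun v => ?_)
      have : Real.exp (-lk k v) = Real.exp (-(v j)) * Real.exp (-(lk k v - v j)) := by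
        rw [← Real.exp_add]; congr 1; ring
      beta_reduce
      rw [this]; ring
    rw [z1, z2, add_zero]
  rw [h2] at h1
  exact h1

/-- monotonicity in the direction of the minimal coordinate -/
lemma key_b (k : Fin n) (φ : ℝ → ℝ) {m0 : ℝ} (hm0 : 0 ≤ m0) (hsign : ∀ t : ℝ, 0 ≤ t → 0 ≤ φ t * (m0 - t))
    (hφt : Tame (fun v : Fin n → ℝ => φ (v k)))
    (hφ : ∫ t in Ioi (0:ℝ), φ t * Real.exp (-(n * t)) = 0) :
    0 ≤ W (lk k) (fun v => φ (v k) * G (sh k v)) := by
  set P : (Fin n → ℝ) → ℝ := fun v => G (sh k v) with hP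
  have hPt : Tame P := hG.tame_comp_sh k
  have hPa : Tame (fun v => P (Function.update v k m0)) := hPt.comp_update k hm0
  have h1 : W (lk k) (fun v => φ (v k) * P (Function.update v k m0)) ≤
      W (lk k) (fun v => φ (v k) * P v) := by
    refine W_mono (continuous_lk k) (fun v hv => sum_le_lk k hv) (hφt.mul hPa) (hφt.mul hPt) fun v hv => ?_
    have hs := hsign (v k) (hv k)
    rcases lt_trichotomy (v k) m0 with hlt | heq | hgt
    · have h2 : 0 ≤ φ (v k) := by
        by_contra hneg
        push Not at hneg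
        have := mul_neg_of_neg_of_pos hneg (sub_pos.2 hlt)
        linarith
      have h3 := hG.antitone_line k v (h := m0 - v k) (by linarith)
      rw [add_sub_cancel] at h3
      exact mul_le_mul_of_nonneg_left h3 h2
    · rw [← heq, Function.update_eq_self]
    · have h2 : φ (v k) ≤ 0 := by
        by_contra hpos
        push Not at hpos
        have := mul_neg_of_pos_of_neg hpos (sub_neg.2 hgt)
        linarith
      have h3 := hG.antitone_line k (Function.update v k m0) (h := v k - m0) (by linarith)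
      simp only [Function.update_self, Function.update_idem, add_sub_cancel, Function.update_eq_self] at h3
      exact mul_le_mul_of_nonpos_left h3 h2
  have h2 : W (lk k) (fun v => φ (v k) * P (Function.update v k m0)) = 0 := by
    have := integral_orth_mul_eq_zero k (fun t => φ t * Real.exp (-(n * t)))
      (fun v => P (Function.update v k m0) * Real.exp (-(∑ i, v i - v k)))
      (by
        intro v t
        simp only [Function.update_idem, Function.update_self, sum_update]
        congr 3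
        ring) hφ
    rw [← this]
    simp only [W]
    refine integral_congr_ae (Filter.Eventually.of_forall fun v => ?_)
    have : Real.exp (-lk k v) = Real.exp (-(n * v k)) * Real.exp (-(∑ i, v i - v k)) := by
      rw [← Real.exp_add, lk_eq]; congr 1; ring
    beta_reduce
    rw [this]; ring
  rw [h2] at h1
  exact h1

lemma key_region (hn : 2 ≤ n) (k : Fin n) :
    0 ≤ W (lk k) (fun v => (∑ i, (sh k v i) ^ 2 - 2 * ((n:ℝ) + 1) ^ 2 / n) * G (sh k v)) := by
  have hn' : (2:ℝ) ≤ n := by exact_mod_cast hn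
  have hn0 : (0:ℝ) < n := by linarith
  set P : (Fin n → ℝ) → ℝ := fun v => G (sh k v) with hP
  have hPt : Tame P := hG.tame_comp_sh k
  have hc := continuous_lk k
  have hs : ∀ v ∈ orth n, ∑ i, v i ≤ lk k v := fun v hv => sum_le_lk k hv
  have hPn : ∀ v ∈ orth n, 0 ≤ P v := fun v hv => hG.nonneg _ (sh_mem_orth k hv)
  -- the pieces
  have A : ∀ j ∈ Finset.univ.erase k, 0 ≤ W (lk k) (fun v => (v j ^ 2 - 4 * v j + 2) * P v) :=
    fun j hj => hG.key_a (Finset.ne_of_mem_erase hj)
  have B1 : 0 ≤ W (lk k) (fun v => (1 - n * v k) * P v) := by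
    refine hG.key_b k (fun t => 1 - n * t) (m0 := 1 / n) (by positivity) (fun t ht => ?_)
      ((Tame.const 1).sub ((Tame.const _).mul (Tame.coord k))) (one_dim_B1 hn0)
    have : (1 - n * t) * (1 / n - t) = n * (1 / n - t) ^ 2 := by field_simp
    rw [this]; positivity
  have B2 : 0 ≤ W (lk k) (fun v => (2 - (n * v k) ^ 2) * P v) := by
    refine hG.key_b k (fun t => 2 - (n * t) ^ 2) (m0 := √2 / n) (by positivity) (fun t ht => ?_)
      ((Tame.const 2).sub (((Tame.const _).mul (Tame.coord k)).pow 2)) (one_dim_B2 hn0)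
    have hs2 : √2 * √2 = 2 := Real.mul_self_sqrt (by norm_num)
    have : (2 - (n * t) ^ 2) * (√2 / n - t) = (√2 + n * t) * n * (√2 / n - t) ^ 2 := by
      have : (2:ℝ) - (n * t) ^ 2 = (√2 + n * t) * (√2 - n * t) := by linear_combination (-1 : ℝ) * hs2
      rw [this]
      field_simp
    rw [this]; positivity
  have N1 : W (lk k) (fun v => lk k v * P v) = (n + 1) * W (lk k) P := by
    have := W_homog hc hs 1 hPt (lk_smul k) (tame_lk k)
      (fun t ht v hv => by simp only [hP, sh_smul]; rw [hG.smul t ht.le, pow_one]) hPn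
    simpa using this
  have N2 : W (lk k) (fun v => lk k v * (v k * P v)) = (n + 2) * W (lk k) (fun v => v k * P v) := by
    have := W_homog hc hs 2 ((Tame.coord k).mul hPt) (lk_smul k) (tame_lk k)
      (fun t ht v hv => by
        simp only [hP, sh_smul, Pi.smul_apply, smul_eq_mul]; rw [hG.smul t ht.le]; ring)
      (fun v hv => mul_nonneg (hv k) (hPn v hv))
    simpa using this
  have e : (fun v : Fin n → ℝ => (∑ i, (sh k v i) ^ 2 - 2 * ((n:ℝ) + 1) ^ 2 / n) * P v) =
      fun v => ((∑ j ∈ Finset.univ.erase k, (v j ^ 2 - 4 * v j + 2) * P v)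
        + ((1 / n) * ((2 - (n * v k) ^ 2) * P v) + (2 * (n - 2) / n) * ((1 - n * v k) * P v)))
        + (2 * (lk k v * (v k * P v) - (n + 2) * (v k * P v))
        + 4 * (lk k v * P v - (n + 1) * P v)) := by
    ext v
    have h1 : ∑ j ∈ Finset.univ.erase k, (v j ^ 2 - 4 * v j + 2) * P v =
        (∑ i, (v i) ^ 2 - 4 * ∑ i, v i + 2 * n - (v k ^ 2 - 4 * v k + 2)) * P v := by
      rw [← Finset.sum_mul]
      congr 1
      have := Finset.add_sum_erase Finset.univ (fun j => v j ^ 2 - 4 * v j + 2) (Finset.mem_univ k)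
      have h3 : ∑ j, (v j ^ 2 - 4 * v j + 2) = ∑ i, (v i) ^ 2 - 4 * ∑ i, v i + 2 * n := by
        rw [Finset.sum_add_distrib, Finset.sum_sub_distrib, ← Finset.mul_sum]
        simp
        ring
      rw [h3] at this
      linarith
    rw [h1, sum_sq_sh, lk_eq]
    field_simp
    ring
  rw [e]
  have T1 : Tame (fun v => ∑ j ∈ Finset.univ.erase k, (v j ^ 2 - 4 * v j + 2) * P v) :=
    Tame.sum _ fun j _ => ((((Tame.coord j).pow 2).sub ((Tame.const 4).mul (Tame.coord j))).add
      (Tame.const 2)).mul hPt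
  have T2 : Tame (fun v => (2 - (n * v k) ^ 2) * P v) :=
    ((Tame.const 2).sub (((Tame.const _).mul (Tame.coord k)).pow 2)).mul hPt
  have T3 : Tame (fun v => (1 - n * v k) * P v) :=
    ((Tame.const 1).sub ((Tame.const _).mul (Tame.coord k))).mul hPt
  have T4 : Tame (fun v => v k * P v) := (Tame.coord k).mul hPt
  have T5 : Tame (fun v => lk k v * (v k * P v)) := (tame_lk k).mul T4
  have T6 : Tame (fun v => lk k v * P v) := (tame_lk k).mul hPt
  rw [W_add hc hs (T1.add (((Tame.const _).mul T2).add ((Tame.const _).mul T3)))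
    (((Tame.const 2).mul (T5.sub ((Tame.const _).mul T4))).add ((Tame.const 4).mul (T6.sub ((Tame.const _).mul hPt)))),
    W_add hc hs T1 (((Tame.const _).mul T2).add ((Tame.const _).mul T3)),
    W_add hc hs ((Tame.const _).mul T2) ((Tame.const _).mul T3),
    W_add hc hs ((Tame.const 2).mul (T5.sub ((Tame.const _).mul T4))) ((Tame.const 4).mul (T6.sub ((Tame.const _).mul hPt))),
    W_const_mul, W_const_mul, W_const_mul, W_const_mul,
    W_sub hc hs T5 ((Tame.const _).mul T4), W_sub hc hs T6 ((Tame.const _).mul hPt),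
    W_const_mul, W_const_mul, N1, N2, sub_self, sub_self, mul_zero, mul_zero, add_zero, add_zero,
    W_sum hc hs _ (fun j _ => ((((Tame.coord j).pow 2).sub ((Tame.const 4).mul (Tame.coord j))).add
      (Tame.const 2)).mul hPt)]
  have h1 := Finset.sum_nonneg A
  have h2 : 0 ≤ (1 / (n:ℝ)) * W (lk k) (fun v => (2 - (n * v k) ^ 2) * P v) := by positivity
  have h3 : 0 ≤ (2 * ((n:ℝ) - 2) / n) * W (lk k) (fun v => (1 - n * v k) * P v) := by
    refine mul_nonneg (div_nonneg (by linarith) hn0.le) B1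
  linarith

end SubLin

end Vale.Agent.P254
end

section

open MeasureTheory Set Real Matrix
open scoped Pointwise

namespace Vale.Agent.P254

variable {n : ℕ}

lemma null_hyperplane (a : Fin n → ℝ) (ha : a ≠ 0) (c : ℝ) :
    volume {x : Fin n → ℝ | ∑ i, a i * x i = c} = 0 := by
  classical
  set L : (Fin n → ℝ) →ₗ[ℝ] ℝ := ∑ i, a i • LinearMap.proj i with hL
  have hLx : ∀ x, L x = ∑ i, a i * x i := by intro x; simp [hL]
  have hker : (LinearMap.ker L) ≠ ⊤ := by
    intro h
    apply ha
    ext i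
    have : (Pi.single i 1 : Fin n → ℝ) ∈ LinearMap.ker L := by rw [h]; trivial
    rw [LinearMap.mem_ker, hLx] at this
    simpa [Pi.single_apply] using this
  by_cases hne : ∃ x0 : Fin n → ℝ, ∑ i, a i * x0 i = c
  · obtain ⟨x0, hx0⟩ := hne
    have e : {x : Fin n → ℝ | ∑ i, a i * x i = c} = (fun x => x + (-x0)) ⁻¹' (LinearMap.ker L : Set (Fin n → ℝ)) := by
      ext x
      simp only [mem_ofPred_eq, mem_preimage, SetLike.mem_coe, LinearMap.mem_ker]
      rw [map_add, map_neg, hLx, hLx, hx0]
      constructor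
      · intro h; linarith
      · intro h; linarith
    rw [e, measure_preimage_add_right]
    exact Measure.addHaar_submodule volume _ hker
  · push Not at hne
    have : {x : Fin n → ℝ | ∑ i, a i * x i = c} = ∅ := by
      ext x; simp [hne x]
    rw [this, measure_empty]

lemma null_eq_coord {i j : Fin n} (hij : i ≠ j) : volume {x : Fin n → ℝ | x i = x j} = 0 := by
  have h := null_hyperplane (Pi.single i 1 - Pi.single j 1 : Fin n → ℝ) (by
    intro h
    have := congrFun h i
    simp [hij] at this) 0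
  refine measure_mono_null (fun x hx => ?_) h
  simp only [mem_ofPred_eq] at hx ⊢
  simp [Pi.single_apply, sub_mul, Finset.sum_sub_distrib, hx]

/-- matrix of the shear -/
def shMat (k : Fin n) : Matrix (Fin n) (Fin n) ℝ :=
  1 + vecMulVec (fun i => if i = k then 0 else 1) (Pi.single k 1)

lemma shMat_mulVec (k : Fin n) (v : Fin n → ℝ) : shMat k *ᵥ v = sh k v := by
  ext i
  simp only [shMat, add_mulVec, one_mulVec, Pi.add_apply, vecMulVec_mulVec, sh]
  simp [dotProduct, Pi.single_apply]

lemma det_shMat (k : Fin n) : (shMat k).det = 1 := by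
  rw [shMat, det_rank_one]
  have : ∀ x : Fin n, (Pi.single k (1:ℝ) : Fin n → ℝ) x * (if x = k then 0 else 1) = 0 := by
    intro x
    by_cases h : x = k <;> simp [h]
  simp [this]

lemma image_sh (k : Fin n) : (fun v => shMat k *ᵥ v + 0) '' orth n =
    orth n ∩ {u | ∀ i, u k ≤ u i} := by
  ext u
  simp only [mem_image, mem_inter_iff, mem_ofPred_eq, add_zero, shMat_mulVec]
  constructor
  · rintro ⟨v, hv, rfl⟩
    refine ⟨sh_mem_orth k hv, fun i => ?_⟩
    simp only [sh]
    have h1 := hv i
    split_ifs with h <;> simp_all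
  · rintro ⟨hu, hk⟩
    refine ⟨fun i => u i - if i = k then 0 else u k, fun i => ?_, ?_⟩
    · have := hk i
      have h2 := hu i
      simp only
      split_ifs <;> linarith
    · ext i
      simp only [sh]
      split_ifs with h <;> simp

namespace SubLin

variable {G : (Fin n → ℝ) → ℝ} {ε : ℝ} (hG : SubLin G ε)
include hG

lemma key_ineq (hn : 2 ≤ n) :
    0 ≤ W (fun v : Fin n → ℝ => ∑ i, v i) (fun v => (∑ i, (v i) ^ 2 - 2 * ((n:ℝ) + 1) ^ 2 / n) * G v) := by
  have hTq : Tame (fun v : Fin n → ℝ => ∑ i, (v i) ^ 2 - 2 * ((n:ℝ) + 1) ^ 2 / n) :=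
    (Tame.sum _ fun i _ => (Tame.coord i).pow 2).sub (Tame.const _)
  have hint : IntegrableOn (fun v => ((∑ i, (v i) ^ 2 - 2 * ((n:ℝ) + 1) ^ 2 / n) * G v) *
      Real.exp (-∑ i, v i)) (orth n) :=
    (hTq.mul hG.tame).integrable (ℓ := fun v => ∑ i, v i) (by fun_prop) (fun v _ => le_rfl)
  have h := integral_argmin (n := n) (m := n) (by omega) (fun k v => v k) (fun k => continuous_apply k)
    (fun i j hij => null_eq_coord hij) measurableSet_orth hint
  simp only [W]
  rw [h]
  refine Finset.sum_nonneg fun k _ => ?_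
  rw [← image_sh, integral_image_affine _ _ (by rw [det_shMat]; exact one_ne_zero) measurableSet_orth,
    det_shMat, abs_one, one_mul]
  have := hG.key_region hn k
  simp only [W] at this
  refine this.trans_eq ?_
  refine setIntegral_congr_fun measurableSet_orth fun v _ => ?_
  simp only [add_zero, shMat_mulVec]
  rfl

/-- second order version -/
lemma second_order (hn : 2 ≤ n) (hε : ε * ((n:ℝ) * (n + 1) * (n + 2) * (n + 3)) ≤ 4) :
    0 ≤ ∫ v in orth n, (∑ i, (v i) ^ 2 - (∑ i, v i) ^ 2 / (n + 1) - (n + 2)) *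
      (Real.exp (-∑ i, v i) - Real.exp (-(∑ i, v i + G v))) := by
  have hn' : (2:ℝ) ≤ n := by exact_mod_cast hn
  have hn0 : (0:ℝ) < n := by linarith
  set s : (Fin n → ℝ) → ℝ := fun v => ∑ i, v i with hs
  have hsc : Continuous s := by rw [hs]; fun_prop
  have hss : ∀ v ∈ orth n, ∑ i, v i ≤ s v := fun v _ => le_rfl
  have hst : Tame s := Tame.sum _ fun i _ => Tame.coord i
  have hGt : Tame G := hG.tame
  have hlin : ∀ t : ℝ, ∀ v, s (t • v) = t * s v := by intro t v; simp [hs, Finset.mul_sum]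
  have hGh : ∀ t : ℝ, 0 < t → ∀ v ∈ orth n, G (t • v) = t ^ 1 * G v := by
    intro t ht v _; rw [hG.smul t ht.le, pow_one]
  have hsn : ∀ v ∈ orth n, 0 ≤ s v := fun v hv => sum_nonneg_of_orth hv
  set I := W s G with hI
  have hI0 : 0 ≤ I := by
    refine setIntegral_nonneg measurableSet_orth fun v hv => ?_
    exact mul_nonneg (hG.nonneg v hv) (Real.exp_pos _).le
  have J1 : W s (fun v => s v * G v) = (n + 1) * I := by
    have := W_homog hsc hss 1 hGt hlin hst hGh hG.nonneg
    simpa using this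
  have J2 : W s (fun v => s v * (s v * G v)) = (n + 2) * ((n + 1) * I) := by
    have := W_homog hsc hss 2 (hst.mul hGt) hlin hst
      (fun t ht v hv => by rw [hlin, hGh t ht v hv]; ring)
      (fun v hv => mul_nonneg (hsn v hv) (hG.nonneg v hv))
    rw [this, J1]; norm_num
  have J3 : W s (fun v => s v * (s v * (s v * G v))) = (n + 3) * ((n + 2) * ((n + 1) * I)) := by
    have := W_homog hsc hss 3 (hst.mul (hst.mul hGt)) hlin hst
      (fun t ht v hv => by rw [hlin, hGh t ht v hv]; ring)
      (fun v hv => mul_nonneg (hsn v hv) (mul_nonneg (hsn v hv) (hG.nonneg v hv)))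
    rw [this, J2]; norm_num
  have hq : Tame (fun v : Fin n → ℝ => ∑ i, (v i) ^ 2) := Tame.sum _ fun i _ => (Tame.coord i).pow 2
  have K1 : 2 * ((n:ℝ) + 1) ^ 2 / n * I ≤ W s (fun v => (∑ i, (v i) ^ 2) * G v) := by
    have := hG.key_ineq hn
    have e : (fun v => (∑ i, (v i) ^ 2 - 2 * ((n:ℝ) + 1) ^ 2 / n) * G v) =
        fun v => (∑ i, (v i) ^ 2) * G v - 2 * ((n:ℝ) + 1) ^ 2 / n * G v := by
      ext v; ring
    rw [e, W_sub hsc hss (hq.mul hGt) ((Tame.const _).mul hGt), W_const_mul] at this
    linarith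
  -- lower bound
  set f : (Fin n → ℝ) → ℝ := fun v => (((∑ i, (v i) ^ 2) * G v - (1 / ((n:ℝ) + 1)) * (s v * (s v * G v)))
    - (n + 2) * G v) - ε / 2 * (s v * (s v * (s v * G v))) with hf
  have hft : Tame f := (((hq.mul hGt).sub ((Tame.const _).mul (hst.mul (hst.mul hGt)))).sub
    ((Tame.const _).mul hGt)).sub ((Tame.const _).mul (hst.mul (hst.mul (hst.mul hGt))))
  have hWf : 0 ≤ W s f := by
    rw [hf, W_sub hsc hss (((hq.mul hGt).sub ((Tame.const _).mul (hst.mul (hst.mul hGt)))).sub
      ((Tame.const _).mul hGt)) ((Tame.const _).mul (hst.mul (hst.mul (hst.mul hGt)))),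
      W_sub hsc hss ((hq.mul hGt).sub ((Tame.const _).mul (hst.mul (hst.mul hGt)))) ((Tame.const _).mul hGt),
      W_sub hsc hss (hq.mul hGt) ((Tame.const _).mul (hst.mul (hst.mul hGt))),
      W_const_mul, W_const_mul, W_const_mul, J2, J3]
    have h1 : 2 * ((n:ℝ) + 1) ^ 2 / n * I - 1 / ((n:ℝ) + 1) * ((n + 2) * ((n + 1) * I)) - (n + 2) * I =
        2 / n * I := by
      field_simp
      ring
    have h2 : ε / 2 * ((n + 3) * ((n + 2) * ((n + 1) * I))) ≤ 2 / n * I := by
      have : ε / 2 * ((n + 3) * ((n + 2) * ((n + 1) * I))) =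
          (ε * ((n:ℝ) * (n + 1) * (n + 2) * (n + 3))) * (I / (2 * n)) := by
        field_simp
      rw [this]
      have h3 : 2 / n * I = 4 * (I / (2 * n)) := by
        field_simp
        ring
      rw [h3]
      have : 0 ≤ I / (2 * n) := by positivity
      exact mul_le_mul_of_nonneg_right hε this
    have hI2 : W s G = I := rfl
    rw [hI2]
    linarith
  refine hWf.trans ?_
  have hgi : IntegrableOn (fun v => (∑ i, (v i) ^ 2 - (∑ i, v i) ^ 2 / (n + 1) - (n + 2)) *
      (Real.exp (-∑ i, v i) - Real.exp (-(∑ i, v i + G v)))) (orth n) := by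
    have hT : Tame (fun v : Fin n → ℝ => ∑ i, (v i) ^ 2 - (∑ i, v i) ^ 2 / (n + 1) - (n + 2)) := by
      have := (hq.sub ((Tame.const (1 / ((n:ℝ)+1))).mul (hst.pow 2))).sub (Tame.const ((n:ℝ) + 2))
      refine (by
        convert this using 2
        simp only [hs]
        ring)
    have h1 := hT.integrable (ℓ := fun v => ∑ i, v i) (by fun_prop) (fun v _ => le_rfl)
    have h2 := hT.integrable (ℓ := fun v => ∑ i, v i + G v) (by have := hG.cont; fun_prop)
      (fun v hv => by have := hG.nonneg v hv; linarith)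
    refine (h1.sub h2).congr_fun (fun v _ => ?_) measurableSet_orth
    simp only [Pi.sub_apply]
    ring
  refine setIntegral_mono_on (hft.integrable hsc hss) hgi measurableSet_orth fun v hv => ?_
  have hG0 := hG.nonneg v hv
  have hG1 := hG.le v hv
  have hs0 := hsn v hv
  have e1 : Real.exp (-∑ i, v i) - Real.exp (-(∑ i, v i + G v)) =
      (1 - Real.exp (-G v)) * Real.exp (-s v) := by
    rw [sub_mul, one_mul, ← Real.exp_add]
    congr 2
    simp only [hs]; ring
  rw [e1, ← mul_assoc]
  refine mul_le_mul_of_nonneg_right ?_ (Real.exp_pos _).le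
  have hup : 1 - Real.exp (-G v) ≤ G v := by
    have := Real.add_one_le_exp (-G v); linarith
  have hlo : G v - (G v) ^ 2 / 2 ≤ 1 - Real.exp (-G v) := by
    have h1 := Real.quadratic_le_exp_of_nonneg hG0
    have h2 : Real.exp (-G v) * Real.exp (G v) = 1 := by rw [← Real.exp_add]; simp
    have h3 := Real.exp_pos (-G v)
    have h4 : Real.exp (-G v) ≤ 1 - G v + G v ^ 2 / 2 := by
      by_contra hcon
      push Not at hcon
      have h5 : 0 < 1 - G v + G v ^ 2 / 2 := by nlinarith [sq_nonneg (G v - 1)]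
      have h6 : (1 - G v + G v ^ 2 / 2) * (1 + G v + G v ^ 2 / 2) < Real.exp (-G v) * Real.exp (G v) :=
        mul_lt_mul hcon h1 (by positivity) h3.le
      rw [h2] at h6
      nlinarith [sq_nonneg (G v), sq_nonneg (G v ^ 2)]
    linarith
  set q := ∑ i, (v i) ^ 2 with hqd
  have hq0 : 0 ≤ q := Finset.sum_nonneg fun i _ => sq_nonneg _
  have hqs : q ≤ (s v) ^ 2 := Finset.sum_sq_le_sq_sum_of_nonneg (fun i _ => hv i)
  have hr : 0 ≤ (∑ i, v i) ^ 2 / ((n:ℝ) + 1) + (n + 2) := by positivity
  have h7 : q * (G v - (G v) ^ 2 / 2) ≤ q * (1 - Real.exp (-G v)) := mul_le_mul_of_nonneg_left hlo hq0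
  have h8 : ((∑ i, v i) ^ 2 / ((n:ℝ) + 1) + (n + 2)) * (1 - Real.exp (-G v)) ≤
      ((∑ i, v i) ^ 2 / ((n:ℝ) + 1) + (n + 2)) * G v := mul_le_mul_of_nonneg_left hup hr
  have h9 : q * (G v) ^ 2 ≤ ε * (s v * (s v * (s v * G v))) := by
    calc q * (G v) ^ 2 ≤ (s v) ^ 2 * (G v) ^ 2 := by gcongr
      _ = (s v) ^ 2 * G v * G v := by ring
      _ ≤ (s v) ^ 2 * G v * (ε * s v) := by gcongr
      _ = _ := by ring
  simp only [hf]
  have h10 : (∑ i, v i) = s v := rfl
  rw [h10] at h8 ⊢
  have e2 : 1 / ((n:ℝ) + 1) * (s v * (s v * G v)) = (s v) ^ 2 / (n + 1) * G v := by ring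
  rw [e2]
  nlinarith

end SubLin

end Vale.Agent.P254
end

section

open MeasureTheory Set Real Matrix
open scoped Pointwise

namespace Vale.Agent.P254

variable {n : ℕ}

/-- The standard corner simplex. -/
def stdS (n : ℕ) : Set (Fin n → ℝ) := {x | (∀ i, 0 ≤ x i) ∧ ∑ i, x i ≤ 1}

lemma isClosed_stdS : IsClosed (stdS n) := by
  have : stdS n = orth n ∩ {x | ∑ i, x i ≤ 1} := rfl
  rw [this]
  exact isClosed_orth.inter (isClosed_le (by fun_prop) continuous_const)

lemma measurableSet_stdS : MeasurableSet (stdS n) := isClosed_stdS.measurableSet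

lemma stdS_subset_Icc : stdS n ⊆ Icc 0 1 := by
  intro x hx
  refine ⟨fun i => hx.1 i, fun i => ?_⟩
  have h := Finset.single_le_sum (fun i _ => hx.1 i) (Finset.mem_univ i) (f := x)
  exact h.trans hx.2

lemma isCompact_stdS : IsCompact (stdS n) :=
  isCompact_Icc.of_isClosed_subset isClosed_stdS stdS_subset_Icc

namespace SubLin

variable {G : (Fin n → ℝ) → ℝ} {ε : ℝ} (hG : SubLin G ε)
include hG

/-- The solid version of the second order inequality. -/
lemma solid (hn : 2 ≤ n) (hε : ε * ((n:ℝ) * (n + 1) * (n + 2) * (n + 3)) ≤ 4) :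
    0 ≤ ∫ v in stdS n \ {v | ∑ i, v i + G v ≤ 1}, (∑ i, (v i) ^ 2 - (1 + (∑ i, v i) ^ 2) / (n + 1)) := by
  set s : (Fin n → ℝ) → ℝ := fun v => ∑ i, v i with hs
  have hsc : Continuous s := by rw [hs]; fun_prop
  set g : (Fin n → ℝ) → ℝ := fun v => s v + G v with hg
  have hgc : Continuous g := by rw [hg]; have := hG.cont; fun_prop
  set F : (Fin n → ℝ) → ℝ := fun v => ∑ i, (v i) ^ 2 - (1 + (s v) ^ 2) / (n + 1) with hF
  have hFc : Continuous F := by rw [hF]; fun_prop
  have hcomp : ∀ A : Set (Fin n → ℝ), A ⊆ stdS n → IntegrableOn F A := by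
    intro A hA
    exact (hFc.continuousOn.integrableOn_compact isCompact_stdS).mono_set hA
  -- difference of integrals
  have hA : orth n ∩ {v | g v ≤ 1} ⊆ stdS n := by
    rintro v ⟨hv, hgv⟩
    refine ⟨hv, ?_⟩
    have h1 : s v + G v ≤ 1 := hgv
    have h2 := hG.nonneg v hv
    show s v ≤ 1
    linarith
  have e1 : stdS n \ {v | ∑ i, v i + G v ≤ 1} = stdS n \ (orth n ∩ {v | g v ≤ 1}) := by
    ext v
    simp only [mem_sdiff, mem_ofPred_eq, mem_inter_iff, not_and]
    constructor
    · rintro ⟨h1, h2⟩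
      exact ⟨h1, fun _ => h2⟩
    · rintro ⟨h1, h2⟩
      exact ⟨h1, h2 h1.1⟩
  rw [e1, setIntegral_sdiff (isClosed_orth.measurableSet.inter (measurableSet_le hgc.measurable measurable_const))
    (hcomp _ subset_rfl) hA]
  -- layer cake
  have T0 : Tame (fun _ : Fin n → ℝ => (1:ℝ)) := Tame.const 1
  have T1 : Tame (fun v : Fin n → ℝ => ∑ i, (v i) ^ 2) := Tame.sum _ fun i _ => (Tame.coord i).pow 2
  have T2 : Tame (fun v : Fin n → ℝ => (s v) ^ 2) := (Tame.sum _ fun i _ => Tame.coord i).pow 2
  have H : ∀ g : (Fin n → ℝ) → ℝ, Continuous g → (∀ t : ℝ, 0 < t → ∀ v ∈ orth n, g (t • v) = t * g v) →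
      (∀ v ∈ orth n, s v ≤ g v) →
      ((n + 2).factorial : ℝ) * ∫ v in orth n ∩ {v | g v ≤ 1}, F v =
        ∫ v in orth n, (∑ i, (v i) ^ 2 - (s v) ^ 2 / (n + 1) - (n + 2)) * Real.exp (-g v) := by
    intro g hgc hgh hgs
    have hgn : ∀ v ∈ orth n, 0 ≤ g v := fun v hv => (sum_nonneg_of_orth hv).trans (hgs v hv)
    have L0 := layer_cake g (fun _ => 1) 0 hgc.measurable measurable_const hgh hgn
      (fun t _ v _ => by simp) (T0.integrable hgc hgs)
    have L1 := layer_cake g (fun v => ∑ i, (v i) ^ 2) 2 hgc.measurable (by fun_prop) hgh hgn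
      (fun t _ v _ => by simp [mul_pow, Finset.mul_sum]) (T1.integrable hgc hgs)
    have L2 := layer_cake g (fun v => (s v) ^ 2) 2 hgc.measurable (by fun_prop) hgh hgn
      (fun t _ v _ => by simp [hs, mul_pow, ← Finset.mul_sum]) (T2.integrable hgc hgs)
    have hsub : orth n ∩ {v | g v ≤ 1} ⊆ stdS n := by
      rintro v ⟨hv, hgv⟩
      exact ⟨hv, (hgs v hv).trans hgv⟩
    have i0 : IntegrableOn (fun _ : Fin n → ℝ => (1:ℝ)) (orth n ∩ {v | g v ≤ 1}) :=
      (continuous_const.continuousOn.integrableOn_compact isCompact_stdS).mono_set hsub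
    have i1 : IntegrableOn (fun v : Fin n → ℝ => ∑ i, (v i) ^ 2) (orth n ∩ {v | g v ≤ 1}) :=
      (ContinuousOn.integrableOn_compact isCompact_stdS (by fun_prop)).mono_set hsub
    have i2 : IntegrableOn (fun v : Fin n → ℝ => (s v) ^ 2) (orth n ∩ {v | g v ≤ 1}) :=
      (ContinuousOn.integrableOn_compact isCompact_stdS (by fun_prop)).mono_set hsub
    have e2 : ∫ v in orth n ∩ {v | g v ≤ 1}, F v =
        (∫ v in orth n ∩ {v | g v ≤ 1}, ∑ i, (v i) ^ 2) -
        (1 / ((n:ℝ) + 1)) * ((∫ v in orth n ∩ {v | g v ≤ 1}, (1:ℝ)) + ∫ v in orth n ∩ {v | g v ≤ 1}, (s v) ^ 2) := by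
      have i02 : IntegrableOn (fun v => (1 / ((n:ℝ) + 1)) * (1 + (s v) ^ 2)) (orth n ∩ {v | g v ≤ 1}) :=
        (i0.add i2).const_mul _
      rw [← integral_add i0 i2, ← integral_const_mul, ← integral_sub i1 i02]
      refine integral_congr_ae (Filter.Eventually.of_forall fun v => ?_)
      simp only [hF]
      ring
    have j0 := T0.integrable hgc hgs
    have j1 := T1.integrable hgc hgs
    have j2 := T2.integrable hgc hgs
    have e3 : ∫ v in orth n, (∑ i, (v i) ^ 2 - (s v) ^ 2 / (n + 1) - (n + 2)) * Real.exp (-g v) =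
        (∫ v in orth n, (∑ i, (v i) ^ 2) * Real.exp (-g v)) -
        (1 / ((n:ℝ) + 1)) * (∫ v in orth n, (s v) ^ 2 * Real.exp (-g v)) -
        (n + 2) * ∫ v in orth n, 1 * Real.exp (-g v) := by
      have j12 : IntegrableOn (fun v => (∑ i, (v i) ^ 2) * Real.exp (-g v) -
          (1 / ((n:ℝ) + 1)) * ((s v) ^ 2 * Real.exp (-g v))) (orth n) := j1.sub (j2.const_mul _)
      rw [← integral_const_mul, ← integral_const_mul, ← integral_sub j1 (j2.const_mul _),
        ← integral_sub j12 (j0.const_mul _)]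
      refine integral_congr_ae (Filter.Eventually.of_forall fun v => ?_)
      ring
    rw [e2, e3, L0, L1, L2]
    have hfac : ((n + 2).factorial : ℝ) = (n + 2) * ((n + 1) * (n + 0).factorial) := by
      rw [Nat.factorial_succ, Nat.factorial_succ]; push_cast; ring
    have hfac2 : (((n + 0).factorial : ℕ) : ℝ) ≠ 0 := by positivity
    rw [hfac]
    field_simp
    ring
  have HU := H s hsc (fun t ht v _ => by simp [hs, Finset.mul_sum]) (fun v _ => le_rfl)
  have HA := H g hgc (fun t ht v _ => by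
    simp only [hg]
    rw [hG.smul t ht.le]
    simp [hs, Finset.mul_sum, mul_add]) (fun v hv => by have := hG.nonneg v hv; simp only [hg]; linarith)
  have hst : stdS n = orth n ∩ {v | s v ≤ 1} := rfl
  have key := hG.second_order hn hε
  have e4 : ∫ v in orth n, (∑ i, (v i) ^ 2 - (∑ i, v i) ^ 2 / (n + 1) - (n + 2)) *
      (Real.exp (-∑ i, v i) - Real.exp (-(∑ i, v i + G v))) =
      (∫ v in orth n, (∑ i, (v i) ^ 2 - (s v) ^ 2 / (n + 1) - (n + 2)) * Real.exp (-s v)) -
      ∫ v in orth n, (∑ i, (v i) ^ 2 - (s v) ^ 2 / (n + 1) - (n + 2)) * Real.exp (-g v) := by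
    have hT : Tame (fun v : Fin n → ℝ => ∑ i, (v i) ^ 2 - (s v) ^ 2 / (n + 1) - (n + 2)) := by
      have := (T1.sub ((Tame.const (1 / ((n:ℝ)+1))).mul T2)).sub (Tame.const ((n:ℝ) + 2))
      convert this using 2
      ring
    rw [← integral_sub (hT.integrable hsc fun v _ => le_rfl)
      (hT.integrable hgc fun v hv => by have := hG.nonneg v hv; simp only [hg]; linarith)]
    refine integral_congr_ae (Filter.Eventually.of_forall fun v => ?_)
    simp only [hs, hg]
    ring
  rw [e4, ← HU, ← HA, ← hst] at key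
  have hpos : (0:ℝ) < ((n + 2).factorial : ℝ) := by positivity
  have : 0 ≤ ((n + 2).factorial : ℝ) * ((∫ v in stdS n, F v) - ∫ v in orth n ∩ {v | g v ≤ 1}, F v) := by
    linarith
  exact nonneg_of_mul_nonneg_right this hpos

end SubLin

end Vale.Agent.P254
end

section

open MeasureTheory Set
open scoped Pointwise

namespace Vale.Agent.P254

variable {n : ℕ}

lemma stdS_eq : stdS n = orth n ∩ {v | ∑ i, v i ≤ 1} := rfl

lemma convex_stdS : Convex ℝ (stdS n) := by
  intro x hx y hy a b ha hb hab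
  refine ⟨fun i => ?_, ?_⟩
  · simp only [Pi.add_apply, Pi.smul_apply, smul_eq_mul]
    have := hx.1 i
    have := hy.1 i
    positivity
  · simp only [Pi.add_apply, Pi.smul_apply, smul_eq_mul]
    rw [Finset.sum_add_distrib, ← Finset.mul_sum, ← Finset.mul_sum]
    nlinarith [hx.2, hy.2]

lemma restrict_orth (n : ℕ) :
    (volume : Measure (Fin n → ℝ)).restrict (orth n)
      = Measure.pi (fun _ => (volume : Measure ℝ).restrict (Ici 0)) := by
  have : orth n = Set.pi univ (fun _ => Ici (0 : ℝ)) := by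
    ext u; simp only [orth, mem_ofPred_eq, mem_univ_pi, mem_Ici]
  rw [this, volume_pi, Measure.restrict_pi_pi]

lemma integral_orth_monomial (k : Fin n → ℕ) :
    ∫ v in orth n, (∏ i, v i ^ k i) * Real.exp (-∑ i, v i) = ∏ i, ((k i).factorial : ℝ) := by
  rw [restrict_orth]
  have h1 : ∀ v : Fin n → ℝ, (∏ i, v i ^ k i) * Real.exp (-∑ i, v i)
      = ∏ i, (v i ^ k i * Real.exp (-(1 * v i))) := by
    intro v
    rw [Finset.prod_mul_distrib, ← Real.exp_sum]
    simp
  simp_rw [h1]
  rw [integral_fintype_prod_eq_prod (fun i (x : ℝ) => x ^ k i * Real.exp (-(1 * x)))]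
  refine Finset.prod_congr rfl (fun i _ => ?_)
  rw [integral_Ici_eq_integral_Ioi, integral_Ioi_pow_mul_exp _ one_pos]
  simp

lemma integral_stdS_monomial (k : Fin n → ℕ) :
    ∫ v in stdS n, (∏ i, v i ^ k i)
      = (∏ i, ((k i).factorial : ℝ)) / ((n + ∑ i, k i).factorial : ℝ) := by
  have h := layer_cake (n := n) (fun v => ∑ i, v i) (fun v => ∏ i, v i ^ k i) (∑ i, k i)
    (by fun_prop) (by fun_prop)
    (fun t _ v _ => by simp [Finset.mul_sum])
    (fun v hv => sum_nonneg_of_orth hv)
    (fun t _ v _ => by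
      simp only [Pi.smul_apply, smul_eq_mul, mul_pow]
      rw [Finset.prod_mul_distrib, Finset.prod_pow_eq_pow_sum])
    (by
      refine integrableOn_of_bound (by fun_prop) 1 (∑ i, k i) (fun v hv => ?_)
      have hs := sum_nonneg_of_orth hv
      rw [abs_mul, abs_of_pos (Real.exp_pos _), one_mul]
      gcongr
      rw [Finset.abs_prod, ← Finset.prod_pow_eq_pow_sum]
      refine Finset.prod_le_prod (fun i _ => abs_nonneg _) (fun i _ => ?_)
      rw [abs_pow, abs_of_nonneg (hv i)]
      refine pow_le_pow_left₀ (hv i) ?_ _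
      have := Finset.single_le_sum (f := v) (fun j _ => hv j) (Finset.mem_univ i)
      linarith)
  rw [integral_orth_monomial] at h
  rw [stdS_eq, h, mul_div_assoc, mul_comm, div_mul_cancel₀]
  positivity

lemma volume_stdS : (volume (stdS n)).toReal = 1 / (n.factorial : ℝ) := by
  have := integral_stdS_monomial (n := n) (fun _ => 0)
  simp only [pow_zero, Finset.prod_const_one, Nat.factorial_zero, Nat.cast_one,
    Finset.sum_const_zero, add_zero] at this
  simpa [Measure.real] using this

lemma volume_stdS_pos : 0 < (volume (stdS n)).toReal := by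
  rw [volume_stdS]; positivity

lemma integral_stdS_x (i : Fin n) :
    ∫ v in stdS n, v i = 1 / ((n + 1).factorial : ℝ) := by
  have := integral_stdS_monomial (n := n) (Pi.single i 1)
  rw [Finset.sum_pi_single' ] at this
  have h1 : ∀ v : Fin n → ℝ, ∏ j, v j ^ (Pi.single i 1 : Fin n → ℕ) j = v i := by
    intro v
    rw [Finset.prod_eq_single i]
    · simp
    · intro j _ hj; simp [hj]
    · simp
  have h2 : ∏ j, (((Pi.single i 1 : Fin n → ℕ) j).factorial : ℝ) = 1 := by
    refine Finset.prod_eq_one (fun j _ => ?_)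
    by_cases hj : j = i
    · subst hj; simp
    · simp [hj]
  simp_rw [h1] at this
  rw [this, h2]
  simp

lemma integral_stdS_xx (i j : Fin n) :
    ∫ v in stdS n, v i * v j = (if i = j then 2 else 1) / ((n + 2).factorial : ℝ) := by
  have := integral_stdS_monomial (n := n) (Pi.single i 1 + Pi.single j 1)
  have hs : ∑ k, (Pi.single i 1 + Pi.single j 1 : Fin n → ℕ) k = 2 := by
    simp [Finset.sum_add_distrib]
  rw [hs] at this
  have h1 : ∀ v : Fin n → ℝ, ∏ k, v k ^ (Pi.single i 1 + Pi.single j 1 : Fin n → ℕ) k = v i * v j := by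
    intro v
    simp only [Pi.add_apply, pow_add]
    rw [Finset.prod_mul_distrib]
    congr 1
    · rw [Finset.prod_eq_single i]
      · simp
      · intro k _ hk; simp [hk]
      · simp
    · rw [Finset.prod_eq_single j]
      · simp
      · intro k _ hk; simp [hk]
      · simp
  have h2 : ∏ k, (((Pi.single i 1 + Pi.single j 1 : Fin n → ℕ) k).factorial : ℝ)
      = if i = j then 2 else 1 := by
    split_ifs with h
    · subst h
      rw [Finset.prod_eq_single i]
      · simp
      · intro k _ hk; simp [hk]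
      · simp
    · refine Finset.prod_eq_one (fun k _ => ?_)
      by_cases hi : k = i
      · subst hi; simp [Pi.single_eq_of_ne h]
      · by_cases hj : k = j
        · subst hj; simp [hi]
        · simp [hi, hj]
  simp_rw [h1] at this
  rw [this, h2]

end Vale.Agent.P254
end

section

namespace Vale.Agent.P254

open Matrix
open scoped MatrixOrder ComplexOrder

/-- AM-GM for the eigenvalues of a positive semidefinite matrix. -/
lemma det_le_trace_pow {n : ℕ} (hn : 0 < n) {M : Matrix (Fin n) (Fin n) ℝ} (hM : M.PosSemidef) :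
    M.det ≤ (M.trace / n) ^ n := by
  have hn' : (0 : ℝ) < n := by exact_mod_cast hn
  have h1 : M.det = ∏ i, hM.1.eigenvalues i := by
    have := hM.1.det_eq_prod_eigenvalues
    simpa using this
  have h2 : M.trace = ∑ i, hM.1.eigenvalues i := by
    have := hM.1.trace_eq_sum_eigenvalues
    simpa using this
  have h0 : ∀ i, 0 ≤ hM.1.eigenvalues i := hM.eigenvalues_nonneg
  have h3 := Real.geom_mean_le_arith_mean_weighted Finset.univ (fun _ : Fin n => (1 : ℝ) / n)
    (fun i => hM.1.eigenvalues i) (fun _ _ => by positivity)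
    (by simp [hn'.ne']) (fun i _ => h0 i)
  have h4 : ∏ i, (hM.1.eigenvalues i) ^ ((1 : ℝ) / n) = (∏ i, hM.1.eigenvalues i) ^ ((1 : ℝ) / n) :=
    Real.finsetProd_rpow _ _ (fun i _ => h0 i) _
  rw [h4] at h3
  have h5 : ∑ i, (1 : ℝ) / n * hM.1.eigenvalues i = M.trace / n := by
    rw [h2, ← Finset.mul_sum]; ring
  rw [h5] at h3
  have hp : 0 ≤ ∏ i, hM.1.eigenvalues i := Finset.prod_nonneg (fun i _ => h0 i)
  rw [h1]
  calc ∏ i, hM.1.eigenvalues i = ((∏ i, hM.1.eigenvalues i) ^ ((1 : ℝ) / n)) ^ n := by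
        rw [← Real.rpow_natCast, ← Real.rpow_mul hp]
        rw [one_div, inv_mul_cancel₀ hn'.ne', Real.rpow_one]
    _ ≤ (M.trace / n) ^ n := pow_le_pow_left₀ (Real.rpow_nonneg hp _) h3 n

/-- `det B * det C ≤ (tr (B C) / n) ^ n` for positive semidefinite `B`, `C`. -/
lemma det_mul_det_le {n : ℕ} (hn : 0 < n) {B C : Matrix (Fin n) (Fin n) ℝ}
    (hB : B.PosSemidef) (hC : C.PosSemidef) :
    B.det * C.det ≤ ((B * C).trace / n) ^ n := by
  obtain ⟨S, rfl⟩ := CStarAlgebra.nonneg_iff_eq_star_mul_self.mp hB.nonneg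
  have h1 : (S * C * Sᴴ).PosSemidef := hC.mul_mul_conjTranspose_same S
  have h2 := det_le_trace_pow hn h1
  have h3 : (star S * S).det * C.det = (S * C * Sᴴ).det := by
    rw [star_eq_conjTranspose]
    simp only [det_mul]
    ring
  have h4 : (star S * S * C).trace = (S * C * Sᴴ).trace := by
    rw [star_eq_conjTranspose, Matrix.mul_assoc, Matrix.trace_mul_comm]
  rw [h3, h4]
  exact h2

end Vale.Agent.P254
end

section

open MeasureTheory Set Matrix
open scoped Pointwise

namespace Vale.Agent.P254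

variable {n : ℕ} {K : Set (Fin n → ℝ)}

lemma intOn (hK : IsCompact K) {f : (Fin n → ℝ) → ℝ} (hf : Continuous f) : IntegrableOn f K :=
  hf.continuousOn.integrableOn_compact hK

lemma cov_eq (hK : IsCompact K) (hV : (volume K).toReal ≠ 0) (i j : Fin n) :
    covMatrix K i j = (volume K).toReal⁻¹ * (∫ x in K, x i * x j) - centroid K i * centroid K j := by
  have e : ∫ x in K, (x i - centroid K i) * (x j - centroid K j)
      = (∫ x in K, x i * x j) - centroid K j * (∫ x in K, x i) - centroid K i * (∫ x in K, x j)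
        + (volume K).toReal * (centroid K i * centroid K j) := by
    have e1 : ∀ x : Fin n → ℝ, (x i - centroid K i) * (x j - centroid K j)
        = x i * x j - centroid K j * x i - centroid K i * x j + centroid K i * centroid K j := by
      intro x; ring
    simp_rw [e1]
    rw [integral_add, integral_sub, integral_sub, integral_const_mul, integral_const_mul,
      setIntegral_const, smul_eq_mul, Measure.real]
    · exact intOn hK (by fun_prop)
    · exact intOn hK (by fun_prop)
    · exact intOn hK (by fun_prop)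
    · exact intOn hK (by fun_prop)
    · exact intOn hK (by fun_prop)
    · exact intOn hK (by fun_prop)
  have hi : ∫ x in K, x i = (volume K).toReal * centroid K i := by
    simp only [centroid]; field_simp
  have hj : ∫ x in K, x j = (volume K).toReal * centroid K j := by
    simp only [centroid]; field_simp
  rw [covMatrix, e, hi, hj]
  field_simp
  ring

lemma covMatrix_symm (K : Set (Fin n → ℝ)) (i j : Fin n) : covMatrix K i j = covMatrix K j i := by
  simp only [covMatrix]
  congr 1
  refine integral_congr_ae (Filter.Eventually.of_forall (fun x => ?_))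
  simp only
  ring

lemma cov_quad (hK : IsCompact K) (y : Fin n → ℝ) :
    ∑ i, ∑ j, y i * covMatrix K i j * y j
      = (volume K).toReal⁻¹ * ∫ x in K, (∑ i, y i * (x i - centroid K i)) ^ 2 := by
  have e : ∀ x : Fin n → ℝ, (∑ i, y i * (x i - centroid K i)) ^ 2
      = ∑ i, ∑ j, y i * ((x i - centroid K i) * (x j - centroid K j)) * y j := by
    intro x
    rw [sq, Finset.sum_mul_sum]
    refine Finset.sum_congr rfl (fun i _ => Finset.sum_congr rfl (fun j _ => ?_))
    ring
  simp_rw [e]
  rw [integral_finsetSum _ (fun i _ => intOn hK (by fun_prop)), Finset.mul_sum]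
  refine Finset.sum_congr rfl (fun i _ => ?_)
  rw [integral_finsetSum _ (fun j _ => intOn hK (by fun_prop)), Finset.mul_sum]
  refine Finset.sum_congr rfl (fun j _ => ?_)
  simp only [covMatrix]
  rw [integral_mul_const, integral_const_mul]
  ring

lemma covMatrix_posSemidef (hK : IsCompact K) : (covMatrix K).PosSemidef := by
  refine PosSemidef.of_dotProduct_mulVec_nonneg ?_ (fun y => ?_)
  · ext i j
    simp only [conjTranspose_apply, star_trivial]
    exact covMatrix_symm K j i
  · have e : star y ⬝ᵥ (covMatrix K *ᵥ y) = ∑ i, ∑ j, y i * covMatrix K i j * y j := by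
      simp only [dotProduct, mulVec, star_trivial, Finset.mul_sum]
      refine Finset.sum_congr rfl (fun i _ => Finset.sum_congr rfl (fun j _ => ?_))
      ring
    rw [e, cov_quad hK]
    refine mul_nonneg (inv_nonneg.mpr ENNReal.toReal_nonneg) ?_
    exact integral_nonneg (fun x => sq_nonneg _)

/-- The inverse covariance matrix of the standard simplex. -/
noncomputable def Bmat (n : ℕ) : Matrix (Fin n) (Fin n) ℝ :=
  fun i j => ((n : ℝ) + 1) * (n + 2) * (if i = j then 2 else 1)

lemma Bmat_posSemidef : (Bmat n).PosSemidef := by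
  refine PosSemidef.of_dotProduct_mulVec_nonneg ?_ (fun y => ?_)
  · ext i j
    simp only [conjTranspose_apply, star_trivial, Bmat, eq_comm]
  · have e : star y ⬝ᵥ (Bmat n *ᵥ y) = ((n : ℝ) + 1) * (n + 2) * ((∑ i, y i) ^ 2 + ∑ i, y i ^ 2) := by
      simp only [dotProduct, mulVec, star_trivial, Bmat]
      have h1 : ∀ i, ∑ j, ((n : ℝ) + 1) * (n + 2) * (if i = j then 2 else 1) * y j
          = ((n : ℝ) + 1) * (n + 2) * (∑ j, y j + y i) := by
        intro i
        have : ∀ j, ((n : ℝ) + 1) * (n + 2) * (if i = j then 2 else 1) * y j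
            = ((n : ℝ) + 1) * (n + 2) * (y j + if i = j then y j else 0) := by
          intro j; split_ifs <;> ring
        simp_rw [this]
        rw [← Finset.mul_sum, Finset.sum_add_distrib]
        simp
      simp_rw [h1]
      have h2 : ∀ i, y i * (((n : ℝ) + 1) * (n + 2) * (∑ j, y j + y i))
          = ((n : ℝ) + 1) * (n + 2) * (y i * ∑ j, y j + y i ^ 2) := by intro i; ring
      simp_rw [h2]
      rw [← Finset.mul_sum, Finset.sum_add_distrib, ← Finset.sum_mul]
      ring
    rw [e]
    have : 0 ≤ ∑ i, y i ^ 2 := Finset.sum_nonneg (fun i _ => sq_nonneg _)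
    positivity

lemma trace_Bmat_mul (C : Matrix (Fin n) (Fin n) ℝ) :
    (Bmat n * C).trace = ((n : ℝ) + 1) * (n + 2) * (∑ i, C i i + ∑ i, ∑ j, C j i) := by
  simp only [trace, diag_apply, mul_apply, Bmat]
  have h1 : ∀ i, ∑ j, ((n : ℝ) + 1) * (n + 2) * (if i = j then 2 else 1) * C j i
      = ((n : ℝ) + 1) * (n + 2) * (C i i + ∑ j, C j i) := by
    intro i
    have : ∀ j, ((n : ℝ) + 1) * (n + 2) * (if i = j then 2 else 1) * C j i
        = ((n : ℝ) + 1) * (n + 2) * ((if i = j then C j i else 0) + C j i) := by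
      intro j; split_ifs <;> ring
    simp_rw [this]
    rw [← Finset.mul_sum, Finset.sum_add_distrib]
    simp
  simp_rw [h1]
  rw [← Finset.mul_sum, Finset.sum_add_distrib]

lemma centroid_stdS (i : Fin n) : centroid (stdS n) i = 1 / ((n : ℝ) + 1) := by
  simp only [centroid, volume_stdS, integral_stdS_x, Nat.factorial_succ]
  push_cast
  have : (n.factorial : ℝ) ≠ 0 := by positivity
  field_simp

lemma cov_stdS (i j : Fin n) :
    covMatrix (stdS n) i j
      = (if i = j then 2 else 1) / (((n : ℝ) + 1) * (n + 2)) - 1 / ((n : ℝ) + 1) ^ 2 := by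
  rw [cov_eq isCompact_stdS volume_stdS_pos.ne', centroid_stdS, centroid_stdS, integral_stdS_xx,
    volume_stdS]
  simp only [Nat.factorial_succ]
  push_cast
  have : (n.factorial : ℝ) ≠ 0 := by positivity
  split_ifs <;> field_simp <;> ring

lemma Bmat_mul_cov : Bmat n * covMatrix (stdS n) = 1 := by
  ext i j
  rw [mul_apply]
  have hn1 : ((n : ℝ) + 1) ≠ 0 := by positivity
  have hn2 : ((n : ℝ) + 2) ≠ 0 := by positivity
  have : ∀ k, Bmat n i k * covMatrix (stdS n) k j
      = ((if k = j then 1 else 0) + (1 - ((n : ℝ) + 2) / (n + 1)))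
        + (if i = k then ((if k = j then 1 else 0) + (1 - ((n : ℝ) + 2) / (n + 1))) else 0) := by
    intro k
    rw [cov_stdS, Bmat]
    split_ifs <;> field_simp <;> ring
  simp_rw [this]
  rw [Finset.sum_add_distrib, Finset.sum_add_distrib]
  simp only [Finset.sum_ite_eq, Finset.sum_ite_eq', Finset.mem_univ, if_true, Finset.sum_const,
    Finset.card_univ, Fintype.card_fin, nsmul_eq_mul, one_apply]
  split_ifs <;> field_simp <;> ring

lemma det_B_mul_det_cov : (Bmat n).det * (covMatrix (stdS n)).det = 1 := by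
  rw [← det_mul, Bmat_mul_cov, det_one]

/-- sum of squares of the barycentric coordinates with respect to `stdS n`. -/
noncomputable def qq (x : Fin n → ℝ) : ℝ := ∑ i, x i ^ 2 + (1 - ∑ i, x i) ^ 2

lemma continuous_qq : Continuous (qq : (Fin n → ℝ) → ℝ) := by
  unfold qq; fun_prop

lemma integral_stdS_qq :
    ∫ x in stdS n, qq x = (volume (stdS n)).toReal * (2 / ((n : ℝ) + 2)) := by
  have e : ∀ x : Fin n → ℝ, qq x = ∑ i, x i * x i + ∑ i, ∑ j, x i * x j - 2 * ∑ i, x i + 1 := by
    intro x
    simp only [qq]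
    rw [← Finset.sum_mul_sum]
    simp_rw [← sq]
    ring
  simp_rw [e]
  have hc := isCompact_stdS (n := n)
  rw [integral_add (intOn hc (by fun_prop)) (intOn hc (by fun_prop)),
    integral_sub (intOn hc (by fun_prop)) (intOn hc (by fun_prop)),
    integral_add (intOn hc (by fun_prop)) (intOn hc (by fun_prop)),
    integral_finsetSum _ (fun i _ => intOn hc (by fun_prop)),
    integral_finsetSum _ (fun i _ => intOn hc (by fun_prop)),
    integral_const_mul,
    integral_finsetSum _ (fun i _ => intOn hc (by fun_prop)), setIntegral_const, smul_eq_mul]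
  have h2 : ∀ i : Fin n, ∫ x in stdS n, ∑ j, x i * x j = ((n : ℝ) + 1) / ((n + 2).factorial : ℝ) := by
    intro i
    rw [integral_finsetSum _ (fun i _ => intOn hc (by fun_prop))]
    simp_rw [integral_stdS_xx]
    have : ∀ j : Fin n, (if i = j then (2 : ℝ) else 1) / ((n + 2).factorial : ℝ)
        = ((if i = j then 1 else 0) + 1) / ((n + 2).factorial : ℝ) := by
      intro j; split_ifs <;> norm_num
    simp_rw [this]
    rw [← Finset.sum_div, Finset.sum_add_distrib]
    simp [add_comm]
  simp_rw [h2, integral_stdS_xx, integral_stdS_x]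
  simp only [if_true, Finset.sum_const, Finset.card_univ, Fintype.card_fin, nsmul_eq_mul,
    Measure.real, volume_stdS, Nat.factorial_succ]
  push_cast
  have : (n.factorial : ℝ) ≠ 0 := by positivity
  field_simp
  ring

/-- The trace criterion. -/
lemma trace_le (hK : IsCompact K) (hV : 0 < (volume K).toReal) :
    (Bmat n * covMatrix K).trace
      ≤ ((n : ℝ) + 1) * (n + 2) * ((volume K).toReal⁻¹ * (∫ x in K, qq x) - 1 / ((n : ℝ) + 1)) := by
  rw [trace_Bmat_mul]
  have hn1 : ((n : ℝ) + 1) ≠ 0 := by positivity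
  refine mul_le_mul_of_nonneg_left ?_ (by positivity)
  set b := centroid K with hb
  set V := (volume K).toReal with hVd
  have hx : ∀ i, ∫ x in K, x i = V * b i := by
    intro i; simp only [hb, centroid, ← hVd]; field_simp
  have e : ∀ x : Fin n → ℝ, qq x = ∑ i, x i * x i + ∑ i, ∑ j, x j * x i - 2 * ∑ i, x i + 1 := by
    intro x
    simp only [qq]
    rw [Finset.sum_comm, ← Finset.sum_mul_sum]
    simp_rw [← sq]
    ring
  have hq : V⁻¹ * ∫ x in K, qq x = ∑ i, V⁻¹ * (∫ x in K, x i * x i)
      + ∑ i, ∑ j, V⁻¹ * (∫ x in K, x j * x i) - 2 * ∑ i, b i + 1 := by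
    simp_rw [e]
    rw [integral_add (intOn hK (by fun_prop)) (intOn hK (by fun_prop)),
      integral_sub (intOn hK (by fun_prop)) (intOn hK (by fun_prop)),
      integral_add (intOn hK (by fun_prop)) (intOn hK (by fun_prop)),
      integral_finsetSum _ (fun i _ => intOn hK (by fun_prop)),
      integral_finsetSum _ (fun i _ => intOn hK (by fun_prop)),
      integral_const_mul,
      integral_finsetSum _ (fun i _ => intOn hK (by fun_prop)), setIntegral_const, smul_eq_mul]
    have : ∀ i : Fin n, ∫ x in K, ∑ j, x j * x i = ∑ j, ∫ x in K, x j * x i := by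
      intro i
      rw [integral_finsetSum _ (fun i _ => intOn hK (by fun_prop))]
    simp_rw [this, hx, ← Finset.mul_sum]
    simp only [Measure.real, ← hVd]
    field_simp
  rw [hq]
  simp_rw [cov_eq hK hV.ne', ← hb, ← hVd]
  rw [Finset.sum_sub_distrib]
  simp_rw [Finset.sum_sub_distrib]
  have h1 : ∑ i, ∑ j, b j * b i = (∑ i, b i) ^ 2 := by
    rw [Finset.sum_comm, ← Finset.sum_mul_sum, sq]
  have h2 : 0 ≤ ∑ i, (b i - 1 / ((n : ℝ) + 1)) ^ 2 + (∑ i, (b i - 1 / ((n : ℝ) + 1))) ^ 2 := by
    have : 0 ≤ ∑ i, (b i - 1 / ((n : ℝ) + 1)) ^ 2 := Finset.sum_nonneg (fun i _ => sq_nonneg _)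
    positivity
  have h3 : ∑ i, (b i - 1 / ((n : ℝ) + 1)) ^ 2 + (∑ i, (b i - 1 / ((n : ℝ) + 1))) ^ 2
      = ∑ i, b i * b i + (∑ i, b i) ^ 2 - 2 * ∑ i, b i + 1 - 1 / ((n : ℝ) + 1) := by
    have e4 : ∀ i, (b i - 1 / ((n : ℝ) + 1)) ^ 2
        = b i * b i - 2 / ((n : ℝ) + 1) * b i + 1 / ((n : ℝ) + 1) ^ 2 := by
      intro i; field_simp; ring
    simp_rw [e4]
    rw [Finset.sum_add_distrib, Finset.sum_sub_distrib, ← Finset.mul_sum, Finset.sum_sub_distrib]
    simp only [Finset.sum_const, Finset.card_univ, Fintype.card_fin, nsmul_eq_mul]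
    field_simp
    ring
  rw [h1]
  rw [h3] at h2
  linarith

/-- **Criterion.** If `K ⊆ stdS` is compact with positive volume and the integral of
`qq - 2/(n+1)` over the missing part `stdS \ K` is nonnegative, then
`det Σ_K / |K|² ≤ det Σ_Δ / |Δ|²`, with strict inequality as soon as `|K| < |Δ|`. -/
lemma criterion (hn : 0 < n) (hK : IsCompact K) (hV : 0 < (volume K).toReal) (hsub : K ⊆ stdS n)
    (H : 0 ≤ ∫ x in stdS n \ K, (qq x - 2 / ((n : ℝ) + 1))) :
    (covMatrix K).det / (volume K).toReal ^ 2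
        ≤ (covMatrix (stdS n)).det / (volume (stdS n)).toReal ^ 2 ∧
      ((volume K).toReal < (volume (stdS n)).toReal →
        (covMatrix K).det / (volume K).toReal ^ 2
          < (covMatrix (stdS n)).det / (volume (stdS n)).toReal ^ 2) := by
  set V := (volume K).toReal with hVd
  set W := (volume (stdS n)).toReal with hWd
  have hW : 0 < W := volume_stdS_pos
  have hn0 : (0 : ℝ) < n := by exact_mod_cast hn
  have hfin : volume (stdS n) ≠ ⊤ := isCompact_stdS.measure_ne_top
  have hVW : V ≤ W := ENNReal.toReal_mono hfin (measure_mono hsub)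
  -- the integral of `qq` over `K`
  have hcq := continuous_qq (n := n)
  have hdiff : ∫ x in stdS n \ K, (qq x - 2 / ((n : ℝ) + 1))
      = (∫ x in stdS n, (qq x - 2 / ((n : ℝ) + 1))) - ∫ x in K, (qq x - 2 / ((n : ℝ) + 1)) :=
    setIntegral_sdiff₀ hK.measurableSet.nullMeasurableSet
      (intOn isCompact_stdS (by fun_prop)) hsub
  rw [hdiff, integral_sub (intOn isCompact_stdS hcq) (intOn isCompact_stdS (by fun_prop)),
    integral_sub (intOn hK hcq) (intOn hK (by fun_prop)), setIntegral_const, setIntegral_const,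
    integral_stdS_qq] at H
  simp only [Measure.real, smul_eq_mul, ← hVd, ← hWd] at H
  have hn1 : (0 : ℝ) < (n : ℝ) + 1 := by positivity
  have hn2 : (0 : ℝ) < (n : ℝ) + 2 := by positivity
  set Q := ∫ x in K, qq x with hQ
  set p := V / W with hp
  have hp0 : 0 < p := div_pos hV hW
  have hp1 : p ≤ 1 := (div_le_one hW).mpr hVW
  have hVp : V = p * W := by rw [hp]; field_simp
  -- bound on the normalised trace
  set X := (Bmat n * covMatrix K).trace / n with hX
  have htr := trace_le hK hV
  have hX1 : X ≤ (1 / p) * (1 + (1 + 2 / (n : ℝ)) * (p - 1)) := by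
    have h1 : V⁻¹ * Q - 1 / ((n : ℝ) + 1) ≤ (1 / ((n : ℝ) + 1)) * ((1 / p) * (p - 2 / ((n : ℝ) + 2))) := by
      have hQle : Q ≤ W * (2 / ((n : ℝ) + 2)) - W * (2 / ((n : ℝ) + 1)) + V * (2 / ((n : ℝ) + 1)) := by
        linarith
      have : V⁻¹ * Q ≤ V⁻¹ * (W * (2 / ((n : ℝ) + 2)) - W * (2 / ((n : ℝ) + 1))
          + V * (2 / ((n : ℝ) + 1))) := mul_le_mul_of_nonneg_left hQle (inv_nonneg.mpr hV.le)
      refine (sub_le_sub_right this _).trans (le_of_eq ?_)
      rw [hVp]
      field_simp
      ring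
    have h2 : (Bmat n * covMatrix K).trace
        ≤ ((n : ℝ) + 1) * (n + 2) * ((1 / ((n : ℝ) + 1)) * ((1 / p) * (p - 2 / ((n : ℝ) + 2)))) :=
      htr.trans (mul_le_mul_of_nonneg_left h1 (by positivity))
    rw [hX, div_le_iff₀ hn0]
    refine h2.trans (le_of_eq ?_)
    field_simp
    ring
  have hC := covMatrix_posSemidef hK
  have hX0 : 0 ≤ X := by
    rw [hX, trace_Bmat_mul]
    have h1 : 0 ≤ ∑ i, covMatrix K i i := Finset.sum_nonneg (fun i _ => hC.diag_nonneg)
    have h2 : 0 ≤ ∑ i, ∑ j, covMatrix K j i := by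
      have := cov_quad hK (fun _ => (1 : ℝ))
      simp only [one_mul, mul_one] at this
      rw [Finset.sum_comm, this]
      exact mul_nonneg (inv_nonneg.mpr ENNReal.toReal_nonneg) (integral_nonneg (fun x => sq_nonneg _))
    positivity
  have hdet := det_mul_det_le hn Bmat_posSemidef hC
  rw [← hX] at hdet
  -- Bernoulli
  have hB : 1 + (1 + 2 / (n : ℝ)) * (p - 1) ≤ p ^ (1 + 2 / (n : ℝ)) := by
    have := one_add_mul_self_le_rpow_one_add (s := p - 1) (by linarith) (p := 1 + 2 / (n : ℝ))
      (by have : 0 < 2 / (n : ℝ) := by positivity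
          linarith)
    rwa [add_sub_cancel] at this
  have hpow : (1 / p) * p ^ (1 + 2 / (n : ℝ)) = p ^ (2 / (n : ℝ)) := by
    rw [Real.rpow_add hp0, Real.rpow_one]; field_simp
  have hX2 : X ≤ p ^ (2 / (n : ℝ)) := by
    rw [← hpow]
    exact hX1.trans (mul_le_mul_of_nonneg_left hB (by positivity))
  have hpn : (p ^ (2 / (n : ℝ))) ^ n = p ^ 2 := by
    rw [← Real.rpow_natCast, ← Real.rpow_mul hp0.le, div_mul_cancel₀ _ hn0.ne']
    norm_num
  have hdetB : 0 < (Bmat n).det := by
    have h1 := det_B_mul_det_cov (n := n)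
    have h2 : 0 ≤ (Bmat n).det := Bmat_posSemidef.det_nonneg
    rcases h2.lt_or_eq with h | h
    · exact h
    · rw [← h, zero_mul] at h1; norm_num at h1
  have hdetC : (covMatrix (stdS n)).det = ((Bmat n).det)⁻¹ := by
    exact eq_inv_of_mul_eq_one_right det_B_mul_det_cov
  have final : ∀ D : ℝ, (Bmat n).det * D ≤ p ^ 2 → D / V ^ 2 ≤ ((Bmat n).det)⁻¹ / W ^ 2 := by
    intro D hD
    rw [hVp, div_le_div_iff₀ (by positivity) (by positivity), inv_mul_eq_div, le_div_iff₀ hdetB]
    nlinarith [mul_le_mul_of_nonneg_right hD (sq_nonneg W)]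
  have final' : ∀ D : ℝ, (Bmat n).det * D < p ^ 2 → D / V ^ 2 < ((Bmat n).det)⁻¹ / W ^ 2 := by
    intro D hD
    rw [hVp, div_lt_div_iff₀ (by positivity) (by positivity), inv_mul_eq_div, lt_div_iff₀ hdetB]
    have hW2 : 0 < W ^ 2 := by positivity
    nlinarith [mul_lt_mul_of_pos_right hD hW2]
  rw [hdetC]
  refine ⟨final _ (hdet.trans ?_), fun hlt => final' _ (hdet.trans_lt ?_)⟩
  · rw [← hpn]
    exact pow_le_pow_left₀ hX0 hX2 n
  · rw [← hpn]
    have hp1' : p < 1 := (div_lt_one hW).mpr hlt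
    have hB' : 1 + (1 + 2 / (n : ℝ)) * (p - 1) < p ^ (1 + 2 / (n : ℝ)) := by
      have := one_add_mul_self_lt_rpow_one_add (s := p - 1) (by linarith) (by linarith)
        (p := 1 + 2 / (n : ℝ)) (by have : 0 < 2 / (n : ℝ) := by positivity
                                   linarith)
      rwa [add_sub_cancel] at this
    have hX3 : X < p ^ (2 / (n : ℝ)) := by
      rw [← hpow]
      exact hX1.trans_lt (mul_lt_mul_of_pos_left hB' (by positivity))
    exact pow_lt_pow_left₀ hX3 hX0 hn.ne'

/-- The criterion in terms of the isotropic constant. -/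
lemma isoConst_criterion (hn : 0 < n) (hK : IsCompact K) (hV : 0 < (volume K).toReal)
    (hsub : K ⊆ stdS n) (H : 0 ≤ ∫ x in stdS n \ K, (qq x - 2 / ((n : ℝ) + 1))) :
    isoConst K ≤ isoConst (stdS n) ∧
      ((volume K).toReal < (volume (stdS n)).toReal → isoConst K < isoConst (stdS n)) := by
  obtain ⟨h1, h2⟩ := criterion hn hK hV hsub H
  have hn0 : (0 : ℝ) < n := by exact_mod_cast hn
  have h0 : 0 ≤ (covMatrix K).det / (volume K).toReal ^ 2 :=
    div_nonneg (covMatrix_posSemidef hK).det_nonneg (by positivity)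
  refine ⟨Real.rpow_le_rpow h0 h1 (by positivity), fun hlt => ?_⟩
  exact Real.rpow_lt_rpow h0 (h2 hlt) (by positivity)

end Vale.Agent.P254
end

section

open MeasureTheory Set Matrix
open scoped Pointwise

namespace Vale.Agent.P254

variable {n : ℕ} {K : Set (Fin n → ℝ)}

/-- The affine map `x ↦ A x + b`. -/
noncomputable def aff (A : Matrix (Fin n) (Fin n) ℝ) (b : Fin n → ℝ) (x : Fin n → ℝ) : Fin n → ℝ :=
  A *ᵥ x + b

lemma aff_apply (A : Matrix (Fin n) (Fin n) ℝ) (b x : Fin n → ℝ) (i : Fin n) :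
    aff A b x i = ∑ j, A i j * x j + b i := rfl

lemma continuous_aff (A : Matrix (Fin n) (Fin n) ℝ) (b : Fin n → ℝ) : Continuous (aff A b) := by
  unfold aff; fun_prop

lemma aff_injective {A : Matrix (Fin n) (Fin n) ℝ} (hA : A.det ≠ 0) (b : Fin n → ℝ) :
    Function.Injective (aff A b) := by
  intro x y hxy
  have h : A *ᵥ x = A *ᵥ y := by simpa [aff] using hxy
  have hu : IsUnit A := (Matrix.isUnit_iff_isUnit_det A).mpr (isUnit_iff_ne_zero.mpr hA)
  exact (Matrix.mulVec_injective_iff_isUnit.mpr hu) h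

lemma hasFDerivAt_aff (A : Matrix (Fin n) (Fin n) ℝ) (b x : Fin n → ℝ) :
    HasFDerivAt (aff A b) (LinearMap.toContinuousLinearMap (Matrix.toLin' A)) x := by
  have h := (LinearMap.toContinuousLinearMap (Matrix.toLin' A)).hasFDerivAt (x := x)
  have h2 := h.add_const b
  refine h2.congr_of_eventuallyEq (Filter.Eventually.of_forall (fun y => ?_))
  simp [aff]

lemma setIntegral_aff_image {A : Matrix (Fin n) (Fin n) ℝ} (hA : A.det ≠ 0) (b : Fin n → ℝ)
    {s : Set (Fin n → ℝ)} (hs : MeasurableSet s) (f : (Fin n → ℝ) → ℝ) :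
    ∫ x in aff A b '' s, f x = |A.det| * ∫ x in s, f (aff A b x) := by
  have h := integral_image_eq_integral_abs_det_fderiv_smul (volume : Measure (Fin n → ℝ)) hs
    (f' := fun _ => LinearMap.toContinuousLinearMap (Matrix.toLin' A))
    (fun x _ => (hasFDerivAt_aff A b x).hasFDerivWithinAt) (aff_injective hA b).injOn f
  rw [h]
  have hdet : (LinearMap.toContinuousLinearMap (Matrix.toLin' A)).det = A.det := by
    rw [ContinuousLinearMap.det]
    simp
  simp only [hdet, smul_eq_mul]
  rw [integral_const_mul]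

lemma volume_aff_image {A : Matrix (Fin n) (Fin n) ℝ} (hA : A.det ≠ 0) (b : Fin n → ℝ)
    {s : Set (Fin n → ℝ)} (hs : MeasurableSet s) :
    (volume (aff A b '' s)).toReal = |A.det| * (volume s).toReal := by
  have := setIntegral_aff_image hA b hs (fun _ => 1)
  simpa [Measure.real] using this

lemma isCompact_aff_image (A : Matrix (Fin n) (Fin n) ℝ) (b : Fin n → ℝ) (hK : IsCompact K) :
    IsCompact (aff A b '' K) := hK.image (continuous_aff A b)

lemma centroid_aff_image {A : Matrix (Fin n) (Fin n) ℝ} (hA : A.det ≠ 0) (b : Fin n → ℝ)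
    (hK : IsCompact K) (hV : (volume K).toReal ≠ 0) :
    centroid (aff A b '' K) = aff A b (centroid K) := by
  ext i
  have hA' : |A.det| ≠ 0 := abs_ne_zero.mpr hA
  simp only [centroid]
  rw [setIntegral_aff_image hA b hK.measurableSet, volume_aff_image hA b hK.measurableSet]
  simp_rw [aff_apply]
  rw [integral_add (intOn hK (by fun_prop)) (intOn hK (by fun_prop)),
    integral_finsetSum _ (fun i _ => intOn hK (by fun_prop)), setIntegral_const]
  simp_rw [integral_const_mul]
  simp only [Measure.real, smul_eq_mul]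
  have : ∀ j, A i j * ((volume K).toReal⁻¹ * ∫ x in K, x j)
      = (volume K).toReal⁻¹ * (A i j * ∫ x in K, x j) := by intro j; ring
  simp only [centroid]
  simp_rw [this]
  rw [← Finset.mul_sum]
  field_simp

lemma cov_aff_image {A : Matrix (Fin n) (Fin n) ℝ} (hA : A.det ≠ 0) (b : Fin n → ℝ)
    (hK : IsCompact K) (hV : (volume K).toReal ≠ 0) :
    covMatrix (aff A b '' K) = A * covMatrix K * Aᵀ := by
  ext i j
  have hA' : |A.det| ≠ 0 := abs_ne_zero.mpr hA
  simp only [covMatrix]
  rw [centroid_aff_image hA b hK hV, setIntegral_aff_image hA b hK.measurableSet,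
    volume_aff_image hA b hK.measurableSet]
  have e : ∀ x, (aff A b x i - aff A b (centroid K) i) * (aff A b x j - aff A b (centroid K) j)
      = ∑ k, ∑ l, A i k * ((x k - centroid K k) * (x l - centroid K l)) * A j l := by
    intro x
    simp only [aff_apply]
    have e1 : ∀ i, (∑ k, A i k * x k + b i) - (∑ k, A i k * centroid K k + b i)
        = ∑ k, A i k * (x k - centroid K k) := by
      intro i
      simp_rw [mul_sub]
      rw [Finset.sum_sub_distrib]
      ring
    rw [e1, e1, Finset.sum_mul_sum]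
    refine Finset.sum_congr rfl (fun k _ => Finset.sum_congr rfl (fun l _ => ?_))
    ring
  simp_rw [e]
  rw [integral_finsetSum _ (fun i _ => intOn hK (by fun_prop))]
  have e2 : ∀ k, ∫ x in K, ∑ l, A i k * ((x k - centroid K k) * (x l - centroid K l)) * A j l
      = ∑ l, A i k * (∫ x in K, (x k - centroid K k) * (x l - centroid K l)) * A j l := by
    intro k
    rw [integral_finsetSum _ (fun i _ => intOn hK (by fun_prop))]
    refine Finset.sum_congr rfl (fun l _ => ?_)
    rw [integral_mul_const, integral_const_mul]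
  simp_rw [e2]
  simp only [mul_apply, transpose_apply, Finset.sum_mul, covMatrix, Finset.mul_sum]
  rw [Finset.sum_comm]
  refine Finset.sum_congr rfl (fun l _ => Finset.sum_congr rfl (fun k _ => ?_))
  field_simp

/-- Affine invariance of the isotropic constant. -/
lemma isoConst_aff_image {A : Matrix (Fin n) (Fin n) ℝ} (hA : A.det ≠ 0) (b : Fin n → ℝ)
    (hK : IsCompact K) (hV : (volume K).toReal ≠ 0) :
    isoConst (aff A b '' K) = isoConst K := by
  simp only [isoConst]
  rw [cov_aff_image hA b hK hV, volume_aff_image hA b hK.measurableSet, det_mul, det_mul,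
    det_transpose, mul_pow, sq_abs]
  congr 1
  field_simp

end Vale.Agent.P254
end

section

open MeasureTheory Set Matrix
open scoped Pointwise

namespace Vale.Agent.P254

variable {n : ℕ} {K : Set (Fin n → ℝ)}

/-- `aff A b` as an affine map. -/
noncomputable def affMap (A : Matrix (Fin n) (Fin n) ℝ) (b : Fin n → ℝ) :
    (Fin n → ℝ) →ᵃ[ℝ] (Fin n → ℝ) :=
  (Matrix.toLin' A).toAffineMap + AffineMap.const ℝ _ b

lemma affMap_apply (A : Matrix (Fin n) (Fin n) ℝ) (b x : Fin n → ℝ) :
    affMap A b x = aff A b x := by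
  simp [affMap, aff]

lemma coe_affMap (A : Matrix (Fin n) (Fin n) ℝ) (b : Fin n → ℝ) :
    (affMap A b : (Fin n → ℝ) → (Fin n → ℝ)) = aff A b := by
  ext1 x; exact affMap_apply A b x

/-- Vertices of the standard simplex. -/
noncomputable def stdV (n : ℕ) : Fin (n + 1) → (Fin n → ℝ) :=
  Fin.cons 0 (fun k => Pi.single k 1)

lemma stdV_zero : stdV n 0 = 0 := rfl

lemma stdV_succ (k : Fin n) : stdV n k.succ = Pi.single k 1 := rfl

lemma stdS_eq_convexHull : stdS n = convexHull ℝ (range (stdV n)) := by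
  apply Subset.antisymm
  · intro x hx
    have h := (convex_convexHull ℝ (range (stdV n))).sum_mem (t := Finset.univ)
      (w := fun i : Fin (n + 1) => (Fin.cons (1 - ∑ k, x k) x : Fin (n + 1) → ℝ) i)
      (z := stdV n)
      (by
        intro i _
        refine Fin.cases ?_ (fun k => ?_) i
        · simp only [Fin.cons_zero]; linarith [hx.2]
        · simp only [Fin.cons_succ]; exact hx.1 k)
      (by rw [Fin.sum_univ_succ]; simp)
      (fun i _ => subset_convexHull ℝ _ (mem_range_self i))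
    rw [Fin.sum_univ_succ] at h
    simp only [Fin.cons_zero, stdV_zero, smul_zero, zero_add, Fin.cons_succ, stdV_succ] at h
    have e : ∑ k, x k • (Pi.single k (1 : ℝ) : Fin n → ℝ) = x := by
      ext j
      rw [Finset.sum_apply]
      simp [Pi.single_apply]
    rwa [e] at h
  · refine convexHull_min ?_ convex_stdS
    rintro _ ⟨i, rfl⟩
    refine Fin.cases ?_ (fun k => ?_) i
    · rw [stdV_zero]; exact ⟨fun i => le_refl _, by simp⟩
    · rw [stdV_succ]
      refine ⟨fun j => ?_, by simp⟩
      by_cases h : j = k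
      · subst h; simp
      · simp [h]

lemma image_stdS (A : Matrix (Fin n) (Fin n) ℝ) (b : Fin n → ℝ) :
    aff A b '' stdS n = convexHull ℝ (range (fun i => aff A b (stdV n i))) := by
  rw [stdS_eq_convexHull, ← coe_affMap, AffineMap.image_convexHull, ← range_comp]
  rfl

lemma affineIndependent_stdV : AffineIndependent ℝ (stdV n) := by
  rw [affineIndependent_iff_linearIndependent_vsub ℝ _ (0 : Fin (n + 1))]
  have h : LinearIndependent ℝ (fun k : Fin n => (Pi.single k (1 : ℝ) : Fin n → ℝ)) := by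
    have := (Pi.basisFun ℝ (Fin n)).linearIndependent
    convert this using 1
    ext k
    simp
  have h2 := h.comp (fun i : {x : Fin (n + 1) // x ≠ 0} => i.1.pred i.2)
    (by
      intro a b hab
      have := Fin.pred_inj.mp hab
      exact Subtype.ext this)
  have h3 : (fun i : {x : Fin (n + 1) // x ≠ 0} => (stdV n i.1 -ᵥ stdV n 0 : Fin n → ℝ))
      = (fun k : Fin n => (Pi.single k (1 : ℝ) : Fin n → ℝ)) ∘ fun i => i.1.pred i.2 := by
    ext1 i
    obtain ⟨i, hi⟩ := i
    obtain ⟨k, rfl⟩ := Fin.exists_succ_eq.mpr hi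
    simp [stdV_succ, stdV_zero]
  rw [h3]
  exact h2

lemma isSimplex_image {A : Matrix (Fin n) (Fin n) ℝ} (hA : A.det ≠ 0) (b : Fin n → ℝ) :
    IsSimplex (aff A b '' stdS n) := by
  refine ⟨fun i => aff A b (stdV n i), ?_, image_stdS A b⟩
  have hinj : Function.Injective (affMap A b) := by
    rw [coe_affMap]; exact aff_injective hA b
  have := (affineIndependent_stdV (n := n)).map' (affMap A b) hinj
  rw [coe_affMap] at this
  exact this

lemma IsSimplex.exists_aff {T : Set (Fin n → ℝ)} (hT : IsSimplex T) :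
    ∃ (A : Matrix (Fin n) (Fin n) ℝ) (b : Fin n → ℝ), A.det ≠ 0 ∧ T = aff A b '' stdS n := by
  obtain ⟨v, hv, rfl⟩ := hT
  set A : Matrix (Fin n) (Fin n) ℝ := fun i k => v k.succ i - v 0 i with hA
  have e : (fun i => aff A (v 0) (stdV n i)) = v := by
    ext i j
    refine Fin.cases ?_ (fun k => ?_) i
    · simp [stdV_zero, aff]
    · rw [stdV_succ, aff_apply]
      simp [hA, Pi.single_apply]
  refine ⟨A, v 0, ?_, ?_⟩
  · rw [affineIndependent_iff_linearIndependent_vsub ℝ _ (0 : Fin (n + 1))] at hv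
    have h1 : LinearIndependent ℝ (fun k : Fin n => v k.succ - v 0) := by
      have := hv.comp (fun k : Fin n => (⟨k.succ, Fin.succ_ne_zero k⟩ : {x : Fin (n + 1) // x ≠ 0}))
        (by
          intro a b hab
          simpa using hab)
      exact this
    have h2 : LinearIndependent ℝ (Aᵀ).row := by
      have : (Aᵀ).row = fun k : Fin n => v k.succ - v 0 := by
        ext k j; rfl
      rw [this]
      exact h1
    have h3 := Matrix.linearIndependent_rows_iff_isUnit.mp h2
    rw [Matrix.isUnit_iff_isUnit_det, det_transpose] at h3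
    exact h3.ne_zero
  · rw [image_stdS, e]

end Vale.Agent.P254
end

section

open MeasureTheory Set Matrix Filter Topology
open scoped Pointwise

namespace Vale.Agent.P254

variable {n : ℕ} {K : Set (Fin n → ℝ)}

lemma aff_aff (A A' : Matrix (Fin n) (Fin n) ℝ) (b b' x : Fin n → ℝ) :
    aff A b (aff A' b' x) = aff (A * A') (A *ᵥ b' + b) x := by
  simp only [aff, mulVec_add, mulVec_mulVec, add_assoc]

/-- A position of `K` inside the standard simplex of maximal volume. -/
lemma exists_maxPos (hn : 0 < n) (hK : IsConvexBody K) :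
    ∃ (A : Matrix (Fin n) (Fin n) ℝ) (b : Fin n → ℝ), A.det ≠ 0 ∧ aff A b '' K ⊆ stdS n ∧
      ∀ (A' : Matrix (Fin n) (Fin n) ℝ) (b' : Fin n → ℝ), aff A' b' '' K ⊆ stdS n →
        |A'.det| ≤ |A.det| := by
  obtain ⟨-, hKc, x0, hx0⟩ := hK
  obtain ⟨r, hr, hball⟩ := Metric.isOpen_iff.mp isOpen_interior x0 hx0
  have hball' : Metric.ball x0 r ⊆ K := hball.trans interior_subset
  set ρ := r / 2 with hρ
  have hρ0 : 0 < ρ := by positivity
  have hpt : ∀ j : Fin n, x0 + Pi.single j ρ ∈ K ∧ x0 - Pi.single j ρ ∈ K := by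
    intro j
    have hnorm : ‖(Pi.single j ρ : Fin n → ℝ)‖ < r := by
      rw [Pi.norm_single, Real.norm_eq_abs, abs_of_pos hρ0]
      linarith
    constructor
    · apply hball'; simpa [Metric.mem_ball, dist_eq_norm] using hnorm
    · apply hball'; simpa [Metric.mem_ball, dist_eq_norm] using hnorm
  set S : Set (Matrix (Fin n) (Fin n) ℝ × (Fin n → ℝ)) := {p | ∀ x ∈ K, aff p.1 p.2 x ∈ stdS n} with hS
  set M1 : ℝ := 1 / (2 * ρ) with hM1
  set M2 : ℝ := 1 + ∑ j, M1 * |x0 j| with hM2
  have hcomp : IsCompact ((univ.pi (fun _ : Fin n => univ.pi (fun _ : Fin n => Icc (-M1) M1))) ×ˢ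
      (univ.pi (fun _ : Fin n => Icc (-M2) M2)) : Set ((Fin n → Fin n → ℝ) × (Fin n → ℝ))) :=
    (isCompact_univ_pi (fun _ => isCompact_univ_pi (fun _ => isCompact_Icc))).prod
      (isCompact_univ_pi (fun _ => isCompact_Icc))
  have hclosed : IsClosed S := by
    have : S = ⋂ x ∈ K, {p : Matrix (Fin n) (Fin n) ℝ × (Fin n → ℝ) | aff p.1 p.2 x ∈ stdS n} := by
      ext p; simp [hS]
    rw [this]
    refine isClosed_biInter (fun x _ => isClosed_stdS.preimage ?_)
    unfold aff
    fun_prop
  have hsub : S ⊆ ((univ.pi (fun _ : Fin n => univ.pi (fun _ : Fin n => Icc (-M1) M1))) ×ˢ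
      (univ.pi (fun _ : Fin n => Icc (-M2) M2)) : Set ((Fin n → Fin n → ℝ) × (Fin n → ℝ))) := by
    rintro ⟨A, b⟩ hp
    have hA : ∀ i j, |A i j| ≤ M1 := by
      intro i j
      have h1 := stdS_subset_Icc (hp _ (hpt j).1)
      have h2 := stdS_subset_Icc (hp _ (hpt j).2)
      have h3 : aff A b (x0 + Pi.single j ρ) i - aff A b (x0 - Pi.single j ρ) i = 2 * ρ * A i j := by
        simp only [aff_apply, Pi.add_apply, Pi.sub_apply, mul_add, mul_sub, Finset.sum_add_distrib,
          Finset.sum_sub_distrib]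
        have : ∑ k, A i k * (Pi.single j ρ : Fin n → ℝ) k = A i j * ρ := by
          simp [Pi.single_apply]
        rw [this]; ring
      have h4 := h1.1 i; have h5 := h1.2 i; have h6 := h2.1 i; have h7 := h2.2 i
      simp only [Pi.zero_apply, Pi.one_apply] at h4 h5 h6 h7
      have h8 : |2 * ρ * A i j| ≤ 1 := by
        rw [← h3, abs_le]; constructor <;> linarith
      rw [abs_mul, abs_of_pos (by positivity : 0 < 2 * ρ)] at h8
      rw [hM1, le_div_iff₀ (by positivity)]
      linarith
    have hb : ∀ i, |b i| ≤ M2 := by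
      intro i
      have hx0K : x0 ∈ K := interior_subset hx0
      have h1 := stdS_subset_Icc (hp _ hx0K)
      have h4 := h1.1 i; have h5 := h1.2 i
      simp only [Pi.zero_apply, Pi.one_apply] at h4 h5
      have h2 : b i = aff A b x0 i - ∑ j, A i j * x0 j := by rw [aff_apply]; ring
      rw [h2]
      calc |aff A b x0 i - ∑ j, A i j * x0 j| ≤ |aff A b x0 i| + |∑ j, A i j * x0 j| := abs_sub _ _
        _ ≤ 1 + ∑ j, |A i j * x0 j| := by
            gcongr
            · rw [abs_of_nonneg h4]; exact h5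
            · exact Finset.abs_sum_le_sum_abs _ _
        _ ≤ M2 := by
            rw [hM2]
            gcongr with j
            rw [abs_mul]
            gcongr
            exact hA i j
    refine ⟨fun i _ j _ => ?_, fun i _ => ?_⟩
    · exact abs_le.mp (hA i j)
    · exact abs_le.mp (hb i)
  have hScomp : IsCompact S := hcomp.of_isClosed_subset hclosed hsub
  have hne : S.Nonempty := by
    refine ⟨(0, 0), fun x _ => ?_⟩
    simp only [aff, zero_mulVec, add_zero]
    exact ⟨fun i => le_refl _, by simp⟩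
  have hcont : ContinuousOn (fun p : Matrix (Fin n) (Fin n) ℝ × (Fin n → ℝ) => |p.1.det|) S := by
    have : Continuous (fun p : Matrix (Fin n) (Fin n) ℝ × (Fin n → ℝ) => |p.1.det|) :=
      (continuous_fst.matrix_det).abs
    exact this.continuousOn
  obtain ⟨⟨A, b⟩, hAb, hmax⟩ := hScomp.exists_isMaxOn hne hcont
  refine ⟨A, b, ?_, ?_, ?_⟩
  · -- det A ≠ 0
    obtain ⟨R, hR⟩ := hKc.isBounded.subset_closedBall 0
    set R' := max R 1 with hR'
    have hR'0 : 0 < R' := lt_of_lt_of_le one_pos (le_max_right _ _)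
    have hn0 : (0 : ℝ) < n := by exact_mod_cast hn
    set c : ℝ := 1 / (2 * R' * n) with hc
    have hc0 : 0 < c := by positivity
    have hmem : ((c • (1 : Matrix (Fin n) (Fin n) ℝ), fun _ => c * R') :
        Matrix (Fin n) (Fin n) ℝ × (Fin n → ℝ)) ∈ S := by
      intro x hx
      have hx' : ∀ i, |x i| ≤ R' := by
        intro i
        have := hR hx
        rw [mem_closedBall_zero_iff] at this
        have h2 := norm_le_pi_norm x i
        rw [Real.norm_eq_abs] at h2
        exact h2.trans (this.trans (le_max_left _ _))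
      have hval : ∀ i, aff (c • (1 : Matrix (Fin n) (Fin n) ℝ)) (fun _ => c * R') x i
          = c * (x i + R') := by
        intro i
        simp [aff, smul_mulVec]
        ring
      refine ⟨fun i => ?_, ?_⟩
      · rw [hval]
        have := (abs_le.mp (hx' i)).1
        exact mul_nonneg hc0.le (by linarith)
      · simp_rw [hval]
        calc ∑ i, c * (x i + R') ≤ ∑ _i : Fin n, c * (2 * R') := by
              gcongr with i
              have := (abs_le.mp (hx' i)).2
              linarith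
          _ = 1 := by
              simp only [Finset.sum_const, Finset.card_univ, Fintype.card_fin, nsmul_eq_mul]
              rw [hc]; field_simp
          _ ≤ 1 := le_refl _
    have := hmax hmem
    simp only [mem_ofPred_eq] at this
    rw [det_smul, det_one, mul_one, Fintype.card_fin] at this
    have h2 : 0 < |c ^ n| := by positivity
    exact abs_pos.mp (h2.trans_le this)
  · rintro _ ⟨x, hx, rfl⟩; exact hAb x hx
  · intro A' b' h
    exact hmax (show ((A', b') : Matrix (Fin n) (Fin n) ℝ × (Fin n → ℝ)) ∈ S from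
      fun x hx => h (mem_image_of_mem _ hx))

/-- If `∑ a_i > 0`, then `∏ (1 + η a_i) > 1` for all small `η > 0`. -/
lemma eventually_prod_gt {a : Fin n → ℝ} (ha : 0 < ∑ i, a i) :
    ∀ᶠ η in 𝓝[>] (0 : ℝ), 1 < ∏ i, (1 + η * a i) := by
  have hd : HasDerivAt (fun η : ℝ => ∏ i, (1 + η * a i)) (∑ i, a i) 0 := by
    have h1 : ∀ i ∈ (Finset.univ : Finset (Fin n)),
        HasDerivAt (fun η : ℝ => 1 + η * a i) (a i) 0 := by
      intro i _
      have := ((hasDerivAt_id (0 : ℝ)).mul_const (a i)).const_add 1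
      simpa using this
    have := HasDerivAt.fun_finsetProd h1
    simpa using this
  have h2 := hasDerivAt_iff_tendsto_slope.mp hd
  have h3 : ∀ᶠ η in 𝓝[≠] (0 : ℝ), 0 < slope (fun η : ℝ => ∏ i, (1 + η * a i)) 0 η :=
    h2.eventually (lt_mem_nhds ha)
  have h4 : 𝓝[>] (0 : ℝ) ≤ 𝓝[≠] 0 := nhdsWithin_mono _ (fun x hx => ne_of_gt hx)
  filter_upwards [h4 h3, self_mem_nhdsWithin] with η hη hpos
  have hpos : 0 < η := hpos
  rw [slope_def_field] at hη
  simp only [zero_mul, add_zero, Finset.prod_const_one, sub_zero] at hη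
  have := (div_pos_iff_of_pos_right hpos).mp hη
  linarith

/-- `K` is in maximal position inside the standard simplex. -/
def IsMaxPos (K : Set (Fin n → ℝ)) : Prop :=
  K ⊆ stdS n ∧ ∀ (A : Matrix (Fin n) (Fin n) ℝ) (b : Fin n → ℝ), aff A b '' K ⊆ stdS n → |A.det| ≤ 1

lemma IsMaxPos.centroid_mem (hn : 0 < n) (hKc : IsCompact K) (hKv : Convex ℝ K)
    (h : IsMaxPos K) : (fun _ => 1 / (n : ℝ)) ∈ K := by
  by_contra hc
  have hn0 : (0 : ℝ) < n := by exact_mod_cast hn
  obtain ⟨f, u, hf1, hf2⟩ := geometric_hahn_banach_closed_point hKv hKc.isClosed hc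
  set β : Fin n → ℝ := fun i => f (Pi.single i 1) with hβ
  have hfx : ∀ x : Fin n → ℝ, f x = ∑ i, x i * β i := by
    intro x
    have : x = ∑ i, x i • (Pi.single i (1 : ℝ) : Fin n → ℝ) := by
      ext j; rw [Finset.sum_apply]; simp [Pi.single_apply]
    conv_lhs => rw [this]
    rw [map_sum]
    simp [hβ]
  have hsum : 0 < ∑ i, (β i - u) := by
    rw [hfx, ← Finset.mul_sum] at hf2
    rw [Finset.sum_sub_distrib]
    simp only [Finset.sum_const, Finset.card_univ, Fintype.card_fin, nsmul_eq_mul]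
    have h1 : n * u < n * (1 / (n : ℝ) * ∑ i, β i) := mul_lt_mul_of_pos_left hf2 hn0
    have h2 : (n : ℝ) * (1 / (n : ℝ) * ∑ i, β i) = ∑ i, β i := by field_simp
    linarith
  have e1 := eventually_prod_gt hsum
  have e2 : ∀ᶠ η in 𝓝[>] (0 : ℝ), ∀ i, 0 < 1 + η * (β i - u) := by
    rw [eventually_all]
    intro i
    have : Tendsto (fun η : ℝ => 1 + η * (β i - u)) (𝓝 0) (𝓝 (1 + 0 * (β i - u))) :=
      (tendsto_id.mul_const _).const_add 1
    rw [zero_mul, add_zero] at this
    exact (this.eventually (lt_mem_nhds one_pos)).filter_mono nhdsWithin_le_nhds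
  have e3 : ∀ᶠ η in 𝓝[>] (0 : ℝ), η * u < 1 := by
    have : Tendsto (fun η : ℝ => η * u) (𝓝 0) (𝓝 (0 * u)) := tendsto_id.mul_const _
    rw [zero_mul] at this
    exact (this.eventually (gt_mem_nhds one_pos)).filter_mono nhdsWithin_le_nhds
  obtain ⟨η, h1, h2, h3, hη⟩ := (e1.and (e2.and (e3.and self_mem_nhdsWithin))).exists
  have hη : 0 < η := hη
  have hdet := h.2 (Matrix.diagonal (fun i => 1 + η * (β i - u))) 0 (by
    rintro _ ⟨x, hx, rfl⟩
    have hxS := h.1 hx
    have hval : ∀ i, aff (Matrix.diagonal (fun i => 1 + η * (β i - u))) 0 x i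
        = (1 + η * (β i - u)) * x i := by
      intro i; simp [aff, mulVec_diagonal]
    refine ⟨fun i => ?_, ?_⟩
    · rw [hval]; exact mul_nonneg (h2 i).le (hxS.1 i)
    · simp_rw [hval]
      have e : ∑ i, (1 + η * (β i - u)) * x i = ∑ i, x i + η * (f x - u * ∑ i, x i) := by
        rw [hfx, Finset.mul_sum, ← Finset.sum_sub_distrib, Finset.mul_sum, ← Finset.sum_add_distrib]
        refine Finset.sum_congr rfl (fun i _ => ?_)
        ring
      rw [e]
      have h4 := hf1 x hx
      have h5 := hxS.2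
      nlinarith [mul_lt_mul_of_pos_left h4 hη, mul_nonneg (sub_nonneg.mpr h5) (sub_nonneg.mpr h3.le)])
  rw [det_diagonal, abs_of_pos (by linarith)] at hdet
  linarith

/-- The affine symmetry of the standard simplex exchanging the barycentric coordinates
`0` and `j`. -/
noncomputable def Smat (j : Fin n) : Matrix (Fin n) (Fin n) ℝ :=
  fun i k => if i = j then -1 else if i = k then 1 else 0

/-- The affine symmetry of the standard simplex exchanging the barycentric coordinates
`0` and `j`. -/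
noncomputable def sg (j : Fin n) (x : Fin n → ℝ) : Fin n → ℝ := Function.update x j (1 - ∑ k, x k)

lemma sg_eq_aff (j : Fin n) (x : Fin n → ℝ) : sg j x = aff (Smat j) (Pi.single j 1) x := by
  ext i
  rw [aff_apply]
  by_cases h : i = j
  · subst h
    simp [sg, Smat]
    ring
  · simp [sg, Smat, h]

lemma sum_sg (j : Fin n) (x : Fin n → ℝ) : ∑ k, sg j x k = 1 - x j := by
  have h1 := Finset.add_sum_erase Finset.univ (sg j x) (Finset.mem_univ j)
  have h2 := Finset.add_sum_erase Finset.univ x (Finset.mem_univ j)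
  have h3 : ∑ k ∈ Finset.univ.erase j, sg j x k = ∑ k ∈ Finset.univ.erase j, x k := by
    refine Finset.sum_congr rfl (fun k hk => ?_)
    simp [sg, Finset.ne_of_mem_erase hk]
  have h4 : sg j x j = 1 - ∑ k, x k := by simp [sg]
  rw [← h1, h3, h4, ← h2]
  ring

lemma sg_sg (j : Fin n) (x : Fin n → ℝ) : sg j (sg j x) = x := by
  ext i
  by_cases h : i = j
  · subst h
    have : sg i (sg i x) i = 1 - ∑ k, sg i x k := by simp [sg]
    rw [this, sum_sg]; ring
  · simp [sg, h]

lemma sg_mem (j : Fin n) {x : Fin n → ℝ} (hx : x ∈ stdS n) : sg j x ∈ stdS n := by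
  refine ⟨fun i => ?_, ?_⟩
  · by_cases h : i = j
    · subst h; simp only [sg, Function.update_self]; linarith [hx.2]
    · simp only [sg, ne_eq, h, not_false_eq_true, Function.update_of_ne]; exact hx.1 i
  · rw [sum_sg]; linarith [hx.1 j]

lemma Smat_mul_self (j : Fin n) : Smat j * Smat j = 1 := by
  ext i k
  rw [mul_apply]
  by_cases h : i = j
  · subst h
    have : ∀ l, Smat i i l * Smat i l k = (if l = i then 1 else 0) - (if l = i then 0 else if l = k then 1 else 0) := by
      intro l
      simp only [Smat, if_true]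
      split_ifs <;> ring
    simp_rw [this]
    rw [Finset.sum_sub_distrib]
    simp only [Finset.sum_ite_eq', Finset.mem_univ, if_true]
    by_cases hk : k = i
    · subst hk
      have : ∀ x, (if x = k then (0 : ℝ) else if x = k then 1 else 0) = 0 := by
        intro x; split_ifs <;> rfl
      simp [this]
    · have : ∀ x, (if x = i then (0 : ℝ) else if x = k then 1 else 0) = if x = k then 1 else 0 := by
        intro x; split_ifs with h1 h2
        · subst h1; exact absurd h2.symm hk
        · rfl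
        · rfl
        · rfl
      simp [this, one_apply, Ne.symm hk]
  · have : ∀ l, Smat j i l * Smat j l k = if i = l then Smat j i k else 0 := by
      intro l
      by_cases hl : i = l
      · subst hl; simp [Smat, h]
      · simp [Smat, h, hl]
    simp_rw [this]
    simp [Smat, h, one_apply]

lemma abs_det_Smat (j : Fin n) : |(Smat j).det| = 1 := by
  have h := congrArg Matrix.det (Smat_mul_self j)
  rw [det_mul, det_one] at h
  have h2 : |(Smat j).det| * |(Smat j).det| = 1 := by rw [← abs_mul, h, abs_one]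
  nlinarith [abs_nonneg (Smat j).det]

lemma IsMaxPos.image_sg (h : IsMaxPos K) (j : Fin n) : IsMaxPos (sg j '' K) := by
  refine ⟨?_, fun A b hAb => ?_⟩
  · rintro _ ⟨x, hx, rfl⟩; exact sg_mem j (h.1 hx)
  · have h2 := h.2 (A * Smat j) (A *ᵥ (Pi.single j 1) + b) (by
      rintro _ ⟨x, hx, rfl⟩
      rw [← aff_aff, ← sg_eq_aff]
      exact hAb (mem_image_of_mem _ (mem_image_of_mem _ hx)))
    rwa [det_mul, abs_mul, abs_det_Smat, mul_one] at h2

/-- In maximal position, all the facet centroids of the simplex belong to `K`. -/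
lemma IsMaxPos.centroids_mem (hn : 0 < n) (hKc : IsCompact K) (hKv : Convex ℝ K)
    (h : IsMaxPos K) (j : Fin n) : Function.update (fun _ => 1 / (n : ℝ)) j 0 ∈ K := by
  have hn0 : (0 : ℝ) < n := by exact_mod_cast hn
  have e : sg j '' K = affMap (Smat j) (Pi.single j 1) '' K := by
    rw [coe_affMap]
    exact image_congr (fun x _ => sg_eq_aff j x)
  have h1 : IsCompact (sg j '' K) := by
    rw [e, coe_affMap]; exact isCompact_aff_image _ _ hKc
  have h2 : Convex ℝ (sg j '' K) := by
    rw [e]; exact hKv.affine_image _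
  obtain ⟨x, hx, hxe⟩ := (h.image_sg j).centroid_mem hn h1 h2
  have : x = Function.update (fun _ => 1 / (n : ℝ)) j 0 := by
    rw [← sg_sg j x, hxe]
    simp only [sg, Finset.sum_const, Finset.card_univ, Fintype.card_fin, nsmul_eq_mul]
    congr 1
    field_simp
    ring
  rwa [← this]

lemma volume_pos_of_interior (h : (interior K).Nonempty) (hKc : IsCompact K) :
    0 < (volume K).toReal :=
  ENNReal.toReal_pos (MeasureTheory.Measure.measure_pos_of_nonempty_interior _ h).ne' hKc.measure_ne_top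

/-- **Summary.** Every convex body has an affine image in maximal position; that image
is at least as large relative to the standard simplex as `K` is relative to any simplex
containing it. -/
lemma exists_position (hn : 0 < n) (hK : IsConvexBody K) :
    ∃ (A : Matrix (Fin n) (Fin n) ℝ) (b : Fin n → ℝ), A.det ≠ 0 ∧ IsMaxPos (aff A b '' K) ∧
      ∀ T : Set (Fin n → ℝ), IsSimplex T → K ⊆ T →
        (volume K).toReal * (volume (stdS n)).toReal
          ≤ (volume (aff A b '' K)).toReal * (volume T).toReal := by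
  obtain ⟨A, b, hA, hsub, hmax⟩ := exists_maxPos hn hK
  refine ⟨A, b, hA, ⟨hsub, fun A' b' h => ?_⟩, fun T hT hKT => ?_⟩
  · have := hmax (A' * A) (A' *ᵥ b + b') (by
      rintro _ ⟨x, hx, rfl⟩
      rw [← aff_aff]
      exact h (mem_image_of_mem _ (mem_image_of_mem _ hx)))
    rw [det_mul, abs_mul] at this
    have hp : 0 < |A.det| := abs_pos.mpr hA
    exact le_of_mul_le_mul_right (by linarith) hp
  · obtain ⟨A0, b0, hA0, rfl⟩ := hT.exists_aff
    have hu : IsUnit A0.det := isUnit_iff_ne_zero.mpr hA0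
    have h1 := hmax A0⁻¹ (-(A0⁻¹ *ᵥ b0)) (by
      rintro _ ⟨x, hx, rfl⟩
      obtain ⟨y, hy, rfl⟩ := hKT hx
      rw [aff_aff, nonsing_inv_mul _ hu]
      simpa [aff] using hy)
    rw [det_nonsing_inv, Ring.inverse_eq_inv', abs_inv] at h1
    rw [volume_aff_image hA b hK.2.1.measurableSet,
      volume_aff_image hA0 b0 isCompact_stdS.measurableSet]
    have hp : 0 < |A0.det| := abs_pos.mpr hA0
    have h2 : 1 ≤ |A.det| * |A0.det| := by
      rwa [inv_le_iff_one_le_mul₀ hp] at h1
    have h3 : 0 ≤ (volume K).toReal * (volume (stdS n)).toReal := by positivity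
    calc (volume K).toReal * (volume (stdS n)).toReal
        ≤ (|A.det| * |A0.det|) * ((volume K).toReal * (volume (stdS n)).toReal) :=
          le_mul_of_one_le_left h3 h2
      _ = _ := by ring

end Vale.Agent.P254
end

section

open MeasureTheory Set Matrix Filter Topology
open scoped Pointwise

namespace Vale.Agent.P254

variable {n : ℕ} {K : Set (Fin n → ℝ)}

/-- Barycentric coordinates with respect to the standard simplex. -/
noncomputable def lam (x : Fin n → ℝ) : Fin (n + 1) → ℝ := Fin.cons (1 - ∑ i, x i) x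

lemma lam_zero (x : Fin n → ℝ) : lam x 0 = 1 - ∑ i, x i := rfl

lemma lam_succ (x : Fin n → ℝ) (i : Fin n) : lam x i.succ = x i := rfl

lemma lam_comb {a b : ℝ} (hab : a + b = 1) (x y : Fin n → ℝ) (l : Fin (n + 1)) :
    lam (a • x + b • y) l = a * lam x l + b * lam y l := by
  refine Fin.cases ?_ (fun i => ?_) l
  · simp only [lam_zero, Pi.add_apply, Pi.smul_apply, smul_eq_mul, Finset.sum_add_distrib,
      ← Finset.mul_sum]
    linear_combination (-1 : ℝ) * hab
  · simp [lam_succ]

lemma mem_stdS_iff {x : Fin n → ℝ} : x ∈ stdS n ↔ ∀ l, 0 ≤ lam x l := by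
  constructor
  · intro h l
    refine Fin.cases ?_ (fun i => ?_) l
    · rw [lam_zero]; linarith [h.2]
    · rw [lam_succ]; exact h.1 i
  · intro h
    refine ⟨fun i => h i.succ, ?_⟩
    have := h 0
    rw [lam_zero] at this
    linarith

lemma sum_lam (x : Fin n → ℝ) : ∑ l, lam x l = 1 := by
  rw [Fin.sum_univ_succ]
  simp [lam_zero, lam_succ]

lemma lam_le_one {x : Fin n → ℝ} (hx : x ∈ stdS n) (l : Fin (n + 1)) : lam x l ≤ 1 := by
  rw [← sum_lam x]
  exact Finset.single_le_sum (f := lam x) (fun j _ => mem_stdS_iff.mp hx j) (Finset.mem_univ l)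

lemma lam_stdV (k l : Fin (n + 1)) : lam (stdV n k) l = if l = k then 1 else 0 := by
  refine Fin.cases ?_ (fun i => ?_) k
  · refine Fin.cases ?_ (fun j => ?_) l
    · simp [lam_zero, stdV_zero]
    · simp [lam_succ, stdV_zero]
  · refine Fin.cases ?_ (fun j => ?_) l
    · simp [lam_zero, stdV_succ, (Fin.succ_ne_zero i).symm]
    · simp [lam_succ, stdV_succ, Pi.single_apply]

lemma eq_sum_lam (x : Fin n → ℝ) : x = ∑ l, lam x l • stdV n l := by
  rw [Fin.sum_univ_succ]
  simp only [lam_zero, stdV_zero, smul_zero, zero_add, lam_succ, stdV_succ]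
  ext j
  rw [Finset.sum_apply]
  simp [Pi.single_apply]

/-- The simplex spanned by the facet centroids is `{all barycentric coordinates ≤ 1/n}`. -/
lemma inner_mem (hn : 0 < n) (hKv : Convex ℝ K) (h0 : (fun _ => 1 / (n : ℝ)) ∈ K)
    (hj : ∀ j : Fin n, Function.update (fun _ => 1 / (n : ℝ)) j 0 ∈ K)
    {z : Fin n → ℝ} (hz : ∀ l, lam z l ≤ 1 / (n : ℝ)) : z ∈ K := by
  have hn0 : (0 : ℝ) < n := by exact_mod_cast hn
  set γ : Fin (n + 1) → ℝ := fun l => 1 - n * lam z l with hγ
  set cc : Fin (n + 1) → (Fin n → ℝ) :=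
    Fin.cons (fun _ => 1 / (n : ℝ)) (fun j => Function.update (fun _ => 1 / (n : ℝ)) j 0) with hcc
  have hγ0 : ∀ l, 0 ≤ γ l := by
    intro l
    have := mul_le_mul_of_nonneg_left (hz l) hn0.le
    rw [mul_one_div_cancel hn0.ne'] at this
    simp only [hγ]; linarith
  have hγ1 : ∑ l, γ l = 1 := by
    simp only [hγ, Finset.sum_sub_distrib, ← Finset.mul_sum, sum_lam]
    simp
  have hccK : ∀ l, cc l ∈ K := by
    intro l
    refine Fin.cases ?_ (fun j => ?_) l
    · exact h0
    · exact hj j
  have h := hKv.sum_mem (t := Finset.univ) (w := γ) (z := cc) (fun l _ => hγ0 l) hγ1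
    (fun l _ => hccK l)
  convert h using 1
  ext i
  rw [Finset.sum_apply]
  have e : ∀ l, (γ l • cc l) i = γ l * (1 / n) - if l = i.succ then γ l * (1 / n) else 0 := by
    intro l
    refine Fin.cases ?_ (fun j => ?_) l
    · simp [hcc, (Fin.succ_ne_zero i).symm]
    · by_cases hji : j = i
      · subst hji; simp [hcc]
      · have : i ≠ j := fun h => hji h.symm
        simp [hcc, hji, this]
  simp_rw [e]
  rw [Finset.sum_sub_distrib, ← Finset.sum_mul, hγ1]
  simp only [Finset.sum_ite_eq', Finset.mem_univ, if_true, hγ, lam_succ]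
  field_simp
  ring

/-- `K` meets every corner of the simplex if the missing volume is small. -/
lemma exists_corner {τ : ℝ} (hτ0 : 0 < τ) (hτ1 : τ ≤ 1)
    (hvol : (volume (stdS n \ K)).toReal < τ ^ n * (volume (stdS n)).toReal) (k : Fin (n + 1)) :
    ∃ y ∈ K, y ∈ stdS n ∧ 1 - τ ≤ lam y k := by
  by_contra hcon
  push Not at hcon
  have hdet : (τ • (1 : Matrix (Fin n) (Fin n) ℝ)).det = τ ^ n := by
    rw [det_smul, det_one, mul_one, Fintype.card_fin]
  have hdet0 : (τ • (1 : Matrix (Fin n) (Fin n) ℝ)).det ≠ 0 := by rw [hdet]; positivity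
  have haff : ∀ x, aff (τ • (1 : Matrix (Fin n) (Fin n) ℝ)) ((1 - τ) • stdV n k) x
      = τ • x + (1 - τ) • stdV n k := by
    intro x; simp [aff, smul_mulVec]
  have hsub : aff (τ • (1 : Matrix (Fin n) (Fin n) ℝ)) ((1 - τ) • stdV n k) '' stdS n
      ⊆ stdS n \ K := by
    rintro _ ⟨x, hx, rfl⟩
    rw [haff]
    have hl : ∀ l, lam (τ • x + (1 - τ) • stdV n k) l = τ * lam x l + (1 - τ) * (if l = k then 1 else 0) := by
      intro l; rw [lam_comb (by ring), lam_stdV]
    have hmem : τ • x + (1 - τ) • stdV n k ∈ stdS n := by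
      rw [mem_stdS_iff]
      intro l
      rw [hl]
      have h1 := mem_stdS_iff.mp hx l
      have h2 : 0 ≤ (1 - τ) := by linarith
      split_ifs <;> positivity
    refine ⟨hmem, fun hK => ?_⟩
    have h3 := hcon _ hK hmem
    rw [hl, if_pos rfl] at h3
    have h1 := mem_stdS_iff.mp hx k
    nlinarith
  have hfin : volume (stdS n \ K) ≠ ⊤ :=
    ((measure_mono sdiff_subset).trans_lt (isCompact_stdS (n := n)).measure_lt_top).ne
  have h1 := ENNReal.toReal_mono hfin (measure_mono hsub)
  rw [volume_aff_image hdet0 _ isCompact_stdS.measurableSet, hdet,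
    abs_of_pos (by positivity)] at h1
  linarith

/-- If `K ⊆ stdS` is convex, contains all facet centroids and misses little volume, then `K`
contains the copy of the simplex shrunk by the factor `1/(1+ε)` about its centroid. -/
lemma shrunk_subset (hn : 0 < n) (hKv : Convex ℝ K)
    (h0 : (fun _ => 1 / (n : ℝ)) ∈ K)
    (hj : ∀ j : Fin n, Function.update (fun _ => 1 / (n : ℝ)) j 0 ∈ K) {ε : ℝ} (hε : 0 < ε)
    (hvol : (volume (stdS n \ K)).toReal < (ε / (n + 1 + ε)) ^ n * (volume (stdS n)).toReal)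
    {x : Fin n → ℝ} (hx : x ∈ stdS n) :
    (1 + ε)⁻¹ • x + (1 - (1 + ε)⁻¹) • (fun _ => 1 / ((n : ℝ) + 1)) ∈ K := by
  have hn0 : (0 : ℝ) < n := by exact_mod_cast hn
  set c : Fin n → ℝ := fun _ => 1 / ((n : ℝ) + 1) with hc
  set τ := ε / (n + 1 + ε) with hτ
  have hτ0 : 0 < τ := by positivity
  have hτ1 : τ ≤ 1 := by
    rw [hτ, div_le_one (by positivity)]; linarith
  have hlc : ∀ l, lam c l = 1 / ((n : ℝ) + 1) := by
    intro l
    refine Fin.cases ?_ (fun i => ?_) l
    · simp only [lam_zero, hc, Finset.sum_const, Finset.card_univ, Fintype.card_fin, nsmul_eq_mul]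
      field_simp
      ring
    · rfl
  set θ := ε / ((1 + ε) * (n + 1)) with hθ
  have hθ0 : 0 < θ := by positivity
  set α := 1 - n * θ with hα
  have h1ε : 0 < 1 + ε := by linarith
  have hnθ : n * θ < 1 := by
    rw [hθ, ← mul_div_assoc, div_lt_one (by positivity)]
    nlinarith
  have hα0 : 0 < α := by rw [hα]; linarith
  have hα1 : 1 - α = n * θ := by rw [hα]; ring
  have hα1' : 0 < 1 - α := by rw [hα1]; positivity
  -- the shrunk vertices belong to K
  have hvert : ∀ k, (1 + ε)⁻¹ • stdV n k + (1 - (1 + ε)⁻¹) • c ∈ K := by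
    intro k
    obtain ⟨y, hyK, hyS, hy⟩ := exists_corner hτ0 hτ1 hvol k
    set p := (1 + ε)⁻¹ • stdV n k + (1 - (1 + ε)⁻¹) • c with hp
    have hlp : ∀ l, lam p l = (1 + ε)⁻¹ * (if l = k then 1 else 0) + θ := by
      intro l
      rw [hp, lam_comb (by ring), lam_stdV, hlc, hθ]
      congr 1
      field_simp
      ring
    set z := (1 - α)⁻¹ • p + (1 - (1 - α)⁻¹) • y with hz
    have hzK : z ∈ K := by
      refine inner_mem hn hKv h0 hj (fun l => ?_)
      rw [hz, lam_comb (by ring), hlp]
      have e : (1 - α)⁻¹ * ((1 + ε)⁻¹ * (if l = k then 1 else 0) + θ) + (1 - (1 - α)⁻¹) * lam y l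
          = (1 - α)⁻¹ * ((1 + ε)⁻¹ * (if l = k then 1 else 0) + θ - α * lam y l) := by
        have : (1 : ℝ) = (1 - α)⁻¹ * (1 - α) := by rw [inv_mul_cancel₀ hα1'.ne']
        calc (1 - α)⁻¹ * ((1 + ε)⁻¹ * (if l = k then 1 else 0) + θ) + (1 - (1 - α)⁻¹) * lam y l
            = (1 - α)⁻¹ * ((1 + ε)⁻¹ * (if l = k then 1 else 0) + θ)
              + ((1 - α)⁻¹ * (1 - α) - (1 - α)⁻¹) * lam y l := by rw [← this]
          _ = _ := by ring
      rw [e, inv_mul_le_iff₀ hα1', hα1]
      have hr : (n * θ) * (1 / (n : ℝ)) = θ := by field_simp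
      rw [hr]
      by_cases hlk : l = k
      · subst hlk
        simp only [if_true, mul_one]
        have h3 : (1 + ε)⁻¹ + θ = α := by
          rw [hα, hθ]; field_simp; ring
        rw [h3]
        have h4 : α * (1 - τ) ≤ α * lam y l := mul_le_mul_of_nonneg_left hy hα0.le
        have h5 : α * τ = θ := by
          rw [hα, hτ, hθ]; field_simp; ring
        nlinarith
      · simp only [if_neg hlk, mul_zero, zero_add]
        have := mem_stdS_iff.mp hyS l
        nlinarith [mul_nonneg hα0.le this]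
    have hcomb := hKv hyK hzK hα0.le hα1'.le (by ring)
    have e2 : α • y + (1 - α) • z = p := by
      rw [hz]
      ext i
      simp only [Pi.add_apply, Pi.smul_apply, smul_eq_mul]
      field_simp
      ring
    rwa [e2] at hcomb
  have h := hKv.sum_mem (t := Finset.univ) (w := lam x)
    (z := fun k => (1 + ε)⁻¹ • stdV n k + (1 - (1 + ε)⁻¹) • c)
    (fun l _ => mem_stdS_iff.mp hx l) (sum_lam x) (fun l _ => hvert l)
  convert h using 1
  simp_rw [smul_add]
  rw [Finset.sum_add_distrib]
  have e1 : ∑ l, lam x l • (1 + ε)⁻¹ • stdV n l = (1 + ε)⁻¹ • x := by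
    conv_rhs => rw [eq_sum_lam x, Finset.smul_sum]
    refine Finset.sum_congr rfl (fun l _ => ?_)
    rw [smul_comm]
  have e2 : ∑ l, lam x l • (1 - (1 + ε)⁻¹) • c = (1 - (1 + ε)⁻¹) • c := by
    rw [← Finset.sum_smul, sum_lam, one_smul]
  rw [e1, e2]

end Vale.Agent.P254
end

section

open MeasureTheory Set Matrix Filter Topology
open scoped Pointwise

namespace Vale.Agent.P254

variable {n : ℕ} {K : Set (Fin n → ℝ)}

/-- The conclusion of the facet analysis: this is the statement proved in the analytic part. -/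
def RegionStatement (n : ℕ) (ε : ℝ) : Prop :=
  ∀ K : Set (Fin n → ℝ), IsCompact K → Convex ℝ K → K ⊆ stdS n →
    (fun _ => 1 / (n : ℝ)) ∈ K →
    (∀ j : Fin n, Function.update (fun _ => 1 / (n : ℝ)) j 0 ∈ K) →
    (∀ x ∈ stdS n, (1 + ε)⁻¹ • x + (1 - (1 + ε)⁻¹) • (fun _ => 1 / ((n : ℝ) + 1)) ∈ K) →
    0 ≤ ∫ x in stdS n \ K, (qq x - 2 / ((n : ℝ) + 1))

lemma eq_stdS_of_volume (hKc : IsCompact K) (hsub : K ⊆ stdS n) (hint : (interior K).Nonempty)
    (hvol : (volume (stdS n)).toReal ≤ (volume K).toReal) : K = stdS n := by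
  refine Subset.antisymm hsub (fun x hx => ?_)
  by_contra hxK
  have hfin : volume (stdS n) ≠ ⊤ := isCompact_stdS.measure_ne_top
  have hint' : (interior (stdS n)).Nonempty := hint.mono (interior_mono hsub)
  have hcl : x ∈ closure (interior (stdS n)) := by
    rw [convex_stdS.closure_interior_eq_closure_of_nonempty_interior hint']
    exact subset_closure hx
  have hopen : IsOpen Kᶜ := hKc.isClosed.isOpen_compl
  obtain ⟨y, hy1, hy2⟩ := mem_closure_iff.mp hcl Kᶜ hopen hxK
  have hU : IsOpen (Kᶜ ∩ interior (stdS n)) := hopen.inter isOpen_interior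
  have hpos : 0 < volume (Kᶜ ∩ interior (stdS n)) := hU.measure_pos _ ⟨y, hy1, hy2⟩
  have h1 : volume K + volume (Kᶜ ∩ interior (stdS n)) ≤ volume (stdS n) := by
    rw [← measure_union (disjoint_compl_right.mono_right inter_subset_left) hU.measurableSet]
    exact measure_mono (union_subset hsub (inter_subset_right.trans interior_subset))
  have hKfin : volume K ≠ ⊤ := hKc.measure_ne_top
  have h2 : volume K < volume (stdS n) :=
    lt_of_lt_of_le (ENNReal.lt_add_right hKfin hpos.ne') h1
  have h3 := (ENNReal.toReal_lt_toReal hKfin hfin).mpr h2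
  linarith

lemma isoConst_simplex {S : Set (Fin n → ℝ)} (hS : IsSimplex S) :
    isoConst S = isoConst (stdS n) := by
  obtain ⟨A, b, hA, rfl⟩ := hS.exists_aff
  exact isoConst_aff_image hA b isCompact_stdS volume_stdS_pos.ne'

lemma isSimplex_of_aff_image {A : Matrix (Fin n) (Fin n) ℝ} (hA : A.det ≠ 0) (b : Fin n → ℝ)
    (h : aff A b '' K = stdS n) : IsSimplex K := by
  have hu : IsUnit A.det := isUnit_iff_ne_zero.mpr hA
  have hu' : (A⁻¹).det ≠ 0 := by
    rw [det_nonsing_inv, Ring.inverse_eq_inv']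
    exact inv_ne_zero hA
  have e : K = aff A⁻¹ (-(A⁻¹ *ᵥ b)) '' stdS n := by
    rw [← h, ← image_comp]
    have : aff A⁻¹ (-(A⁻¹ *ᵥ b)) ∘ aff A b = id := by
      ext1 x
      rw [Function.comp_apply, aff_aff, nonsing_inv_mul _ hu]
      simp [aff]
    rw [this, image_id]
  rw [e]
  exact isSimplex_image hu' _

/-- Assembly of the local maximality theorem from the facet analysis. -/
theorem assembly (hn : 0 < n) {ε : ℝ} (hε : 0 < ε) (hR : RegionStatement n ε) {δ : ℝ}
    (hδ : δ < (ε / (n + 1 + ε)) ^ n)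
    {T S : Set (Fin n → ℝ)} (hK : IsConvexBody K) (hT : IsSimplex T) (hKT : K ⊆ T)
    (hvol : (1 - δ) * (volume T).toReal ≤ (volume K).toReal) (hS : IsSimplex S) :
    isoConst K ≤ isoConst S ∧ (isoConst K = isoConst S ↔ IsSimplex K) := by
  obtain ⟨A, b, hA, hmax, hbest⟩ := exists_position hn hK
  obtain ⟨hKv, hKc, hKi⟩ := hK
  set K' := aff A b '' K with hK'
  have hV : 0 < (volume K).toReal := volume_pos_of_interior hKi hKc
  have hK'c : IsCompact K' := isCompact_aff_image A b hKc
  have hK'v : Convex ℝ K' := by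
    rw [hK', ← coe_affMap]; exact hKv.affine_image _
  have hV' : (volume K').toReal = |A.det| * (volume K).toReal :=
    volume_aff_image hA b hKc.measurableSet
  have hV'0 : 0 < (volume K').toReal := by
    rw [hV']; exact mul_pos (abs_pos.mpr hA) hV
  have hTpos : 0 < (volume T).toReal := by
    obtain ⟨A0, b0, hA0, rfl⟩ := hT.exists_aff
    rw [volume_aff_image hA0 b0 isCompact_stdS.measurableSet]
    exact mul_pos (abs_pos.mpr hA0) volume_stdS_pos
  have hW : 0 < (volume (stdS n)).toReal := volume_stdS_pos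
  have h1 := hbest T hT hKT
  have h2 : (1 - δ) * (volume (stdS n)).toReal ≤ (volume K').toReal := by
    have h3 : (1 - δ) * (volume T).toReal * (volume (stdS n)).toReal
        ≤ (volume K).toReal * (volume (stdS n)).toReal := mul_le_mul_of_nonneg_right hvol hW.le
    have h4 : ((1 - δ) * (volume (stdS n)).toReal) * (volume T).toReal
        ≤ (volume K').toReal * (volume T).toReal := by linarith
    exact le_of_mul_le_mul_right h4 hTpos
  have hfin : volume (stdS n) ≠ ⊤ := isCompact_stdS.measure_ne_top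
  have h5 : (volume (stdS n \ K')).toReal = (volume (stdS n)).toReal - (volume K').toReal := by
    rw [measure_sdiff hmax.1 hK'c.measurableSet.nullMeasurableSet hK'c.measure_ne_top,
      ENNReal.toReal_sub_of_le (measure_mono hmax.1) hfin]
  have h6 : (volume (stdS n \ K')).toReal < (ε / (n + 1 + ε)) ^ n * (volume (stdS n)).toReal := by
    rw [h5]
    have := mul_lt_mul_of_pos_right hδ hW
    linarith
  have hc0 := hmax.centroid_mem hn hK'c hK'v
  have hcj := hmax.centroids_mem hn hK'c hK'v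
  have hH := hR K' hK'c hK'v hmax.1 hc0 hcj
    (fun x hx => shrunk_subset hn hK'v hc0 hcj hε h6 hx)
  obtain ⟨hle, hlt⟩ := isoConst_criterion hn hK'c hV'0 hmax.1 hH
  have e1 : isoConst K' = isoConst K := isoConst_aff_image hA b hKc hV.ne'
  rw [isoConst_simplex hS]
  rw [e1] at hle hlt
  refine ⟨hle, fun heq => ?_, fun hs => isoConst_simplex hs⟩
  have h7 : ¬ (volume K').toReal < (volume (stdS n)).toReal := fun h => (hlt h).ne heq
  have hK'i : (interior K').Nonempty := by
    by_contra hne
    rw [not_nonempty_iff_eq_empty] at hne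
    -- a convex set with empty interior is null
    have : volume K' = 0 := by
      have h8 := hK'v.addHaar_frontier (volume : Measure (Fin n → ℝ))
      have h9 : K' ⊆ frontier K' := by
        rw [hK'c.isClosed.frontier_eq, hne, sdiff_empty]
      exact measure_mono_null h9 h8
    rw [this] at hV'0
    simp at hV'0
  exact isSimplex_of_aff_image hA b (eq_stdS_of_volume hK'c hmax.1 hK'i (not_lt.mp h7))

end Vale.Agent.P254
end

section

/-!
Integrals over simplices and over polytopes with `n + 2` vertices.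
-/

open MeasureTheory Set Matrix
open scoped Pointwise

namespace Vale.Agent.P254.FV

variable {n : ℕ}

/-- membership in the hull of a finite family -/
theorem mem_hull {ι : Type*} [Fintype ι] {v : ι → Fin n → ℝ} {x : Fin n → ℝ} :
    x ∈ convexHull ℝ (range v) ↔
      ∃ w : ι → ℝ, (∀ i, 0 ≤ w i) ∧ ∑ i, w i = 1 ∧ ∀ a, ∑ i, w i * v i a = x a := by
  classical
  constructor
  · intro hx
    have h := convexHull_min (𝕜 := ℝ) (s := range v)
      (t := {x : Fin n → ℝ | ∃ w : ι → ℝ, (∀ i, 0 ≤ w i) ∧ ∑ i, w i = 1 ∧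
        ∀ a, ∑ i, w i * v i a = x a}) ?_ ?_
    · exact h hx
    · rintro _ ⟨i, rfl⟩
      refine ⟨Pi.single i 1, fun j => ?_, by simp, fun a => ?_⟩
      · by_cases h : j = i
        · subst h; simp
        · simp [h]
      · simp [Pi.single_apply]
    · rintro x ⟨w, h1, h2, h3⟩ y ⟨w', h1', h2', h3'⟩ a b ha hb hab
      refine ⟨fun i => a * w i + b * w' i, fun i => ?_, ?_, fun k => ?_⟩
      · have := h1 i
        have := h1' i
        positivity
      · rw [Finset.sum_add_distrib, ← Finset.mul_sum, ← Finset.mul_sum, h2, h2']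
        linarith
      · simp only [Pi.add_apply, Pi.smul_apply, smul_eq_mul]
        rw [← h3 k, ← h3' k, Finset.mul_sum, Finset.mul_sum, ← Finset.sum_add_distrib]
        exact Finset.sum_congr rfl fun i _ => by ring
  · rintro ⟨w, h1, h2, h3⟩
    have h := (convex_convexHull ℝ (range v)).sum_mem (t := Finset.univ) (w := w) (z := v)
      (fun i _ => h1 i) h2 (fun i _ => subset_convexHull ℝ _ (mem_range_self i))
    have e : ∑ i, w i • v i = x := by
      ext a
      rw [Finset.sum_apply, ← h3 a]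
      rfl
    rwa [e] at h

/-- barycentric coordinates on the standard simplex -/
def bc (x : Fin n → ℝ) : Fin (n + 1) → ℝ := Fin.cons (1 - ∑ k, x k) x

/-- edge matrix -/
def edge (w : Fin (n + 1) → Fin n → ℝ) : Matrix (Fin n) (Fin n) ℝ :=
  Matrix.of fun i k => w k.succ i - w 0 i

theorem aff_edge (w : Fin (n + 1) → Fin n → ℝ) (x : Fin n → ℝ) (a : Fin n) :
    aff (edge w) (w 0) x a = ∑ j, bc x j * w j a := by
  rw [aff_apply, Fin.sum_univ_succ]
  simp only [bc, Fin.cons_zero, Fin.cons_succ, edge, Matrix.of_apply]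
  rw [sub_mul, one_mul, Finset.sum_mul]
  have : ∑ j, (w j.succ a - w 0 a) * x j = ∑ j, x j * w j.succ a - ∑ j, x j * w 0 a := by
    rw [← Finset.sum_sub_distrib]
    exact Finset.sum_congr rfl fun i _ => by ring
  rw [this]
  ring

theorem image_edge (w : Fin (n + 1) → Fin n → ℝ) :
    aff (edge w) (w 0) '' stdS n = convexHull ℝ (range w) := by
  rw [image_stdS]
  congr 2
  ext i j
  refine Fin.cases ?_ (fun k => ?_) i
  · simp [stdV_zero, aff]
  · rw [stdV_succ, aff_apply]
    simp [edge, Pi.single_apply]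

theorem integral_bc (i : Fin (n + 1)) :
    ∫ x in stdS n, bc x i = 1 / ((n + 1).factorial : ℝ) := by
  refine Fin.cases ?_ (fun k => ?_) i
  · simp only [bc, Fin.cons_zero]
    rw [integral_sub (intOn isCompact_stdS (by fun_prop)) (intOn isCompact_stdS (by fun_prop)),
      integral_finsetSum _ (fun i _ => intOn isCompact_stdS (by fun_prop))]
    simp_rw [integral_stdS_x]
    rw [setIntegral_const, Measure.real, volume_stdS, Nat.factorial_succ]
    simp
    field_simp
    ring
  · simp only [bc, Fin.cons_succ]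
    exact integral_stdS_x k

theorem integral_bc_bc (i j : Fin (n + 1)) :
    ∫ x in stdS n, bc x i * bc x j = (if i = j then 2 else 1) / ((n + 2).factorial : ℝ) := by
  have hc : ∀ f : (Fin n → ℝ) → ℝ, Continuous f → IntegrableOn f (stdS n) := fun f hf =>
    intOn isCompact_stdS hf
  have key : ∀ k : Fin n, ∫ x in stdS n, (1 - ∑ l, x l) * x k = 1 / ((n + 2).factorial : ℝ) := by
    intro k
    have e : ∀ x : Fin n → ℝ, (1 - ∑ l, x l) * x k = x k - ∑ l, x l * x k := by
      intro x
      rw [sub_mul, one_mul, Finset.sum_mul]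
    simp_rw [e]
    rw [integral_sub (hc _ (by fun_prop)) (hc _ (by fun_prop)),
      integral_finsetSum _ (fun i _ => hc _ (by fun_prop))]
    simp_rw [integral_stdS_xx, integral_stdS_x]
    rw [← Finset.sum_div]
    have e2 : ∑ i : Fin n, (if i = k then (2 : ℝ) else 1) = n + 1 := by
      have : ∀ i : Fin n, (if i = k then (2 : ℝ) else 1) = 1 + if i = k then 1 else 0 := by
        intro i; split_ifs <;> norm_num
      simp_rw [this]
      rw [Finset.sum_add_distrib]
      simp
    rw [e2, Nat.factorial_succ (n + 1)]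
    push_cast
    have : ((n + 1).factorial : ℝ) ≠ 0 := by positivity
    have : ((n : ℝ) + 1 + 1) ≠ 0 := by positivity
    field_simp
    ring
  refine Fin.cases ?_ (fun k => ?_) i
  · refine Fin.cases ?_ (fun l => ?_) j
    · simp only [bc, Fin.cons_zero, if_true]
      have e : ∀ x : Fin n → ℝ, (1 - ∑ l, x l) * (1 - ∑ l, x l) =
          (1 - ∑ l, x l) - ∑ k, (1 - ∑ l, x l) * x k := by
        intro x
        rw [← Finset.mul_sum]
        ring
      simp_rw [e]
      have h0 := integral_bc (n := n) 0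
      simp only [bc, Fin.cons_zero] at h0
      rw [integral_sub (hc _ (by fun_prop)) (hc _ (by fun_prop)),
        integral_finsetSum _ (fun i _ => hc _ (by fun_prop)), h0]
      simp_rw [key]
      rw [Finset.sum_const, Nat.factorial_succ (n + 1)]
      push_cast
      have : ((n + 1).factorial : ℝ) ≠ 0 := by positivity
      have : ((n : ℝ) + 1 + 1) ≠ 0 := by positivity
      simp
      field_simp
      ring
    · simp only [bc, Fin.cons_zero, Fin.cons_succ]
      rw [key l, if_neg (Fin.succ_ne_zero l).symm]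
  · refine Fin.cases ?_ (fun l => ?_) j
    · simp only [bc, Fin.cons_zero, Fin.cons_succ]
      have e : ∀ x : Fin n → ℝ, x k * (1 - ∑ l, x l) = (1 - ∑ l, x l) * x k := fun x => mul_comm _ _
      simp_rw [e]
      rw [key k, if_neg (Fin.succ_ne_zero k)]
    · simp only [bc, Fin.cons_succ]
      rw [integral_stdS_xx]
      simp [Fin.succ_inj]

theorem vol_simp {w : Fin (n + 1) → Fin n → ℝ} (hw : (edge w).det ≠ 0) :
    (volume (convexHull ℝ (range w))).toReal = |(edge w).det| / (n.factorial : ℝ) := by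
  rw [← image_edge, volume_aff_image hw _ isCompact_stdS.measurableSet, volume_stdS]
  ring

theorem int_simp {w : Fin (n + 1) → Fin n → ℝ} (hw : (edge w).det ≠ 0) (a : Fin n) :
    ∫ x in convexHull ℝ (range w), x a =
      |(edge w).det| / ((n + 1).factorial : ℝ) * ∑ j, w j a := by
  rw [← image_edge, setIntegral_aff_image hw _ isCompact_stdS.measurableSet]
  simp_rw [aff_edge]
  have hc : ∀ j : Fin (n + 1), Continuous fun x : Fin n → ℝ => bc x j * w j a := by
    intro j
    refine Fin.cases ?_ (fun k => ?_) j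
    · simp only [bc, Fin.cons_zero]; fun_prop
    · simp only [bc, Fin.cons_succ]; fun_prop
  rw [integral_finsetSum _ (fun i _ => intOn isCompact_stdS (hc i))]
  simp_rw [integral_mul_const, integral_bc]
  rw [← Finset.mul_sum]
  ring

theorem int_simp2 {w : Fin (n + 1) → Fin n → ℝ} (hw : (edge w).det ≠ 0) (a b : Fin n) :
    ∫ x in convexHull ℝ (range w), x a * x b =
      |(edge w).det| / ((n + 2).factorial : ℝ) *
        (∑ j, w j a * w j b + (∑ j, w j a) * ∑ j, w j b) := by
  rw [← image_edge, setIntegral_aff_image hw _ isCompact_stdS.measurableSet]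
  simp_rw [aff_edge, Finset.sum_mul_sum]
  have hc : ∀ i j : Fin (n + 1), Continuous fun x : Fin n → ℝ => bc x i * w i a * (bc x j * w j b) := by
    intro i j
    have h : ∀ j : Fin (n + 1), Continuous fun x : Fin n → ℝ => bc x j := by
      intro j
      refine Fin.cases ?_ (fun k => ?_) j
      · simp only [bc, Fin.cons_zero]; fun_prop
      · simp only [bc, Fin.cons_succ]; fun_prop
    have h1 := h i
    have h2 := h j
    fun_prop
  rw [integral_finsetSum _ (fun i _ => intOn isCompact_stdS (continuous_finsetSum _ fun j _ => hc i j))]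
  have e : ∀ i : Fin (n + 1), ∫ x in stdS n, ∑ j, bc x i * w i a * (bc x j * w j b) =
      ∑ j, (if i = j then 2 else 1) / ((n + 2).factorial : ℝ) * (w i a * w j b) := by
    intro i
    rw [integral_finsetSum _ (fun j _ => intOn isCompact_stdS (hc i j))]
    refine Finset.sum_congr rfl fun j _ => ?_
    rw [← integral_bc_bc, ← integral_mul_const]
    refine integral_congr_ae (Filter.Eventually.of_forall fun x => ?_)
    simp only
    ring
  simp_rw [e]
  rw [← Finset.sum_add_distrib, div_mul_eq_mul_div, mul_div_assoc]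
  congr 1
  rw [Finset.sum_div]
  refine Finset.sum_congr rfl fun i _ => ?_
  have e2 : ∀ j : Fin (n + 1), (if i = j then (2 : ℝ) else 1) / ((n + 2).factorial : ℝ) *
      (w i a * w j b) = (if i = j then w i a * w j b / ((n + 2).factorial : ℝ) else 0) +
        w i a * w j b / ((n + 2).factorial : ℝ) := by
    intro j
    split_ifs <;> ring
  simp_rw [e2]
  rw [Finset.sum_add_distrib, Finset.sum_ite_eq, if_pos (Finset.mem_univ i), ← Finset.sum_div]
  ring

end Vale.Agent.P254.FV
end

section

/-!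
In dimension one every convex body is a simplex.
-/

open MeasureTheory Set Matrix

namespace Vale.Agent.P254

lemma isSimplex_of_dim_one {K : Set (Fin 1 → ℝ)} (hK : IsConvexBody K) : IsSimplex K := by
  obtain ⟨hconv, hcomp, hint⟩ := hK
  have hne : K.Nonempty := hint.mono interior_subset
  set s : Set ℝ := (fun x : Fin 1 → ℝ => x 0) '' K with hs
  have hcont : Continuous fun x : Fin 1 → ℝ => x 0 := continuous_apply 0
  have hsc : IsCompact s := hcomp.image hcont
  have hscon : IsConnected s :=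
    ⟨hne.image _, (hconv.isPreconnected).image _ hcont.continuousOn⟩
  have hsI := eq_Icc_of_connected_compact hscon hsc
  set a := sInf s
  set b := sSup s
  have hKmem : ∀ x : Fin 1 → ℝ, x ∈ K ↔ x 0 ∈ Icc a b := by
    intro x
    rw [← hsI, hs]
    constructor
    · intro hx; exact ⟨x, hx, rfl⟩
    · rintro ⟨y, hy, hyx⟩
      have : y = x := by
        ext i
        rw [Subsingleton.elim i 0]; exact hyx
      rwa [← this]
  have hab : a < b := by
    obtain ⟨x, hx⟩ := hint
    obtain ⟨r, hr, hball⟩ := Metric.isOpen_iff.mp isOpen_interior x hx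
    have h1 : x - (fun _ => r / 2) ∈ K := by
      refine interior_subset (hball ?_)
      rw [Metric.mem_ball, dist_eq_norm]
      have : x - (fun _ => r / 2) - x = fun _ => -(r / 2) := by ext i; simp
      rw [this, pi_norm_const, Real.norm_eq_abs, abs_neg, abs_of_pos (by positivity)]
      linarith
    have h2 := (hKmem _).1 h1
    have h3 := (hKmem x).1 (interior_subset hx)
    simp only [Pi.sub_apply, mem_Icc] at h2 h3
    linarith [h2.1, h3.2]
  have hA : (Matrix.of fun (_ _ : Fin 1) => b - a).det ≠ 0 := by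
    simp
    linarith
  have : K = aff (Matrix.of fun (_ _ : Fin 1) => b - a) (fun _ => a) '' stdS 1 := by
    ext x
    rw [hKmem]
    constructor
    · intro hx
      refine ⟨fun _ => (x 0 - a) / (b - a), ⟨fun i => ?_, ?_⟩, ?_⟩
      · have : 0 < b - a := by linarith
        have := hx.1
        show 0 ≤ (x 0 - a) / (b - a)
        apply div_nonneg <;> linarith
      · show ∑ i : Fin 1, (x 0 - a) / (b - a) ≤ 1
        simp only [Finset.univ_unique, Finset.sum_const, Finset.card_singleton, one_smul]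
        rw [div_le_one (by linarith)]
        linarith [hx.2]
      · ext i
        rw [Subsingleton.elim i 0, aff_apply]
        simp only [of_apply, Finset.univ_unique, Finset.sum_const, Finset.card_singleton, one_smul]
        have : b - a ≠ 0 := by linarith
        field_simp
        ring
    · rintro ⟨y, ⟨hy1, hy2⟩, rfl⟩
      rw [aff_apply]
      simp only [of_apply, Finset.univ_unique, Finset.sum_singleton, Fin.default_eq_zero] at *
      have h1 := hy1 0
      have hba : 0 < b - a := by linarith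
      have hy2' : y 0 ≤ 1 := by simpa using hy2
      constructor
      · nlinarith
      · nlinarith
  rw [this]
  exact isSimplex_image hA _

end Vale.Agent.P254
end
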