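import Mathlib

set_option linter.all false

section

/-! P227, block Lap: Laplace integrals `F y = ∫ exp (B x y) • g x` are smooth; line derivatives;
first three derivatives of `log F` are mean, variance and third central moment. -/

set_option linter.all false
set_option autoImplicit false

open MeasureTheory Filter Topology

namespace Vale.Agent.P227.M.Lap

universe u

variable {E : Type*} [NormedAddCommGroup E] [NormedSpace ℝ E] [MeasurableSpace E] [BorelSpace E]
  [SecondCountableTopology E]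
variable {E' : Type u} [NormedAddCommGroup E'] [NormedSpace ℝ E']
variable {G : Type u} [NormedAddCommGroup G] [NormedSpace ℝ G]

/-- the Laplace integral -/
noncomputable def lap (B : E →L[ℝ] E' →L[ℝ] ℝ) (μ : Measure E) (g : E → G) (y : E') : G :=
  ∫ x, Real.exp (B x y) • g x ∂μ

/-- all exponential moments are finite -/
def Expo (μ : Measure E) (g : E → G) : Prop :=
  AEStronglyMeasurable g μ ∧ ∀ R : ℝ, Integrable (fun x => Real.exp (R * ‖x‖) * ‖g x‖) μ

theorem Expo.of_le {G' : Type*} [NormedAddCommGroup G'] [NormedSpace ℝ G'] {μ : Measure E}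
    {g : E → G} (hg : Expo μ g) {h : E → G'} (hm : AEStronglyMeasurable h μ) (C R0 : ℝ)
    (hle : ∀ x, ‖h x‖ ≤ C * (Real.exp (R0 * ‖x‖) * ‖g x‖)) :
    AEStronglyMeasurable h μ ∧ ∀ R : ℝ, Integrable (fun x => Real.exp (R * ‖x‖) * ‖h x‖) μ := by
  refine ⟨hm, fun R => ?_⟩
  refine Integrable.mono' ((hg.2 (R + R0)).const_mul C) ?_ ?_
  · exact AEStronglyMeasurable.mul (by fun_prop) hm.norm
  · refine Eventually.of_forall fun x => ?_
    have h0 : 0 ≤ Real.exp (R * ‖x‖) := (Real.exp_pos _).le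
    rw [Real.norm_of_nonneg (by positivity), add_mul, Real.exp_add]
    calc Real.exp (R * ‖x‖) * ‖h x‖
        ≤ Real.exp (R * ‖x‖) * (C * (Real.exp (R0 * ‖x‖) * ‖g x‖)) :=
          mul_le_mul_of_nonneg_left (hle x) h0
      _ = C * (Real.exp (R * ‖x‖) * Real.exp (R0 * ‖x‖) * ‖g x‖) := by ring

theorem le_exp_norm (x : E) : ‖x‖ ≤ Real.exp (1 * ‖x‖) := by
  rw [one_mul]; linarith [Real.add_one_le_exp ‖x‖]

theorem Expo.smulRight {μ : Measure E} {g : E → G} (hg : Expo μ g) (B : E →L[ℝ] E' →L[ℝ] ℝ) :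
    Expo μ (fun x => (B x).smulRight (g x)) := by
  refine Expo.of_le hg ?_ ‖B‖ 1 fun x => ?_
  · have hc : Continuous (fun p : (E' →L[ℝ] ℝ) × G => p.1.smulRight p.2) := by
      exact (ContinuousLinearMap.smulRightL ℝ E' G).continuous₂
    have h1 : AEStronglyMeasurable (fun x => ((B x : E' →L[ℝ] ℝ), g x)) μ :=
      (B.continuous.aestronglyMeasurable).prodMk hg.1
    exact hc.comp_aestronglyMeasurable h1
  · rw [ContinuousLinearMap.norm_smulRight_apply]
    calc ‖B x‖ * ‖g x‖ ≤ (‖B‖ * ‖x‖) * ‖g x‖ := by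
          gcongr; exact B.le_opNorm x
      _ ≤ (‖B‖ * Real.exp (1 * ‖x‖)) * ‖g x‖ := by
          gcongr; exact le_exp_norm x
      _ = _ := by ring

theorem Expo.smul {μ : Measure E} {g : E → G} (hg : Expo μ g) (B : E →L[ℝ] E' →L[ℝ] ℝ) (v : E') :
    Expo μ (fun x => (B x v) • g x) := by
  refine Expo.of_le hg ?_ (‖B‖ * ‖v‖) 1 fun x => ?_
  · have hc : Continuous (fun x => B x v) := by fun_prop
    exact (hc.aestronglyMeasurable).smul hg.1
  · rw [norm_smul]
    calc ‖B x v‖ * ‖g x‖ ≤ (‖B‖ * ‖x‖ * ‖v‖) * ‖g x‖ := by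
          gcongr; exact B.le_opNorm₂ x v
      _ ≤ (‖B‖ * Real.exp (1 * ‖x‖) * ‖v‖) * ‖g x‖ := by
          gcongr; exact le_exp_norm x
      _ = _ := by ring

theorem exp_le (B : E →L[ℝ] E' →L[ℝ] ℝ) (x : E) (y : E') {R : ℝ} (hy : ‖y‖ ≤ R) :
    Real.exp (B x y) ≤ Real.exp (‖B‖ * R * ‖x‖) := by
  apply Real.exp_le_exp.2
  calc B x y ≤ ‖B x y‖ := Real.le_norm_self _
    _ ≤ ‖B‖ * ‖x‖ * ‖y‖ := B.le_opNorm₂ x y
    _ ≤ ‖B‖ * ‖x‖ * R := by gcongr
    _ = _ := by ring

theorem measurable_lap {μ : Measure E} {g : E → G} (hg : Expo μ g) (B : E →L[ℝ] E' →L[ℝ] ℝ)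
    (y : E') : AEStronglyMeasurable (fun x => Real.exp (B x y) • g x) μ := by
  have hc : Continuous (fun x => Real.exp (B x y)) := by fun_prop
  exact (hc.aestronglyMeasurable).smul hg.1

theorem integrable_lap {μ : Measure E} {g : E → G} (hg : Expo μ g) (B : E →L[ℝ] E' →L[ℝ] ℝ)
    (y : E') : Integrable (fun x => Real.exp (B x y) • g x) μ := by
  refine Integrable.mono' (hg.2 (‖B‖ * ‖y‖)) (measurable_lap hg B y) ?_
  refine Eventually.of_forall fun x => ?_
  rw [norm_smul, Real.norm_of_nonneg (Real.exp_pos _).le]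
  gcongr
  exact Real.exp_le_exp.1 (exp_le B x y le_rfl)

theorem hasFDerivAt_lap {μ : Measure E} {g : E → G} (hg : Expo μ g) (B : E →L[ℝ] E' →L[ℝ] ℝ)
    (y : E') : HasFDerivAt (lap B μ g) (lap B μ (fun x => (B x).smulRight (g x)) y) y := by
  have hg' : Expo μ (fun x => (B x).smulRight (g x)) := hg.smulRight B
  unfold lap
  refine hasFDerivAt_integral_of_dominated_of_fderiv_le (𝕜 := ℝ) (H := E') (E := G)
    (F := fun (z : E') (x : E) => Real.exp (B x z) • g x)
    (F' := fun (z : E') (x : E) => Real.exp (B x z) • (B x).smulRight (g x))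
    (x₀ := y) (s := Metric.ball y 1)
    (bound := fun x : E => Real.exp (‖B‖ * (‖y‖ + 1) * ‖x‖) * ‖(B x).smulRight (g x)‖)
    (Metric.ball_mem_nhds y one_pos) ?_ ?_ ?_ ?_ ?_ ?_
  · exact Eventually.of_forall fun z => measurable_lap hg B z
  · exact integrable_lap hg B y
  · exact measurable_lap hg' B y
  · refine Eventually.of_forall fun x z hz => ?_
    rw [norm_smul, Real.norm_of_nonneg (Real.exp_pos _).le]
    have : ‖z‖ ≤ ‖y‖ + 1 := by
      have h1 : ‖z - y‖ < 1 := by simpa [dist_eq_norm] using hz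
      have h2 : ‖z‖ ≤ ‖z - y‖ + ‖y‖ := by simpa using norm_add_le (z - y) y
      linarith
    exact mul_le_mul_of_nonneg_right (exp_le B x z this) (norm_nonneg _)
  · exact hg'.2 _
  · refine Eventually.of_forall fun x z hz => ?_
    have h0 : HasFDerivAt (fun z : E' => B x z) (B x) z := (B x).hasFDerivAt
    have h2 := (h0.exp).smul_const (g x)
    convert h2 using 1
    ext w
    simp [smul_smul]

theorem contDiff_lap_nat {μ : Measure E} (B : E →L[ℝ] E' →L[ℝ] ℝ) (n : ℕ) :
    ∀ {G : Type u} [NormedAddCommGroup G] [NormedSpace ℝ G] {g : E → G}, Expo μ g →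
      ContDiff ℝ n (lap B μ g) := by
  induction n with
  | zero =>
    intro G _ _ g hg
    rw [Nat.cast_zero, contDiff_zero]
    exact continuous_iff_continuousAt.2 fun y => (hasFDerivAt_lap hg B y).continuousAt
  | succ n ih =>
    intro G _ _ g hg
    rw [Nat.cast_succ, contDiff_succ_iff_fderiv]
    refine ⟨fun y => (hasFDerivAt_lap hg B y).differentiableAt, by simp, ?_⟩
    have : fderiv ℝ (lap B μ g) = lap B μ (fun x => (B x).smulRight (g x)) := by
      funext y
      exact (hasFDerivAt_lap hg B y).fderiv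
    rw [this]
    exact ih (hg.smulRight B)

theorem contDiff_lap {μ : Measure E} (B : E →L[ℝ] E' →L[ℝ] ℝ) {g : E → G} (hg : Expo μ g) :
    ContDiff ℝ (⊤ : ℕ∞) (lap B μ g) := by
  rw [contDiff_infty]
  exact fun n => contDiff_lap_nat B n hg

theorem fderiv_lap_apply {μ : Measure E} {g : E → G} [CompleteSpace G] (hg : Expo μ g)
    (B : E →L[ℝ] E' →L[ℝ] ℝ) (y v : E') :
    fderiv ℝ (lap B μ g) y v = lap B μ (fun x => (B x v) • g x) y := by
  rw [(hasFDerivAt_lap hg B y).fderiv]
  unfold lap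
  rw [ContinuousLinearMap.integral_apply (integrable_lap (hg.smulRight B) B y)]
  refine integral_congr_ae (Eventually.of_forall fun x => ?_)
  simp

/-- derivative along a line -/
theorem hasDerivAt_line {μ : Measure E} {g : E → G} [CompleteSpace G] (hg : Expo μ g)
    (B : E →L[ℝ] E' →L[ℝ] ℝ) (y v : E') (t : ℝ) :
    HasDerivAt (fun t : ℝ => lap B μ g (y + t • v))
      (lap B μ (fun x => (B x v) • g x) (y + t • v)) t := by
  have h1 : HasDerivAt (fun t : ℝ => y + t • v) v t := by
    simpa using ((hasDerivAt_id t).smul_const v).const_add y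
  have h2 := (hasFDerivAt_lap hg B (y + t • v)).comp_hasDerivAt t h1
  have h3 := fderiv_lap_apply hg B (y + t • v) v
  rw [(hasFDerivAt_lap hg B (y + t • v)).fderiv] at h3
  rw [h3] at h2
  exact h2

/-- `j`-th line derivative -/
theorem iteratedDeriv_line {μ : Measure E} (B : E →L[ℝ] E' →L[ℝ] ℝ) (y v : E') (j : ℕ) :
    ∀ {g : E → G} [CompleteSpace G], Expo μ g →
    iteratedDeriv j (fun t : ℝ => lap B μ g (y + t • v))
      = fun t : ℝ => lap B μ (fun x => (B x v) ^ j • g x) (y + t • v) := by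
  induction j with
  | zero => intro g _ hg; simp
  | succ j ih =>
    intro g _ hg
    rw [iteratedDeriv_succ', show deriv (fun t : ℝ => lap B μ g (y + t • v))
      = fun t : ℝ => lap B μ (fun x => (B x v) • g x) (y + t • v) from
        funext fun t => (hasDerivAt_line hg B y v t).deriv, ih (hg.smul B v)]
    funext t
    congr 1
    funext x
    rw [smul_smul, ← pow_succ]

/-! ### The logarithm -/

section real

variable {E' : Type} [NormedAddCommGroup E'] [NormedSpace ℝ E']
variable {μ : Measure E} {g : E → ℝ} {B : E →L[ℝ] E' →L[ℝ] ℝ}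

theorem Expo.pow (hg : Expo μ g) (B : E →L[ℝ] E' →L[ℝ] ℝ) (v : E') (j : ℕ) :
    Expo μ (fun x => (B x v) ^ j • g x) := by
  induction j with
  | zero => simpa using hg
  | succ j ih =>
    have := ih.smul B v
    convert this using 2 with x
    rw [smul_smul, ← pow_succ']

theorem lap_pos (hg : Expo μ g) (h0 : ∀ x, 0 ≤ g x) (h1 : μ {x | g x ≠ 0} ≠ 0) (y : E') :
    0 < lap B μ g y := by
  unfold lap
  rw [integral_pos_iff_support_of_nonneg (fun x => by
    simpa using mul_nonneg (Real.exp_pos _).le (h0 x)) (integrable_lap hg B y)]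
  have : Function.support (fun x => Real.exp (B x y) • g x) = {x | g x ≠ 0} := by
    ext x
    simp [Function.mem_support, (Real.exp_pos _).ne']
  rw [this]
  exact pos_iff_ne_zero.2 h1

/-- mean of `⟨x, v⟩` -/
noncomputable def mean (B : E →L[ℝ] E' →L[ℝ] ℝ) (μ : Measure E) (g : E → ℝ) (v y : E') : ℝ :=
  lap B μ (fun x => (B x v) * g x) y / lap B μ g y

/-- `j`-th central moment of `⟨x, v⟩` -/
noncomputable def cmom (B : E →L[ℝ] E' →L[ℝ] ℝ) (μ : Measure E) (g : E → ℝ) (v y : E') (j : ℕ) : ℝ :=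
  lap B μ (fun x => (B x v - mean B μ g v y) ^ j * g x) y / lap B μ g y

theorem contDiff_log_lap (hg : Expo μ g) (hpos : ∀ y, 0 < lap B μ g y) :
    ContDiff ℝ (⊤ : ℕ∞) (fun y => Real.log (lap B μ g y)) :=
  (contDiff_lap B hg).log fun y => (hpos y).ne'

theorem cmom_two (hg : Expo μ g) (hpos : ∀ y, 0 < lap B μ g y) (v y : E') :
    cmom B μ g v y 2 = lap B μ (fun x => (B x v) ^ 2 • g x) y / lap B μ g y
      - (mean B μ g v y) ^ 2 := by
  have h0 := (hpos y).ne'
  set m := mean B μ g v y with hm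
  have e1 : lap B μ (fun x => (B x v) * g x) y = m * lap B μ g y := by
    rw [hm, mean]; field_simp
  have : lap B μ (fun x => (B x v - m) ^ 2 * g x) y
      = lap B μ (fun x => (B x v) ^ 2 • g x) y - 2 * m * lap B μ (fun x => (B x v) * g x) y
        + m ^ 2 * lap B μ g y := by
    unfold lap
    rw [← integral_const_mul, ← integral_const_mul, ← integral_sub, ← integral_add]
    · refine integral_congr_ae (Eventually.of_forall fun x => ?_)
      simp only [smul_eq_mul]; ring
    · exact ((integrable_lap (hg.pow B v 2) B y)).sub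
        ((integrable_lap (hg.smul B v) B y).const_mul _)
    · exact (integrable_lap hg B y).const_mul _
    · exact integrable_lap (hg.pow B v 2) B y
    · exact (integrable_lap (hg.smul B v) B y).const_mul _
  rw [cmom, this, e1]
  field_simp
  ring

theorem cmom_three (hg : Expo μ g) (hpos : ∀ y, 0 < lap B μ g y) (v y : E') :
    cmom B μ g v y 3 = lap B μ (fun x => (B x v) ^ 3 • g x) y / lap B μ g y
      - 3 * mean B μ g v y * (lap B μ (fun x => (B x v) ^ 2 • g x) y / lap B μ g y)
      + 2 * (mean B μ g v y) ^ 3 := by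
  have h0 := (hpos y).ne'
  set m := mean B μ g v y with hm
  have e1 : lap B μ (fun x => (B x v) * g x) y = m * lap B μ g y := by
    rw [hm, mean]; field_simp
  have : lap B μ (fun x => (B x v - m) ^ 3 * g x) y
      = (lap B μ (fun x => (B x v) ^ 3 • g x) y - 3 * m * lap B μ (fun x => (B x v) ^ 2 • g x) y)
        + (3 * m ^ 2 * lap B μ (fun x => (B x v) * g x) y
        - m ^ 3 * lap B μ g y) := by
    unfold lap
    rw [← integral_const_mul, ← integral_const_mul, ← integral_const_mul, ← integral_sub,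
      ← integral_sub, ← integral_add]
    · refine integral_congr_ae (Eventually.of_forall fun x => ?_)
      simp only [smul_eq_mul]; ring
    · exact ((integrable_lap (hg.pow B v 3) B y)).sub
        ((integrable_lap (hg.pow B v 2) B y).const_mul _)
    · exact ((integrable_lap (hg.smul B v) B y).const_mul _).sub
        ((integrable_lap hg B y).const_mul _)
    · exact (integrable_lap (hg.smul B v) B y).const_mul _
    · exact (integrable_lap hg B y).const_mul _
    · exact integrable_lap (hg.pow B v 3) B y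
    · exact (integrable_lap (hg.pow B v 2) B y).const_mul _
  rw [cmom, this, e1]
  field_simp
  ring

theorem hasDerivAt_log (hg : Expo μ g) (hpos : ∀ y, 0 < lap B μ g y) (y v : E') (t : ℝ) :
    HasDerivAt (fun t : ℝ => Real.log (lap B μ g (y + t • v))) (mean B μ g v (y + t • v)) t := by
  have := (hasDerivAt_line hg B y v t).log (hpos _).ne'
  simpa [mean] using this

theorem hasDerivAt_mean (hg : Expo μ g) (hpos : ∀ y, 0 < lap B μ g y) (y v : E') (t : ℝ) :
    HasDerivAt (fun t : ℝ => mean B μ g v (y + t • v)) (cmom B μ g v (y + t • v) 2) t := by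
  have h1 := hasDerivAt_line (hg.smul B v) B y v t
  have h2 := (h1.div (hasDerivAt_line hg B y v t) (hpos _).ne')
  refine HasDerivAt.congr_deriv h2 ?_
  have h0 := (hpos (y + t • v)).ne'
  have e3 : (fun x => (B x v) • (B x v) • g x) = fun x => (B x v) ^ 2 • g x := by
    funext x; rw [smul_smul, pow_two]
  have e1 : lap B μ (fun x => (B x v) • g x) (y + t • v)
      = mean B μ g v (y + t • v) * lap B μ g (y + t • v) := by
    rw [mean]; simp only [smul_eq_mul]; field_simp
  rw [cmom_two hg hpos, e3, e1]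
  field_simp

theorem hasDerivAt_cmom_two (hg : Expo μ g) (hpos : ∀ y, 0 < lap B μ g y) (y v : E') (t : ℝ) :
    HasDerivAt (fun t : ℝ => cmom B μ g v (y + t • v) 2) (cmom B μ g v (y + t • v) 3) t := by
  have h1 := hasDerivAt_line (hg.pow B v 2) B y v t
  have h2 := (h1.div (hasDerivAt_line hg B y v t) (hpos _).ne').sub
    ((hasDerivAt_mean hg hpos y v t).pow 2)
  have e : (fun t : ℝ => cmom B μ g v (y + t • v) 2) = fun t : ℝ =>
      lap B μ (fun x => (B x v) ^ 2 • g x) (y + t • v) / lap B μ g (y + t • v)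
      - (mean B μ g v (y + t • v)) ^ 2 := funext fun t => cmom_two hg hpos v _
  rw [e]
  refine HasDerivAt.congr_deriv h2 ?_
  have h0 := (hpos (y + t • v)).ne'
  rw [cmom_two hg hpos, cmom_three hg hpos]
  have e3 : (fun x => (B x v) • (B x v) ^ 2 • g x) = fun x => (B x v) ^ 3 • g x := by
    funext x; simp only [smul_smul]; ring_nf
  rw [e3]
  have e1 : lap B μ (fun x => (B x v) • g x) (y + t • v)
      = mean B μ g v (y + t • v) * lap B μ g (y + t • v) := by
    rw [mean]; simp only [smul_eq_mul]; field_simp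
  rw [e1]
  field_simp
  ring

end real

end Vale.Agent.P227.M.Lap
end

section

/-! # P227/M/SC: lower bound of the second derivative of the two-point average, real inequality
(leaf (4) of helper839, helper847) -/

namespace Vale.Agent.P227.M.SC

theorem r_low (a0 b A3 : ℝ) (_ha0 : 0 < a0) (hb : 0 ≤ b) (hA3 : 0 ≤ A3) : ∃ K, 0 ≤ K ∧
    ∀ (a C3 δ P n a1 a2 ax m D : ℝ), a0 ≤ a → a ≤ b → 0 ≤ C3 → C3 ≤ A3 → 0 < δ → δ ≤ 1 → 0 ≤ P → P ≤ 1 →
      0 ≤ n → a * n ^ 2 ≤ a1 → a1 ≤ b * n ^ 2 → a * n ^ 2 ≤ a2 → a2 ≤ b * n ^ 2 → 0 ≤ ax → m ^ 2 ≤ b * ax →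
      ax ≤ a1 + C3 * δ * n ^ 2 → ax ≤ a2 + C3 * δ * n ^ 2 → |m| ≤ b * n → |D - 2 * δ * m| ≤ 2 * C3 * δ ^ 2 * n →
      (a * (1 - b * δ ^ 2) - K * δ ^ 3) * n ^ 2 ≤ P * a1 + (1 - P) * a2 - P * (1 - P) * D ^ 2 := by
  refine ⟨3 * b * A3 + A3 ^ 2 + b ^ 3, by positivity, ?_⟩
  intro a C3 δ P n a1 a2 ax m D haa hab hC hCA hδ hδ1 hP hP1 hn h1 h2 h3 h4 hax hm hx1 hx2 hmb hD
  have ha : 0 ≤ a := by linarith
  set B := P * a1 + (1 - P) * a2 with hB
  have hB1 : a * n ^ 2 ≤ B := by
    have e1 := mul_le_mul_of_nonneg_left h1 hP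
    have e2 := mul_le_mul_of_nonneg_left h3 (by linarith : (0 : ℝ) ≤ 1 - P)
    rw [hB]; linarith
  have hB2 : B ≤ b * n ^ 2 := by
    have e1 := mul_le_mul_of_nonneg_left h2 hP
    have e2 := mul_le_mul_of_nonneg_left h4 (by linarith : (0 : ℝ) ≤ 1 - P)
    rw [hB]; linarith
  have hB3 : ax ≤ B + C3 * δ * n ^ 2 := by
    have e1 := mul_le_mul_of_nonneg_left hx1 hP
    have e2 := mul_le_mul_of_nonneg_left hx2 (by linarith : (0 : ℝ) ≤ 1 - P)
    rw [hB]; linarith
  -- bound of `D ^ 2`
  have hD2 : D ^ 2 ≤ 4 * δ ^ 2 * (b * ax) + 8 * δ ^ 3 * b * C3 * n ^ 2 + 4 * C3 ^ 2 * δ ^ 4 * n ^ 2 := by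
    set E := D - 2 * δ * m with hE
    have e1 : D = 2 * δ * m + E := by rw [hE]; ring
    have e2 : E ^ 2 ≤ (2 * C3 * δ ^ 2 * n) ^ 2 := by
      rw [← sq_abs E]
      exact pow_le_pow_left₀ (abs_nonneg _) hD 2
    have e3 : m * E ≤ (b * n) * (2 * C3 * δ ^ 2 * n) := by
      refine (le_abs_self _).trans ?_
      rw [abs_mul]
      exact mul_le_mul hmb hD (abs_nonneg _) (by positivity)
    have e4 := mul_le_mul_of_nonneg_left hm (by positivity : 0 ≤ 4 * δ ^ 2)
    have e5 := mul_le_mul_of_nonneg_left e3 (by positivity : 0 ≤ 4 * δ)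
    rw [e1]
    nlinarith
  have hQ : P * (1 - P) ≤ 1 / 4 := by nlinarith [sq_nonneg (P - 1 / 2)]
  have hQ0 : 0 ≤ P * (1 - P) := mul_nonneg hP (by linarith)
  have hQD : P * (1 - P) * D ^ 2 ≤ 1 / 4 * (4 * δ ^ 2 * (b * ax) + 8 * δ ^ 3 * b * C3 * n ^ 2 +
      4 * C3 ^ 2 * δ ^ 4 * n ^ 2) :=
    mul_le_mul hQ hD2 (sq_nonneg _) (by norm_num)
  have hax2 : δ ^ 2 * (b * ax) ≤ δ ^ 2 * (b * (B + C3 * δ * n ^ 2)) :=
    mul_le_mul_of_nonneg_left (mul_le_mul_of_nonneg_left hB3 hb) (by positivity)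
  have hδ4 : δ ^ 4 ≤ δ ^ 3 := by
    have : δ ^ 4 = δ ^ 3 * δ := by ring
    rw [this]
    exact mul_le_of_le_one_right (by positivity) hδ1
  have hC2 : C3 ^ 2 * δ ^ 4 * n ^ 2 ≤ A3 ^ 2 * δ ^ 3 * n ^ 2 := by
    refine mul_le_mul_of_nonneg_right ?_ (sq_nonneg n)
    exact mul_le_mul (pow_le_pow_left₀ hC hCA 2) hδ4 (by positivity) (by positivity)
  have hC1 : b * C3 * δ ^ 3 * n ^ 2 ≤ b * A3 * δ ^ 3 * n ^ 2 := by
    refine mul_le_mul_of_nonneg_right ?_ (sq_nonneg n)
    refine mul_le_mul_of_nonneg_right ?_ (by positivity)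
    exact mul_le_mul_of_nonneg_left hCA hb
  -- main estimate
  have main : B * (1 - b * δ ^ 2) - (3 * b * A3 + A3 ^ 2) * δ ^ 3 * n ^ 2 ≤ B - P * (1 - P) * D ^ 2 := by
    have e1 : 1 / 4 * (4 * δ ^ 2 * (b * ax) + 8 * δ ^ 3 * b * C3 * n ^ 2 + 4 * C3 ^ 2 * δ ^ 4 * n ^ 2) =
        δ ^ 2 * (b * ax) + 2 * (b * C3 * δ ^ 3 * n ^ 2) + C3 ^ 2 * δ ^ 4 * n ^ 2 := by ring
    rw [e1] at hQD
    have e2 : δ ^ 2 * (b * (B + C3 * δ * n ^ 2)) = B * (b * δ ^ 2) + b * C3 * δ ^ 3 * n ^ 2 := by ring
    rw [e2] at hax2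
    have e3 : (3 * b * A3 + A3 ^ 2) * δ ^ 3 * n ^ 2 = 3 * (b * A3 * δ ^ 3 * n ^ 2) + A3 ^ 2 * δ ^ 3 * n ^ 2 := by ring
    rw [e3]
    linarith
  refine le_trans ?_ main
  rcases le_total (b * δ ^ 2) 1 with hs | hs
  · have e1 := mul_le_mul_of_nonneg_right hB1 (by linarith : (0 : ℝ) ≤ 1 - b * δ ^ 2)
    have e2 : 0 ≤ b ^ 3 * δ ^ 3 * n ^ 2 := by positivity
    have e3 : (a * (1 - b * δ ^ 2) - (3 * b * A3 + A3 ^ 2 + b ^ 3) * δ ^ 3) * n ^ 2 =
        a * n ^ 2 * (1 - b * δ ^ 2) - (3 * b * A3 + A3 ^ 2) * δ ^ 3 * n ^ 2 - b ^ 3 * δ ^ 3 * n ^ 2 := by ring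
    rw [e3]
    linarith
  · have e1 : b * n ^ 2 * (1 - b * δ ^ 2) ≤ B * (1 - b * δ ^ 2) := by
      have := mul_le_mul_of_nonneg_right hB2 (by linarith : (0 : ℝ) ≤ b * δ ^ 2 - 1)
      linarith
    -- `(b - a) (b δ² - 1) ≤ b³ δ³`
    have e2 : (b - a) * (b * δ ^ 2 - 1) ≤ b ^ 3 * δ ^ 3 := by
      have f1 : (b - a) * (b * δ ^ 2 - 1) ≤ b * (b * δ ^ 2) :=
        mul_le_mul (by linarith) (by linarith) (by linarith) hb
      have f2 : b * (b * δ ^ 2) ≤ b * (b * δ ^ 2) * (b * δ ^ 2) :=
        le_mul_of_one_le_right (by positivity) hs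
      have f3 : b * (b * δ ^ 2) * (b * δ ^ 2) = b ^ 3 * δ ^ 4 := by ring
      have f4 : b ^ 3 * δ ^ 4 ≤ b ^ 3 * δ ^ 3 := mul_le_mul_of_nonneg_left hδ4 (by positivity)
      linarith
    have e3 := mul_le_mul_of_nonneg_right e2 (sq_nonneg n)
    have e4 : (a * (1 - b * δ ^ 2) - (3 * b * A3 + A3 ^ 2 + b ^ 3) * δ ^ 3) * n ^ 2 =
        b * n ^ 2 * (1 - b * δ ^ 2) + (b - a) * (b * δ ^ 2 - 1) * n ^ 2
          - (3 * b * A3 + A3 ^ 2) * δ ^ 3 * n ^ 2 - b ^ 3 * δ ^ 3 * n ^ 2 := by ring
    rw [e4]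
    linarith

end Vale.Agent.P227.M.SC
end

section

open MeasureTheory Set
open scoped NNReal

namespace Vale.Agent.P254.Unc

/-- The unit cube, with its product probability measure `volume` and the sup metric. -/
abbrev X (n : ℕ) := Fin n → unitInterval

/-- Midpoint in the unit interval. -/
noncomputable def mid1 (a b : unitInterval) : unitInterval :=
  ⟨((a : ℝ) + b) / 2, by
    constructor
    · have := a.2.1; have := b.2.1; linarith
    · have := a.2.2; have := b.2.2; linarith⟩

/-- Coordinatewise midpoint in the cube. -/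
noncomputable def mid {n : ℕ} (x y : X n) : X n := fun k => mid1 (x k) (y k)

/-- The two-function midpoint relation. `Rel f f f` is midpoint concavity of `f`. -/
def Rel {n : ℕ} (z f g : X n → ℝ) : Prop := ∀ x y, (f x + g y) / 2 ≤ z (mid x y)

/-- `M`-Lipschitz and (midpoint) concave. -/
structure Good {n : ℕ} (M : ℝ≥0) (f : X n → ℝ) : Prop where
  lip : LipschitzWith M f
  conc : Rel f f f

/-- Mean of `f` over `x_k ∈ [0,b]`. -/
noncomputable def avgB {n : ℕ} (k : Fin n) (f : X n → ℝ) (x : X n) (b : unitInterval) : ℝ :=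
  ∫ u : unitInterval, f (Function.update x k (b * u))

/-- Supremum of `f` over the points above `x` in direction `k`. -/
noncomputable def upB {n : ℕ} (k : Fin n) (f : X n → ℝ) (x : X n) : ℝ :=
  ⨆ s : unitInterval, f (Function.update x k (x k ⊔ s))

/-- The isotonic regression of a concave function in direction `k`. -/
noncomputable def Q {n : ℕ} (k : Fin n) (f : X n → ℝ) (x : X n) : ℝ :=
  min (⨆ b : unitInterval, avgB k f x b) (upB k f x)

/-- Antitone in the coordinate `k`. -/
def AntiK {n : ℕ} (k : Fin n) (v : X n → ℝ) : Prop :=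
  ∀ (x : X n) (s t : unitInterval), s ≤ t → v (Function.update x k t) ≤ v (Function.update x k s)

/-- `g` is the `L²`-projection of `f` to the antitone functions. -/
structure IsProj {n : ℕ} (f g : X n → ℝ) : Prop where
  anti : Antitone g
  le : ∀ v : X n → ℝ, Antitone v → (∃ K, LipschitzWith K v) → ∫ x, (f x - g x) * v x ≤ 0
  eq : ∫ x, (f x - g x) * g x = 0

/-- The inequality `|L| ≥ ∏ 2 E x_k` for closed convex lower sets in the cube. -/
def UNC (n : ℕ) : Prop :=
  ∀ L : Set (X n), IsClosed L → L.Nonempty → IsLowerSet L → (∀ x ∈ L, ∀ y ∈ L, mid x y ∈ L) →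
    ∏ k : Fin n, (2 * ∫ x in L, ((x k : unitInterval) : ℝ)) ≤ (volume L).toReal ^ (n + 1)

/-- The functional inequality `E_ρ G ∏ 2 E_ρ x_k ≤ ∫ G₊`. -/
def CX (n : ℕ) : Prop :=
  ∀ (ρ G : X n → ℝ) (K M : ℝ≥0), Antitone ρ → (∀ x, 0 ≤ ρ x) → LipschitzWith K ρ →
    LipschitzWith M G → Rel G G G →
    (∫ x, G x * ρ x) * ∏ k : Fin n, (2 * ∫ x, ((x k : unitInterval) : ℝ) * ρ x) ≤
      (∫ x, ρ x) ^ (n + 1) * ∫ x, max (G x) 0

end Vale.Agent.P254.Unc
end

section

open MeasureTheory Set
open scoped NNReal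

namespace Vale.Agent.P254.Unc

/-- 1-D regression. -/
noncomputable def reg (f : unitInterval → ℝ) (t : unitInterval) : ℝ :=
  min (⨆ b : unitInterval, ∫ u : unitInterval, f (b * u)) (⨆ s : unitInterval, f (t ⊔ s))

/-- Triples. -/
abbrev Tr (n : ℕ) := Fin 3 → (X n → ℝ)

/-- good triples -/
def BB (n : ℕ) (M : ℝ≥0) (N : ℝ) : Set (Tr n) :=
  {f | (∀ i, Good M (f i)) ∧ (∀ i x, |f i x| ≤ N) ∧ Rel (f 2) (f 0) (f 1)}

/-- good triples above `β` in the antitone order -/
def VV (n : ℕ) (M : ℝ≥0) (N : ℝ) (β : Tr n) : Set (Tr n) :=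
  {f | f ∈ BB n M N ∧ ∀ i, ∀ ρ : X n → ℝ, Antitone ρ → (∃ K, LipschitzWith K ρ) →
    ∫ x, (β i x - f i x) * ρ x ≤ 0}

/-- Lipschitz antitone probability densities -/
structure Dens (n : ℕ) (ρ : X n → ℝ) : Prop where
  anti : Antitone ρ
  nonneg : ∀ x, 0 ≤ ρ x
  lip : ∃ K, LipschitzWith K ρ
  int : ∫ x, ρ x = 1

/-- D2: CX for strongly concave `G` -/
def CXs (n : ℕ) : Prop :=
  ∀ (ρ G : X n → ℝ) (M : ℝ≥0) (κ : ℝ), 0 < κ → Dens n ρ → LipschitzWith M G →
    (∀ x y, (G x + G y) / 2 + κ * ∑ k, ((x k : ℝ) - y k) ^ 2 ≤ G (mid x y)) →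
    (∫ x, G x * ρ x) * ∏ k : Fin n, (2 * ∫ x, ((x k : unitInterval) : ℝ) * ρ x) ≤
      ∫ x, max (G x) 0

end Vale.Agent.P254.Unc
end

section

/-! Block D1a: antitone densities are nearly maximised at the value of the projection at `0`. -/

open MeasureTheory Set
open scoped NNReal

namespace Vale.Agent.P254.Unc

variable {n : ℕ} {M : ℝ≥0}

/-- Lebesgue measure on the unit interval charges open sets. -/
theorem isOpenPos_I : (volume : Measure unitInterval).IsOpenPosMeasure := by
  refine ⟨fun U hU hne => ?_⟩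
  obtain ⟨x, hx⟩ := hne
  obtain ⟨V, hV, rfl⟩ := isOpen_induced_iff.1 hU
  have hxV : (x : ℝ) ∈ V := hx
  have hcl : (x : ℝ) ∈ closure (Ioo (0 : ℝ) 1) := by
    rw [closure_Ioo (by norm_num)]
    exact x.2
  obtain ⟨y, hyV, hyI⟩ := mem_closure_iff.1 hcl V hV hxV
  have hsub : V ∩ Ioo (0 : ℝ) 1 ⊆ (Subtype.val : unitInterval → ℝ) '' (Subtype.val ⁻¹' V) := by
    rintro z ⟨hz, hz'⟩
    exact ⟨⟨z, hz'.1.le, hz'.2.le⟩, hz, rfl⟩
  have hpos : 0 < volume (V ∩ Ioo (0 : ℝ) 1) :=
    (hV.inter isOpen_Ioo).measure_pos volume ⟨y, hyV, hyI⟩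
  have himg : volume ((Subtype.val : unitInterval → ℝ) '' (Subtype.val ⁻¹' V))
      = volume ((Subtype.val : unitInterval → ℝ) ⁻¹' V) :=
    volume_image_subtype_coe measurableSet_Icc _
  rw [← himg]
  exact (hpos.trans_le (measure_mono hsub)).ne'

theorem isOpenPos_X (n : ℕ) : (volume : Measure (X n)).IsOpenPosMeasure := by
  have := isOpenPos_I
  rw [volume_pi]
  infer_instance

theorem integrable_of_cont {f : X n → ℝ} (hf : Continuous f) : Integrable f :=
  hf.integrable_of_hasCompactSupport (HasCompactSupport.of_compactSpace f)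

theorem integral_sub_mul {f g v : X n → ℝ} (hf : Continuous f) (hg : Continuous g)
    (hv : Continuous v) :
    ∫ x, (f x - g x) * v x = (∫ x, f x * v x) - ∫ x, g x * v x := by
  rw [← integral_sub (integrable_of_cont (f := fun x => f x * v x) (hf.mul hv))
    (integrable_of_cont (f := fun x => g x * v x) (hg.mul hv))]
  exact integral_congr_ae (Filter.Eventually.of_forall fun x => by simp only []; ring)

/-- D1a -/
theorem IsProj.dens_le {f g : X n → ℝ} (h : IsProj f g) (hf : Continuous f) (hg : Continuous g)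
    {ρ : X n → ℝ} (hρ : Dens n ρ) : ∫ x, f x * ρ x ≤ g 0 := by
  obtain ⟨K, hK⟩ := hρ.lip
  have hρc : Continuous ρ := hK.continuous
  have h1 := h.le ρ hρ.anti hρ.lip
  have h2 := integral_sub_mul hf hg hρc
  have h3 : ∫ x, g x * ρ x ≤ ∫ x, g 0 * ρ x := by
    refine integral_mono (integrable_of_cont (hg.mul hρc))
      (integrable_of_cont (continuous_const.mul hρc)) fun x => ?_
    exact mul_le_mul_of_nonneg_right (h.anti (fun k => (x k).2.1)) (hρ.nonneg x)
  have h4 : ∫ x, g 0 * ρ x = g 0 := by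
    rw [integral_const_mul, hρ.int, mul_one]
  linarith

/-- D1a -/
theorem IsProj.exists_dens {f g : X n → ℝ} (h : IsProj f g) (hf : Continuous f)
    (hg : LipschitzWith M g) {ε : ℝ} (hε : 0 < ε) :
    ∃ ρ, Dens n ρ ∧ g 0 - ε ≤ ∫ x, f x * ρ x := by
  have := isOpenPos_X n
  set t : ℝ := g 0 - ε with ht
  set φ : X n → ℝ := fun x => max (g x - t) 0 with hφ
  set ψ : X n → ℝ := fun x => min (g x) t with hψ
  have hgc : Continuous g := hg.continuous
  have hφanti : Antitone φ := fun x y hxy =>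
    max_le_max (sub_le_sub_right (h.anti hxy) t) le_rfl
  have hψanti : Antitone ψ := fun x y hxy => min_le_min (h.anti hxy) le_rfl
  have hψlip : LipschitzWith M ψ := hg.min_const t
  have hφeq : φ = fun x => g x - ψ x := by
    funext x
    simp only [hφ, hψ]
    rcases le_total (g x) t with h' | h'
    · rw [max_eq_right (by linarith), min_eq_left h']; ring
    · rw [max_eq_left (by linarith), min_eq_right h']
  have hφlip : LipschitzWith M φ := by
    refine LipschitzWith.of_dist_le_mul fun x y => ?_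
    have := hg.dist_le_mul x y
    refine le_trans ?_ this
    simp only [Real.dist_eq, hφ]
    refine (abs_max_sub_max_le_abs _ _ _).trans ?_
    rw [show g x - t - (g y - t) = g x - g y by ring]
  have hφc : Continuous φ := hφlip.continuous
  have hψc : Continuous ψ := hψlip.continuous
  have hφnn : ∀ x, 0 ≤ φ x := fun x => le_max_right _ _
  have hφ0 : φ 0 ≠ 0 := by
    simp only [hφ, ht]
    rw [max_eq_left (by linarith)]
    linarith
  have hI : 0 < ∫ x, φ x :=
    hφc.integral_pos_of_hasCompactSupport_nonneg_nonzero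
      (HasCompactSupport.of_compactSpace φ) hφnn hφ0
  have e1 : ∫ x, (f x - g x) * φ x ≤ 0 := h.le φ hφanti ⟨M, hφlip⟩
  have e2 : ∫ x, (f x - g x) * ψ x ≤ 0 := h.le ψ hψanti ⟨M, hψlip⟩
  have e3 : (∫ x, (f x - g x) * φ x) + ∫ x, (f x - g x) * ψ x = 0 := by
    rw [← h.eq, ← integral_add
      (integrable_of_cont (f := fun x => (f x - g x) * φ x) ((hf.sub hgc).mul hφc))
      (integrable_of_cont (f := fun x => (f x - g x) * ψ x) ((hf.sub hgc).mul hψc))]
    refine integral_congr_ae (Filter.Eventually.of_forall fun x => ?_)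
    have := congrFun hφeq x
    simp only [] at this ⊢
    rw [this]; ring
  have e4 : ∫ x, (f x - g x) * φ x = 0 := by linarith
  have e5 : (∫ x, f x * φ x) = ∫ x, g x * φ x := by
    have := integral_sub_mul hf hgc hφc
    linarith
  have e6 : ∫ x, t * φ x ≤ ∫ x, g x * φ x := by
    refine integral_mono (integrable_of_cont (continuous_const.mul hφc))
      (integrable_of_cont (hgc.mul hφc)) fun x => ?_
    simp only [hφ]
    rcases le_total (g x) t with h' | h'
    · rw [max_eq_right (by linarith)]; simp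
    · exact mul_le_mul_of_nonneg_right h' (le_max_right _ _)
  rw [integral_const_mul] at e6
  set I : ℝ := ∫ x, φ x with hIdef
  refine ⟨fun x => I⁻¹ * φ x, ⟨?_, ?_, ?_, ?_⟩, ?_⟩
  · intro x y hxy
    exact mul_le_mul_of_nonneg_left (hφanti hxy) (inv_nonneg.2 hI.le)
  · intro x
    exact mul_nonneg (inv_nonneg.2 hI.le) (hφnn x)
  · refine ⟨Real.toNNReal I⁻¹ * M, LipschitzWith.of_dist_le_mul fun x y => ?_⟩
    have := hφlip.dist_le_mul x y
    rw [Real.dist_eq] at this ⊢
    rw [← mul_sub, abs_mul, abs_of_nonneg (inv_nonneg.2 hI.le)]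
    push_cast
    rw [Real.coe_toNNReal _ (inv_nonneg.2 hI.le), mul_assoc]
    exact mul_le_mul_of_nonneg_left this (inv_nonneg.2 hI.le)
  · rw [integral_const_mul, ← hIdef]
    exact inv_mul_cancel₀ hI.ne'
  · have : ∫ x, f x * (I⁻¹ * φ x) = I⁻¹ * ∫ x, f x * φ x := by
      rw [← integral_const_mul]
      exact integral_congr_ae (Filter.Eventually.of_forall fun x => by simp only []; ring)
    rw [this, e5]
    calc t = I⁻¹ * (t * I) := by field_simp
      _ ≤ I⁻¹ * ∫ x, g x * φ x := mul_le_mul_of_nonneg_left e6 (inv_nonneg.2 hI.le)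

end Vale.Agent.P254.Unc
end

section

open MeasureTheory Set Filter Topology
open scoped NNReal

namespace Vale.Agent.P254.Unc

variable {n : ℕ} {M : ℝ≥0}

theorem d1b_isOpenPos : (volume : Measure unitInterval).IsOpenPosMeasure where
  open_pos := by
    rintro U hU ⟨x, hx⟩ h0
    obtain ⟨V, hV, rfl⟩ := isOpen_induced_iff.1 hU
    have hcl : (x : ℝ) ∈ closure (Ioo (0 : ℝ) 1) := by
      rw [closure_Ioo zero_ne_one]; exact x.2
    obtain ⟨y, hyV, hy⟩ := mem_closure_iff.1 hcl V hV hx
    have hW : (V ∩ Ioo (0 : ℝ) 1).Nonempty := ⟨y, hyV, hy⟩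
    have hWo : IsOpen (V ∩ Ioo (0 : ℝ) 1) := hV.inter isOpen_Ioo
    have hpos := hWo.measure_pos (volume : Measure ℝ) hW
    have hsub : V ∩ Ioo (0 : ℝ) 1 ⊆ Subtype.val '' (Subtype.val ⁻¹' V : Set unitInterval) := by
      rintro z ⟨hzV, hz⟩
      exact ⟨⟨z, hz.1.le, hz.2.le⟩, hzV, rfl⟩
    have h1 : (volume : Measure unitInterval) (Subtype.val ⁻¹' V) =
        volume (Subtype.val '' (Subtype.val ⁻¹' V : Set unitInterval)) :=
      unitInterval.volume_apply
    rw [h0] at h1
    exact absurd (measure_mono_null hsub h1.symm) hpos.ne'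

/-- the cut-off profile -/
noncomputable def d1bcut (t : ℝ) (j : ℕ) (s : ℝ) : ℝ := min 1 (max 0 (1 + ((j : ℝ) + 1) * (s - t)))

theorem d1bcut_mono (t : ℝ) (j : ℕ) : Monotone (d1bcut t j) := by
  intro a b hab
  unfold d1bcut
  have : (0 : ℝ) ≤ (j : ℝ) + 1 := by positivity
  exact min_le_min le_rfl (max_le_max le_rfl (by nlinarith))

theorem d1bcut_nonneg (t : ℝ) (j : ℕ) (s : ℝ) : 0 ≤ d1bcut t j s := by
  unfold d1bcut; exact le_min zero_le_one (le_max_left _ _)

theorem d1bcut_le_one (t : ℝ) (j : ℕ) (s : ℝ) : d1bcut t j s ≤ 1 := by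
  unfold d1bcut; exact min_le_left _ _

theorem d1bcut_le_add (t : ℝ) (j : ℕ) (a b : ℝ) (hab : a ≤ b) :
    d1bcut t j b ≤ d1bcut t j a + ((j : ℝ) + 1) * (b - a) := by
  unfold d1bcut
  have hj : (0 : ℝ) ≤ (j : ℝ) + 1 := by positivity
  have h0 : 0 ≤ ((j : ℝ) + 1) * (b - a) := mul_nonneg hj (by linarith)
  rcases le_total (1 + ((j : ℝ) + 1) * (b - t)) 0 with h | h
  · rw [max_eq_left h]
    have : (min 1 0 : ℝ) ≤ min 1 (max 0 (1 + ((j : ℝ) + 1) * (a - t))) :=
      min_le_min le_rfl (le_max_left _ _)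
    linarith
  · rw [max_eq_right h]
    rw [← min_add_add_right]
    refine min_le_min (by linarith) ?_
    have : 1 + ((j : ℝ) + 1) * (a - t) ≤ max 0 (1 + ((j : ℝ) + 1) * (a - t)) := le_max_right _ _
    nlinarith

theorem d1bcut_tendsto (t s : ℝ) :
    Tendsto (fun j : ℕ => d1bcut t j s) atTop (𝓝 (if t ≤ s then 1 else 0)) := by
  split_ifs with h
  · have : ∀ j : ℕ, d1bcut t j s = 1 := by
      intro j
      unfold d1bcut
      have hj : (0 : ℝ) ≤ (j : ℝ) + 1 := by positivity
      refine min_eq_left ?_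
      refine le_trans ?_ (le_max_right _ _)
      nlinarith [mul_nonneg hj (sub_nonneg.2 h)]
    simp [this]
  · push Not at h
    obtain ⟨N, hN⟩ := exists_nat_gt (1 / (t - s))
    refine tendsto_const_nhds.congr' ?_
    filter_upwards [eventually_ge_atTop N] with j hj
    unfold d1bcut
    have h1 : 0 < t - s := by linarith
    have h2 : (N : ℝ) ≤ j := by exact_mod_cast hj
    have h3 : 1 < (N : ℝ) * (t - s) := by
      rwa [div_lt_iff₀ h1] at hN
    have h4 : 1 + ((j : ℝ) + 1) * (s - t) ≤ 0 := by nlinarith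
    rw [max_eq_left h4]
    simp

theorem d1bcut_lip {g : X n → ℝ} (hg : LipschitzWith M g) (t : ℝ) (j : ℕ) :
    ∃ K, LipschitzWith K (fun x => d1bcut t j (g x)) := by
  refine ⟨((j : ℝ≥0) + 1) * M, LipschitzWith.of_le_add_mul _ fun x y => ?_⟩
  have hj : (0 : ℝ) ≤ (j : ℝ) + 1 := by positivity
  have h1 : g x ≤ g y + M * dist x y := hg.le_add_mul x y
  have hd : (0 : ℝ) ≤ M * dist x y := by positivity
  push_cast
  rcases le_total (g y) (g x) with h | h
  · have := d1bcut_le_add t j (g y) (g x) h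
    nlinarith
  · have := d1bcut_mono t j h
    have h2 : 0 ≤ ((j : ℝ) + 1) * M * dist x y := by positivity
    linarith

theorem d1b_integrable {f : X n → ℝ} (hf : Continuous f) : Integrable f volume := by
  have : IntegrableOn f univ volume := hf.continuousOn.integrableOn_compact isCompact_univ
  rwa [integrableOn_univ] at this

/-- The integral of `f - g` against a cut-off of `g` vanishes; we need only one inequality. -/
theorem IsProj.d1b_cut_nonneg {f g : X n → ℝ} (h : IsProj f g) (hf : Continuous f)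
    (hg : LipschitzWith M g) (t : ℝ) (j : ℕ) :
    0 ≤ ∫ x, (f x - g x) * d1bcut t j (g x) := by
  have hj : (0 : ℝ) < (j : ℝ) + 1 := by positivity
  set e : ℝ := 1 / ((j : ℝ) + 1) with he
  have he0 : 0 < e := by positivity
  have hej : e * ((j : ℝ) + 1) = 1 := by rw [he]; field_simp
  obtain ⟨K1, hK1⟩ := d1bcut_lip hg t j
  have hanti : Antitone (fun x => g x - e * d1bcut t j (g x)) := by
    intro x y hxy
    have h1 : g y ≤ g x := h.anti hxy
    have h2 := d1bcut_le_add t j (g y) (g x) h1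
    have h3 : e * d1bcut t j (g x) ≤ e * d1bcut t j (g y) + (g x - g y) := by
      calc e * d1bcut t j (g x) ≤ e * (d1bcut t j (g y) + ((j : ℝ) + 1) * (g x - g y)) :=
            mul_le_mul_of_nonneg_left h2 he0.le
        _ = e * d1bcut t j (g y) + (e * ((j : ℝ) + 1)) * (g x - g y) := by ring
        _ = _ := by rw [hej]; ring
    show g y - e * d1bcut t j (g y) ≤ g x - e * d1bcut t j (g x)
    linarith
  have hlip : ∃ K, LipschitzWith K (fun x => g x - e * d1bcut t j (g x)) := by
    refine ⟨M + Real.toNNReal e * K1, ?_⟩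
    refine hg.sub ?_
    refine LipschitzWith.of_le_add_mul _ fun x y => ?_
    have := hK1.le_add_mul x y
    have h4 : e * d1bcut t j (g x) ≤ e * (d1bcut t j (g y) + K1 * dist x y) :=
      mul_le_mul_of_nonneg_left this he0.le
    rw [NNReal.coe_mul, Real.coe_toNNReal e he0.le]
    linarith
  have hle := h.le _ hanti hlip
  have hcg : Continuous g := hg.continuous
  have hch : Continuous (fun x => d1bcut t j (g x)) := hK1.continuous
  have i1 : Integrable (fun x => (f x - g x) * g x) volume :=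
    d1b_integrable ((hf.sub hcg).mul hcg)
  have i2 : Integrable (fun x => (f x - g x) * d1bcut t j (g x)) volume :=
    d1b_integrable ((hf.sub hcg).mul hch)
  have heq : ∫ x, (f x - g x) * (g x - e * d1bcut t j (g x)) =
      (∫ x, (f x - g x) * g x) - e * ∫ x, (f x - g x) * d1bcut t j (g x) := by
    rw [← integral_const_mul, ← integral_sub i1 (i2.const_mul e)]
    congr 1
    ext x
    ring
  rw [heq, h.eq] at hle
  by_contra hneg
  push Not at hneg
  nlinarith

theorem IsProj.exists_set {f g : X n → ℝ} (h : IsProj f g) (hf : Continuous f)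
    (hg : Good M g) {ε : ℝ} (hε : 0 < ε) :
    ∃ L : Set (X n), IsClosed L ∧ L.Nonempty ∧ IsLowerSet L ∧
      (∀ x ∈ L, ∀ y ∈ L, mid x y ∈ L) ∧ 0 < (volume L).toReal ∧
      (g 0 - ε) * (volume L).toReal ≤ ∫ x in L, f x := by
  have hcg : Continuous g := hg.lip.continuous
  set t : ℝ := g 0 - ε with ht
  have hLc : IsClosed {x | t ≤ g x} := isClosed_le continuous_const hcg
  have h0 : (0 : X n) ∈ {x | t ≤ g x} := by
    show t ≤ g 0
    linarith
  refine ⟨{x | t ≤ g x}, hLc, ⟨0, h0⟩, ?_, ?_, ?_, ?_⟩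
  · intro x y hyx hx
    exact le_trans hx (h.anti hyx)
  · intro x hx y hy
    have := hg.conc x y
    have hx' : t ≤ g x := hx
    have hy' : t ≤ g y := hy
    show t ≤ g (mid x y)
    linarith
  · have hop : IsOpen {x | t < g x} := isOpen_lt continuous_const hcg
    have := d1b_isOpenPos
    have hpos : 0 < volume {x | t < g x} := hop.measure_pos volume ⟨0, by
      show t < g 0
      linarith⟩
    have hsub : {x | t < g x} ⊆ {x | t ≤ g x} := by
      intro x hx
      have hx' : t < g x := hx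
      exact hx'.le
    have hpos' : 0 < volume {x | t ≤ g x} := lt_of_lt_of_le hpos (measure_mono hsub)
    exact ENNReal.toReal_pos hpos'.ne' (measure_ne_top _ _)
  · have hlim : Tendsto (fun j : ℕ => ∫ x, (f x - g x) * d1bcut t j (g x)) atTop
        (𝓝 (∫ x, {x | t ≤ g x}.indicator (fun x => f x - g x) x)) := by
      have hfg : Continuous fun x => f x - g x := hf.sub hcg
      refine tendsto_integral_of_dominated_convergence (fun x => |f x - g x|) ?_ ?_ ?_ ?_
      · intro j
        obtain ⟨K1, hK1⟩ := d1bcut_lip hg.lip t j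
        exact (hfg.mul hK1.continuous).aestronglyMeasurable
      · exact d1b_integrable hfg.abs
      · intro j
        refine Eventually.of_forall fun x => ?_
        rw [Real.norm_eq_abs, abs_mul, abs_of_nonneg (d1bcut_nonneg t j (g x))]
        exact mul_le_of_le_one_right (abs_nonneg _) (d1bcut_le_one t j (g x))
      · refine Eventually.of_forall fun x => ?_
        have h1 := (d1bcut_tendsto t (g x)).const_mul (f x - g x)
        by_cases hx : t ≤ g x
        · simpa [hx, indicator] using h1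
        · simpa [hx, indicator] using h1
    have h1 : 0 ≤ ∫ x, {x | t ≤ g x}.indicator (fun x => f x - g x) x :=
      ge_of_tendsto' hlim fun j => h.d1b_cut_nonneg hf hg.lip t j
    rw [integral_indicator hLc.measurableSet,
      integral_sub (d1b_integrable hf).integrableOn (d1b_integrable hcg).integrableOn] at h1
    have h2 : t * (volume {x | t ≤ g x}).toReal ≤ ∫ x in {x | t ≤ g x}, g x := by
      have h3 : ∫ x in {x | t ≤ g x}, t ≤ ∫ x in {x | t ≤ g x}, g x :=
        setIntegral_mono_on (integrable_const _).integrableOn (d1b_integrable hcg).integrableOn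
          hLc.measurableSet fun x hx => hx
      rw [setIntegral_const, smul_eq_mul, mul_comm] at h3
      exact h3
    linarith

end Vale.Agent.P254.Unc
end

section

/-! P254-UNC, block P5: the isotonic regression of a triple, from the existence of a minimiser. -/

open MeasureTheory Set
open scoped NNReal

namespace Vale.Agent.P254.Unc

variable {n : ℕ} {M : ℝ≥0}

namespace P5

instance instOpenPosUnit : (volume : Measure unitInterval).IsOpenPosMeasure := by
  refine ⟨fun U hU hne => ?_⟩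
  obtain ⟨V, hV, rfl⟩ := isOpen_induced_iff.1 hU
  obtain ⟨x, hx⟩ := hne
  have hx' : (x : ℝ) ∈ closure (Ioo (0 : ℝ) 1) := by
    rw [closure_Ioo (by norm_num : (0 : ℝ) ≠ 1)]
    exact x.2
  obtain ⟨y, hyV, hy⟩ := mem_closure_iff.1 hx' V hV hx
  have hpos : 0 < volume (V ∩ Ioo (0 : ℝ) 1) := (hV.inter isOpen_Ioo).measure_pos _ ⟨y, hyV, hy⟩
  refine (lt_of_lt_of_le hpos ?_).ne'
  rw [unitInterval.volume_apply]
  refine measure_mono ?_
  rintro t ⟨ht, ht'⟩
  exact ⟨⟨t, ⟨ht'.1.le, ht'.2.le⟩⟩, ht, rfl⟩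

instance instOpenPosX : (volume : Measure (X n)).IsOpenPosMeasure :=
  inferInstanceAs (Measure.pi (fun _ => (volume : Measure unitInterval))).IsOpenPosMeasure

instance instProbX : IsProbabilityMeasure (volume : Measure (X n)) :=
  inferInstanceAs (IsProbabilityMeasure (Measure.pi (fun _ => (volume : Measure unitInterval))))

theorem integrable_of_cont {f : X n → ℝ} (hf : Continuous f) : Integrable f :=
  hf.integrable_of_hasCompactSupport (HasCompactSupport.of_compactSpace f)

theorem int_add3 {f g h : X n → ℝ} (hf : Continuous f) (hg : Continuous g) (hh : Continuous h) :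
    ∫ x, (f x + g x + h x) = (∫ x, f x) + (∫ x, g x) + ∫ x, h x := by
  have e1 : ∫ x, (f x + g x + h x) = (∫ x, (f x + g x)) + ∫ x, h x :=
    integral_add (integrable_of_cont (hf.add hg)) (integrable_of_cont hh)
  have e2 : ∫ x, (f x + g x) = (∫ x, f x) + ∫ x, g x :=
    integral_add (integrable_of_cont hf) (integrable_of_cont hg)
  rw [e1, e2]

theorem good_comb {f g : X n → ℝ} (hf : Good M f) (hg : Good M g) {a b : ℝ} (ha : 0 ≤ a)
    (hb : 0 ≤ b) (hab : a + b = 1) : Good M (fun x => a * f x + b * g x) := by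
  constructor
  · refine LipschitzWith.of_dist_le_mul fun x y => ?_
    have h1 := hf.lip.dist_le_mul x y
    have h2 := hg.lip.dist_le_mul x y
    rw [Real.dist_eq] at *
    have : a * f x + b * g x - (a * f y + b * g y) = a * (f x - f y) + b * (g x - g y) := by ring
    rw [this]
    calc |a * (f x - f y) + b * (g x - g y)|
        ≤ |a * (f x - f y)| + |b * (g x - g y)| := abs_add_le _ _
      _ = a * |f x - f y| + b * |g x - g y| := by
          rw [abs_mul, abs_mul, abs_of_nonneg ha, abs_of_nonneg hb]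
      _ ≤ a * (M * dist x y) + b * (M * dist x y) := by gcongr
      _ = M * dist x y := by rw [← add_mul, hab, one_mul]
  · intro x y
    have h1 := mul_le_mul_of_nonneg_left (hf.conc x y) ha
    have h2 := mul_le_mul_of_nonneg_left (hg.conc x y) hb
    simp only
    linarith

theorem exists_bound {f : X n → ℝ} (hf : Continuous f) : ∃ N : ℝ, ∀ x, |f x| ≤ N := by
  obtain ⟨C, hC⟩ := isCompact_univ.exists_bound_of_continuousOn hf.continuousOn
  exact ⟨C, fun x => by simpa using hC x (mem_univ x)⟩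

end P5

open P5

theorem isotonic_triple_of
    (hmin : ∀ {M : ℝ≥0} {N : ℝ} {β : Tr n}, β ∈ BB n M N →
      ∃ u ∈ VV n M N β, ∀ v ∈ VV n M N β, ∑ i, ∫ x, (u i x) ^ 2 ≤ ∑ i, ∫ x, (v i x) ^ 2)
    (hQV : ∀ (k : Fin n) {M : ℝ≥0} {N : ℝ} {β v : Tr n}, v ∈ VV n M N β →
      (fun i => Q k (v i)) ∈ VV n M N β)
    (hQeq : ∀ (k : Fin n) {M : ℝ≥0} {f : X n → ℝ}, Good M f →
      ∫ x, (f x - Q k f x) * Q k f x = 0)
    (hQanti : ∀ (k : Fin n) {M : ℝ≥0} {f : X n → ℝ}, LipschitzWith M f → AntiK k (Q k f))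
    (hanti : ∀ {f : X n → ℝ}, (∀ k, AntiK k f) → Antitone f)
    {f0 f1 z : X n → ℝ} (h0 : Good M f0) (h1 : Good M f1) (hz : Good M z)
    (hR : Rel z f0 f1) :
    ∃ g0 g1 w : X n → ℝ, Good M g0 ∧ Good M g1 ∧ Good M w ∧ Rel w g0 g1 ∧
      IsProj f0 g0 ∧ IsProj f1 g1 ∧ IsProj z w := by
  obtain ⟨N0, hN0⟩ := exists_bound h0.lip.continuous
  obtain ⟨N1, hN1⟩ := exists_bound h1.lip.continuous
  obtain ⟨N2, hN2⟩ := exists_bound hz.lip.continuous
  set N : ℝ := max N0 (max N1 N2) with hN
  set β : Tr n := ![f0, f1, z] with hβdef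
  have hβ : β ∈ BB n M N := by
    refine ⟨?_, ?_, hR⟩
    · intro i
      fin_cases i
      · exact h0
      · exact h1
      · exact hz
    · intro i x
      fin_cases i
      · exact (hN0 x).trans (le_max_left _ _)
      · exact (hN1 x).trans ((le_max_left _ _).trans (le_max_right _ _))
      · exact (hN2 x).trans ((le_max_right _ _).trans (le_max_right _ _))
  obtain ⟨u, hu, humin⟩ := hmin hβ
  have hug : ∀ i, Good M (u i) := hu.1.1
  have huc : ∀ i, Continuous (u i) := fun i => (hug i).lip.continuous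
  have hβc : ∀ i, Continuous (β i) := fun i => (hβ.1 i).lip.continuous
  -- Step 1: `Q k (u i) = u i`
  have hfix : ∀ k i, Q k (u i) = u i := by
    intro k
    have hv := hQV k hu
    have hvg : ∀ i, Good M (Q k (u i)) := hv.1.1
    have hvc : ∀ i, Continuous (Q k (u i)) := fun i => (hvg i).lip.continuous
    have hle := humin _ hv
    have hsq : ∀ i, ∫ x, (u i x) ^ 2 =
        (∫ x, (Q k (u i) x) ^ 2) + ∫ x, (u i x - Q k (u i) x) ^ 2 := by
      intro i
      have e := hQeq k (hug i)
      have i1 : Continuous (fun x => (Q k (u i) x) ^ 2) := (hvc i).pow 2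
      have i2 : Continuous (fun x => (u i x - Q k (u i) x) ^ 2) := ((huc i).sub (hvc i)).pow 2
      have i3 : Continuous (fun x => 2 * ((u i x - Q k (u i) x) * Q k (u i) x)) :=
        continuous_const.mul (((huc i).sub (hvc i)).mul (hvc i))
      have : ∫ x, (u i x) ^ 2 = ∫ x, ((Q k (u i) x) ^ 2 + (u i x - Q k (u i) x) ^ 2 +
          2 * ((u i x - Q k (u i) x) * Q k (u i) x)) := by
        congr 1; ext x; ring
      rw [this, int_add3 i1 i2 i3, integral_const_mul, e]
      ring
    have hsum : ∑ i, ∫ x, (u i x - Q k (u i) x) ^ 2 ≤ 0 := by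
      have : ∑ i, ∫ x, (u i x) ^ 2 =
          (∑ i, ∫ x, (Q k (u i) x) ^ 2) + ∑ i, ∫ x, (u i x - Q k (u i) x) ^ 2 := by
        rw [← Finset.sum_add_distrib]
        exact Finset.sum_congr rfl fun i _ => hsq i
      linarith
    have hnn : ∀ i, 0 ≤ ∫ x, (u i x - Q k (u i) x) ^ 2 := fun i =>
      integral_nonneg fun x => sq_nonneg _
    intro i
    have hzero : ∫ x, (u i x - Q k (u i) x) ^ 2 = 0 := by
      refine le_antisymm ?_ (hnn i)
      exact (Finset.single_le_sum (fun j _ => hnn j) (Finset.mem_univ i)).trans hsum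
    have hae := (integral_eq_zero_iff_of_nonneg (fun x => sq_nonneg (u i x - Q k (u i) x))
      (integrable_of_cont (((huc i).sub (hvc i)).pow 2))).1 hzero
    have heq : (fun x => (u i x - Q k (u i) x) ^ 2) = fun _ => (0:ℝ) :=
      Continuous.ae_eq_iff_eq volume (((huc i).sub (hvc i)).pow 2) continuous_const |>.1 hae
    ext x
    have := congrFun heq x
    have h2 : u i x - Q k (u i) x = 0 := by
      exact pow_eq_zero_iff (two_ne_zero) |>.1 this
    linarith
  have hA : ∀ i, Antitone (u i) := by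
    intro i
    refine hanti fun k => ?_
    have := hQanti k (hug i).lip
    rwa [hfix k i] at this
  -- Step 2: variational inequality
  have hβV : β ∈ VV n M N β := ⟨hβ, fun i ρ _ _ => by simp⟩
  have hterm : ∀ i, ∫ x, (β i x - u i x) * u i x ≤ 0 := fun i =>
    hu.2 i (u i) (hA i) ⟨M, (hug i).lip⟩
  have hS : 0 ≤ ∑ i, ∫ x, (β i x - u i x) * u i x := by
    by_contra hneg
    push Not at hneg
    set S := ∑ i, ∫ x, (β i x - u i x) * u i x with hSdef
    set T := ∑ i, ∫ x, (β i x - u i x) ^ 2 with hTdef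
    have hT : 0 ≤ T := Finset.sum_nonneg fun i _ => integral_nonneg fun x => sq_nonneg _
    -- the convex combination
    have hconv : ∀ t : ℝ, 0 ≤ t → t ≤ 1 → 0 ≤ 2 * t * S + t ^ 2 * T := by
      intro t ht0 ht1
      have hmem : (fun i x => (1 - t) * u i x + t * β i x) ∈ VV n M N β := by
        refine ⟨⟨?_, ?_, ?_⟩, ?_⟩
        · intro i
          exact good_comb (hug i) (hβ.1 i) (by linarith) ht0 (by ring)
        · intro i x
          have a1 := hu.1.2.1 i x
          have a2 := hβ.2.1 i x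
          calc |(1 - t) * u i x + t * β i x| ≤ |(1 - t) * u i x| + |t * β i x| := abs_add_le _ _
            _ = (1 - t) * |u i x| + t * |β i x| := by
                rw [abs_mul, abs_mul, abs_of_nonneg ht0, abs_of_nonneg (by linarith : 0 ≤ 1 - t)]
            _ ≤ (1 - t) * N + t * N := by
                have : 0 ≤ 1 - t := by linarith
                gcongr
            _ = N := by ring
        · intro x y
          have a1 := hu.1.2.2 x y
          have a2 := hβ.2.2 x y
          have b1 := mul_le_mul_of_nonneg_left a1 (by linarith : 0 ≤ 1 - t)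
          have b2 := mul_le_mul_of_nonneg_left a2 ht0
          simp only
          linarith
        · intro i ρ hρ hρl
          have a1 := hu.2 i ρ hρ hρl
          have : ∫ x, (β i x - ((1 - t) * u i x + t * β i x)) * ρ x
              = (1 - t) * ∫ x, (β i x - u i x) * ρ x := by
            rw [← integral_const_mul]
            congr 1; ext x; ring
          rw [this]
          exact mul_nonpos_of_nonneg_of_nonpos (by linarith) a1
      have hle := humin _ hmem
      have hexp : ∀ i, ∫ x, ((1 - t) * u i x + t * β i x) ^ 2 = (∫ x, (u i x) ^ 2) +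
          2 * t * (∫ x, (β i x - u i x) * u i x) + t ^ 2 * ∫ x, (β i x - u i x) ^ 2 := by
        intro i
        have i1 : Continuous (fun x => (u i x) ^ 2) := (huc i).pow 2
        have i2 : Continuous (fun x => (2 * t) * ((β i x - u i x) * u i x)) :=
          continuous_const.mul (((hβc i).sub (huc i)).mul (huc i))
        have i3 : Continuous (fun x => t ^ 2 * (β i x - u i x) ^ 2) :=
          continuous_const.mul (((hβc i).sub (huc i)).pow 2)
        have : ∫ x, ((1 - t) * u i x + t * β i x) ^ 2 = ∫ x, ((u i x) ^ 2 +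
            (2 * t) * ((β i x - u i x) * u i x) + t ^ 2 * (β i x - u i x) ^ 2) := by
          congr 1; ext x; ring
        rw [this, int_add3 i1 i2 i3, integral_const_mul, integral_const_mul]
      simp only [hexp] at hle
      rw [Finset.sum_add_distrib, Finset.sum_add_distrib, ← Finset.mul_sum, ← Finset.mul_sum]
        at hle
      linarith
    -- choose a small t
    have hT1 : 0 < T + 1 := by linarith
    have hSneg : 0 < -S := by linarith
    set t := min 1 (-S / (T + 1)) with htdef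
    have ht0 : 0 < t := lt_min one_pos (div_pos hSneg hT1)
    have ht1 : t ≤ 1 := min_le_left _ _
    have ht2 : t * (T + 1) ≤ -S := by
      have : t ≤ -S / (T + 1) := min_le_right _ _
      rwa [le_div_iff₀ hT1] at this
    have h3 := hconv t ht0.le ht1
    have h4 : t * T ≤ -S := by nlinarith
    nlinarith
  have hzero : ∀ i, ∫ x, (β i x - u i x) * u i x = 0 := by
    have hs0 : ∑ i, ∫ x, (β i x - u i x) * u i x = 0 :=
      le_antisymm (Finset.sum_nonpos fun i _ => hterm i) hS
    intro i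
    exact (Finset.sum_eq_zero_iff_of_nonpos fun j _ => hterm j).1 hs0 i (Finset.mem_univ i)
  have hproj : ∀ i, IsProj (β i) (u i) := fun i => ⟨hA i, hu.2 i, hzero i⟩
  exact ⟨u 0, u 1, u 2, hug 0, hug 1, hug 2, hu.1.2.2, hproj 0, hproj 1, hproj 2⟩

end Vale.Agent.P254.Unc
end

section

/-! P254 / Unc: the one dimensional isotonic regression of a concave function.

`av f b = ∫_0^1 f (b u) du` is the average of `f` on `[0,b]`, `mx f = sup_{b ∈ [0,1]} av f b`,
`dn f t = sup_{s ∈ [t,1]} f s`, and the decreasing regression of a concave `f` is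
`pr f t = min (mx f) (dn f t)`.  -/

namespace Vale.Agent.P254.Unc.OneD

open MeasureTheory Set intervalIntegral

/-- the average of `f` on `[0,b]` -/
noncomputable def av (f : ℝ → ℝ) (b : ℝ) : ℝ := ∫ u in (0:ℝ)..1, f (b * u)

lemma mul_av (f : ℝ → ℝ) (b : ℝ) : b * av f b = ∫ x in (0:ℝ)..b, f x := by
  have := intervalIntegral.smul_integral_comp_mul_left (f := f) (a := 0) (b := 1) b
  simp [av]

lemma av_zero (f : ℝ → ℝ) : av f 0 = f 0 := by simp [av]

lemma av_cont {f : ℝ → ℝ} (hc : Continuous f) : Continuous (av f) := by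
  unfold av
  apply intervalIntegral.continuous_parametric_intervalIntegral_of_continuous'
  fun_prop

/-- quasi-concavity on `[0,1]` -/
def QC (f : ℝ → ℝ) : Prop :=
  ∀ a ∈ Icc (0:ℝ) 1, ∀ b ∈ Icc (0:ℝ) 1, ∀ t ∈ Icc a b, min (f a) (f b) ≤ f t

lemma QC.of_concave {f : ℝ → ℝ} (hf : ConcaveOn ℝ (Icc 0 1) f) : QC f := by
  intro a ha b hb t ht
  exact hf.ge_on_segment ha hb (by rw [segment_eq_Icc (ht.1.trans ht.2)]; exact ht)

/-- a continuous midpoint-concave function is quasi-concave -/
lemma QC.of_mid {f : ℝ → ℝ} (hc : Continuous f)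
    (hm : ∀ x ∈ Icc (0:ℝ) 1, ∀ y ∈ Icc (0:ℝ) 1, (f x + f y) / 2 ≤ f ((x + y) / 2)) : QC f := by
  intro a ha b hb t ht
  by_contra hlt
  push Not at hlt
  obtain ⟨c, hc1, hcmin⟩ := (isCompact_Icc (a := a) (b := b)).exists_isMinOn
    ⟨t, ht⟩ hc.continuousOn
  have hmin : ∀ s ∈ Icc a b, f c ≤ f s := fun s hs => hcmin hs
  -- the smallest minimum point
  set S : Set ℝ := {s ∈ Icc a b | f s ≤ f c} with hS
  have hSc : IsCompact S := by
    apply isCompact_Icc.of_isClosed_subset _ (fun t ht => ht.1)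
    exact isClosed_Icc.inter (isClosed_le hc continuous_const)
  have hSn : S.Nonempty := ⟨c, hc1, le_rfl⟩
  set p := sInf S with hp
  have hpS : p ∈ S := hSc.sInf_mem hSn
  have hct : f c < min (f a) (f b) := lt_of_le_of_lt (hmin t ht) hlt
  have hpa : a < p := by
    rcases eq_or_lt_of_le hpS.1.1 with h | h
    · exfalso
      have h1 : f p ≤ f c := hpS.2
      rw [← h] at h1
      exact absurd (lt_of_lt_of_le hct (min_le_left _ _)) (not_lt.2 h1)
    · exact h
  have hpb : p < b := by
    rcases eq_or_lt_of_le hpS.1.2 with h | h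
    · exfalso
      have h1 : f p ≤ f c := hpS.2
      rw [h] at h1
      exact absurd (lt_of_lt_of_le hct (min_le_right _ _)) (not_lt.2 h1)
    · exact h
  set δ := min (p - a) (b - p) with hδ
  have hδ0 : 0 < δ := lt_min (by linarith) (by linarith)
  have hδ1 : δ ≤ p - a := min_le_left _ _
  have hδ2 : δ ≤ b - p := min_le_right _ _
  have h1 := hm (p - δ) ⟨by linarith [ha.1], by linarith [hb.2]⟩ (p + δ)
    ⟨by linarith [ha.1], by linarith [hb.2]⟩
  have h2 : (p - δ + (p + δ)) / 2 = p := by ring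
  rw [h2] at h1
  have h3 := hmin (p + δ) ⟨by linarith, by linarith⟩
  have h4 : f p ≤ f c := hpS.2
  have h5 : p - δ ∈ S := ⟨⟨by linarith, by linarith⟩, by linarith⟩
  have := csInf_le hSc.bddBelow h5
  linarith

/-- the data of the maximal average -/
lemma exists_tau {f : ℝ → ℝ} (hc : Continuous f) (hf : QC f) :
    ∃ τ ∈ Icc (0:ℝ) 1, ∃ A : ℝ, A = av f τ ∧ (∀ b ∈ Icc (0:ℝ) 1, av f b ≤ A) ∧
      (∫ x in (0:ℝ)..τ, f x) = τ * A ∧ A ≤ f τ ∧ (τ < 1 → f τ = A) ∧
      AntitoneOn f (Icc τ 1) := by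
  obtain ⟨τ, hτ, hmax⟩ := (isCompact_Icc (a := (0:ℝ)) (b := 1)).exists_isMaxOn
    ⟨0, by simp⟩ (av_cont hc).continuousOn
  have hm : ∀ b ∈ Icc (0:ℝ) 1, av f b ≤ av f τ := fun b hb => hmax hb
  have hint : ∀ a b, IntervalIntegrable f volume a b := fun a b => hc.intervalIntegrable a b
  have hI : ∀ b ∈ Icc (0:ℝ) 1, (∫ x in (0:ℝ)..b, f x) ≤ b * av f τ := by
    intro b hb
    rw [← mul_av]
    exact mul_le_mul_of_nonneg_left (hm b hb) hb.1
  have hE : (∫ x in (0:ℝ)..τ, f x) = τ * av f τ := (mul_av f τ).symm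
  -- lower bound at τ
  have h3 : av f τ ≤ f τ := by
    rcases eq_or_lt_of_le hτ.1 with h0 | h0
    · rw [← h0, av_zero]
    · by_contra hlt
      push Not at hlt
      have hev : ∀ᶠ t in nhds τ, f t < av f τ := (hc.tendsto τ).eventually_lt_const hlt
      obtain ⟨ε, hε, hball⟩ := Metric.eventually_nhds_iff.1 hev
      set b := max (τ / 2) (τ - ε / 2) with hb
      have hb1 : b < τ := by
        rw [hb]; exact max_lt (by linarith) (by linarith)
      have hb0 : 0 < b := lt_of_lt_of_le (by linarith) (le_max_left _ _)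
      have hb2 : τ - ε / 2 ≤ b := le_max_right _ _
      have hlt2 : (∫ x in b..τ, f x) < ∫ x in b..τ, av f τ := by
        apply intervalIntegral.integral_lt_integral_of_continuousOn_of_le_of_exists_lt hb1
          hc.continuousOn continuousOn_const
        · intro x hx
          refine (hball ?_).le
          rw [Real.dist_eq, abs_lt]; constructor <;> linarith [hx.1, hx.2]
        · exact ⟨τ, right_mem_Icc.2 hb1.le, hlt⟩
      have hsum := intervalIntegral.integral_add_adjacent_intervals (hint 0 b) (hint b τ)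
      have hbI := hI b ⟨hb0.le, by linarith [hτ.2]⟩
      simp only [intervalIntegral.integral_const, smul_eq_mul] at hlt2
      nlinarith
  have h4 : τ < 1 → f τ ≤ av f τ := by
    intro h1
    by_contra hlt
    push Not at hlt
    have hev : ∀ᶠ t in nhds τ, av f τ < f t := (hc.tendsto τ).eventually_const_lt hlt
    obtain ⟨ε, hε, hball⟩ := Metric.eventually_nhds_iff.1 hev
    set b := min 1 (τ + ε / 2) with hb
    have hb1 : τ < b := by
      rw [hb]; exact lt_min h1 (by linarith)
    have hb0 : b ≤ 1 := min_le_left _ _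
    have hb2 : b ≤ τ + ε / 2 := min_le_right _ _
    have hlt2 : (∫ x in τ..b, av f τ) < ∫ x in τ..b, f x := by
      apply intervalIntegral.integral_lt_integral_of_continuousOn_of_le_of_exists_lt hb1
        continuousOn_const hc.continuousOn
      · intro x hx
        refine (hball ?_).le
        rw [Real.dist_eq, abs_lt]; constructor <;> linarith [hx.1, hx.2]
      · exact ⟨τ, left_mem_Icc.2 hb1.le, hlt⟩
    have hsum := intervalIntegral.integral_add_adjacent_intervals (hint 0 τ) (hint τ b)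
    have hbI := hI b ⟨by linarith [hτ.1], hb0⟩
    simp only [intervalIntegral.integral_const, smul_eq_mul] at hlt2
    nlinarith
  refine ⟨τ, hτ, av f τ, rfl, hm, hE, h3, fun h => le_antisymm (h4 h) h3, ?_⟩
  -- antitone after τ
  intro x hx y hy hxy
  by_contra hlt
  push Not at hlt
  have hxy' : x < y := lt_of_le_of_ne hxy (by rintro rfl; exact lt_irrefl _ hlt)
  have hyI : y ∈ Icc (0:ℝ) 1 := ⟨hτ.1.trans hy.1, hy.2⟩
  have hmin : ∀ t ∈ Icc τ y, min (f τ) (f y) ≤ f t := by
    intro t ht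
    exact hf _ hτ _ hyI _ ht
  have hyτ : f τ < f y := by
    by_contra hle
    push Not at hle
    have := hmin x ⟨hx.1, hxy⟩
    rw [min_eq_right hle] at this
    linarith
  have hge : ∀ t ∈ Icc τ y, f τ ≤ f t := by
    intro t ht
    have := hmin t ht
    rwa [min_eq_left hyτ.le] at this
  have hτy : τ < y := lt_of_le_of_lt hx.1 hxy'
  have hlt2 : (∫ x in τ..y, av f τ) < ∫ x in τ..y, f x := by
    apply intervalIntegral.integral_lt_integral_of_continuousOn_of_le_of_exists_lt hτy
      continuousOn_const hc.continuousOn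
    · intro t ht
      exact h3.trans (hge t (Ioc_subset_Icc_self ht))
    · exact ⟨y, right_mem_Icc.2 hτy.le, lt_of_le_of_lt h3 hyτ⟩
  have hsum := intervalIntegral.integral_add_adjacent_intervals (hint 0 τ) (hint τ y)
  have hbI := hI y hyI
  simp only [intervalIntegral.integral_const, smul_eq_mul] at hlt2
  nlinarith

/-- maximal average -/
noncomputable def mx (f : ℝ → ℝ) : ℝ := sSup (av f '' Icc (0:ℝ) 1)

/-- decreasing envelope on `[0,1]` -/
noncomputable def dn (f : ℝ → ℝ) (t : ℝ) : ℝ := sSup (f '' Icc t 1)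

/-- one dimensional decreasing regression of a concave function -/
noncomputable def pr (f : ℝ → ℝ) (t : ℝ) : ℝ := min (mx f) (dn f t)

lemma mx_eq {f : ℝ → ℝ} {τ A : ℝ} (hτ : τ ∈ Icc (0:ℝ) 1) (hA : A = av f τ)
    (hm : ∀ b ∈ Icc (0:ℝ) 1, av f b ≤ A) : mx f = A := by
  apply le_antisymm
  · apply csSup_le ⟨_, mem_image_of_mem _ hτ⟩
    rintro _ ⟨b, hb, rfl⟩
    exact hm b hb
  · rw [hA]
    apply le_csSup _ (mem_image_of_mem _ hτ)
    refine ⟨A, ?_⟩
    rintro _ ⟨b, hb, rfl⟩
    exact hm b hb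

lemma le_dn {f : ℝ → ℝ} (hc : Continuous f) {t s : ℝ} (hs : s ∈ Icc t 1) : f s ≤ dn f t :=
  le_csSup ((isCompact_Icc.image hc).bddAbove) (mem_image_of_mem _ hs)

lemma dn_anti {f : ℝ → ℝ} (hc : Continuous f) : AntitoneOn (dn f) (Icc 0 1) := by
  intro x hx y hy hxy
  apply csSup_le ⟨_, mem_image_of_mem _ (left_mem_Icc.2 hy.2)⟩
  rintro _ ⟨s, hs, rfl⟩
  exact le_dn hc ⟨hxy.trans hs.1, hs.2⟩

lemma pr_anti {f : ℝ → ℝ} (hc : Continuous f) : AntitoneOn (pr f) (Icc 0 1) :=
  fun _ hx _ hy hxy => min_le_min_left _ (dn_anti hc hx hy hxy)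

/-- structure of the regression -/
lemma exists_pr {f : ℝ → ℝ} (hc : Continuous f) (hf : QC f) :
    ∃ τ ∈ Icc (0:ℝ) 1, (∫ x in (0:ℝ)..τ, f x) = τ * mx f ∧ mx f ≤ f τ ∧
      (∀ t ∈ Icc 0 τ, pr f t = mx f) ∧ (∀ t ∈ Ioc τ 1, pr f t = f t) := by
  obtain ⟨τ, hτ, A, hA, hm, hI, hle, heq, hanti⟩ := exists_tau hc hf
  have hmx : mx f = A := mx_eq hτ hA hm
  refine ⟨τ, hτ, by rw [hmx, hI], by rw [hmx]; exact hle, ?_, ?_⟩
  · intro t ht
    unfold pr
    rw [hmx]
    exact min_eq_left (hle.trans (le_dn hc ⟨ht.2, hτ.2⟩))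
  · intro t ht
    have hτ1 : τ < 1 := lt_of_lt_of_le ht.1 ht.2
    have htI : t ∈ Icc τ 1 := ⟨ht.1.le, ht.2⟩
    have hdn : dn f t = f t := by
      apply le_antisymm
      · apply csSup_le ⟨_, mem_image_of_mem _ (left_mem_Icc.2 ht.2)⟩
        rintro _ ⟨s, hs, rfl⟩
        exact hanti htI ⟨ht.1.le.trans hs.1, hs.2⟩ hs.1
      · exact le_dn hc (left_mem_Icc.2 ht.2)
    unfold pr
    rw [hmx, hdn]
    apply min_eq_right
    rw [← heq hτ1]
    exact hanti (left_mem_Icc.2 hτ.2) htI ht.1.le

lemma integral_split {f v : ℝ → ℝ} (hc : Continuous f) (hv : IntervalIntegrable v volume 0 1)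
    {τ A : ℝ} (hτ : τ ∈ Icc (0:ℝ) 1)
    (h1 : ∀ t ∈ Icc 0 τ, pr f t = A) (h2 : ∀ t ∈ Ioc τ 1, pr f t = f t) :
    (∫ x in (0:ℝ)..1, (f x - pr f x) * v x) = ∫ x in (0:ℝ)..τ, (f x - A) * v x := by
  have hv1 : IntervalIntegrable v volume 0 τ :=
    hv.mono_set (by rw [uIcc_of_le hτ.1, uIcc_of_le zero_le_one]; exact Icc_subset_Icc_right hτ.2)
  have e1 : (∫ x in (0:ℝ)..τ, (f x - pr f x) * v x) = ∫ x in (0:ℝ)..τ, (f x - A) * v x := by
    apply intervalIntegral.integral_congr
    intro x hx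
    rw [uIcc_of_le hτ.1] at hx
    simp only [h1 x hx]
  have e2 : (∫ x in τ..1, (f x - pr f x) * v x) = 0 := by
    have : (∫ x in τ..1, (f x - pr f x) * v x) = ∫ x in τ..1, (0:ℝ) := by
      apply intervalIntegral.integral_congr_ae
      rw [uIoc_of_le hτ.2]
      exact Filter.Eventually.of_forall fun x hx => by rw [h2 x hx]; simp
    rw [this]; simp
  have i1 : IntervalIntegrable (fun x => (f x - pr f x) * v x) volume 0 τ := by
    have : IntervalIntegrable (fun x => (f x - A) * v x) volume 0 τ :=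
      hv1.continuousOn_mul (by fun_prop)
    refine this.congr ?_
    rw [uIoc_of_le hτ.1]
    intro x hx
    simp only [h1 x (Ioc_subset_Icc_self hx)]
  have i2 : IntervalIntegrable (fun x => (f x - pr f x) * v x) volume τ 1 := by
    have : IntervalIntegrable (fun _ : ℝ => (0:ℝ)) volume τ 1 := by simp
    refine this.congr ?_
    rw [uIoc_of_le hτ.2]
    intro x hx
    simp only [h2 x hx]; simp
  rw [← intervalIntegral.integral_add_adjacent_intervals i1 i2, e1, e2, add_zero]

/-- the variational inequality -/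
theorem pr_var {f v : ℝ → ℝ} (hc : Continuous f) (hf : QC f)
    (hv : AntitoneOn v (Icc 0 1)) : (∫ x in (0:ℝ)..1, (f x - pr f x) * v x) ≤ 0 := by
  obtain ⟨τ, hτ, hI, hle, h1, h2⟩ := exists_pr hc hf
  have hvi : IntervalIntegrable v volume 0 1 := by
    apply AntitoneOn.intervalIntegrable
    rwa [uIcc_of_le zero_le_one]
  rw [integral_split hc hvi hτ h1 h2]
  set A := mx f with hA
  have hvi1 : IntervalIntegrable v volume 0 τ :=
    hvi.mono_set (by rw [uIcc_of_le hτ.1, uIcc_of_le zero_le_one]; exact Icc_subset_Icc_right hτ.2)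
  -- the switching point
  set S : Set ℝ := {t ∈ Icc 0 τ | A ≤ f t} with hS
  have hSc : IsCompact S := by
    apply isCompact_Icc.of_isClosed_subset _ (fun t ht => ht.1)
    exact isClosed_Icc.inter (isClosed_le continuous_const hc)
  have hSn : S.Nonempty := ⟨τ, ⟨hτ.1, le_rfl⟩, hle⟩
  set p := sInf S with hp
  have hpS : p ∈ S := hSc.sInf_mem hSn
  have hpt : ∀ t ∈ Icc 0 τ, (f t - A) * (v t - v p) ≤ 0 := by
    intro t ht
    have htI : t ∈ Icc (0:ℝ) 1 := ⟨ht.1, ht.2.trans hτ.2⟩
    have hpI : p ∈ Icc (0:ℝ) 1 := ⟨hpS.1.1, hpS.1.2.trans hτ.2⟩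
    rcases lt_or_ge t p with htp | htp
    · have hlt : f t < A := by
        by_contra h
        push Not at h
        have := csInf_le hSc.bddBelow (show t ∈ S from ⟨ht, h⟩)
        linarith
      have := hv htI hpI htp.le
      nlinarith
    · have hge : A ≤ f t := by
        have := hf _ hpI _ hτ _ ⟨htp, ht.2⟩
        exact (le_min hpS.2 hle).trans this
      have := hv hpI htI htp
      nlinarith
  have key : (∫ x in (0:ℝ)..τ, (f x - A) * v x) = ∫ x in (0:ℝ)..τ, (f x - A) * (v x - v p) := by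
    have hz : (∫ x in (0:ℝ)..τ, (f x - A) * v p) = 0 := by
      rw [intervalIntegral.integral_mul_const, intervalIntegral.integral_sub
        (hc.intervalIntegrable _ _) (by simp), hI]
      simp
    have e : (fun x => (f x - A) * (v x - v p)) = fun x => (f x - A) * v x - (f x - A) * v p := by
      funext x; ring
    rw [e, intervalIntegral.integral_sub (hvi1.continuousOn_mul (by fun_prop))
      ((by fun_prop : Continuous fun x => (f x - A) * v p).intervalIntegrable _ _), hz, sub_zero]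
  rw [key, ← neg_nonneg, ← intervalIntegral.integral_neg]
  apply intervalIntegral.integral_nonneg hτ.1
  intro t ht
  linarith [hpt t ht]

/-- orthogonality -/
theorem pr_orth {f : ℝ → ℝ} (hc : Continuous f) (hf : QC f) :
    (∫ x in (0:ℝ)..1, (f x - pr f x) * pr f x) = 0 := by
  obtain ⟨τ, hτ, hI, hle, h1, h2⟩ := exists_pr hc hf
  have hvi : IntervalIntegrable (pr f) volume 0 1 := by
    apply AntitoneOn.intervalIntegrable
    rw [uIcc_of_le zero_le_one]
    exact pr_anti hc
  rw [integral_split hc hvi hτ h1 h2]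
  have e : (∫ x in (0:ℝ)..τ, (f x - mx f) * pr f x) = ∫ x in (0:ℝ)..τ, (f x - mx f) * mx f := by
    apply intervalIntegral.integral_congr
    intro x hx
    rw [uIcc_of_le hτ.1] at hx
    simp only [h1 x hx]
  rw [e, intervalIntegral.integral_mul_const, intervalIntegral.integral_sub
        (hc.intervalIntegrable _ _) (by simp), hI]
  simp

/-! ### transfer to `unitInterval` -/

open unitInterval

/-- the same regression for functions on `unitInterval` -/
noncomputable def q (g : I → ℝ) (t : I) : ℝ :=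
  min (⨆ b : I, ∫ u : I, g (b * u)) (⨆ s : I, g (t ⊔ s))

lemma integral_I (F : ℝ → ℝ) : (∫ x : I, F x) = ∫ x in (0:ℝ)..1, F x := by
  rw [intervalIntegral.integral_of_le zero_le_one, ← integral_Icc_eq_integral_Ioc]
  exact integral_subtype measurableSet_Icc F

/-- extension -/
noncomputable def ex (g : I → ℝ) : ℝ → ℝ := IccExtend zero_le_one g

lemma ex_val (g : I → ℝ) (x : I) : ex g x = g x := IccExtend_val _ _ _

lemma ex_cont {g : I → ℝ} (hg : Continuous g) : Continuous (ex g) := hg.Icc_extend'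

lemma av_ex (g : I → ℝ) (b : I) : av (ex g) b = ∫ u : I, g (b * u) := by
  unfold av
  rw [← integral_I fun u => ex g (b * u)]
  apply MeasureTheory.integral_congr_ae
  refine Filter.Eventually.of_forall fun u => ?_
  exact ex_val g (b * u)

lemma mx_ex (g : I → ℝ) : mx (ex g) = ⨆ b : I, ∫ u : I, g (b * u) := by
  unfold mx
  rw [Set.image_eq_range]
  exact congrArg sSup (congrArg Set.range (funext fun b => av_ex g b))

lemma dn_ex (g : I → ℝ) (t : I) : dn (ex g) t = ⨆ s : I, g (t ⊔ s) := by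
  unfold dn iSup
  congr 1
  ext y
  constructor
  · rintro ⟨s, hs, rfl⟩
    refine ⟨⟨s, t.2.1.trans hs.1, hs.2⟩, ?_⟩
    have : t ⊔ ⟨s, t.2.1.trans hs.1, hs.2⟩ = (⟨s, t.2.1.trans hs.1, hs.2⟩ : I) :=
      sup_eq_right.2 hs.1
    simp only [this]
    exact (ex_val g _).symm
  · rintro ⟨s, rfl⟩
    exact ⟨((t ⊔ s : I) : ℝ), ⟨le_sup_left (a := t) (b := s), (t ⊔ s).2.2⟩, ex_val g _⟩

lemma pr_ex (g : I → ℝ) (t : I) : pr (ex g) t = q g t := by
  unfold pr q
  rw [mx_ex, dn_ex]

lemma QC.of_I {g : I → ℝ} (hg : Continuous g)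
    (hm : ∀ x y z : I, (z : ℝ) = ((x : ℝ) + y) / 2 → (g x + g y) / 2 ≤ g z) : QC (ex g) := by
  apply QC.of_mid (ex_cont hg)
  intro x hx y hy
  have h := hm ⟨x, hx⟩ ⟨y, hy⟩ ⟨(x + y) / 2, by constructor <;> linarith [hx.1, hx.2, hy.1, hy.2]⟩
    rfl
  rw [← ex_val g, ← ex_val g, ← ex_val g] at h
  exact h

lemma q_anti {g : I → ℝ} (hg : Continuous g) : Antitone (q g) := by
  intro x y hxy
  rw [← pr_ex, ← pr_ex]
  exact pr_anti (ex_cont hg) x.2 y.2 hxy

/-- variational inequality on `unitInterval` -/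
theorem q_var {g v : I → ℝ} (hg : Continuous g)
    (hm : ∀ x y z : I, (z : ℝ) = ((x : ℝ) + y) / 2 → (g x + g y) / 2 ≤ g z)
    (hv : Antitone v) : (∫ x : I, (g x - q g x) * v x) ≤ 0 := by
  have h := pr_var (f := ex g) (v := ex v) (ex_cont hg) (QC.of_I hg hm)
    (fun x hx y hy hxy => by
      have e1 : ex v x = v ⟨x, hx⟩ := ex_val v ⟨x, hx⟩
      have e2 : ex v y = v ⟨y, hy⟩ := ex_val v ⟨y, hy⟩
      rw [e1, e2]; exact hv hxy)
  rw [← integral_I] at h
  simpa only [ex_val, pr_ex] using h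

/-- orthogonality on `unitInterval` -/
theorem q_orth {g : I → ℝ} (hg : Continuous g)
    (hm : ∀ x y z : I, (z : ℝ) = ((x : ℝ) + y) / 2 → (g x + g y) / 2 ≤ g z) :
    (∫ x : I, (g x - q g x) * q g x) = 0 := by
  have h := pr_orth (f := ex g) (ex_cont hg) (QC.of_I hg hm)
  rw [← integral_I] at h
  simpa only [ex_val, pr_ex] using h

end Vale.Agent.P254.Unc.OneD
end

section

/-! Block P1: the one dimensional regression on the unit interval. -/

open MeasureTheory Set
open scoped NNReal

namespace Vale.Agent.P254.Unc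

lemma reg_eq_q (f : unitInterval → ℝ) : reg f = OneD.q f := rfl

lemma mid1_hyp {f : unitInterval → ℝ} (hc : ∀ a b, (f a + f b) / 2 ≤ f (mid1 a b)) :
    ∀ x y z : unitInterval, (z : ℝ) = ((x : ℝ) + y) / 2 → (f x + f y) / 2 ≤ f z := by
  intro x y z hz
  have : z = mid1 x y := Subtype.ext hz
  rw [this]
  exact hc x y

theorem reg_anti {f : unitInterval → ℝ} (hf : Continuous f) : Antitone (reg f) :=
  OneD.q_anti hf

/-- P1 (file Unc/P1.lean) -/
theorem reg_le (f : unitInterval → ℝ) (hf : Continuous f)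
    (hc : ∀ a b, (f a + f b) / 2 ≤ f (mid1 a b)) (v : unitInterval → ℝ) (hv : Antitone v) :
    ∫ t, (f t - reg f t) * v t ≤ 0 :=
  OneD.q_var hf (mid1_hyp hc) hv

/-- P1 -/
theorem reg_eq (f : unitInterval → ℝ) (hf : Continuous f)
    (hc : ∀ a b, (f a + f b) / 2 ≤ f (mid1 a b)) :
    ∫ t, (f t - reg f t) * reg f t = 0 :=
  OneD.q_orth hf (mid1_hyp hc)

end Vale.Agent.P254.Unc
end

section

open MeasureTheory Set
open scoped NNReal

namespace Vale.Agent.P254.Unc

variable {n : ℕ}

/-- Refreshing one coordinate preserves the product probability measure. -/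
theorem measurePreserving_update (k : Fin n) :
    MeasurePreserving (fun p : X n × unitInterval => Function.update p.1 k p.2) := by
  have hmeas : Measurable (fun p : X n × unitInterval => Function.update p.1 k p.2) := by
    rw [measurable_pi_iff]
    intro i
    by_cases hi : i = k
    · subst hi
      simpa using measurable_snd
    · simp only [Function.update_of_ne hi]
      exact (measurable_pi_apply i).comp measurable_fst
  refine ⟨hmeas, ?_⟩
  symm
  refine Measure.pi_eq fun s hs => ?_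
  rw [Measure.map_apply hmeas (MeasurableSet.univ_pi hs)]
  have hpre : (fun p : X n × unitInterval => Function.update p.1 k p.2) ⁻¹' (Set.univ.pi s)
      = (Set.univ.pi (Function.update s k Set.univ)) ×ˢ (s k) := by
    ext p
    simp only [Set.mem_preimage, Set.mem_pi, Set.mem_univ, forall_true_left, Set.mem_prod]
    constructor
    · intro h
      refine ⟨fun i => ?_, ?_⟩
      · by_cases hi : i = k
        · subst hi; simp
        · have := h i
          simpa [Function.update_of_ne hi] using this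
      · simpa using h k
    · rintro ⟨h1, h2⟩ i
      by_cases hi : i = k
      · subst hi; simpa using h2
      · have := h1 i
        simpa [Function.update_of_ne hi] using this
  rw [hpre, Measure.volume_eq_prod, Measure.prod_prod, volume_pi, Measure.pi_pi]
  rw [← Finset.mul_prod_erase Finset.univ _ (Finset.mem_univ k),
    ← Finset.mul_prod_erase Finset.univ (fun i => volume (s i)) (Finset.mem_univ k)]
  have h1 : ∏ i ∈ Finset.univ.erase k, volume (Function.update s k Set.univ i)
      = ∏ i ∈ Finset.univ.erase k, volume (s i) := by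
    refine Finset.prod_congr rfl fun i hi => ?_
    rw [Function.update_of_ne (Finset.ne_of_mem_erase hi)]
  rw [h1, Function.update_self, measure_univ, one_mul, mul_comm]

/-- the same under the name used in `P3aH` -/
theorem mp_update (k : Fin n) :
    MeasurePreserving (fun p : X n × unitInterval => Function.update p.1 k p.2) :=
  measurePreserving_update k

/-- P3a : integrating out one refreshed coordinate. -/
theorem int_update (k : Fin n) (F : X n → ℝ) (hF : Continuous F) :
    ∫ x, ∫ u : unitInterval, F (Function.update x k u) = ∫ x, F x := by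
  have hmp := measurePreserving_update k
  have hint : Integrable F (volume : Measure (X n)) :=
    hF.integrable_of_hasCompactSupport (HasCompactSupport.of_compactSpace F)
  have h1 : ∫ p : X n × unitInterval, F (Function.update p.1 k p.2) = ∫ x, F x := by
    have h := integral_map hmp.measurable.aemeasurable
      (f := F) (μ := (volume : Measure (X n × unitInterval))) (by
        rw [hmp.map_eq]; exact hint.aestronglyMeasurable)
    rw [hmp.map_eq] at h
    exact h.symm
  have h2 : Integrable (fun p : X n × unitInterval => F (Function.update p.1 k p.2)) :=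
    hmp.integrable_comp_of_integrable hint
  rw [← h1, Measure.volume_eq_prod, integral_prod]
  · rw [← Measure.volume_eq_prod]; exact h2

/-- P3a : a function antitone in every coordinate is antitone. -/
theorem antitone_of_antiK {f : X n → ℝ} (h : ∀ k, AntiK k f) : Antitone f := by
  classical
  intro x y hxy
  -- the hybrid point: `y` on `s`, `x` off `s`
  have key : ∀ s : Finset (Fin n), f (s.piecewise y x) ≤ f x := by
    intro s
    induction s using Finset.induction_on with
    | empty => simp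
    | insert k s hk ih =>
      refine le_trans ?_ ih
      rw [Finset.piecewise_insert]
      have h1 := h k (s.piecewise y x) (x k) (y k) (hxy k)
      have h2 : Function.update (s.piecewise y x) k (x k) = s.piecewise y x := by
        rw [Function.update_eq_self_iff, Finset.piecewise_eq_of_notMem _ _ _ hk]
      rw [h2] at h1
      exact h1
  have := key Finset.univ
  simpa using this

end Vale.Agent.P254.Unc
end

section

open MeasureTheory Set
open scoped NNReal

namespace Vale.Agent.P254.Unc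

/-- `Q_mem_VV` from the statements of the blocks P2 and P3 (as hypotheses). -/
theorem Q_mem_VV_of {n : ℕ} (k : Fin n) {M : ℝ≥0}
    (hrel : ∀ z f g : X n → ℝ, LipschitzWith M z → LipschitzWith M f → LipschitzWith M g →
      Rel z f g → Rel (Q k z) (Q k f) (Q k g))
    (hlip : ∀ f : X n → ℝ, LipschitzWith M f → LipschitzWith M (Q k f))
    (hbdd : ∀ f : X n → ℝ, LipschitzWith M f → ∀ N : ℝ, (∀ x, |f x| ≤ N) → ∀ x, |Q k f x| ≤ N)
    (hle : ∀ f v : X n → ℝ, Good M f → AntiK k v → Continuous v →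
      ∫ x, (f x - Q k f x) * v x ≤ 0)
    {N : ℝ} {β v : Tr n} (hv : v ∈ VV n M N β) :
    (fun i => Q k (v i)) ∈ VV n M N β := by
  obtain ⟨⟨hg, hb, hr⟩, ho⟩ := hv
  refine ⟨⟨fun i => ⟨hlip _ (hg i).lip, hrel _ _ _ (hg i).lip (hg i).lip (hg i).lip (hg i).conc⟩,
    fun i x => hbdd _ (hg i).lip N (hb i) x,
    hrel _ _ _ (hg 2).lip (hg 0).lip (hg 1).lip hr⟩, ?_⟩
  intro i ρ hρ hK
  obtain ⟨K, hKρ⟩ := hK
  have hρc : Continuous ρ := hKρ.continuous
  have hvc : Continuous (v i) := (hg i).lip.continuous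
  have hQc : Continuous (Q k (v i)) := (hlip _ (hg i).lip).continuous
  have hc2 : Continuous fun x => (v i x - Q k (v i) x) * ρ x := (hvc.sub hQc).mul hρc
  have hi2 : Integrable (fun x => (v i x - Q k (v i) x) * ρ x) (volume : Measure (X n)) :=
    hc2.integrable_of_hasCompactSupport (HasCompactSupport.of_compactSpace _)
  have hk : AntiK k ρ := by
    intro x s t hst
    refine hρ ?_
    exact update_le_update_iff.2 ⟨hst, fun _ _ => le_rfl⟩
  have h2 : ∫ x, (v i x - Q k (v i) x) * ρ x ≤ 0 := hle _ _ (hg i) hk hρc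
  by_cases hi1 : Integrable (fun x => (β i x - v i x) * ρ x) (volume : Measure (X n))
  · have h1 := ho i ρ hρ ⟨K, hKρ⟩
    have he : ∫ x, (β i x - Q k (v i) x) * ρ x
        = (∫ x, (β i x - v i x) * ρ x) + ∫ x, (v i x - Q k (v i) x) * ρ x := by
      rw [← integral_add hi1 hi2]
      congr 1
      ext x
      ring
    change ∫ x, (β i x - Q k (v i) x) * ρ x ≤ 0
    rw [he]
    linarith
  · have hni : ¬ Integrable (fun x => (β i x - Q k (v i) x) * ρ x) (volume : Measure (X n)) := by
      intro h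
      apply hi1
      have := h.sub hi2
      refine this.congr (Filter.Eventually.of_forall fun x => ?_)
      simp only [Pi.sub_apply]
      ring
    change ∫ x, (β i x - Q k (v i) x) * ρ x ≤ 0
    rw [integral_undef hni]

end Vale.Agent.P254.Unc
end

section

open MeasureTheory Set
open scoped NNReal Pointwise

namespace Vale.Agent.P254.Unc

/-- Inclusion of the cube in `ℝⁿ`. -/
def inc {n : ℕ} (x : X n) : Fin n → ℝ := fun k => ((x k : unitInterval) : ℝ)

lemma continuous_inc {n : ℕ} : Continuous (inc : X n → Fin n → ℝ) := by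
  unfold inc
  fun_prop

lemma injective_inc {n : ℕ} : Function.Injective (inc : X n → Fin n → ℝ) := by
  intro x y h
  funext k
  exact Subtype.ext (congrFun h k)

lemma measurableEmbedding_inc {n : ℕ} : MeasurableEmbedding (inc : X n → Fin n → ℝ) :=
  (continuous_inc.isClosedEmbedding injective_inc).measurableEmbedding

lemma measurePreserving_inc (n : ℕ) :
    MeasurePreserving (inc : X n → Fin n → ℝ) volume (volume.restrict (Icc 0 1)) := by
  have h1 : MeasurePreserving (fun x : unitInterval => (x : ℝ)) volume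
      (volume.restrict (Icc (0 : ℝ) 1)) := measurePreserving_subtype_coe measurableSet_Icc
  have h2 := measurePreserving_pi (fun _ : Fin n => (volume : Measure unitInterval))
    (fun _ : Fin n => (volume : Measure ℝ).restrict (Icc (0 : ℝ) 1)) (fun _ => h1)
  rw [← Measure.restrict_pi_pi] at h2
  have h3 : (Set.univ.pi fun _ : Fin n => Icc (0 : ℝ) 1) = Icc (0 : Fin n → ℝ) 1 := by
    ext x
    simp only [mem_pi, mem_univ, true_implies, mem_Icc, Pi.le_def, Pi.zero_apply, Pi.one_apply]
    exact forall_and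
  rw [h3] at h2
  exact h2

/-- The case of the unit cube. -/
lemma unc_unit {n : ℕ} (h : UNC n) (K : Set (Fin n → ℝ)) (hK : IsCompact K)
    (hc : Convex ℝ K) (hne : K.Nonempty) (hsub : K ⊆ Icc 0 1)
    (hlow : ∀ x ∈ K, ∀ y : Fin n → ℝ, (∀ k, 0 ≤ y k ∧ y k ≤ x k) → y ∈ K) :
    ∏ k : Fin n, (2 * ∫ x in K, x k) ≤ (volume K).toReal ^ (n + 1) := by
  have hmp := measurePreserving_inc n
  have hr : (volume.restrict (Icc (0 : Fin n → ℝ) 1)).restrict K = volume.restrict K :=
    Measure.restrict_restrict_of_subset hsub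
  have hint : ∀ k : Fin n, ∫ x in (inc : X n → Fin n → ℝ) ⁻¹' K, ((x k : unitInterval) : ℝ) =
      ∫ x in K, x k := by
    intro k
    have := hmp.setIntegral_preimage_emb measurableEmbedding_inc (fun y => y k) K
    rw [hr] at this
    exact this
  have hvol : volume ((inc : X n → Fin n → ℝ) ⁻¹' K) = volume K := by
    rw [hmp.measure_preimage_emb measurableEmbedding_inc, Measure.restrict_apply' measurableSet_Icc,
      inter_eq_left.2 hsub]
  have := h ((inc : X n → Fin n → ℝ) ⁻¹' K) (hK.isClosed.preimage continuous_inc) ?_ ?_ ?_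
  · simpa only [hint, hvol] using this
  · obtain ⟨x, hx⟩ := hne
    exact ⟨fun k => ⟨x k, (hsub hx).1 k, (hsub hx).2 k⟩, hx⟩
  · intro x y hyx hx
    exact hlow _ hx _ fun k => ⟨(y k).2.1, hyx k⟩
  · intro x hx y hy
    have := hc hx hy (by norm_num : (0 : ℝ) ≤ 1 / 2) (by norm_num : (0 : ℝ) ≤ 1 / 2) (by norm_num)
    have e : inc (mid x y) = (1 / 2 : ℝ) • inc x + (1 / 2 : ℝ) • inc y := by
      funext k
      simp only [inc, mid, mid1, Pi.add_apply, Pi.smul_apply, smul_eq_mul]
      ring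
    simpa only [mem_preimage, e] using this

/-- E2 -/
theorem unc_real {n : ℕ} (h : UNC n) (K : Set (Fin n → ℝ)) (hK : IsCompact K)
    (hc : Convex ℝ K) (hne : K.Nonempty) (hpos : ∀ x ∈ K, ∀ k, 0 ≤ x k)
    (hlow : ∀ x ∈ K, ∀ y : Fin n → ℝ, (∀ k, 0 ≤ y k ∧ y k ≤ x k) → y ∈ K) :
    ∏ k : Fin n, (2 * ∫ x in K, x k) ≤ (volume K).toReal ^ (n + 1) := by
  obtain ⟨C, hC⟩ := hK.isBounded.exists_norm_le
  set R : ℝ := max C 1 with hRdef
  have hR : 0 < R := lt_max_of_lt_right one_pos
  have hR0 : R ≠ 0 := hR.ne'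
  have hKR : ∀ x ∈ K, ∀ k, x k ≤ R := fun x hx k =>
    (le_abs_self _).trans ((norm_le_pi_norm x k).trans ((hC x hx).trans (le_max_left _ _)))
  have hmem : ∀ y, y ∈ R⁻¹ • K ↔ R • y ∈ K := fun y => by
    rw [mem_inv_smul_set_iff₀ hR0]
  have hU := unc_unit h (R⁻¹ • K) (hK.smul _) (hc.smul _) (hne.smul_set) ?_ ?_
  · have hK' : R • (R⁻¹ • K) = K := smul_inv_smul₀ hR0 K
    have hint : ∀ k : Fin n, ∫ x in K, x k = R ^ (n + 1) * ∫ x in R⁻¹ • K, x k := by
      intro k
      have := Measure.setIntegral_comp_smul (μ := (volume : Measure (Fin n → ℝ)))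
        (fun x : Fin n → ℝ => x k) (R⁻¹ • K) hR0
      rw [hK'] at this
      simp only [Pi.smul_apply, smul_eq_mul, Module.finrank_fintype_fun_eq_card,
        Fintype.card_fin, integral_const_mul] at this
      rw [abs_of_pos (by positivity)] at this
      have hRn : R ^ n ≠ 0 := pow_ne_zero _ hR0
      rw [pow_succ, mul_assoc, this, mul_inv_cancel_left₀ hRn]
    have hvol : (volume K).toReal = R ^ n * (volume (R⁻¹ • K)).toReal := by
      conv_lhs => rw [← hK']
      rw [Measure.addHaar_smul, ENNReal.toReal_mul, ENNReal.toReal_ofReal (abs_nonneg _),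
        abs_of_pos (by positivity)]
      simp
    simp only [hint, hvol]
    calc ∏ k : Fin n, (2 * (R ^ (n + 1) * ∫ x in R⁻¹ • K, x k))
        = (R ^ (n + 1)) ^ n * ∏ k : Fin n, (2 * ∫ x in R⁻¹ • K, x k) := by
          rw [show (fun k : Fin n => 2 * (R ^ (n + 1) * ∫ x in R⁻¹ • K, x k)) =
            fun k => R ^ (n + 1) * (2 * ∫ x in R⁻¹ • K, x k) from funext fun k => by ring,
            Finset.prod_mul_distrib]
          simp
      _ ≤ (R ^ (n + 1)) ^ n * (volume (R⁻¹ • K)).toReal ^ (n + 1) := by gcongr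
      _ = (R ^ n * (volume (R⁻¹ • K)).toReal) ^ (n + 1) := by ring
  · intro y hy
    rw [hmem] at hy
    constructor
    · intro k
      have := hpos _ hy k
      simp only [Pi.smul_apply, smul_eq_mul] at this
      exact nonneg_of_mul_nonneg_right this hR
    · intro k
      have := hKR _ hy k
      simp only [Pi.smul_apply, smul_eq_mul] at this
      have h2 : R * y k ≤ R * 1 := by linarith
      exact le_of_mul_le_mul_left h2 hR
  · intro x hx y hy
    rw [hmem] at hx ⊢
    refine hlow _ hx _ fun k => ?_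
    simp only [Pi.smul_apply, smul_eq_mul]
    exact ⟨mul_nonneg hR.le (hy k).1, mul_le_mul_of_nonneg_left (hy k).2 hR.le⟩

end Vale.Agent.P254.Unc
end

section

/-! P254, one free direction: definitions (the coordinate `t` is free, the others are `≥ 0`). -/

open MeasureTheory Set
open scoped NNReal

namespace Vale.Agent.P254.FV1

open Unc

/-- The support functional of the antitone Lipschitz probability densities. -/
noncomputable def Sf {n : ℕ} (f : X n → ℝ) : ℝ := sSup {r : ℝ | ∃ ρ, Dens n ρ ∧ r = ∫ x, f x * ρ x}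

/-- Closed downwards in all coordinates except the coordinate `1` (which is free). -/
def LowE {n : ℕ} (L : Set (X (n + 2))) : Prop := ∀ x ∈ L, ∀ y : X (n + 2), y ≤ x → y 1 = x 1 → y ∈ L

/-- The section `{x_0 = T}`. -/
def sl {d : ℕ} (K : Set (Fin (d + 1) → ℝ)) (T : ℝ) : Set (Fin d → ℝ) :=
  {y | (Fin.cons T y : Fin (d + 1) → ℝ) ∈ K}

/-- The functional inequality with one free variable (the coordinate `0`). -/
def FCX (n : ℕ) : Prop := ∀ (G ρ : X (n + 1) → ℝ) (K M : ℝ≥0), LipschitzWith M G → Rel G G G →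
  LipschitzWith K ρ → (∀ x, 0 ≤ ρ x) → (∀ x y, x ≤ y → x 0 = y 0 → ρ y ≤ ρ x) →
  ∀ T : unitInterval, (T : ℝ) * ∫ x, ρ x = ∫ x, ((x 0 : unitInterval) : ℝ) * ρ x →
    (∫ x, G x * ρ x) * ∏ k : Fin n, (2 * ∫ x, ((x k.succ : unitInterval) : ℝ) * ρ x) ≤
      (∫ x, ρ x) ^ (n + 1) * ∫ x : X n, max (G (Fin.cons T x)) 0

/-- The volume inequality with one free variable, in the cube. Coordinate `0` = fibre,
coordinate `1` = free, coordinates `2, …, n+1` = the others. -/
def FUNC (n : ℕ) : Prop := ∀ L : Set (X (n + 2)), IsClosed L → L.Nonempty → LowE L →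
  (∀ x ∈ L, ∀ y ∈ L, mid x y ∈ L) →
  ∀ T : unitInterval, (T : ℝ) * (volume L).toReal = ∫ x in L, ((x 1 : unitInterval) : ℝ) →
    (2 * ∫ x in L, ((x 0 : unitInterval) : ℝ)) *
        ∏ k : Fin n, (2 * ∫ x in L, ((x k.succ.succ : unitInterval) : ℝ)) ≤
      (volume L).toReal ^ (n + 1) *
        (volume {q : X (n + 1) | (Fin.cons (q 0) (Fin.cons T (Fin.tail q)) : X (n + 2)) ∈ L}).toReal

/-- The volume inequality with one free variable, in `ℝ^(d+1)`, free coordinate `0`. -/
def FUNCR (d : ℕ) : Prop := ∀ K : Set (Fin (d + 1) → ℝ), IsCompact K → Convex ℝ K → K.Nonempty →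
  (∀ x ∈ K, ∀ k : Fin d, 0 ≤ x k.succ) →
  (∀ x ∈ K, ∀ y : Fin (d + 1) → ℝ, y 0 = x 0 → (∀ k : Fin d, 0 ≤ y k.succ ∧ y k.succ ≤ x k.succ) →
    y ∈ K) →
  ∀ T : ℝ, T * (volume K).toReal = ∫ x in K, x 0 →
    ∏ k : Fin d, (2 * ∫ x in K, x k.succ) ≤ (volume K).toReal ^ d * (volume (sl K T)).toReal

end Vale.Agent.P254.FV1
end

section

/-! P254/FV1, leaf L2: Jensen's inequality on `unitInterval` for a continuous midpoint concave function
(helper422). -/

open MeasureTheory Set
open scoped NNReal ENNReal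

namespace Vale.Agent.P254.FV1

open Unc

namespace Jen

/-- continuous + midpoint concave on `[0,1]` gives concave -/
theorem concaveOn_of_mid {g : ℝ → ℝ} (hg : ContinuousOn g (Icc 0 1))
    (hm : ∀ s ∈ Icc (0:ℝ) 1, ∀ t ∈ Icc (0:ℝ) 1, (g s + g t) / 2 ≤ g ((s + t) / 2)) :
    ConcaveOn ℝ (Icc 0 1) g := by
  refine ⟨convex_Icc 0 1, ?_⟩
  intro x hx y hy a b ha hb hab
  -- chord along the segment
  set γ : ℝ → ℝ := fun u => x + u * (y - x) with hγ
  have hγc : Continuous γ := by fun_prop
  have hγm : ∀ u ∈ Icc (0:ℝ) 1, γ u ∈ Icc (0:ℝ) 1 := by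
    intro u hu
    have h := (convex_Icc (0:ℝ) 1) hx hy (sub_nonneg.2 hu.2) hu.1 (by ring)
    have e : (1 - u) • x + u • y = γ u := by simp only [hγ, smul_eq_mul]; ring
    rwa [e] at h
  set h : ℝ → ℝ := fun u => g (γ u) - ((1 - u) * g x + u * g y) with hh
  have hhc : ContinuousOn h (Icc 0 1) := by
    apply ContinuousOn.sub
    · exact hg.comp hγc.continuousOn hγm
    · fun_prop
  have hmid : ∀ s ∈ Icc (0:ℝ) 1, ∀ t ∈ Icc (0:ℝ) 1, (h s + h t) / 2 ≤ h ((s + t) / 2) := by
    intro s hs t ht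
    have h1 := hm _ (hγm s hs) _ (hγm t ht)
    have e : (γ s + γ t) / 2 = γ ((s + t) / 2) := by simp only [hγ]; ring
    rw [e] at h1
    simp only [hh]
    linarith
  have h0 : h 0 = 0 := by simp [hh, hγ]
  have h1 : h 1 = 0 := by simp [hh, hγ]
  have key : ∀ u ∈ Icc (0:ℝ) 1, 0 ≤ h u := by
    obtain ⟨m, hmI, hmin⟩ := isCompact_Icc.exists_isMinOn (nonempty_Icc.2 zero_le_one) hhc
    by_contra hcon
    push Not at hcon
    obtain ⟨u, hu, hu0⟩ := hcon
    have hmneg : h m < 0 := lt_of_le_of_lt (hmin hu) hu0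
    -- the set of minimisers
    set S : Set ℝ := {u ∈ Icc (0:ℝ) 1 | h u = h m} with hS
    have hScl : IsClosed S := by
      have : S = Icc (0:ℝ) 1 ∩ h ⁻¹' {h m} := rfl
      rw [this]
      exact hhc.preimage_isClosed_of_isClosed isClosed_Icc isClosed_singleton
    have hSne : S.Nonempty := ⟨m, hmI, rfl⟩
    have hSc : IsCompact S := isCompact_Icc.of_isClosed_subset hScl (fun u hu => hu.1)
    obtain ⟨M, hMS, hMmax⟩ := hSc.exists_isGreatest hSne
    have hM0 : 0 < M := by
      rcases lt_or_eq_of_le hMS.1.1 with h' | h'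
      · exact h'
      · exfalso; have := hMS.2; rw [← h', h0] at this; linarith
    have hM1 : M < 1 := by
      rcases lt_or_eq_of_le hMS.1.2 with h' | h'
      · exact h'
      · exfalso; have := hMS.2; rw [h', h1] at this; linarith
    set d : ℝ := min M (1 - M) with hd
    have hd0 : 0 < d := lt_min hM0 (by linarith)
    have hdM : d ≤ M := min_le_left _ _
    have hd1 : d ≤ 1 - M := min_le_right _ _
    have hA : M - d ∈ Icc (0:ℝ) 1 := ⟨by linarith, by linarith⟩
    have hB : M + d ∈ Icc (0:ℝ) 1 := ⟨by linarith, by linarith⟩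
    have hc := hmid _ hA _ hB
    have e : (M - d + (M + d)) / 2 = M := by ring
    rw [e, hMS.2] at hc
    have hmA : h m ≤ h (M - d) := hmin hA
    have hmB : h m ≤ h (M + d) := hmin hB
    have hBe : h (M + d) = h m := by linarith
    have : M + d ≤ M := hMmax ⟨hB, hBe⟩
    linarith
  have hk := key b ⟨hb, by linarith⟩
  have ea : a = 1 - b := by linarith
  have eγ : a • x + b • y = γ b := by simp only [hγ, smul_eq_mul, ea]; ring
  rw [eγ]
  simp only [hh] at hk
  simp only [smul_eq_mul, ea]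
  linarith

end Jen

theorem jensen (φ p : unitInterval → ℝ) (hφ : Continuous φ)
    (hm : ∀ s t, (φ s + φ t) / 2 ≤ φ (mid1 s t)) (hp : Continuous p) (hp0 : ∀ t, 0 ≤ p t)
    (T : unitInterval) (hT : (T : ℝ) * ∫ t, p t = ∫ t : unitInterval, (t : ℝ) * p t) :
    ∫ t, φ t * p t ≤ φ T * ∫ t, p t := by
  have hcInt : ∀ f : unitInterval → ℝ, Continuous f → Integrable f := fun f hf =>
    hf.integrable_of_hasCompactSupport (HasCompactSupport.of_compactSpace f)
  have hpi : Integrable p := hcInt p hp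
  have hI0 : 0 ≤ ∫ t, p t := integral_nonneg hp0
  rcases hI0.eq_or_lt with hz | hpos
  · -- `p = 0` a.e.
    have h0 : p =ᵐ[volume] 0 := (integral_eq_zero_iff_of_nonneg hp0 hpi).1 hz.symm
    have h1 : ∫ t, φ t * p t = 0 := by
      have : (fun t => φ t * p t) =ᵐ[volume] fun _ => (0:ℝ) := by
        filter_upwards [h0] with t ht
        simp [ht]
      rw [integral_congr_ae this]
      simp
    rw [h1, ← hz]
    simp
  · set g : ℝ → ℝ := Set.IccExtend (zero_le_one' ℝ) φ with hg
    have hgv : ∀ t : unitInterval, g t = φ t := fun t => IccExtend_val _ _ _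
    have hgc : Continuous g := hφ.Icc_extend'
    have hconc : ConcaveOn ℝ (Icc 0 1) g := by
      refine Jen.concaveOn_of_mid hgc.continuousOn ?_
      intro s hs t ht
      have h1 := hm ⟨s, hs⟩ ⟨t, ht⟩
      have h2 : g s = φ ⟨s, hs⟩ := hgv ⟨s, hs⟩
      have h3 : g t = φ ⟨t, ht⟩ := hgv ⟨t, ht⟩
      have h4 : g ((s + t) / 2) = φ (mid1 ⟨s, hs⟩ ⟨t, ht⟩) := hgv (mid1 ⟨s, hs⟩ ⟨t, ht⟩)
      rw [h2, h3, h4]
      exact h1
    set w : unitInterval → ℝ≥0 := fun t => Real.toNNReal (p t) with hw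
    have hwm : Measurable w := (continuous_real_toNNReal.comp hp).measurable
    set μ : Measure unitInterval := volume.withDensity (fun t => (w t : ℝ≥0∞)) with hμ
    have hint : ∀ f : unitInterval → ℝ, ∫ t, f t ∂μ = ∫ t, f t * p t := by
      intro f
      rw [hμ, integral_withDensity_eq_integral_smul hwm]
      refine integral_congr_ae (Filter.Eventually.of_forall fun t => ?_)
      simp only [hw, NNReal.smul_def, smul_eq_mul, Real.coe_toNNReal _ (hp0 t)]
      ring
    have hfin : IsFiniteMeasure μ := by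
      refine isFiniteMeasure_withDensity ?_
      have h1 : ∫⁻ t, (w t : ℝ≥0∞) = ∫⁻ t, ENNReal.ofReal (p t) := rfl
      rw [h1]
      exact (hpi.lintegral_lt_top).ne
    have huniv : μ.real univ = ∫ t, p t := by
      have h1 := hint (fun _ => (1:ℝ))
      simp only [integral_const, smul_eq_mul, mul_one, one_mul] at h1
      exact h1
    have hne : NeZero μ := by
      refine ⟨fun h => ?_⟩
      rw [h] at huniv
      simp at huniv
      linarith
    have hcIntμ : ∀ f : unitInterval → ℝ, Continuous f → Integrable f μ := fun f hf =>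
      hf.integrable_of_hasCompactSupport (HasCompactSupport.of_compactSpace f)
    have hJ := hconc.le_map_average (μ := μ) (f := fun t : unitInterval => (t : ℝ))
      hgc.continuousOn isClosed_Icc (Filter.Eventually.of_forall fun t => t.2)
      (hcIntμ _ continuous_subtype_val) (hcIntμ _ (hgc.comp continuous_subtype_val))
    rw [average_eq, average_eq, huniv, hint, hint] at hJ
    simp only [smul_eq_mul, hgv] at hJ
    rw [← hT] at hJ
    have e : (∫ t, p t)⁻¹ * ((T : ℝ) * ∫ t, p t) = (T : ℝ) := by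
      field_simp
    rw [e, hgv] at hJ
    rw [inv_mul_le_iff₀ hpos] at hJ
    linarith [mul_comm (φ T) (∫ t, p t)]

end Vale.Agent.P254.FV1
end

section

open MeasureTheory Set Filter Topology
open scoped NNReal

namespace Vale.Agent.P254.Unc

/-- Fibre length over `x` in direction `0`: the measure of `{t | (t, x) ∈ L}`. -/
noncomputable def Hf {n : ℕ} (L : Set (X (n + 1))) (x : X n) : ℝ :=
  (volume {t : unitInterval | (Fin.cons t x : X (n + 1)) ∈ L}).toReal

/-
E1b (file Unc/E1b.lean; owner helper79, hedges 723, 104), exact statements: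

variable {n : ℕ} (L : Set (X (n + 1)))

theorem fub_vol (hL : IsClosed L) : (volume L).toReal = ∫ x : X n, Hf L x

theorem fub_zero (hL : IsClosed L) (hlow : IsLowerSet L) :
    2 * ∫ p in L, ((p 0 : unitInterval) : ℝ) = ∫ x : X n, Hf L x ^ 2

theorem fub_succ (hL : IsClosed L) (k : Fin n) :
    ∫ p in L, ((p k.succ : unitInterval) : ℝ) = ∫ x : X n, ((x k : unitInterval) : ℝ) * Hf L x

E1a (file Unc/E1a.lean; owner helper537), exact statement:

theorem exists_supconv (hL : IsClosed L) (hne : L.Nonempty) (hlow : IsLowerSet L)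
    (hmid : ∀ x ∈ L, ∀ y ∈ L, mid x y ∈ L) :
    ∃ g : ℕ → X n → ℝ, (∀ N, ∃ K, LipschitzWith K (g N)) ∧ (∀ N, Rel (g N) (g N) (g N)) ∧
      (∀ N, Antitone (g N)) ∧ (∀ N x, g N x ≤ 1) ∧
      ∀ x, Tendsto (fun N => max (g N x) 0) atTop (𝓝 (Hf L x))
-/

end Vale.Agent.P254.Unc
end

section

open MeasureTheory Set Filter Topology
open scoped NNReal

namespace Vale.Agent.P254.Unc

variable {n : ℕ}

/-- The function whose maximum over `L` is the sup-convolution at `x`. -/
noncomputable def scF (N : ℕ) (x : X n) (p : X (n + 1)) : ℝ :=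
  ((p 0 : unitInterval) : ℝ) - N * dist x (Fin.tail p)

/-- The sup-convolution. -/
noncomputable def scG (L : Set (X (n + 1))) (N : ℕ) (x : X n) : ℝ := sSup (scF N x '' L)

theorem sc_continuous_tail : Continuous (fun p : X (n + 1) => (Fin.tail p : X n)) := by
  apply continuous_pi
  intro i
  exact continuous_apply i.succ

theorem continuous_scF (N : ℕ) (x : X n) : Continuous (scF N x) := by
  unfold scF
  have h1 : Continuous (fun p : X (n + 1) => ((p 0 : unitInterval) : ℝ)) :=
    continuous_subtype_val.comp (continuous_apply 0)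
  have h2 : Continuous (fun p : X (n + 1) => dist x (Fin.tail p : X n)) :=
    continuous_const.dist sc_continuous_tail
  exact h1.sub (continuous_const.mul h2)

theorem scG_max {L : Set (X (n + 1))} (hL : IsClosed L) (hne : L.Nonempty) (N : ℕ) (x : X n) :
    ∃ p ∈ L, scG L N x = scF N x p ∧ ∀ q ∈ L, scF N x q ≤ scG L N x := by
  obtain ⟨p, hp, hmax⟩ := hL.isCompact.exists_isMaxOn hne (continuous_scF N x).continuousOn
  have hE : scG L N x = scF N x p := by
    unfold scG
    apply le_antisymm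
    · apply csSup_le (hne.image _)
      rintro _ ⟨q, hq, rfl⟩
      exact hmax hq
    · apply le_csSup
      · refine ⟨scF N x p, ?_⟩
        rintro _ ⟨q, hq, rfl⟩
        exact hmax hq
      · exact ⟨p, hp, rfl⟩
  refine ⟨p, hp, hE, fun q hq => ?_⟩
  rw [hE]
  exact hmax hq

theorem scG_lip {L : Set (X (n + 1))} (hL : IsClosed L) (hne : L.Nonempty) (N : ℕ) :
    LipschitzWith (N : ℝ≥0) (scG L N) := by
  apply LipschitzWith.of_le_add_mul
  intro x y
  obtain ⟨p, hp, hE, -⟩ := scG_max hL hne N x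
  obtain ⟨-, -, -, hy⟩ := scG_max hL hne N y
  have h1 := hy p hp
  rw [hE]
  refine le_trans ?_ (add_le_add_left h1 _)
  unfold scF
  have h2 : dist y (Fin.tail p) ≤ dist x y + dist x (Fin.tail p) := by
    rw [dist_comm x y]; exact dist_triangle _ _ _
  have h3 : (N : ℝ) * dist y (Fin.tail p) ≤ N * (dist x y + dist x (Fin.tail p)) :=
    mul_le_mul_of_nonneg_left h2 (Nat.cast_nonneg N)
  have h4 : (((N : ℝ≥0)) : ℝ) = (N : ℝ) := by simp
  rw [h4]
  nlinarith

theorem sc_mid_tail (p q : X (n + 1)) :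
    (Fin.tail (mid p q) : X n) = mid (Fin.tail p) (Fin.tail q) := rfl

theorem sc_dist_mid (x y a b : X n) : dist (mid x y) (mid a b) ≤ (dist x a + dist y b) / 2 := by
  rw [dist_pi_le_iff (by positivity)]
  intro k
  have h1 : dist (x k) (a k) ≤ dist x a := dist_le_pi_dist x a k
  have h2 : dist (y k) (b k) ≤ dist y b := dist_le_pi_dist y b k
  have h3 : dist (mid x y k) (mid a b k) ≤ (dist (x k) (a k) + dist (y k) (b k)) / 2 := by
    rw [Subtype.dist_eq, Subtype.dist_eq, Subtype.dist_eq, Real.dist_eq, Real.dist_eq,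
      Real.dist_eq]
    simp only [mid, mid1]
    rw [abs_le]
    have e1 := abs_le.1 (le_refl |((x k : unitInterval) : ℝ) - (a k : ℝ)|)
    have e2 := abs_le.1 (le_refl |((y k : unitInterval) : ℝ) - (b k : ℝ)|)
    constructor
    · linarith [e1.1, e2.1]
    · linarith [e1.2, e2.2]
  linarith

theorem scG_rel {L : Set (X (n + 1))} (hL : IsClosed L) (hne : L.Nonempty)
    (hmid : ∀ x ∈ L, ∀ y ∈ L, mid x y ∈ L) (N : ℕ) :
    Rel (scG L N) (scG L N) (scG L N) := by
  intro x y
  obtain ⟨p, hp, hEp, -⟩ := scG_max hL hne N x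
  obtain ⟨q, hq, hEq, -⟩ := scG_max hL hne N y
  obtain ⟨-, -, -, hz⟩ := scG_max hL hne N (mid x y)
  refine le_trans ?_ (hz (mid p q) (hmid p hp q hq))
  rw [hEp, hEq]
  unfold scF
  rw [sc_mid_tail]
  have h1 := mul_le_mul_of_nonneg_left (sc_dist_mid x y (Fin.tail p) (Fin.tail q))
    (Nat.cast_nonneg (α := ℝ) N)
  have h2 : ((mid p q 0 : unitInterval) : ℝ) = ((p 0 : ℝ) + (q 0 : ℝ)) / 2 := rfl
  rw [h2]
  linarith

theorem scG_anti {L : Set (X (n + 1))} (hL : IsClosed L) (hne : L.Nonempty)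
    (hlow : IsLowerSet L) (N : ℕ) : Antitone (scG L N) := by
  intro x y hxy
  obtain ⟨p, hp, hEp, -⟩ := scG_max hL hne N y
  obtain ⟨-, -, -, hz⟩ := scG_max hL hne N x
  have hq : (Fin.cons (p 0) (Fin.tail p ⊓ x) : X (n + 1)) ∈ L := by
    apply hlow _ hp
    intro i
    refine Fin.cases ?_ (fun j => ?_) i
    · simp
    · simp only [Fin.cons_succ, Pi.inf_apply, Fin.tail]
      exact inf_le_left
  refine le_trans ?_ (hz _ hq)
  rw [hEp]
  unfold scF
  rw [Fin.cons_zero, Fin.tail_cons]
  have h1 : dist x (Fin.tail p ⊓ x) ≤ dist y (Fin.tail p) := by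
    rw [dist_pi_le_iff dist_nonneg]
    intro k
    refine le_trans ?_ (dist_le_pi_dist y (Fin.tail p) k)
    rw [Subtype.dist_eq, Subtype.dist_eq, Real.dist_eq, Real.dist_eq]
    have hk : ((x k : unitInterval) : ℝ) ≤ y k := hxy k
    rcases le_total (Fin.tail p k : unitInterval) (x k) with h | h
    · have e : ((Fin.tail p ⊓ x) k : unitInterval) = Fin.tail p k := by
        rw [Pi.inf_apply]; exact inf_eq_left.2 h
      rw [e]
      have h' : ((Fin.tail p k : unitInterval) : ℝ) ≤ x k := h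
      rw [abs_of_nonneg (by linarith), abs_of_nonneg (by linarith)]
      linarith
    · have e : ((Fin.tail p ⊓ x) k : unitInterval) = x k := by
        rw [Pi.inf_apply]; exact inf_eq_right.2 h
      rw [e]
      simp
  have h2 := mul_le_mul_of_nonneg_left h1 (Nat.cast_nonneg (α := ℝ) N)
  linarith

theorem scG_le_one {L : Set (X (n + 1))} (hL : IsClosed L) (hne : L.Nonempty) (N : ℕ) (x : X n) :
    scG L N x ≤ 1 := by
  obtain ⟨p, -, hEp, -⟩ := scG_max hL hne N x
  rw [hEp]
  unfold scF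
  have h1 : ((p 0 : unitInterval) : ℝ) ≤ 1 := (p 0).2.2
  have h2 : 0 ≤ (N : ℝ) * dist x (Fin.tail p) := by positivity
  linarith

theorem scG_anti_N {L : Set (X (n + 1))} (hL : IsClosed L) (hne : L.Nonempty) {N N' : ℕ}
    (h : N ≤ N') (x : X n) : scG L N' x ≤ scG L N x := by
  obtain ⟨p, hp, hEp, -⟩ := scG_max hL hne N' x
  obtain ⟨-, -, -, hz⟩ := scG_max hL hne N x
  rw [hEp]
  refine le_trans ?_ (hz p hp)
  unfold scF
  have h1 : (N : ℝ) ≤ N' := by exact_mod_cast h
  have h2 := mul_le_mul_of_nonneg_right h1 (dist_nonneg (x := x) (y := Fin.tail p))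
  linarith

theorem scHf_nonneg (L : Set (X (n + 1))) (x : X n) : 0 ≤ Hf L x := ENNReal.toReal_nonneg

/-- upper bound for `Hf` -/
theorem scHf_le {L : Set (X (n + 1))} {x : X n} {c : ℝ} (hc : 0 ≤ c)
    (h : ∀ t : unitInterval, (Fin.cons t x : X (n + 1)) ∈ L → (t : ℝ) ≤ c) : Hf L x ≤ c := by
  rcases le_total c 1 with hc1 | hc1
  · have h1 : {t : unitInterval | (Fin.cons t x : X (n + 1)) ∈ L} ⊆
        Set.Iic (⟨c, hc, hc1⟩ : unitInterval) := by
      intro t ht
      exact h t ht
    have h2 := measure_mono (μ := (volume : Measure unitInterval)) h1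
    rw [unitInterval.volume_Iic] at h2
    unfold Hf
    exact ENNReal.toReal_le_of_le_ofReal hc h2
  · refine le_trans ?_ hc1
    unfold Hf
    have h2 := prob_le_one (μ := (volume : Measure unitInterval))
      (s := {t : unitInterval | (Fin.cons t x : X (n + 1)) ∈ L})
    exact ENNReal.toReal_le_of_le_ofReal zero_le_one (by simpa using h2)

/-- lower bound for `Hf` -/
theorem le_scHf {L : Set (X (n + 1))} (hlow : IsLowerSet L) {x : X n} {t : unitInterval}
    (h : (Fin.cons t x : X (n + 1)) ∈ L) : (t : ℝ) ≤ Hf L x := by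
  have h1 : Set.Iic t ⊆ {t : unitInterval | (Fin.cons t x : X (n + 1)) ∈ L} := by
    intro s hs
    apply hlow _ h
    intro i
    refine Fin.cases ?_ (fun j => ?_) i
    · simpa using hs
    · simp
  have h2 := measure_mono (μ := (volume : Measure unitInterval)) h1
  rw [unitInterval.volume_Iic] at h2
  unfold Hf
  have h3 : (volume {t : unitInterval | (Fin.cons t x : X (n + 1)) ∈ L}) ≠ ⊤ :=
    measure_ne_top _ _
  exact (ENNReal.ofReal_le_iff_le_toReal h3).1 h2

theorem Hf_le_scG {L : Set (X (n + 1))} (hL : IsClosed L) (hne : L.Nonempty) (N : ℕ) (x : X n) :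
    Hf L x ≤ max (scG L N x) 0 := by
  apply scHf_le (le_max_right _ _)
  intro t ht
  obtain ⟨-, -, -, hz⟩ := scG_max hL hne N x
  have h1 := hz _ ht
  unfold scF at h1
  rw [Fin.cons_zero, Fin.tail_cons, dist_self, mul_zero, sub_zero] at h1
  exact le_trans h1 (le_max_left _ _)

theorem scG_tendsto {L : Set (X (n + 1))} (hL : IsClosed L) (hne : L.Nonempty)
    (hlow : IsLowerSet L) (x : X n) :
    Tendsto (fun N => max (scG L N x) 0) atTop (𝓝 (Hf L x)) := by
  rw [tendsto_order]
  refine ⟨fun a ha => Eventually.of_forall fun N => lt_of_lt_of_le ha (Hf_le_scG hL hne N x),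
    fun c hc => ?_⟩
  by_contra hcon
  rw [not_eventually] at hcon
  have hcpos : 0 < c := lt_of_le_of_lt (scHf_nonneg L x) hc
  -- all `scG L N x ≥ c`
  have hall : ∀ N, c ≤ scG L N x := by
    intro N
    obtain ⟨N', hN', h⟩ := (frequently_atTop.1 hcon) N
    rw [not_lt] at h
    have h' : c ≤ scG L N' x := by
      rcases le_max_iff.1 h with h | h
      · exact h
      · linarith
    exact h'.trans (scG_anti_N hL hne hN' x)
  let C : ℕ → Set (X (n + 1)) := fun N => L ∩ {p | c ≤ scF N x p}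
  have hCcl : ∀ N, IsClosed (C N) := fun N =>
    hL.inter (isClosed_le continuous_const (continuous_scF N x))
  have hCne : ∀ N, (C N).Nonempty := by
    intro N
    obtain ⟨p, hp, hE, -⟩ := scG_max hL hne N x
    exact ⟨p, hp, by rw [mem_ofPred_eq, ← hE]; exact hall N⟩
  have hCanti : ∀ N, C (N + 1) ⊆ C N := by
    rintro N p ⟨hp, hp'⟩
    refine ⟨hp, ?_⟩
    rw [mem_ofPred_eq] at hp' ⊢
    refine hp'.trans ?_
    unfold scF
    push_cast
    have := dist_nonneg (x := x) (y := Fin.tail p)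
    nlinarith
  obtain ⟨p, hp⟩ := IsCompact.nonempty_iInter_of_sequence_nonempty_isCompact_isClosed C hCanti
    hCne (hCcl 0).isCompact hCcl
  rw [mem_iInter] at hp
  have hpL : p ∈ L := (hp 0).1
  have hp0 : c ≤ ((p 0 : unitInterval) : ℝ) := by
    have := (hp 0).2
    rw [mem_ofPred_eq] at this
    unfold scF at this
    simpa using this
  have hdist : dist x (Fin.tail p) = 0 := by
    by_contra hne0
    have hpos : 0 < dist x (Fin.tail p) := lt_of_le_of_ne dist_nonneg (Ne.symm hne0)
    obtain ⟨N, hN⟩ := exists_nat_gt (1 / dist x (Fin.tail p))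
    have h1 := (hp N).2
    rw [mem_ofPred_eq] at h1
    unfold scF at h1
    have h2 : ((p 0 : unitInterval) : ℝ) ≤ 1 := (p 0).2.2
    have h3 : 1 < N * dist x (Fin.tail p) := by
      rwa [div_lt_iff₀ hpos] at hN
    linarith
  have hx : x = Fin.tail p := dist_eq_zero.1 hdist
  have hmem : (Fin.cons (p 0) x : X (n + 1)) ∈ L := by
    rw [hx, Fin.cons_self_tail]
    exact hpL
  have := le_scHf hlow hmem
  linarith

theorem exists_supconv (L : Set (X (n + 1))) (hL : IsClosed L) (hne : L.Nonempty)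
    (hlow : IsLowerSet L) (hmid : ∀ x ∈ L, ∀ y ∈ L, mid x y ∈ L) :
    ∃ g : ℕ → X n → ℝ, (∀ N, ∃ K, LipschitzWith K (g N)) ∧ (∀ N, Rel (g N) (g N) (g N)) ∧
      (∀ N, Antitone (g N)) ∧ (∀ N x, g N x ≤ 1) ∧
      ∀ x, Tendsto (fun N => max (g N x) 0) atTop (𝓝 (Hf L x)) :=
  ⟨fun N => scG L N, fun N => ⟨_, scG_lip hL hne N⟩, fun N => scG_rel hL hne hmid N,
    fun N => scG_anti hL hne hlow N, fun N x => scG_le_one hL hne N x,
    fun x => scG_tendsto hL hne hlow x⟩

end Vale.Agent.P254.Unc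
end

section

/-! P254, one free direction, L5 (helper956): the sup-convolution for sets closed downwards in all
coordinates except the coordinate `1`. -/

open MeasureTheory Set Filter Topology
open scoped NNReal

namespace Vale.Agent.P254.FV1

open Unc

variable {n : ℕ}

theorem lowE_cons {L : Set (X (n + 2))} (hlow : LowE L) {x : X (n + 1)} {s t : unitInterval}
    (hst : s ≤ t) (h : (Fin.cons t x : X (n + 2)) ∈ L) : (Fin.cons s x : X (n + 2)) ∈ L := by
  refine hlow _ h _ ?_ ?_
  · intro i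
    refine Fin.cases ?_ (fun j => ?_) i
    · simpa using hst
    · simp
  · rfl

theorem scG_antiF {L : Set (X (n + 2))} (hL : IsClosed L) (hne : L.Nonempty)
    (hlow : LowE L) (N : ℕ) (x y : X (n + 1)) (hxy : x ≤ y) (h0 : x 0 = y 0) :
    scG L N y ≤ scG L N x := by
  obtain ⟨p, hp, hEp, -⟩ := scG_max hL hne N y
  obtain ⟨-, -, -, hz⟩ := scG_max hL hne N x
  set w : X (n + 1) := Fin.cons (p 1) (fun k : Fin n => p k.succ.succ ⊓ x k.succ) with hw
  have hw0 : w 0 = p 1 := rfl
  have hws : ∀ k : Fin n, w k.succ = p k.succ.succ ⊓ x k.succ := fun k => rfl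
  have hq : (Fin.cons (p 0) w : X (n + 2)) ∈ L := by
    refine hlow p hp _ ?_ ?_
    · intro i
      refine Fin.cases ?_ (fun j => ?_) i
      · simp
      · simp only [Fin.cons_succ]
        refine Fin.cases ?_ (fun k => ?_) j
        · rw [hw0]; exact le_refl _
        · rw [hws]; exact inf_le_left
    · rfl
  refine le_trans ?_ (hz _ hq)
  rw [hEp]
  unfold scF
  rw [Fin.cons_zero, Fin.tail_cons]
  have h1 : dist x w ≤ dist y (Fin.tail p) := by
    rw [dist_pi_le_iff dist_nonneg]
    intro k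
    refine le_trans ?_ (dist_le_pi_dist y (Fin.tail p) k)
    refine Fin.cases ?_ (fun j => ?_) k
    · rw [h0]
      exact le_refl _
    · rw [Subtype.dist_eq, Subtype.dist_eq, Real.dist_eq, Real.dist_eq, hws]
      have hk : ((x j.succ : unitInterval) : ℝ) ≤ y j.succ := hxy j.succ
      have ht : (Fin.tail p j.succ : unitInterval) = p j.succ.succ := rfl
      rw [ht]
      rcases le_total (p j.succ.succ : unitInterval) (x j.succ) with h | h
      · rw [inf_eq_left.2 h]
        have h' : ((p j.succ.succ : unitInterval) : ℝ) ≤ x j.succ := h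
        rw [abs_of_nonneg (by linarith), abs_of_nonneg (by linarith)]
        linarith
      · rw [inf_eq_right.2 h]
        simp
  have h2 := mul_le_mul_of_nonneg_left h1 (Nat.cast_nonneg (α := ℝ) N)
  linarith

/-- lower bound for `Hf` -/
theorem le_HfF {L : Set (X (n + 2))} (hlow : LowE L) {x : X (n + 1)} {t : unitInterval}
    (h : (Fin.cons t x : X (n + 2)) ∈ L) : (t : ℝ) ≤ Hf L x := by
  have h1 : Set.Iic t ⊆ {t : unitInterval | (Fin.cons t x : X (n + 2)) ∈ L} := fun s hs =>
    lowE_cons hlow hs h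
  have h2 := measure_mono (μ := (volume : Measure unitInterval)) h1
  rw [unitInterval.volume_Iic] at h2
  unfold Hf
  have h3 : (volume {t : unitInterval | (Fin.cons t x : X (n + 2)) ∈ L}) ≠ ⊤ :=
    measure_ne_top _ _
  exact (ENNReal.ofReal_le_iff_le_toReal h3).1 h2

theorem scG_tendstoF {L : Set (X (n + 2))} (hL : IsClosed L) (hne : L.Nonempty)
    (hlow : LowE L) (x : X (n + 1)) :
    Tendsto (fun N => max (scG L N x) 0) atTop (𝓝 (Hf L x)) := by
  rw [tendsto_order]
  refine ⟨fun a ha => Eventually.of_forall fun N => lt_of_lt_of_le ha (Hf_le_scG hL hne N x),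
    fun c hc => ?_⟩
  by_contra hcon
  rw [not_eventually] at hcon
  have hcpos : 0 < c := lt_of_le_of_lt (scHf_nonneg L x) hc
  have hall : ∀ N, c ≤ scG L N x := by
    intro N
    obtain ⟨N', hN', h⟩ := (frequently_atTop.1 hcon) N
    rw [not_lt] at h
    have h' : c ≤ scG L N' x := by
      rcases le_max_iff.1 h with h | h
      · exact h
      · linarith
    exact h'.trans (scG_anti_N hL hne hN' x)
  let C : ℕ → Set (X (n + 2)) := fun N => L ∩ {p | c ≤ scF N x p}
  have hCcl : ∀ N, IsClosed (C N) := fun N =>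
    hL.inter (isClosed_le continuous_const (continuous_scF N x))
  have hCne : ∀ N, (C N).Nonempty := by
    intro N
    obtain ⟨p, hp, hE, -⟩ := scG_max hL hne N x
    exact ⟨p, hp, by rw [mem_ofPred_eq, ← hE]; exact hall N⟩
  have hCanti : ∀ N, C (N + 1) ⊆ C N := by
    rintro N p ⟨hp, hp'⟩
    refine ⟨hp, ?_⟩
    rw [mem_ofPred_eq] at hp' ⊢
    refine hp'.trans ?_
    unfold scF
    push_cast
    have := dist_nonneg (x := x) (y := Fin.tail p)
    nlinarith
  obtain ⟨p, hp⟩ := IsCompact.nonempty_iInter_of_sequence_nonempty_isCompact_isClosed C hCanti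
    hCne (hCcl 0).isCompact hCcl
  rw [mem_iInter] at hp
  have hpL : p ∈ L := (hp 0).1
  have hp0 : c ≤ ((p 0 : unitInterval) : ℝ) := by
    have := (hp 0).2
    rw [mem_ofPred_eq] at this
    unfold scF at this
    simpa using this
  have hdist : dist x (Fin.tail p) = 0 := by
    by_contra hne0
    have hpos : 0 < dist x (Fin.tail p) := lt_of_le_of_ne dist_nonneg (Ne.symm hne0)
    obtain ⟨N, hN⟩ := exists_nat_gt (1 / dist x (Fin.tail p))
    have h1 := (hp N).2
    rw [mem_ofPred_eq] at h1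
    unfold scF at h1
    have h2 : ((p 0 : unitInterval) : ℝ) ≤ 1 := (p 0).2.2
    have h3 : 1 < N * dist x (Fin.tail p) := by
      rwa [div_lt_iff₀ hpos] at hN
    linarith
  have hx : x = Fin.tail p := dist_eq_zero.1 hdist
  have hmem : (Fin.cons (p 0) x : X (n + 2)) ∈ L := by
    rw [hx, Fin.cons_self_tail]
    exact hpL
  have := le_HfF hlow hmem
  linarith

theorem exists_supconvF (L : Set (X (n + 2))) (hL : IsClosed L) (hne : L.Nonempty) (hlow : LowE L)
    (hmid : ∀ x ∈ L, ∀ y ∈ L, mid x y ∈ L) :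
    ∃ g : ℕ → X (n + 1) → ℝ, (∀ N, ∃ K, LipschitzWith K (g N)) ∧ (∀ N, Rel (g N) (g N) (g N)) ∧
      (∀ N x y, x ≤ y → x 0 = y 0 → g N y ≤ g N x) ∧ (∀ N x, g N x ≤ 1) ∧
      (∀ N x, 0 < Hf L x → Hf L x ≤ g N x) ∧
      ∀ x, Tendsto (fun N => max (g N x) 0) atTop (𝓝 (Hf L x)) :=
  ⟨fun N => scG L N, fun N => ⟨_, scG_lip hL hne N⟩, fun N => scG_rel hL hne hmid N,
    fun N x y hxy h0 => scG_antiF hL hne hlow N x y hxy h0, fun N x => scG_le_one hL hne N x,
    fun N x hx => by
      rcases le_max_iff.1 (Hf_le_scG hL hne N x) with h | h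
      · exact h
      · exact absurd hx (not_lt.2 h),
    fun x => scG_tendstoF hL hne hlow x⟩

end Vale.Agent.P254.FV1
end
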