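import Mathlib
import Vale.Agent.P347.MathlibUsed

set_option linter.all false

section

open MeasureTheory Set
open scoped ENNReal NNReal Pointwise

namespace Vale.Agent.P074

/-- One-dimensional Brunn-Minkowski, compact case, midpoint form. -/
theorem bm_one_compact {K L C : Set ℝ} (hK : IsCompact K) (hL : IsCompact L)
    (nK : K.Nonempty) (nL : L.Nonempty) (h : ∀ a ∈ K, ∀ b ∈ L, (a + b) / 2 ∈ C) :
    volume K + volume L ≤ 2 * volume C := by
  obtain ⟨a, haK, ha⟩ := hK.exists_isGreatest nK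
  obtain ⟨b, hbL, hb⟩ := hL.exists_isLeast nL
  have h1 : (fun x => x + b) '' K ⊆ (2 : ℝ) • C := by
    rintro _ ⟨x, hx, rfl⟩
    refine ⟨(x + b) / 2, h x hx b hbL, ?_⟩
    simp only [smul_eq_mul]
    ring
  have h2 : (fun y => a + y) '' L ⊆ (2 : ℝ) • C := by
    rintro _ ⟨y, hy, rfl⟩
    refine ⟨(a + y) / 2, h a haK y hy, ?_⟩
    simp only [smul_eq_mul]
    ring
  have c1 : IsCompact ((fun x => x + b) '' K) := hK.image (by fun_prop)
  have c2 : IsCompact ((fun y => a + y) '' L) := hL.image (by fun_prop)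
  have hdis : AEDisjoint volume ((fun x => x + b) '' K) ((fun y => a + y) '' L) := by
    have : ((fun x => x + b) '' K) ∩ ((fun y => a + y) '' L) ⊆ {a + b} := by
      rintro _ ⟨⟨x, hx, rfl⟩, ⟨y, hy, hxy⟩⟩
      have hx' := ha hx
      have hy' := hb hy
      simp only at hxy
      simp only [mem_singleton_iff]
      linarith
    exact measure_mono_null this (by simp)
  have v1 : volume ((fun x => x + b) '' K) = volume K := by
    simp
  have v2 : volume ((fun y => a + y) '' L) = volume L := by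
    simp
  have v3 : volume ((2 : ℝ) • C) = 2 * volume C := by
    rw [Measure.addHaar_smul]
    simp
  calc volume K + volume L = volume ((fun x => x + b) '' K) + volume ((fun y => a + y) '' L) := by
        rw [v1, v2]
    _ = volume (((fun x => x + b) '' K) ∪ ((fun y => a + y) '' L)) := by
        rw [measure_union₀ c2.measurableSet.nullMeasurableSet hdis]
    _ ≤ volume ((2 : ℝ) • C) := measure_mono (union_subset h1 h2)
    _ = 2 * volume C := v3

/-- One-dimensional Brunn-Minkowski, midpoint form. -/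
theorem bm_one {A B C : Set ℝ} (hA : MeasurableSet A) (hB : MeasurableSet B)
    (nA : A.Nonempty) (nB : B.Nonempty) (h : ∀ a ∈ A, ∀ b ∈ B, (a + b) / 2 ∈ C) :
    volume A + volume B ≤ 2 * volume C := by
  have key : ∀ K L : Set ℝ, IsCompact K → IsCompact L → K ⊆ A → L ⊆ B →
      volume K + volume L ≤ 2 * volume C := by
    intro K L hK hL hKA hLB
    obtain ⟨a0, ha0⟩ := nA
    obtain ⟨b0, hb0⟩ := nB
    have hK' : IsCompact (K ∪ {a0}) := hK.union isCompact_singleton
    have hL' : IsCompact (L ∪ {b0}) := hL.union isCompact_singleton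
    have := bm_one_compact hK' hL' ⟨a0, by simp⟩ ⟨b0, by simp⟩ (C := C) (by
      intro a ha b hb
      apply h
      · rcases ha with ha | ha
        · exact hKA ha
        · rw [mem_singleton_iff.mp ha]; exact ha0
      · rcases hb with hb | hb
        · exact hLB hb
        · rw [mem_singleton_iff.mp hb]; exact hb0)
    refine le_trans (add_le_add (measure_mono subset_union_left)
      (measure_mono subset_union_left)) this
  have key2 : ∀ K : Set ℝ, IsCompact K → K ⊆ A → volume K + volume B ≤ 2 * volume C := by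
    intro K hK hKA
    have hKfin : volume K ≠ ∞ := hK.measure_lt_top.ne
    have : volume B ≤ 2 * volume C - volume K := by
      refine le_of_forall_lt fun s hs => ?_
      obtain ⟨L, hLB, hL, hsL⟩ := hB.exists_lt_isCompact hs
      refine lt_of_lt_of_le hsL ?_
      exact ENNReal.le_sub_of_add_le_left hKfin (key K L hK hL hKA hLB)
    calc volume K + volume B ≤ volume K + (2 * volume C - volume K) := by gcongr
      _ = 2 * volume C := by
        rw [add_tsub_cancel_of_le]
        exact le_trans (by simp) (key K ∅ hK isCompact_empty hKA (empty_subset _))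
  by_cases hBfin : volume B = ∞
  · have := key2 ∅ isCompact_empty (empty_subset _)
    rw [hBfin] at this
    have h3 : 2 * volume C = ∞ := by
      simpa using this
    rw [h3]
    exact le_top
  · have : volume A ≤ 2 * volume C - volume B := by
      refine le_of_forall_lt fun s hs => ?_
      obtain ⟨K, hKA, hK, hsK⟩ := hA.exists_lt_isCompact hs
      refine lt_of_lt_of_le hsK ?_
      exact ENNReal.le_sub_of_add_le_right hBfin (key2 K hK hKA)
    calc volume A + volume B ≤ (2 * volume C - volume B) + volume B := by gcongr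
      _ = 2 * volume C := by
        rw [tsub_add_cancel_of_le]
        simpa using key2 ∅ isCompact_empty (empty_subset _)

theorem four_mul_le_sq (x y : ℝ≥0∞) : 4 * (x * y) ≤ (x + y) ^ 2 := by
  by_cases hx : x = ∞
  · subst hx; simp
  by_cases hy : y = ∞
  · subst hy; simp
  lift x to ℝ≥0 using hx
  lift y to ℝ≥0 using hy
  norm_cast
  rw [← NNReal.coe_le_coe]
  push_cast
  nlinarith [sq_nonneg ((x : ℝ) - y)]

/-- Normalised one-dimensional Prekopa-Leindler. -/
theorem pl_one_normalized (f g h : ℝ → ℝ≥0∞) (hf : Measurable f) (hg : Measurable g)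
    (hh : Measurable h) (hf1 : ⨆ x, f x = 1) (hg1 : ⨆ x, g x = 1)
    (hfg : ∀ x y, f x * g y ≤ h ((x + y) / 2) ^ 2) :
    (∫⁻ x, f x) + (∫⁻ x, g x) ≤ 2 * ∫⁻ x, h x := by
  have hfle : ∀ x, f x ≤ 1 := fun x => hf1 ▸ le_iSup f x
  have hgle : ∀ x, g x ≤ 1 := fun x => hg1 ▸ le_iSup g x
  set k : ℝ → ℝ≥0∞ := fun x => min (h x) 1 with hk
  have hkm : Measurable k := hh.min measurable_const
  have hk1 : ∀ x, k x ≤ 1 := fun x => min_le_right _ _
  have hfgk : ∀ x y, f x * g y ≤ k ((x + y) / 2) ^ 2 := by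
    intro x y
    have h1 : f x * g y ≤ 1 := by
      calc f x * g y ≤ 1 * 1 := mul_le_mul' (hfle x) (hgle y)
        _ = 1 := by simp
    simp only [hk]
    rcases le_total (h ((x + y) / 2)) 1 with h2 | h2
    · rw [min_eq_left h2]; exact hfg x y
    · rw [min_eq_right h2]; simpa using h1
  have hcake : ∀ u : ℝ → ℝ≥0∞, Measurable u → (∀ x, u x ≤ 1) →
      ∫⁻ x, u x = ∫⁻ t in Ioi (0 : ℝ), volume {x | t < (u x).toReal} := by
    intro u hu hu1
    rw [← lintegral_eq_lintegral_meas_lt volume (Filter.Eventually.of_forall fun x => by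
      simp) hu.ennreal_toReal.aemeasurable]
    apply lintegral_congr
    intro x
    rw [ENNReal.ofReal_toReal (ne_top_of_le_ne_top ENNReal.one_ne_top (hu1 x))]
  have hkh : ∫⁻ x, k x ≤ ∫⁻ x, h x := lintegral_mono fun x => min_le_left _ _
  refine le_trans ?_ (mul_le_mul_right hkh 2)
  rw [hcake f hf hfle, hcake g hg hgle, hcake k hkm hk1]
  have hmeas : ∀ u : ℝ → ℝ≥0∞, Measurable (fun t : ℝ => volume {x | t < (u x).toReal}) := by
    intro u
    apply Antitone.measurable
    intro s t hst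
    exact measure_mono fun x hx => lt_of_le_of_lt hst hx
  rw [← lintegral_add_left (hmeas f), ← lintegral_const_mul _ (hmeas k)]
  refine setLIntegral_mono' measurableSet_Ioi ?_
  intro t ht
  have ht0 : 0 < t := ht
  rcases lt_or_ge t 1 with ht1 | ht1
  · apply bm_one
    · exact measurableSet_lt measurable_const hf.ennreal_toReal
    · exact measurableSet_lt measurable_const hg.ennreal_toReal
    · have : ENNReal.ofReal t < ⨆ x, f x := by
        rw [hf1]
        rw [← ENNReal.ofReal_one]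
        exact (ENNReal.ofReal_lt_ofReal_iff one_pos).2 ht1
      obtain ⟨x, hx⟩ := lt_iSup_iff.1 this
      refine ⟨x, ?_⟩
      exact (ENNReal.ofReal_lt_iff_lt_toReal ht0.le
        (ne_top_of_le_ne_top ENNReal.one_ne_top (hfle x))).1 hx
    · have : ENNReal.ofReal t < ⨆ x, g x := by
        rw [hg1]
        rw [← ENNReal.ofReal_one]
        exact (ENNReal.ofReal_lt_ofReal_iff one_pos).2 ht1
      obtain ⟨x, hx⟩ := lt_iSup_iff.1 this
      refine ⟨x, ?_⟩
      exact (ENNReal.ofReal_lt_iff_lt_toReal ht0.le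
        (ne_top_of_le_ne_top ENNReal.one_ne_top (hgle x))).1 hx
    · intro a ha b hb
      simp only [mem_ofPred_eq] at ha hb ⊢
      have h3 := ENNReal.toReal_mono (by
        exact ENNReal.pow_ne_top (ne_top_of_le_ne_top ENNReal.one_ne_top (hk1 _))) (hfgk a b)
      rw [ENNReal.toReal_mul, ENNReal.toReal_pow] at h3
      have h4 : t ^ 2 < (k ((a + b) / 2)).toReal ^ 2 := by
        calc t ^ 2 = t * t := by ring
          _ < (f a).toReal * (g b).toReal := by
            exact mul_lt_mul'' ha hb ht0.le ht0.le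
          _ ≤ _ := h3
      exact lt_of_pow_lt_pow_left₀ 2 ENNReal.toReal_nonneg h4
  · have e1 : {x | t < (f x).toReal} = ∅ := by
      ext x
      simp only [mem_ofPred_eq, mem_empty_iff_false, iff_false, not_lt]
      refine le_trans ?_ ht1
      have := ENNReal.toReal_mono ENNReal.one_ne_top (hfle x)
      simpa using this
    have e2 : {x | t < (g x).toReal} = ∅ := by
      ext x
      simp only [mem_ofPred_eq, mem_empty_iff_false, iff_false, not_lt]
      refine le_trans ?_ ht1
      have := ENNReal.toReal_mono ENNReal.one_ne_top (hgle x)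
      simpa using this
    rw [e1, e2]
    simp

theorem pl_one_bdd (f g h : ℝ → ℝ≥0∞) (hf : Measurable f) (hg : Measurable g)
    (hh : Measurable h) (hf1 : ⨆ x, f x ≠ ∞) (hg1 : ⨆ x, g x ≠ ∞)
    (hfg : ∀ x y, f x * g y ≤ h ((x + y) / 2) ^ 2) :
    (∫⁻ x, f x) * (∫⁻ x, g x) ≤ (∫⁻ x, h x) ^ 2 := by
  by_cases hf0 : ⨆ x, f x = 0
  · have : f = fun _ => 0 := by
      funext x
      have := le_iSup f x
      rw [hf0] at this
      simpa using this
    rw [this]
    simp
  by_cases hg0 : ⨆ x, g x = 0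
  · have : g = fun _ => 0 := by
      funext x
      have := le_iSup g x
      rw [hg0] at this
      simpa using this
    rw [this]
    simp
  obtain ⟨a, ha⟩ : ∃ a : ℝ≥0, (a : ℝ≥0∞) = ⨆ x, f x := ⟨_, ENNReal.coe_toNNReal hf1⟩
  obtain ⟨b, hb⟩ : ∃ b : ℝ≥0, (b : ℝ≥0∞) = ⨆ x, g x := ⟨_, ENNReal.coe_toNNReal hg1⟩
  have ha0 : (a : ℝ≥0∞) ≠ 0 := by rw [ha]; exact hf0
  have hb0 : (b : ℝ≥0∞) ≠ 0 := by rw [hb]; exact hg0
  have ha0' : a ≠ 0 := by exact_mod_cast ha0
  have hb0' : b ≠ 0 := by exact_mod_cast hb0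
  set c : ℝ≥0 := NNReal.sqrt (a * b) with hc
  have hcsq : c ^ 2 = a * b := by rw [hc]; exact NNReal.sq_sqrt _
  have hc0' : c ≠ 0 := by
    intro h0
    rw [h0] at hcsq
    have : a * b = 0 := by rw [← hcsq]; simp
    rcases mul_eq_zero.1 this with h1 | h1
    · exact ha0' h1
    · exact hb0' h1
  have hc0 : (c : ℝ≥0∞) ≠ 0 := by exact_mod_cast hc0'
  have hcsq' : (c : ℝ≥0∞) ^ 2 = a * b := by exact_mod_cast hcsq
  have key := pl_one_normalized (fun x => (a : ℝ≥0∞)⁻¹ * f x) (fun x => (b : ℝ≥0∞)⁻¹ * g x)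
    (fun x => (c : ℝ≥0∞)⁻¹ * h x) (hf.const_mul _) (hg.const_mul _) (hh.const_mul _)
    (by rw [← ENNReal.mul_iSup, ← ha]; exact ENNReal.inv_mul_cancel ha0 ENNReal.coe_ne_top)
    (by rw [← ENNReal.mul_iSup, ← hb]; exact ENNReal.inv_mul_cancel hb0 ENNReal.coe_ne_top)
    (by
      intro x y
      have h1 : ((c : ℝ≥0∞)⁻¹) ^ 2 = (a : ℝ≥0∞)⁻¹ * (b : ℝ≥0∞)⁻¹ := by
        rw [← ENNReal.inv_pow, hcsq', ENNReal.mul_inv (Or.inl ha0) (Or.inl ENNReal.coe_ne_top)]
      calc (a : ℝ≥0∞)⁻¹ * f x * ((b : ℝ≥0∞)⁻¹ * g y)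
          = ((a : ℝ≥0∞)⁻¹ * (b : ℝ≥0∞)⁻¹) * (f x * g y) := by ring
        _ ≤ ((a : ℝ≥0∞)⁻¹ * (b : ℝ≥0∞)⁻¹) * h ((x + y) / 2) ^ 2 := by
          exact mul_le_mul_right (hfg x y) _
        _ = ((c : ℝ≥0∞)⁻¹ * h ((x + y) / 2)) ^ 2 := by
          rw [mul_pow, h1])
  rw [lintegral_const_mul _ hf, lintegral_const_mul _ hg, lintegral_const_mul _ hh] at key
  set F := ∫⁻ x, f x
  set G := ∫⁻ x, g x
  set H := ∫⁻ x, h x
  have h5 : 4 * ((a : ℝ≥0∞)⁻¹ * F * ((b : ℝ≥0∞)⁻¹ * G)) ≤ (2 * ((c : ℝ≥0∞)⁻¹ * H)) ^ 2 :=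
    le_trans (four_mul_le_sq _ _) (by gcongr)
  have h6 : (a * b : ℝ≥0∞) * (4 * ((a : ℝ≥0∞)⁻¹ * F * ((b : ℝ≥0∞)⁻¹ * G))) ≤
      (a * b : ℝ≥0∞) * (2 * ((c : ℝ≥0∞)⁻¹ * H)) ^ 2 := by gcongr
  have h7 : (a * b : ℝ≥0∞) * (4 * ((a : ℝ≥0∞)⁻¹ * F * ((b : ℝ≥0∞)⁻¹ * G))) = 4 * (F * G) := by
    calc (a * b : ℝ≥0∞) * (4 * ((a : ℝ≥0∞)⁻¹ * F * ((b : ℝ≥0∞)⁻¹ * G)))
        = 4 * ((a : ℝ≥0∞) * (a : ℝ≥0∞)⁻¹ * F * ((b : ℝ≥0∞) * (b : ℝ≥0∞)⁻¹ * G)) := by ring
      _ = 4 * (F * G) := by
        rw [ENNReal.mul_inv_cancel ha0 ENNReal.coe_ne_top,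
          ENNReal.mul_inv_cancel hb0 ENNReal.coe_ne_top]
        simp
  have h8 : (a * b : ℝ≥0∞) * (2 * ((c : ℝ≥0∞)⁻¹ * H)) ^ 2 = 4 * H ^ 2 := by
    rw [← hcsq']
    calc (c : ℝ≥0∞) ^ 2 * (2 * ((c : ℝ≥0∞)⁻¹ * H)) ^ 2
        = 2 ^ 2 * (((c : ℝ≥0∞) * (c : ℝ≥0∞)⁻¹) ^ 2 * H ^ 2) := by ring
      _ = 4 * H ^ 2 := by
        rw [ENNReal.mul_inv_cancel hc0 ENNReal.coe_ne_top]
        norm_num
  rw [h7, h8] at h6
  exact (ENNReal.mul_le_mul_iff_right (by norm_num) (by norm_num)).1 h6

theorem pl_one (f g h : ℝ → ℝ≥0∞) (hf : Measurable f) (hg : Measurable g)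
    (hh : Measurable h) (hfg : ∀ x y, f x * g y ≤ h ((x + y) / 2) ^ 2) :
    (∫⁻ x, f x) * (∫⁻ x, g x) ≤ (∫⁻ x, h x) ^ 2 := by
  have hcut : ∀ u : ℝ → ℝ≥0∞, Measurable u →
      ∫⁻ x, u x = ⨆ n : ℕ, ∫⁻ x, min (u x) n := by
    intro u hu
    rw [← lintegral_iSup (fun n => hu.min measurable_const)
      (fun m n hmn x => min_le_min_left _ (by exact_mod_cast hmn))]
    apply lintegral_congr
    intro x
    apply le_antisymm
    · by_cases hx : u x = ∞
      · rw [hx]
        simp only [top_le_iff, le_top, inf_of_le_right]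
        exact ENNReal.iSup_natCast
      · obtain ⟨n, hn⟩ := ENNReal.exists_nat_gt hx
        refine le_trans ?_ (le_iSup _ n)
        rw [min_eq_left hn.le]
    · exact iSup_le fun n => min_le_left _ _
  have hsup : ∀ (u : ℝ → ℝ≥0∞) (n : ℕ), ⨆ x, min (u x) (n : ℝ≥0∞) ≠ ∞ := by
    intro u n
    refine ne_top_of_le_ne_top (ENNReal.natCast_ne_top n) (iSup_le fun x => min_le_right _ _)
  rw [hcut f hf, hcut g hg, ENNReal.iSup_mul]
  refine iSup_le fun n => ?_
  rw [ENNReal.mul_iSup]
  refine iSup_le fun m => ?_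
  refine pl_one_bdd _ _ h (hf.min measurable_const) (hg.min measurable_const) hh
    (hsup f n) (hsup g m) ?_
  intro x y
  exact le_trans (mul_le_mul' (min_le_left _ _) (min_le_left _ _)) (hfg x y)

theorem pl_pi (n : ℕ) : ∀ (f g h : (Fin n → ℝ) → ℝ≥0∞), Measurable f → Measurable g →
    Measurable h → (∀ x y, f x * g y ≤ h (fun i => (x i + y i) / 2) ^ 2) →
    (∫⁻ x, f x) * (∫⁻ x, g x) ≤ (∫⁻ x, h x) ^ 2 := by
  induction n with
  | zero =>
    intro f g h hf hg hh hfg
    have hv : (volume : Measure (Fin 0 → ℝ)) univ = 1 := by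
      simp [volume_pi]
    rw [lintegral_unique, lintegral_unique, lintegral_unique, hv]
    simp only [mul_one]
    have hall : ∀ z w : Fin 0 → ℝ, z = w := fun z w => funext fun i => i.elim0
    obtain ⟨o, ho⟩ : ∃ o : Fin 0 → ℝ, ∀ z, z = o := ⟨fun _ => 0, fun z => hall z _⟩
    have h1 := hfg o o
    rw [ho fun i => (o i + o i) / 2] at h1
    have hgen : ∀ z : Fin 0 → ℝ, f z * g z ≤ h z ^ 2 := by
      intro z
      rw [ho z]
      exact h1
    exact hgen _
  | succ n ih =>
    intro f g h hf hg hh hfg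
    set e := MeasurableEquiv.piFinSuccAbove (fun _ : Fin (n + 1) => ℝ) 0 with he
    have hvp : MeasurePreserving e volume volume :=
      volume_preserving_piFinSuccAbove (fun _ : Fin (n + 1) => ℝ) 0
    have hsplit : ∀ u : (Fin (n + 1) → ℝ) → ℝ≥0∞, Measurable u →
        ∫⁻ x, u x = ∫⁻ a : ℝ, ∫⁻ x : Fin n → ℝ, u (e.symm (a, x)) := by
      intro u hu
      rw [← hvp.symm.lintegral_comp hu]
      exact lintegral_prod _ (hu.comp e.symm.measurable).aemeasurable
    have hmid : ∀ (a b : ℝ) (x y : Fin n → ℝ),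
        (fun i => (e.symm (a, x) i + e.symm (b, y) i) / 2) =
          e.symm ((a + b) / 2, fun i => (x i + y i) / 2) := by
      intro a b x y
      have hes : ∀ (c : ℝ) (z : Fin n → ℝ),
          e.symm (c, z) = (Fin.cons c z : Fin (n + 1) → ℝ) := by
        intro c z
        have h1 : e.symm (c, z) = (0 : Fin (n + 1)).insertNth (α := fun _ => ℝ) c z := rfl
        rw [h1]
        exact Fin.insertNth_zero' c z
      rw [hes, hes, hes]
      funext i
      refine Fin.cases ?_ (fun j => ?_) i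
      · simp only [Fin.cons_zero]
      · simp only [Fin.cons_succ]
    have hm2 : ∀ u : (Fin (n + 1) → ℝ) → ℝ≥0∞, Measurable u →
        Measurable fun a : ℝ => ∫⁻ x : Fin n → ℝ, u (e.symm (a, x)) := by
      intro u hu
      exact (hu.comp e.symm.measurable).lintegral_prod_right'
    rw [hsplit f hf, hsplit g hg, hsplit h hh]
    apply pl_one _ _ _ (hm2 f hf) (hm2 g hg) (hm2 h hh)
    intro a b
    have hsec : ∀ (u : (Fin (n + 1) → ℝ) → ℝ≥0∞) (c : ℝ), Measurable u →
        Measurable fun x : Fin n → ℝ => u (e.symm (c, x)) := by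
      intro u c hu
      exact hu.comp (e.symm.measurable.comp measurable_prodMk_left)
    apply ih _ _ _ (hsec f a hf) (hsec g b hg) (hsec h _ hh)
    intro x y
    have := hfg (e.symm (a, x)) (e.symm (b, y))
    rwa [hmid] at this

/-- Prekopa-Leindler inequality on Euclidean space (midpoint form). -/
theorem prekopa_leindler {d : ℕ} (f g h : EuclideanSpace ℝ (Fin d) → ℝ≥0∞)
    (hf : Measurable f) (hg : Measurable g) (hh : Measurable h)
    (hfg : ∀ x y, f x * g y ≤ h ((2 : ℝ)⁻¹ • (x + y)) ^ 2) :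
    (∫⁻ x, f x) * (∫⁻ x, g x) ≤ (∫⁻ x, h x) ^ 2 := by
  have hvp := PiLp.volume_preserving_toLp (Fin d)
  have htr : ∀ u : EuclideanSpace ℝ (Fin d) → ℝ≥0∞, Measurable u →
      ∫⁻ x, u x = ∫⁻ x : Fin d → ℝ, u (WithLp.toLp 2 x) := by
    intro u hu
    rw [← hvp.lintegral_comp hu]
  have hm : ∀ u : EuclideanSpace ℝ (Fin d) → ℝ≥0∞, Measurable u →
      Measurable fun x : Fin d → ℝ => u (WithLp.toLp 2 x) := by
    intro u hu
    exact hu.comp hvp.measurable
  rw [htr f hf, htr g hg, htr h hh]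
  apply pl_pi d _ _ _ (hm f hf) (hm g hg) (hm h hh)
  intro x y
  have := hfg (WithLp.toLp 2 x) (WithLp.toLp 2 y)
  convert this using 4
  ext i
  simp
  ring

end Vale.Agent.P074
end

section

/-!
# P227, block DENS: mollification

`moll η g x = ∫ t, η t • g (x - t)` on a finite-dimensional inner product space.
Derivatives of mollified locally Lipschitz functions, bounds, convergence.
-/

open MeasureTheory Filter Topology Set Metric
open scoped Convolution ContDiff

namespace Vale.Agent.P227.M.DENS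

variable {E : Type*} [NormedAddCommGroup E] [InnerProductSpace ℝ E] [FiniteDimensional ℝ E]
  [MeasurableSpace E] [BorelSpace E]
variable {F : Type*} [NormedAddCommGroup F] [NormedSpace ℝ F]

/-- Mollification with kernel `η`. -/
noncomputable def moll (η : E → ℝ) (g : E → F) (x : E) : F := ∫ t, η t • g (x - t)

theorem moll_eq_convolution (η : E → ℝ) (g : E → F) :
    moll η g = (η ⋆[ContinuousLinearMap.lsmul ℝ ℝ, volume] g) := by
  ext x
  rw [moll, convolution_lsmul]

theorem integrable_moll {η : E → ℝ} (hη : Continuous η) (hηc : HasCompactSupport η)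
    {g : E → F} (hg : Continuous g) (x : E) :
    Integrable (fun t => η t • g (x - t)) := by
  have hc : Continuous (fun t => η t • g (x - t)) := by fun_prop
  exact hc.integrable_of_hasCompactSupport (hηc.smul_right)

/-- Derivative of the mollification of a continuous, locally Lipschitz function which is
differentiable almost everywhere. -/
theorem hasFDerivAt_moll_aux [FiniteDimensional ℝ F]
    {η : E → ℝ} (hη : Continuous η) (hηc : HasCompactSupport η)
    {g : E → F} (hg : Continuous g) (hae : ∀ᵐ x, DifferentiableAt ℝ g x)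
    (hlip : ∀ R : ℝ, ∃ K, LipschitzOnWith K g (closedBall 0 R)) (x : E) :
    HasFDerivAt (moll η g) (moll η (fderiv ℝ g) x) x := by
  obtain ⟨r, hr⟩ := hηc.isCompact.isBounded.subset_closedBall (0 : E)
  obtain ⟨K, hK⟩ := hlip (‖x‖ + 1 + r)
  have hae' : ∀ᵐ t, DifferentiableAt ℝ g (x - t) := by
    have hmp : MeasurePreserving (fun t : E => x - t) volume volume :=
      Measure.measurePreserving_sub_left volume x
    exact hmp.quasiMeasurePreserving.ae hae
  have hmeas : AEStronglyMeasurable (fun t => η t • fderiv ℝ g (x - t)) volume := by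
    have h1 : AEStronglyMeasurable (fun t => fderiv ℝ g (x - t)) volume := by
      have : Measurable (fun t => fderiv ℝ g (x - t)) :=
        (measurable_fderiv ℝ g).comp (measurable_const.sub measurable_id)
      exact this.aestronglyMeasurable
    exact hη.aestronglyMeasurable.smul h1
  have key := hasFDerivAt_integral_of_dominated_loc_of_lip (𝕜 := ℝ) (μ := (volume : Measure E))
    (F := fun y t => η t • g (y - t)) (F' := fun t => η t • fderiv ℝ g (x - t))
    (bound := fun t => |η t| * K) (s := ball x 1) (x₀ := x) (ball_mem_nhds x one_pos)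
    (Eventually.of_forall fun y => (integrable_moll hη hηc hg y).aestronglyMeasurable)
    (integrable_moll hη hηc hg x) hmeas ?_ ?_ ?_
  · exact key.2
  · refine Eventually.of_forall fun t => ?_
    intro y hy z hz
    have hb : Real.nnabs (|η t| * K) = ‖η t‖₊ * K := by
      ext
      simp
    rw [hb]
    by_cases ht : t ∈ tsupport η
    · have ht' : ‖t‖ ≤ r := by simpa using hr ht
      have hy' : y - t ∈ closedBall (0 : E) (‖x‖ + 1 + r) := by
        rw [mem_closedBall, dist_zero_right]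
        have h1 : ‖y - x‖ < 1 := by simpa [dist_eq_norm] using hy
        have h2 : ‖y‖ ≤ ‖x‖ + 1 := by
          calc ‖y‖ = ‖(y - x) + x‖ := by rw [sub_add_cancel]
            _ ≤ ‖y - x‖ + ‖x‖ := norm_add_le _ _
            _ ≤ ‖x‖ + 1 := by linarith
        calc ‖y - t‖ ≤ ‖y‖ + ‖t‖ := norm_sub_le _ _
          _ ≤ _ := by linarith
      have hz' : z - t ∈ closedBall (0 : E) (‖x‖ + 1 + r) := by
        rw [mem_closedBall, dist_zero_right]
        have h1 : ‖z - x‖ < 1 := by simpa [dist_eq_norm] using hz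
        have h2 : ‖z‖ ≤ ‖x‖ + 1 := by
          calc ‖z‖ = ‖(z - x) + x‖ := by rw [sub_add_cancel]
            _ ≤ ‖z - x‖ + ‖x‖ := norm_add_le _ _
            _ ≤ ‖x‖ + 1 := by linarith
        calc ‖z - t‖ ≤ ‖z‖ + ‖t‖ := norm_sub_le _ _
          _ ≤ _ := by linarith
      have h3 := hK hy' hz'
      rw [edist_sub_right] at h3
      show edist (η t • g (y - t)) (η t • g (z - t)) ≤ _
      calc edist (η t • g (y - t)) (η t • g (z - t))
          = ‖η t‖₊ * edist (g (y - t)) (g (z - t)) := by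
            rw [edist_smul₀, ENNReal.smul_def, smul_eq_mul]
        _ ≤ ‖η t‖₊ * (K * edist y z) := by gcongr
        _ = ((‖η t‖₊ * K : NNReal) : ENNReal) * edist y z := by
            rw [ENNReal.coe_mul, mul_assoc]
    · have h0 : η t = 0 := image_eq_zero_of_notMem_tsupport ht
      simp [h0]
  · exact (((hη.abs).mul continuous_const).integrable_of_hasCompactSupport
      (hηc.norm.mul_right))
  · filter_upwards [hae'] with t ht
    have h1 : HasFDerivAt (fun y : E => y - t) (ContinuousLinearMap.id ℝ E) x :=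
      (hasFDerivAt_id x).sub_const t
    have h2 : HasFDerivAt (fun y : E => g (y - t)) (fderiv ℝ g (x - t)) x := by
      have := (ht.hasFDerivAt).comp x h1
      rw [ContinuousLinearMap.comp_id] at this
      exact this
    exact h2.const_smul (η t)

theorem hasFDerivAt_moll_of_contDiff [FiniteDimensional ℝ F]
    {η : E → ℝ} (hη : Continuous η) (hηc : HasCompactSupport η)
    {g : E → F} (hg : ContDiff ℝ 1 g) (x : E) :
    HasFDerivAt (moll η g) (moll η (fderiv ℝ g) x) x := by
  refine hasFDerivAt_moll_aux hη hηc hg.continuous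
    (Eventually.of_forall fun y => (hg.differentiable one_ne_zero) y) (fun R => ?_) x
  exact LocallyLipschitzOn.exists_lipschitzOnWith_of_compact (isCompact_closedBall 0 R)
    (fun y _ => by
      obtain ⟨K, t, ht, h⟩ := hg.locallyLipschitz y
      exact ⟨K, t, mem_nhdsWithin_of_mem_nhds ht, h⟩)

theorem hasFDerivAt_moll_of_lipschitz [FiniteDimensional ℝ F]
    {η : E → ℝ} (hη : Continuous η) (hηc : HasCompactSupport η)
    {K : NNReal} {g : E → F} (hg : LipschitzWith K g) (x : E) :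
    HasFDerivAt (moll η g) (moll η (fderiv ℝ g) x) x :=
  hasFDerivAt_moll_aux hη hηc hg.continuous hg.ae_differentiableAt
    (fun _ => ⟨K, hg.lipschitzOnWith⟩) x

theorem fderiv_moll_of_contDiff [FiniteDimensional ℝ F]
    {η : E → ℝ} (hη : Continuous η) (hηc : HasCompactSupport η)
    {g : E → F} (hg : ContDiff ℝ 1 g) :
    fderiv ℝ (moll η g) = moll η (fderiv ℝ g) :=
  funext fun x => (hasFDerivAt_moll_of_contDiff hη hηc hg x).fderiv

theorem fderiv_moll_of_lipschitz [FiniteDimensional ℝ F]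
    {η : E → ℝ} (hη : Continuous η) (hηc : HasCompactSupport η)
    {K : NNReal} {g : E → F} (hg : LipschitzWith K g) :
    fderiv ℝ (moll η g) = moll η (fderiv ℝ g) :=
  funext fun x => (hasFDerivAt_moll_of_lipschitz hη hηc hg x).fderiv

/-! ### Bounds -/

theorem moll_const_le {η : E → ℝ} (hη : Continuous η) (hηc : HasCompactSupport η)
    (h0 : ∀ t, 0 ≤ η t) (h1 : ∫ t, η t = 1) {g : E → ℝ} (hg : Continuous g) {c : ℝ}
    (hc : ∀ x, c ≤ g x) (x : E) : c ≤ moll η g x := by
  have hi : Integrable η := hη.integrable_of_hasCompactSupport hηc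
  calc c = ∫ t, η t * c := by rw [integral_mul_const, h1, one_mul]
    _ ≤ ∫ t, η t • g (x - t) := by
        refine integral_mono (hi.mul_const c) (integrable_moll hη hηc hg x) fun t => ?_
        exact mul_le_mul_of_nonneg_left (hc _) (h0 t)

theorem moll_le_const {η : E → ℝ} (hη : Continuous η) (hηc : HasCompactSupport η)
    (h0 : ∀ t, 0 ≤ η t) (h1 : ∫ t, η t = 1) {g : E → ℝ} (hg : Continuous g) {C : ℝ}
    (hC : ∀ x, g x ≤ C) (x : E) : moll η g x ≤ C := by
  have hi : Integrable η := hη.integrable_of_hasCompactSupport hηc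
  calc moll η g x ≤ ∫ t, η t * C := by
        refine integral_mono (integrable_moll hη hηc hg x) (hi.mul_const C) fun t => ?_
        exact mul_le_mul_of_nonneg_left (hC _) (h0 t)
    _ = C := by rw [integral_mul_const, h1, one_mul]

/-- `‖moll η g x - g x‖ ≤ ε` if `g` varies by at most `ε` on the translated support. -/
theorem norm_moll_sub_le {η : E → ℝ} (hη : Continuous η) (hηc : HasCompactSupport η)
    (h0 : ∀ t, 0 ≤ η t) (h1 : ∫ t, η t = 1) {g : E → F} (hg : Continuous g) [CompleteSpace F]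
    {x : E} {ε : ℝ} (hε : ∀ t, η t ≠ 0 → ‖g (x - t) - g x‖ ≤ ε) :
    ‖moll η g x - g x‖ ≤ ε := by
  have hi : Integrable η := hη.integrable_of_hasCompactSupport hηc
  have e1 : moll η g x - g x = ∫ t, η t • (g (x - t) - g x) := by
    simp_rw [smul_sub]
    rw [integral_sub (integrable_moll hη hηc hg x) (hi.smul_const (g x)), integral_smul_const, h1,
      one_smul]
    rfl
  rw [e1]
  calc ‖∫ t, η t • (g (x - t) - g x)‖ ≤ ∫ t, η t * ε := by
        refine norm_integral_le_of_norm_le (hi.mul_const ε) (Eventually.of_forall fun t => ?_)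
        rw [norm_smul, Real.norm_of_nonneg (h0 t)]
        by_cases ht : η t = 0
        · simp [ht]
        · exact mul_le_mul_of_nonneg_left (hε t ht) (h0 t)
    _ = ε := by rw [integral_mul_const, h1, one_mul]

/-- norm bound (no continuity needed) -/
theorem norm_moll_le {η : E → ℝ} (hη : Continuous η) (hηc : HasCompactSupport η)
    (h0 : ∀ t, 0 ≤ η t) (h1 : ∫ t, η t = 1) {g : E → F} {B : ℝ}
    (hB : ∀ x, ‖g x‖ ≤ B) (x : E) : ‖moll η g x‖ ≤ B := by
  have hi : Integrable η := hη.integrable_of_hasCompactSupport hηc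
  calc ‖moll η g x‖ ≤ ∫ t, η t * B := by
        refine norm_integral_le_of_norm_le (hi.mul_const B) (Eventually.of_forall fun t => ?_)
        rw [norm_smul, Real.norm_of_nonneg (h0 t)]
        exact mul_le_mul_of_nonneg_left (hB _) (h0 t)
    _ = B := by rw [integral_mul_const, h1, one_mul]

theorem moll_even {η : E → ℝ} (hev : ∀ t, η (-t) = η t) {g : E → F}
    (hg : ∀ x, g (-x) = g x) (x : E) : moll η g (-x) = moll η g x := by
  unfold moll
  rw [← integral_neg_eq_self]
  refine integral_congr_ae (Eventually.of_forall fun t => ?_)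
  show η (-t) • g (-x - -t) = η t • g (x - t)
  rw [hev, ← hg (x - t)]
  congr 2
  abel

theorem lipschitz_moll {η : E → ℝ} (hη : Continuous η) (hηc : HasCompactSupport η)
    (h0 : ∀ t, 0 ≤ η t) (h1 : ∫ t, η t = 1) {K : NNReal} {g : E → F} (hg : LipschitzWith K g) :
    LipschitzWith K (moll η g) := by
  have hi : Integrable η := hη.integrable_of_hasCompactSupport hηc
  refine LipschitzWith.of_dist_le_mul fun x y => ?_
  rw [dist_eq_norm]
  have e1 : moll η g x - moll η g y = ∫ t, η t • (g (x - t) - g (y - t)) := by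
    simp_rw [smul_sub]
    rw [integral_sub (integrable_moll hη hηc hg.continuous x)
      (integrable_moll hη hηc hg.continuous y)]
    rfl
  rw [e1]
  calc ‖∫ t, η t • (g (x - t) - g (y - t))‖ ≤ ∫ t, η t * (K * dist x y) := by
        refine norm_integral_le_of_norm_le (hi.mul_const _) (Eventually.of_forall fun t => ?_)
        rw [norm_smul, Real.norm_of_nonneg (h0 t)]
        refine mul_le_mul_of_nonneg_left ?_ (h0 t)
        have := hg.dist_le_mul (x - t) (y - t)
        rwa [dist_eq_norm, dist_sub_right] at this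
    _ = K * dist x y := by rw [integral_mul_const, h1, one_mul]

theorem contDiff_moll [CompleteSpace F] {η : E → ℝ} (hη : ContDiff ℝ ∞ η) (hηc : HasCompactSupport η)
    {g : E → F} (hg : LocallyIntegrable g) : ContDiff ℝ ∞ (moll η g) := by
  rw [moll_eq_convolution]
  exact hηc.contDiff_convolution_left _ hη hg

/-! ### The standard kernels -/

/-- bump functions of radius `1/(k+1)` -/
noncomputable def bmp (E : Type*) [NormedAddCommGroup E] [InnerProductSpace ℝ E] (k : ℕ) :
    ContDiffBump (0 : E) where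
  rIn := 1 / (2 * ((k : ℝ) + 1))
  rOut := 1 / ((k : ℝ) + 1)
  rIn_pos := by positivity
  rIn_lt_rOut := by
    have : (0 : ℝ) < (k : ℝ) + 1 := by positivity
    rw [div_lt_div_iff₀ (by positivity) this]
    linarith

/-- standard kernel of radius `1/(k+1)` -/
noncomputable def ker (E : Type*) [NormedAddCommGroup E] [InnerProductSpace ℝ E]
    [FiniteDimensional ℝ E] [MeasurableSpace E] [BorelSpace E] (k : ℕ) : E → ℝ :=
  (bmp E k).normed volume

theorem ker_nonneg (k : ℕ) (t : E) : 0 ≤ ker E k t := (bmp E k).nonneg_normed t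
theorem ker_integral (k : ℕ) : ∫ t, ker E k t = 1 := (bmp E k).integral_normed
theorem ker_even (k : ℕ) (t : E) : ker E k (-t) = ker E k t := (bmp E k).normed_neg t
theorem ker_smooth (k : ℕ) : ContDiff ℝ ∞ (ker E k) := (bmp E k).contDiff_normed
theorem ker_cont (k : ℕ) : Continuous (ker E k) := (ker_smooth k).continuous
theorem ker_supp (k : ℕ) : HasCompactSupport (ker E k) := (bmp E k).hasCompactSupport_normed
theorem norm_le_of_ker_ne {k : ℕ} {t : E} (h : ker E k t ≠ 0) : ‖t‖ ≤ 1 / ((k : ℝ) + 1) := by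
  have h1 : t ∈ Function.support ((bmp E k).normed volume) := h
  rw [(bmp E k).support_normed_eq] at h1
  have h2 : ‖t‖ < (bmp E k).rOut := by simpa using h1
  exact h2.le

theorem tendsto_moll_of_continuous [CompleteSpace F] {g : E → F} (hg : Continuous g) (x : E) :
    Tendsto (fun k => moll (ker E k) g x) atTop (𝓝 (g x)) := by
  have h := ContDiffBump.convolution_tendsto_right_of_continuous (μ := (volume : Measure E))
    (φ := fun k : ℕ => bmp E k) (l := atTop) tendsto_one_div_add_atTop_nhds_zero_nat hg x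
  simpa [moll_eq_convolution, ker] using h

theorem ae_tendsto_moll [CompleteSpace F] {g : E → F} (hg : LocallyIntegrable g) :
    ∀ᵐ x, Tendsto (fun k => moll (ker E k) g x) atTop (𝓝 (g x)) := by
  have h := ContDiffBump.ae_convolution_tendsto_right_of_locallyIntegrable
    (μ := (volume : Measure E)) (g := g) (K := 2)
    (φ := fun k : ℕ => bmp E k) (l := atTop) tendsto_one_div_add_atTop_nhds_zero_nat
    (Eventually.of_forall fun k => ?_) hg
  · simpa [moll_eq_convolution, ker] using h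
  · show (1 : ℝ) / ((k : ℝ) + 1) ≤ 2 * (1 / (2 * ((k : ℝ) + 1)))
    have : (0 : ℝ) < (k : ℝ) + 1 := by positivity
    field_simp
    exact le_refl _

/-- the derivative of a Lipschitz function is locally integrable -/
theorem locallyIntegrable_fderiv_of_lipschitz [FiniteDimensional ℝ F] {K : NNReal} {g : E → F}
    (hg : LipschitzWith K g) : LocallyIntegrable (fderiv ℝ g) := by
  have : LocallyIntegrable (fun _ : E => (K : ℝ)) := locallyIntegrable_const _
  refine this.mono (measurable_fderiv ℝ g).aestronglyMeasurable (Eventually.of_forall fun x => ?_)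
  refine (norm_fderiv_le_of_lipschitz ℝ hg).trans ?_
  exact le_abs_self (K : ℝ)

/-- convergence a.e. of the derivative of the mollification of a Lipschitz function -/
theorem ae_tendsto_fderiv_moll [FiniteDimensional ℝ F] {K : NNReal} {g : E → F}
    (hg : LipschitzWith K g) :
    ∀ᵐ x, Tendsto (fun k => fderiv ℝ (moll (ker E k) g) x) atTop (𝓝 (fderiv ℝ g x)) := by
  have h := ae_tendsto_moll (locallyIntegrable_fderiv_of_lipschitz hg)
  filter_upwards [h] with x hx
  have e : ∀ k, fderiv ℝ (moll (ker E k) g) x = moll (ker E k) (fderiv ℝ g) x := fun k => by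
    rw [fderiv_moll_of_lipschitz (ker_cont k) (ker_supp k) hg]
  simpa only [e] using hx

end Vale.Agent.P227.M.DENS
end

section

/-!
P254, frame block (b) (helper829): calculus of the tilted moments
`I w B c φ = ∫ φ(x) exp(⟨c,x⟩ - ⟨x,Bx⟩/2) w(x) dx` of a weight `w` with Gaussian decay.
-/

open MeasureTheory Filter Topology Matrix

namespace Vale.Agent.P254.Fr

variable {n : ℕ}

/-- vectors -/
abbrev E (n : ℕ) := Fin n → ℝ
/-- matrices -/
abbrev Mt (n : ℕ) := Matrix (Fin n) (Fin n) ℝ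

/-- the weights: positive, Gaussian decay, logarithm of quadratic growth -/
structure Wt (w : E n → ℝ) (m C : ℝ) : Prop where
  m_pos : 0 < m
  meas : Measurable w
  pos : ∀ x, 0 < w x
  le : ∀ x, w x ≤ C * Real.exp (-(m / 2) * (x ⬝ᵥ x))
  log_le : ∀ x, |Real.log (w x)| ≤ C * (1 + x ⬝ᵥ x)

/-- measurable functions of polynomial growth -/
def Pg (φ : E n → ℝ) : Prop := Measurable φ ∧ ∃ (C : ℝ) (k : ℕ), ∀ x, |φ x| ≤ C * (1 + x ⬝ᵥ x) ^ k

theorem dot_self_nonneg (x : E n) : 0 ≤ x ⬝ᵥ x :=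
  Finset.sum_nonneg fun i _ => mul_self_nonneg (x i)

theorem one_le_dot (x : E n) : 1 ≤ 1 + x ⬝ᵥ x := le_add_of_nonneg_right (dot_self_nonneg x)

theorem sq_le_dot (x : E n) (i : Fin n) : x i ^ 2 ≤ x ⬝ᵥ x := by
  rw [pow_two]
  exact Finset.single_le_sum (f := fun i => x i * x i) (fun i _ => mul_self_nonneg (x i))
    (Finset.mem_univ i)

namespace Pg

theorem exists_pos {f : E n → ℝ} (hf : Pg f) :
    ∃ (C : ℝ) (k : ℕ), 0 ≤ C ∧ ∀ x, |f x| ≤ C * (1 + x ⬝ᵥ x) ^ k := by
  obtain ⟨C, k, h⟩ := hf.2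
  refine ⟨C, k, ?_, h⟩
  have := (abs_nonneg _).trans (h 0)
  simpa using this

theorem const (c : ℝ) : Pg (fun _ : E n => c) := ⟨measurable_const, |c|, 0, fun x => by simp⟩

theorem coord (i : Fin n) : Pg (fun x : E n => x i) := by
  refine ⟨measurable_pi_apply i, 1, 1, fun x => ?_⟩
  rw [one_mul, pow_one]
  have := sq_le_dot x i
  nlinarith [abs_nonneg (x i), sq_abs (x i), sq_nonneg (|x i| - 1)]

theorem add {f g : E n → ℝ} (hf : Pg f) (hg : Pg g) : Pg (fun x => f x + g x) := by
  obtain ⟨C, m, hC, h⟩ := hf.exists_pos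
  obtain ⟨D, k, hD, h'⟩ := hg.exists_pos
  refine ⟨hf.1.add hg.1, C + D, max m k, fun x => ?_⟩
  have h1 := one_le_dot x
  have e1 : (1 + x ⬝ᵥ x) ^ m ≤ (1 + x ⬝ᵥ x) ^ (max m k) :=
    pow_le_pow_right₀ h1 (le_max_left _ _)
  have e2 : (1 + x ⬝ᵥ x) ^ k ≤ (1 + x ⬝ᵥ x) ^ (max m k) :=
    pow_le_pow_right₀ h1 (le_max_right _ _)
  calc |f x + g x| ≤ |f x| + |g x| := abs_add_le _ _
    _ ≤ C * (1 + x ⬝ᵥ x) ^ m + D * (1 + x ⬝ᵥ x) ^ k := add_le_add (h x) (h' x)
    _ ≤ C * (1 + x ⬝ᵥ x) ^ (max m k) + D * (1 + x ⬝ᵥ x) ^ (max m k) :=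
        add_le_add (mul_le_mul_of_nonneg_left e1 hC) (mul_le_mul_of_nonneg_left e2 hD)
    _ = _ := by ring

theorem mul {f g : E n → ℝ} (hf : Pg f) (hg : Pg g) : Pg (fun x => f x * g x) := by
  obtain ⟨C, m, hC, h⟩ := hf.exists_pos
  obtain ⟨D, k, hD, h'⟩ := hg.exists_pos
  refine ⟨hf.1.mul hg.1, C * D, m + k, fun x => ?_⟩
  calc |f x * g x| = |f x| * |g x| := abs_mul _ _
    _ ≤ (C * (1 + x ⬝ᵥ x) ^ m) * (D * (1 + x ⬝ᵥ x) ^ k) :=
        mul_le_mul (h x) (h' x) (abs_nonneg _) ((abs_nonneg _).trans (h x))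
    _ = _ := by rw [pow_add]; ring

theorem const_mul {f : E n → ℝ} (c : ℝ) (hf : Pg f) : Pg (fun x => c * f x) := (const c).mul hf

theorem neg {f : E n → ℝ} (hf : Pg f) : Pg (fun x => -f x) := by
  simpa using hf.const_mul (-1)

theorem sub {f g : E n → ℝ} (hf : Pg f) (hg : Pg g) : Pg (fun x => f x - g x) := by
  simpa [sub_eq_add_neg] using hf.add hg.neg

theorem sum {ι : Type*} (s : Finset ι) {f : ι → E n → ℝ} (hf : ∀ a ∈ s, Pg (f a)) :
    Pg (fun x => ∑ a ∈ s, f a x) := by
  classical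
  induction s using Finset.induction_on with
  | empty => simpa using const 0
  | insert a s ha ih =>
    simp only [Finset.sum_insert ha]
    exact (hf a (Finset.mem_insert_self _ _)).add
      (ih fun b hb => hf b (Finset.mem_insert_of_mem hb))

theorem dot (e : E n) : Pg (fun x : E n => e ⬝ᵥ x) := by
  unfold dotProduct
  exact sum _ fun i _ => (coord i).const_mul (e i)

theorem quad (Q : Mt n) : Pg (fun x : E n => x ⬝ᵥ Q *ᵥ x) := by
  unfold dotProduct Matrix.mulVec
  exact sum _ fun i _ => (coord i).mul (dot (Q i))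

end Pg

theorem Wt.pg_log {w : E n → ℝ} {m C : ℝ} (h : Wt w m C) : Pg (fun x => Real.log (w x)) :=
  ⟨h.meas.log, C, 1, fun x => by simpa using h.log_le x⟩

/-- quadratic forms are bounded -/
theorem abs_quad_le (Q : Mt n) (x : E n) :
    |x ⬝ᵥ Q *ᵥ x| ≤ (∑ i, ∑ j, |Q i j|) * (x ⬝ᵥ x) := by
  have h1 : x ⬝ᵥ Q *ᵥ x = ∑ i, ∑ j, x i * (Q i j * x j) := by
    unfold dotProduct Matrix.mulVec dotProduct
    simp only [Finset.mul_sum]
  rw [h1, Finset.sum_mul]
  refine (Finset.abs_sum_le_sum_abs _ _).trans (Finset.sum_le_sum fun i _ => ?_)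
  rw [Finset.sum_mul]
  refine (Finset.abs_sum_le_sum_abs _ _).trans (Finset.sum_le_sum fun j _ => ?_)
  have h2 : |x i * (Q i j * x j)| = |Q i j| * |x i * x j| := by
    rw [← abs_mul]
    congr 1
    ring
  rw [h2]
  refine mul_le_mul_of_nonneg_left ?_ (abs_nonneg _)
  rw [abs_mul]
  have h3 := sq_le_dot x i
  have h4 := sq_le_dot x j
  nlinarith [sq_nonneg (|x i| - |x j|), sq_abs (x i), sq_abs (x j)]

theorem dot_le (c x : E n) {η : ℝ} (hη : 0 < η) : c ⬝ᵥ x ≤ η * (x ⬝ᵥ x) + (1 / (4 * η)) * (c ⬝ᵥ c) := by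
  unfold dotProduct
  rw [Finset.mul_sum, Finset.mul_sum, ← Finset.sum_add_distrib]
  refine Finset.sum_le_sum fun i _ => ?_
  have h : 0 ≤ (2 * η * x i - c i) ^ 2 / (4 * η) := by positivity
  have e : (2 * η * x i - c i) ^ 2 / (4 * η)
      = η * (x i * x i) + 1 / (4 * η) * (c i * c i) - c i * x i := by
    field_simp
    ring
  linarith

/-- Gaussian integrability -/
theorem integrable_gauss {b : ℝ} (hb : 0 < b) :
    Integrable (fun x : E n => Real.exp (-b * (x ⬝ᵥ x))) := by
  have h : (fun x : E n => Real.exp (-b * (x ⬝ᵥ x)))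
      = fun x : E n => ∏ i, Real.exp (-b * x i ^ 2) := by
    funext x
    rw [← Real.exp_sum]
    congr 1
    unfold dotProduct
    rw [Finset.mul_sum]
    exact Finset.sum_congr rfl fun i _ => by ring
  rw [h]
  exact Integrable.fintype_prod (f := fun _ (t : ℝ) => Real.exp (-b * t ^ 2))
    fun _ => integrable_exp_neg_mul_sq hb

theorem pow_le_exp {b : ℝ} (hb : 0 < b) (k : ℕ) :
    ∃ C : ℝ, 0 ≤ C ∧ ∀ r : ℝ, 0 ≤ r → (1 + r) ^ k ≤ C * Real.exp (b * r) := by
  refine ⟨(k.factorial : ℝ) / b ^ k * Real.exp b, by positivity, fun r hr => ?_⟩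
  have h := Real.pow_div_factorial_le_exp (b * (1 + r)) (by positivity) k
  rw [div_le_iff₀ (by positivity), mul_pow] at h
  have h2 : Real.exp (b * (1 + r)) = Real.exp b * Real.exp (b * r) := by
    rw [← Real.exp_add]
    congr 1
    ring
  rw [h2] at h
  have h3 : 0 < b ^ k := by positivity
  calc (1 + r) ^ k = (b ^ k * (1 + r) ^ k) / b ^ k := by field_simp
    _ ≤ (Real.exp b * Real.exp (b * r) * k.factorial) / b ^ k := by gcongr
    _ = _ := by ring

/-- a polynomially growing function times a Gaussian is integrable -/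
theorem integrable_pg_gauss {φ : E n → ℝ} (hφ : Pg φ) {b : ℝ} (hb : 0 < b) :
    Integrable (fun x => |φ x| * Real.exp (-b * (x ⬝ᵥ x))) := by
  obtain ⟨C, k, hC, h⟩ := hφ.exists_pos
  obtain ⟨D, hD, hk⟩ := pow_le_exp (half_pos hb) k
  have hdm : Measurable fun x : E n => x ⬝ᵥ x := by
    unfold dotProduct
    fun_prop
  refine ((integrable_gauss (n := n) (half_pos hb)).const_mul (C * D)).mono'
    (hφ.1.abs.mul (hdm.const_mul _).exp).aestronglyMeasurable (Eventually.of_forall fun x => ?_)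
  rw [Real.norm_eq_abs, abs_of_nonneg (by positivity)]
  calc |φ x| * Real.exp (-b * (x ⬝ᵥ x))
      ≤ (C * (D * Real.exp (b / 2 * (x ⬝ᵥ x)))) * Real.exp (-b * (x ⬝ᵥ x)) := by
        refine mul_le_mul_of_nonneg_right ((h x).trans ?_) (Real.exp_pos _).le
        exact mul_le_mul_of_nonneg_left (hk _ (dot_self_nonneg x)) hC
    _ = C * D * (Real.exp (b / 2 * (x ⬝ᵥ x)) * Real.exp (-b * (x ⬝ᵥ x))) := by ring
    _ = C * D * Real.exp (-(b / 2) * (x ⬝ᵥ x)) := by
        rw [← Real.exp_add]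
        congr 2
        ring

/-- the tilt -/
noncomputable def tl (B : Mt n) (c x : E n) : ℝ :=
  Real.exp (c ⬝ᵥ x - (1 / 2) * (x ⬝ᵥ B *ᵥ x))

/-- admissible `B` for the calculus -/
def Adm (m : ℝ) (B : Mt n) : Prop := ∀ x : E n, -(m / 4) * (x ⬝ᵥ x) ≤ x ⬝ᵥ B *ᵥ x

theorem adm_of_nonneg {m : ℝ} (hm : 0 < m) {B : Mt n} (h : ∀ x : E n, 0 ≤ x ⬝ᵥ B *ᵥ x) :
    Adm m B := fun x => by
  have := h x
  have h2 := dot_self_nonneg x
  nlinarith

theorem adm_of_posSemidef {m : ℝ} (hm : 0 < m) {B : Mt n} (h : B.PosSemidef) : Adm m B :=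
  adm_of_nonneg hm fun x => by simpa using h.dotProduct_mulVec_nonneg x

/-- tilted integrals -/
noncomputable def I (w : E n → ℝ) (B : Mt n) (c : E n) (φ : E n → ℝ) : ℝ :=
  ∫ x, φ x * (tl B c x * w x)

/-- the master bound -/
theorem tl_le {w : E n → ℝ} {m C : ℝ} (hw : Wt w m C) {B : Mt n} (hB : Adm m B) {c : E n} {R : ℝ}
    (hc : c ⬝ᵥ c ≤ R) (x : E n) :
    tl B c x * w x ≤ C * Real.exp (4 / m * R) * Real.exp (-(m / 4) * (x ⬝ᵥ x)) := by
  have hm := hw.m_pos
  have hC : 0 ≤ C * Real.exp (-(m / 2) * (x ⬝ᵥ x)) := (hw.pos x).le.trans (hw.le x)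
  have h1 := dot_le c x (η := m / 16) (by positivity)
  have h2 := hB x
  have h3 : (1 / (4 * (m / 16))) * (c ⬝ᵥ c) ≤ 4 / m * R := by
    have : 1 / (4 * (m / 16)) = 4 / m := by field_simp; norm_num
    rw [this]
    exact mul_le_mul_of_nonneg_left hc (by positivity)
  have h4 : tl B c x ≤ Real.exp (4 / m * R + (m / 4) * (x ⬝ᵥ x)) := by
    refine Real.exp_le_exp.2 ?_
    have h5 := dot_self_nonneg x
    nlinarith
  calc tl B c x * w x
      ≤ Real.exp (4 / m * R + (m / 4) * (x ⬝ᵥ x)) * (C * Real.exp (-(m / 2) * (x ⬝ᵥ x))) :=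
        mul_le_mul h4 (hw.le x) (hw.pos x).le (Real.exp_pos _).le
    _ = C * Real.exp (4 / m * R) * (Real.exp ((m / 4) * (x ⬝ᵥ x))
          * Real.exp (-(m / 2) * (x ⬝ᵥ x))) := by
        rw [Real.exp_add]
        ring
    _ = _ := by
        rw [← Real.exp_add]
        congr 2
        ring

theorem tl_pos (B : Mt n) (c x : E n) : 0 < tl B c x := Real.exp_pos _

theorem measurable_tl (B : Mt n) (c : E n) : Measurable (tl B c) := by
  unfold tl
  exact ((Pg.dot c).1.sub ((Pg.quad B).1.const_mul _)).exp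

theorem meas_integrand {w : E n → ℝ} {m C : ℝ} (hw : Wt w m C) (B : Mt n) (c : E n)
    {φ : E n → ℝ} (hφ : Pg φ) : AEStronglyMeasurable (fun x => φ x * (tl B c x * w x)) volume :=
  (hφ.1.mul ((measurable_tl B c).mul hw.meas)).aestronglyMeasurable

theorem integrand_le {w : E n → ℝ} {m C : ℝ} (hw : Wt w m C) {B : Mt n} (hB : Adm m B) {c : E n}
    {R : ℝ} (hc : c ⬝ᵥ c ≤ R) (φ : E n → ℝ) (x : E n) :
    ‖φ x * (tl B c x * w x)‖
      ≤ C * Real.exp (4 / m * R) * (|φ x| * Real.exp (-(m / 4) * (x ⬝ᵥ x))) := by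
  rw [Real.norm_eq_abs, abs_mul, abs_of_nonneg (mul_pos (tl_pos B c x) (hw.pos x)).le]
  calc |φ x| * (tl B c x * w x)
      ≤ |φ x| * (C * Real.exp (4 / m * R) * Real.exp (-(m / 4) * (x ⬝ᵥ x))) :=
        mul_le_mul_of_nonneg_left (tl_le hw hB hc x) (abs_nonneg _)
    _ = _ := by ring

theorem integrable_I {w : E n → ℝ} {m C : ℝ} (hw : Wt w m C) {B : Mt n} (hB : Adm m B) (c : E n)
    {φ : E n → ℝ} (hφ : Pg φ) : Integrable (fun x => φ x * (tl B c x * w x)) := by
  have hm := hw.m_pos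
  exact ((integrable_pg_gauss hφ (b := m / 4) (by positivity)).const_mul
    (C * Real.exp (4 / m * (c ⬝ᵥ c)))).mono' (meas_integrand hw B c hφ)
    (Eventually.of_forall fun x => integrand_le hw hB le_rfl φ x)

theorem dot_line (c e : E n) {t : ℝ} (ht : |t| ≤ 1) :
    (c + t • e) ⬝ᵥ (c + t • e) ≤ 2 * (c ⬝ᵥ c) + 2 * (e ⬝ᵥ e) := by
  unfold dotProduct
  rw [Finset.mul_sum, Finset.mul_sum, ← Finset.sum_add_distrib]
  refine Finset.sum_le_sum fun i _ => ?_
  simp only [Pi.add_apply, Pi.smul_apply, smul_eq_mul]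
  have h1 : t ^ 2 ≤ 1 := by
    have := abs_le.1 ht
    nlinarith
  nlinarith [sq_nonneg (c i - t * e i), mul_nonneg (sub_nonneg.2 h1) (sq_nonneg (e i))]

/-- the exponent of the direction `(Q, e)` -/
noncomputable def pt (Q : Mt n) (e x : E n) : ℝ := e ⬝ᵥ x - (1 / 2) * (x ⬝ᵥ Q *ᵥ x)

theorem Pg.pt (Q : Mt n) (e : E n) : Pg (Fr.pt Q e) := (Pg.dot e).sub ((Pg.quad Q).const_mul _)

theorem tl_line (B Q : Mt n) (c e x : E n) (t : ℝ) :
    tl (B + t • Q) (c + t • e) x = tl B c x * Real.exp (t * pt Q e x) := by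
  unfold tl pt
  rw [← Real.exp_add]
  congr 1
  rw [add_dotProduct, smul_dotProduct, Matrix.add_mulVec, Matrix.smul_mulVec,
    dotProduct_add, dotProduct_smul, smul_eq_mul, smul_eq_mul]
  ring

/-- differentiation under the integral sign -/
theorem hasDerivAt_I {w : E n → ℝ} {m C : ℝ} (hw : Wt w m C) {B : Mt n}
    (hB : ∀ x : E n, 0 ≤ x ⬝ᵥ B *ᵥ x) (Q : Mt n) (c e : E n) {φ : E n → ℝ} (hφ : Pg φ) :
    HasDerivAt (fun t : ℝ => I w (B + t • Q) (c + t • e) φ)
      (I w B c (fun x => φ x * pt Q e x)) 0 := by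
  have hm := hw.m_pos
  set q : ℝ := ∑ i, ∑ j, |Q i j| with hq
  have hq0 : 0 ≤ q := Finset.sum_nonneg fun i _ => Finset.sum_nonneg fun j _ => abs_nonneg _
  set δ : ℝ := min 1 (m / (4 * (q + 1))) with hδ
  have hδ0 : 0 < δ := lt_min one_pos (by positivity)
  set R : ℝ := 2 * (c ⬝ᵥ c) + 2 * (e ⬝ᵥ e) with hR
  have hadm : ∀ t : ℝ, |t| < δ → Adm m (B + t • Q) := by
    intro t ht x
    rw [Matrix.add_mulVec, Matrix.smul_mulVec, dotProduct_add, dotProduct_smul, smul_eq_mul]
    have h1 := hB x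
    have h2 := abs_quad_le Q x
    have h3 := dot_self_nonneg x
    have h4 : |t * (x ⬝ᵥ Q *ᵥ x)| ≤ m / 4 * (x ⬝ᵥ x) := by
      rw [abs_mul]
      have h5 : |t| * q ≤ m / 4 := by
        have h6 : |t| ≤ m / (4 * (q + 1)) := (ht.trans_le (min_le_right _ _)).le
        calc |t| * q ≤ m / (4 * (q + 1)) * (q + 1) :=
              mul_le_mul h6 (by linarith) hq0 (by positivity)
          _ = m / 4 := by field_simp
      calc |t| * |x ⬝ᵥ Q *ᵥ x| ≤ |t| * (q * (x ⬝ᵥ x)) :=
            mul_le_mul_of_nonneg_left h2 (abs_nonneg _)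
        _ = |t| * q * (x ⬝ᵥ x) := by ring
        _ ≤ m / 4 * (x ⬝ᵥ x) := mul_le_mul_of_nonneg_right h5 h3
    have h7 := (abs_le.1 h4).1
    linarith
  have hcR : ∀ t : ℝ, |t| < δ → (c + t • e) ⬝ᵥ (c + t • e) ≤ R := fun t ht =>
    dot_line c e (ht.trans_le (min_le_left _ _)).le
  have hball : ∀ t ∈ Metric.ball (0 : ℝ) δ, |t| < δ := fun t ht => by simpa using ht
  have hp := Pg.pt Q e
  have key := hasDerivAt_integral_of_dominated_loc_of_deriv_le (μ := volume)
    (F := fun t x => φ x * (tl (B + t • Q) (c + t • e) x * w x))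
    (F' := fun t x => φ x * pt Q e x * (tl (B + t • Q) (c + t • e) x * w x))
    (x₀ := (0 : ℝ)) (s := Metric.ball (0 : ℝ) δ)
    (bound := fun x => C * Real.exp (4 / m * R) *
      (|φ x * pt Q e x| * Real.exp (-(m / 4) * (x ⬝ᵥ x))))
    (Metric.ball_mem_nhds _ hδ0)
    (Eventually.of_forall fun t => meas_integrand hw _ _ hφ)
    ?_ (meas_integrand hw _ _ (hφ.mul hp))
    (Eventually.of_forall fun x t ht => ?_) ?_ (Eventually.of_forall fun x t ht => ?_)
  · have h := key.2
    simp only [zero_smul, add_zero] at h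
    exact h
  · simp only [zero_smul, add_zero]
    exact integrable_I hw (adm_of_nonneg hm hB) c hφ
  · exact integrand_le hw (hadm t (hball t ht)) (hcR t (hball t ht)) (fun x => φ x * pt Q e x) x
  · exact (integrable_pg_gauss (hφ.mul hp) (b := m / 4) (by positivity)).const_mul _
  · have h1 : HasDerivAt (fun t : ℝ => φ x * (tl B c x * Real.exp (t * pt Q e x) * w x))
        (φ x * (tl B c x * (Real.exp (t * pt Q e x) * pt Q e x) * w x)) t := by
      have h2 : HasDerivAt (fun t : ℝ => Real.exp (t * pt Q e x))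
          (Real.exp (t * pt Q e x) * pt Q e x) t := by
        have h3 : HasDerivAt (fun t : ℝ => t * pt Q e x) (pt Q e x) t := by
          simpa using (hasDerivAt_id t).mul_const (pt Q e x)
        exact h3.exp
      exact ((h2.const_mul _).mul_const _).const_mul _
    simp only [tl_line]
    have h4 : φ x * pt Q e x * (tl B c x * Real.exp (t * pt Q e x) * w x)
        = φ x * (tl B c x * (Real.exp (t * pt Q e x) * pt Q e x) * w x) := by ring
    rw [h4]
    exact h1

/-- continuity in `(B, c)` -/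
theorem continuousOn_I {w : E n → ℝ} {m C : ℝ} (hw : Wt w m C) {φ : E n → ℝ} (hφ : Pg φ) :
    ContinuousOn (fun z : Mt n × E n => I w z.1 z.2 φ) {z | Adm m z.1} := by
  intro z hz
  have hm := hw.m_pos
  haveI : FirstCountableTopology (Mt n) :=
    inferInstanceAs (FirstCountableTopology (Fin n → Fin n → ℝ))
  have hdc : Continuous fun z : Mt n × E n => z.2 ⬝ᵥ z.2 := by
    unfold dotProduct
    fun_prop
  have hev : ∀ᶠ y in 𝓝[{z : Mt n × E n | Adm m z.1}] z, y.2 ⬝ᵥ y.2 ≤ z.2 ⬝ᵥ z.2 + 1 := by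
    refine nhdsWithin_le_nhds ?_
    have := hdc.continuousAt (x := z)
    filter_upwards [this.eventually (gt_mem_nhds (lt_add_one (z.2 ⬝ᵥ z.2)))] with y hy
    exact hy.le
  refine continuousWithinAt_of_dominated
    (bound := fun x => C * Real.exp (4 / m * (z.2 ⬝ᵥ z.2 + 1)) *
      (|φ x| * Real.exp (-(m / 4) * (x ⬝ᵥ x))))
    (Eventually.of_forall fun y => meas_integrand hw y.1 y.2 hφ) ?_ ?_
    (Eventually.of_forall fun x => ?_)
  · filter_upwards [hev, self_mem_nhdsWithin] with y h1 h2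
    exact Eventually.of_forall fun x => integrand_le hw h2 h1 φ x
  · exact (integrable_pg_gauss hφ (b := m / 4) (by positivity)).const_mul _
  · refine Continuous.continuousWithinAt ?_
    refine continuous_const.mul (Continuous.mul ?_ continuous_const)
    unfold tl
    refine Real.continuous_exp.comp ?_
    have h1 : Continuous fun z : Mt n × E n => z.2 ⬝ᵥ x := by
      unfold dotProduct
      fun_prop
    have h2 : Continuous fun z : Mt n × E n => x ⬝ᵥ z.1 *ᵥ x := by
      unfold dotProduct Matrix.mulVec dotProduct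
      refine continuous_finsetSum _ fun i _ => continuous_const.mul ?_
      refine continuous_finsetSum _ fun j _ => Continuous.mul ?_ continuous_const
      exact (continuous_apply_apply i j).comp continuous_fst
    exact h1.sub (continuous_const.mul h2)

end Vale.Agent.P254.Fr
end

section

/-!
P254, frame block (b) (helper829): joint cumulants of functions under the tilted laws and their
derivatives.
-/

open MeasureTheory Filter Topology Matrix

namespace Vale.Agent.P254.Fr

variable {n : ℕ}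

/-- tilted expectations -/
noncomputable def Ev (w : E n → ℝ) (B : Mt n) (c : E n) (φ : E n → ℝ) : ℝ :=
  I w B c φ / I w B c (fun _ => 1)

section defs

variable (w : E n → ℝ) (B : Mt n) (c : E n)

/-- covariance -/
noncomputable def c2 (f g : E n → ℝ) : ℝ := Ev w B c (fun x => f x * g x) - Ev w B c f * Ev w B c g

/-- third joint cumulant -/
noncomputable def c3 (f g h : E n → ℝ) : ℝ :=
  c2 w B c (fun x => f x * g x) h - c2 w B c f h * Ev w B c g - Ev w B c f * c2 w B c g h

/-- fourth joint cumulant -/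
noncomputable def c4 (f g h k : E n → ℝ) : ℝ :=
  c3 w B c (fun x => f x * g x) h k
    - (c3 w B c f h k * Ev w B c g + c2 w B c f h * c2 w B c g k)
    - (c2 w B c f k * c2 w B c g h + Ev w B c f * c3 w B c g h k)

/-- fifth joint cumulant -/
noncomputable def c5 (f g h k l : E n → ℝ) : ℝ :=
  c4 w B c (fun x => f x * g x) h k l
    - ((c4 w B c f h k l * Ev w B c g + c3 w B c f h k * c2 w B c g l)
      + (c3 w B c f h l * c2 w B c g k + c2 w B c f h * c3 w B c g k l))
    - ((c3 w B c f k l * c2 w B c g h + c2 w B c f k * c3 w B c g h l)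
      + (c2 w B c f l * c3 w B c g h k + Ev w B c f * c4 w B c g h k l))

end defs

section basic

variable {w : E n → ℝ} {m C : ℝ} {B : Mt n} {c : E n}

theorem I_one_pos (hw : Wt w m C) (hB : Adm m B) (c : E n) : 0 < I w B c (fun _ => 1) := by
  unfold I
  have hint := integrable_I hw hB c (Pg.const (n := n) 1)
  rw [integral_pos_iff_support_of_nonneg (fun x => ?_) hint]
  · have : Function.support (fun x : E n => (1 : ℝ) * (tl B c x * w x)) = Set.univ := by
      ext x
      simp only [Function.mem_support, Set.mem_univ, iff_true, one_mul]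
      exact (mul_pos (tl_pos B c x) (hw.pos x)).ne'
    rw [this]
    exact NeZero.pos _
  · simp only [Pi.zero_apply, one_mul]
    exact (mul_pos (tl_pos B c x) (hw.pos x)).le

theorem I_add (hw : Wt w m C) (hB : Adm m B) (c : E n) {f g : E n → ℝ} (hf : Pg f) (hg : Pg g) :
    I w B c (fun x => f x + g x) = I w B c f + I w B c g := by
  unfold I
  rw [← integral_add (integrable_I hw hB c hf) (integrable_I hw hB c hg)]
  exact integral_congr_ae (Eventually.of_forall fun x => by ring)

theorem I_const_mul (w : E n → ℝ) (B : Mt n) (c : E n) (r : ℝ) (f : E n → ℝ) :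
    I w B c (fun x => r * f x) = r * I w B c f := by
  unfold I
  rw [← integral_const_mul]
  exact integral_congr_ae (Eventually.of_forall fun x => by ring)

theorem Ev_add (hw : Wt w m C) (hB : Adm m B) (c : E n) {f g : E n → ℝ} (hf : Pg f) (hg : Pg g) :
    Ev w B c (fun x => f x + g x) = Ev w B c f + Ev w B c g := by
  unfold Ev
  rw [I_add hw hB c hf hg, add_div]

theorem Ev_const_mul (w : E n → ℝ) (B : Mt n) (c : E n) (r : ℝ) (f : E n → ℝ) :
    Ev w B c (fun x => r * f x) = r * Ev w B c f := by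
  unfold Ev
  rw [I_const_mul, mul_div_assoc]

theorem Ev_sub (hw : Wt w m C) (hB : Adm m B) (c : E n) {f g : E n → ℝ} (hf : Pg f) (hg : Pg g) :
    Ev w B c (fun x => f x - g x) = Ev w B c f - Ev w B c g := by
  have h := Ev_add hw hB c hf (hg.const_mul (-1))
  rw [Ev_const_mul] at h
  have e : (fun x => f x - g x) = fun x => f x + -1 * g x := by funext x; ring
  rw [e, h]
  ring

theorem Ev_one (hw : Wt w m C) (hB : Adm m B) (c : E n) : Ev w B c (fun _ => 1) = 1 :=
  div_self (I_one_pos hw hB c).ne'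

theorem Ev_const (hw : Wt w m C) (hB : Adm m B) (c : E n) (r : ℝ) : Ev w B c (fun _ => r) = r := by
  have h := Ev_const_mul w B c r (fun _ => 1)
  simp only [mul_one] at h
  rw [h, Ev_one hw hB c, mul_one]

theorem Ev_sum (hw : Wt w m C) (hB : Adm m B) (c : E n) {ι : Type*} (s : Finset ι)
    (f : ι → E n → ℝ) (hf : ∀ a ∈ s, Pg (f a)) :
    Ev w B c (fun x => ∑ a ∈ s, f a x) = ∑ a ∈ s, Ev w B c (f a) := by
  classical
  induction s using Finset.induction_on with
  | empty =>
    simp only [Finset.sum_empty]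
    exact Ev_const hw hB c 0
  | insert a s ha ih =>
    simp only [Finset.sum_insert ha]
    rw [Ev_add hw hB c (hf a (Finset.mem_insert_self _ _))
      (Pg.sum s fun b hb => hf b (Finset.mem_insert_of_mem hb)),
      ih fun b hb => hf b (Finset.mem_insert_of_mem hb)]

end basic

section deriv

variable {w : E n → ℝ} {m C : ℝ} {B : Mt n}

/-- derivative of the tilted expectations at `(B, c)` in the direction `(Q, e)` -/
theorem d1 (hw : Wt w m C) (hB : ∀ x : E n, 0 ≤ x ⬝ᵥ B *ᵥ x) (Q : Mt n) (c e : E n)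
    {f : E n → ℝ} (hf : Pg f) :
    HasDerivAt (fun t : ℝ => Ev w (B + t • Q) (c + t • e) f) (c2 w B c f (pt Q e)) 0 := by
  have h1 := hasDerivAt_I hw hB Q c e hf
  have h2 := hasDerivAt_I hw hB Q c e (Pg.const (n := n) 1)
  have hadm := adm_of_nonneg hw.m_pos hB
  have hpos := I_one_pos hw hadm c
  have hne : I w (B + (0 : ℝ) • Q) (c + (0 : ℝ) • e) (fun _ => 1) ≠ 0 := by
    rw [zero_smul, zero_smul, add_zero, add_zero]
    exact hpos.ne'
  have h3 := h1.div h2 hne
  simp only [zero_smul, add_zero, one_mul] at h3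
  have e1 : (I w B c (fun x => f x * pt Q e x) * I w B c (fun _ => 1)
      - I w B c f * I w B c (fun x => pt Q e x)) / I w B c (fun _ => 1) ^ 2
      = c2 w B c f (pt Q e) := by
    unfold c2 Ev
    field_simp
  rw [← e1]
  exact h3

theorem d2 (hw : Wt w m C) (hB : ∀ x : E n, 0 ≤ x ⬝ᵥ B *ᵥ x) (Q : Mt n) (c e : E n)
    {f g : E n → ℝ} (hf : Pg f) (hg : Pg g) :
    HasDerivAt (fun t : ℝ => c2 w (B + t • Q) (c + t • e) f g) (c3 w B c f g (pt Q e)) 0 := by
  have h := (d1 hw hB Q c e (hf.mul hg)).sub ((d1 hw hB Q c e hf).mul (d1 hw hB Q c e hg))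
  simp only [zero_smul, add_zero] at h
  have e1 : c3 w B c f g (pt Q e) = c2 w B c (fun x => f x * g x) (pt Q e)
      - (c2 w B c f (pt Q e) * Ev w B c g + Ev w B c f * c2 w B c g (pt Q e)) := by
    unfold c3; ring
  rw [e1]
  exact h

theorem d3 (hw : Wt w m C) (hB : ∀ x : E n, 0 ≤ x ⬝ᵥ B *ᵥ x) (Q : Mt n) (c e : E n)
    {f g h : E n → ℝ} (hf : Pg f) (hg : Pg g) (hh : Pg h) :
    HasDerivAt (fun t : ℝ => c3 w (B + t • Q) (c + t • e) f g h) (c4 w B c f g h (pt Q e)) 0 := by
  have h := ((d2 hw hB Q c e (hf.mul hg) hh).sub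
    ((d2 hw hB Q c e hf hh).mul (d1 hw hB Q c e hg))).sub
    ((d1 hw hB Q c e hf).mul (d2 hw hB Q c e hg hh))
  simp only [zero_smul, add_zero] at h
  exact h

theorem d4 (hw : Wt w m C) (hB : ∀ x : E n, 0 ≤ x ⬝ᵥ B *ᵥ x) (Q : Mt n) (c e : E n)
    {f g h k : E n → ℝ} (hf : Pg f) (hg : Pg g) (hh : Pg h) (hk : Pg k) :
    HasDerivAt (fun t : ℝ => c4 w (B + t • Q) (c + t • e) f g h k)
      (c5 w B c f g h k (pt Q e)) 0 := by
  have h := ((d3 hw hB Q c e (hf.mul hg) hh hk).sub
    (((d3 hw hB Q c e hf hh hk).mul (d1 hw hB Q c e hg)).add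
      ((d2 hw hB Q c e hf hh).mul (d2 hw hB Q c e hg hk)))).sub
    (((d2 hw hB Q c e hf hk).mul (d2 hw hB Q c e hg hh)).add
      ((d1 hw hB Q c e hf).mul (d3 hw hB Q c e hg hh hk)))
  simp only [zero_smul, add_zero] at h
  exact h

end deriv

section symm

variable (w : E n → ℝ) (B : Mt n) (c : E n)

theorem c2_comm (f g : E n → ℝ) : c2 w B c f g = c2 w B c g f := by
  simp only [c2, mul_comm]

theorem c3_swap12 (f g h : E n → ℝ) : c3 w B c f g h = c3 w B c g f h := by
  simp only [c3, c2, mul_comm, mul_left_comm, mul_assoc]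
  ring

theorem c3_swap23 (f g h : E n → ℝ) : c3 w B c f g h = c3 w B c f h g := by
  simp only [c3, c2, mul_comm, mul_left_comm, mul_assoc]
  ring

theorem c4_swap12 (f g h k : E n → ℝ) : c4 w B c f g h k = c4 w B c g f h k := by
  simp only [c4, c3, c2, mul_comm, mul_left_comm, mul_assoc]
  ring

theorem c4_swap23 (f g h k : E n → ℝ) : c4 w B c f g h k = c4 w B c f h g k := by
  simp only [c4, c3, c2, mul_comm, mul_left_comm, mul_assoc]
  ring

theorem c4_swap34 (f g h k : E n → ℝ) : c4 w B c f g h k = c4 w B c f g k h := by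
  simp only [c4, c3, c2, mul_comm, mul_left_comm, mul_assoc]
  ring

end symm

end Vale.Agent.P254.Fr
end

section

/-!
P254, frame block (b) (helper829): the cumulant arrays, their first derivatives in the directions
`(0, e)` and `(Q, Q a)`.
-/

open MeasureTheory Filter Topology Matrix

namespace Vale.Agent.P254.Fr

variable {n : ℕ}

section prod

variable (w : E n → ℝ) (B : Mt n) (c : E n)

theorem Ev_prod (k l : E n → ℝ) :
    Ev w B c (fun x => k x * l x) = c2 w B c k l + Ev w B c k * Ev w B c l := by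
  simp only [c2]
  ring

theorem c2_prod (f k l : E n → ℝ) : c2 w B c f (fun x => k x * l x)
    = c3 w B c f k l + Ev w B c k * c2 w B c f l + Ev w B c l * c2 w B c f k := by
  simp only [c3, c2, mul_comm, mul_left_comm]
  ring

theorem c3_prod (f g k l : E n → ℝ) : c3 w B c f g (fun x => k x * l x)
    = (c4 w B c f g k l + c2 w B c f k * c2 w B c g l + c2 w B c f l * c2 w B c g k)
      + Ev w B c k * c3 w B c f g l + Ev w B c l * c3 w B c f g k := by
  simp only [c4, c3, c2, mul_comm, mul_left_comm]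
  ring

theorem c4_prod (f g h k l : E n → ℝ) : c4 w B c f g h (fun x => k x * l x)
    = (c5 w B c f g h k l
        + (c2 w B c f k * c3 w B c g h l + c2 w B c f l * c3 w B c g h k)
        + (c2 w B c g k * c3 w B c f h l + c2 w B c g l * c3 w B c f h k)
        + (c2 w B c h k * c3 w B c f g l + c2 w B c h l * c3 w B c f g k))
      + Ev w B c k * c4 w B c f g h l + Ev w B c l * c4 w B c f g h k := by
  simp only [c5, c4, c3, c2, mul_comm, mul_left_comm]
  ring

end prod

/-- linear functionals on the functions of polynomial growth -/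
structure Lin (L : (E n → ℝ) → ℝ) : Prop where
  add : ∀ p q, Pg p → Pg q → L (fun x => p x + q x) = L p + L q
  cmul : ∀ (r : ℝ) p, Pg p → L (fun x => r * p x) = r * L p

namespace Lin

theorem const_mul {L : (E n → ℝ) → ℝ} (h : Lin L) (r : ℝ) : Lin (fun p => r * L p) :=
  ⟨fun p q hp hq => by rw [h.add p q hp hq]; ring, fun s p hp => by rw [h.cmul s p hp]; ring⟩

theorem mul_const {L : (E n → ℝ) → ℝ} (h : Lin L) (r : ℝ) : Lin (fun p => L p * r) :=
  ⟨fun p q hp hq => by rw [h.add p q hp hq]; ring, fun s p hp => by rw [h.cmul s p hp]; ring⟩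

theorem sub {L L' : (E n → ℝ) → ℝ} (h : Lin L) (h' : Lin L') : Lin (fun p => L p - L' p) :=
  ⟨fun p q hp hq => by rw [h.add p q hp hq, h'.add p q hp hq]; ring,
    fun s p hp => by rw [h.cmul s p hp, h'.cmul s p hp]; ring⟩

theorem add' {L L' : (E n → ℝ) → ℝ} (h : Lin L) (h' : Lin L') : Lin (fun p => L p + L' p) :=
  ⟨fun p q hp hq => by rw [h.add p q hp hq, h'.add p q hp hq]; ring,
    fun s p hp => by rw [h.cmul s p hp, h'.cmul s p hp]; ring⟩

theorem comp {L : (E n → ℝ) → ℝ} (h : Lin L) {f : E n → ℝ} (hf : Pg f) :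
    Lin (fun p => L (fun x => f x * p x)) :=
  ⟨fun p q hp hq => by
      rw [← h.add _ _ (hf.mul hp) (hf.mul hq)]
      congr 1
      funext x
      ring,
    fun s p hp => by
      rw [← h.cmul s _ (hf.mul hp)]
      congr 1
      funext x
      ring⟩

theorem sum {L : (E n → ℝ) → ℝ} (h : Lin L) {ι : Type*} (s : Finset ι) (r : ι → ℝ)
    (f : ι → E n → ℝ) (hf : ∀ a ∈ s, Pg (f a)) :
    L (fun x => ∑ a ∈ s, r a * f a x) = ∑ a ∈ s, r a * L (f a) := by
  classical
  induction s using Finset.induction_on with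
  | empty =>
    simp only [Finset.sum_empty]
    have := h.cmul 0 (fun _ => 0) (Pg.const 0)
    simpa using this
  | insert a s ha ih =>
    simp only [Finset.sum_insert ha]
    have h1 : Pg (fun x => ∑ b ∈ s, r b * f b x) :=
      Pg.sum s fun b hb => (hf b (Finset.mem_insert_of_mem hb)).const_mul _
    rw [h.add _ _ ((hf a (Finset.mem_insert_self _ _)).const_mul _) h1,
      h.cmul _ _ (hf a (Finset.mem_insert_self _ _)),
      ih fun b hb => hf b (Finset.mem_insert_of_mem hb)]

/-- value at a linear form -/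
theorem dot {L : (E n → ℝ) → ℝ} (h : Lin L) (e : E n) :
    L (fun x => e ⬝ᵥ x) = ∑ k, e k * L (fun x => x k) :=
  h.sum Finset.univ e (fun k x => x k) fun k _ => Pg.coord k

/-- value at a quadratic form -/
theorem quad {L : (E n → ℝ) → ℝ} (h : Lin L) (Q : Mt n) :
    L (fun x => x ⬝ᵥ Q *ᵥ x) = ∑ k, ∑ l, Q k l * L (fun x => x k * x l) := by
  have e1 : (fun x : E n => x ⬝ᵥ Q *ᵥ x)
      = fun x => ∑ k, 1 * (∑ l, Q k l * (x k * x l)) := by
    funext x
    unfold dotProduct Matrix.mulVec dotProduct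
    refine Finset.sum_congr rfl fun k _ => ?_
    rw [one_mul, Finset.mul_sum]
    exact Finset.sum_congr rfl fun l _ => by ring
  rw [e1, h.sum Finset.univ (fun _ => 1) (fun k x => ∑ l, Q k l * (x k * x l)) fun k _ =>
    Pg.sum _ fun l _ => ((Pg.coord k).mul (Pg.coord l)).const_mul _]
  refine Finset.sum_congr rfl fun k _ => ?_
  rw [one_mul, h.sum Finset.univ (Q k) (fun l x => x k * x l) fun l _ =>
    (Pg.coord k).mul (Pg.coord l)]

theorem ptv {L : (E n → ℝ) → ℝ} (h : Lin L) (Q : Mt n) (e : E n) :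
    L (pt Q e) = ∑ k, e k * L (fun x => x k)
      - (1 / 2) * ∑ k, ∑ l, Q k l * L (fun x => x k * x l) := by
  have e1 : pt Q e = fun x => e ⬝ᵥ x + (-(1 / 2)) * (x ⬝ᵥ Q *ᵥ x) := by
    funext x
    unfold pt
    ring
  rw [e1, h.add _ _ (Pg.dot e) ((Pg.quad Q).const_mul _), h.cmul _ _ (Pg.quad Q), h.dot e,
    h.quad Q]
  ring

/-- value in the localization direction `(Q, Q a)` -/
theorem loc {L : (E n → ℝ) → ℝ} (h : Lin L) {Q : Mt n} (hQ : Q.IsSymm) (a : E n)
    (G : Fin n → Fin n → ℝ)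
    (hG : ∀ k l, L (fun x => x k * x l) = G k l + a k * L (fun x => x l) + a l * L (fun x => x k)) :
    L (pt Q (Q *ᵥ a)) = -(1 / 2) * ∑ k, ∑ l, Q k l * G k l := by
  rw [h.ptv]
  simp only [hG]
  have e1 : ∑ k, (Q *ᵥ a) k * L (fun x => x k) = ∑ k, ∑ l, Q k l * (a l * L (fun x => x k)) := by
    refine Finset.sum_congr rfl fun k _ => ?_
    rw [Matrix.mulVec, dotProduct, Finset.sum_mul]
    exact Finset.sum_congr rfl fun l _ => by ring
  have e2 : ∑ k, ∑ l, Q k l * (a k * L (fun x => x l))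
      = ∑ k, ∑ l, Q k l * (a l * L (fun x => x k)) := by
    rw [Finset.sum_comm]
    refine Finset.sum_congr rfl fun k _ => Finset.sum_congr rfl fun l _ => ?_
    rw [hQ.apply]
  have e3 : ∑ k, ∑ l, Q k l * (G k l + a k * L (fun x => x l) + a l * L (fun x => x k))
      = ∑ k, ∑ l, Q k l * G k l + ∑ k, ∑ l, Q k l * (a k * L (fun x => x l))
        + ∑ k, ∑ l, Q k l * (a l * L (fun x => x k)) := by
    simp only [← Finset.sum_add_distrib]
    refine Finset.sum_congr rfl fun k _ => Finset.sum_congr rfl fun l _ => ?_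
    ring
  rw [e1, e3, e2]
  ring

end Lin

section lin

variable {w : E n → ℝ} {m C : ℝ} {B : Mt n}

theorem lin_Ev (hw : Wt w m C) (hB : Adm m B) (c : E n) : Lin (Ev w B c) :=
  ⟨fun _ _ hp hq => Ev_add hw hB c hp hq, fun r p _ => Ev_const_mul w B c r p⟩

theorem lin_c2 (hw : Wt w m C) (hB : Adm m B) (c : E n) {f : E n → ℝ} (hf : Pg f) :
    Lin (c2 w B c f) :=
  ((lin_Ev hw hB c).comp hf).sub ((lin_Ev hw hB c).const_mul (Ev w B c f))

theorem lin_c3 (hw : Wt w m C) (hB : Adm m B) (c : E n) {f g : E n → ℝ} (hf : Pg f) (hg : Pg g) :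
    Lin (c3 w B c f g) :=
  ((lin_c2 hw hB c (hf.mul hg)).sub ((lin_c2 hw hB c hf).mul_const _)).sub
    ((lin_c2 hw hB c hg).const_mul _)

theorem lin_c4 (hw : Wt w m C) (hB : Adm m B) (c : E n) {f g h : E n → ℝ} (hf : Pg f) (hg : Pg g)
    (hh : Pg h) : Lin (c4 w B c f g h) :=
  ((lin_c3 hw hB c (hf.mul hg) hh).sub (((lin_c3 hw hB c hf hh).mul_const _).add'
    ((lin_c2 hw hB c hg).const_mul _))).sub
    (((lin_c2 hw hB c hf).mul_const _).add' ((lin_c3 hw hB c hg hh).const_mul _))

theorem lin_c5 (hw : Wt w m C) (hB : Adm m B) (c : E n) {f g h k : E n → ℝ} (hf : Pg f)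
    (hg : Pg g) (hh : Pg h) (hk : Pg k) : Lin (c5 w B c f g h k) :=
  ((lin_c4 hw hB c (hf.mul hg) hh hk).sub
    (((lin_c4 hw hB c hf hh hk).mul_const _).add' ((lin_c2 hw hB c hg).const_mul _) |>.add'
      (((lin_c3 hw hB c hf hh).mul_const _).add' ((lin_c3 hw hB c hg hk).const_mul _)))).sub
    ((((lin_c3 hw hB c hf hk).mul_const _).add' ((lin_c3 hw hB c hg hh).const_mul _)).add'
      (((lin_c2 hw hB c hf).mul_const _).add' ((lin_c4 hw hB c hg hh hk).const_mul _)))

end lin

end Vale.Agent.P254.Fr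
end

section

/-!
P254, frame block (b) (helper829): the cumulant arrays and their derivatives in the format of
`L/Tilt.lean`.
-/

open MeasureTheory Filter Topology Matrix

namespace Vale.Agent.P254.Fr

variable {n : ℕ}

/-- coordinate function -/
def co (i : Fin n) : E n → ℝ := fun x => x i

theorem pg_co (i : Fin n) : Pg (co i) := Pg.coord i

section arrays

variable (w : E n → ℝ) (B : Mt n) (c : E n)

/-- mean -/
noncomputable def muF : E n := fun i => Ev w B c (co i)
/-- covariance matrix -/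
noncomputable def AF : Mt n := Matrix.of fun i j => c2 w B c (co i) (co j)
/-- third cumulants -/
noncomputable def TF (i j k : Fin n) : ℝ := c3 w B c (co i) (co j) (co k)
/-- fourth cumulants -/
noncomputable def KF (i j k l : Fin n) : ℝ := c4 w B c (co i) (co j) (co k) (co l)
/-- fifth cumulants -/
noncomputable def RF (i j k l r : Fin n) : ℝ := c5 w B c (co i) (co j) (co k) (co l) (co r)

theorem AF_apply (i j : Fin n) : AF w B c i j = c2 w B c (co i) (co j) := rfl
theorem AF_symm (i j : Fin n) : AF w B c i j = AF w B c j i := c2_comm w B c _ _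
theorem TF_symm1 (i j k : Fin n) : TF w B c i j k = TF w B c j i k := c3_swap12 w B c _ _ _
theorem TF_symm2 (i j k : Fin n) : TF w B c i j k = TF w B c i k j := c3_swap23 w B c _ _ _
theorem KF_symm1 (i j k l : Fin n) : KF w B c i j k l = KF w B c j i k l :=
  c4_swap12 w B c _ _ _ _
theorem KF_symm2 (i j k l : Fin n) : KF w B c i j k l = KF w B c i k j l :=
  c4_swap23 w B c _ _ _ _
theorem KF_symm3 (i j k l : Fin n) : KF w B c i j k l = KF w B c i j l k :=
  c4_swap34 w B c _ _ _ _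

end arrays

theorem nonneg_of_psd {B : Mt n} (h : B.PosSemidef) (x : E n) : 0 ≤ x ⬝ᵥ B *ᵥ x := by
  simpa using h.dotProduct_mulVec_nonneg x

theorem pt_zero (e : E n) : pt (0 : Mt n) e = fun x => e ⬝ᵥ x := by
  funext x
  unfold pt
  rw [Matrix.zero_mulVec, dotProduct_zero, mul_zero, sub_zero]

/-- shift of the base point -/
theorem shift {u : E n → ℝ} {c e : E n} {v : ℝ} (t : ℝ)
    (h : HasDerivAt (fun s : ℝ => u (c + t • e + s • e)) v 0) :
    HasDerivAt (fun t : ℝ => u (c + t • e)) v t := by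
  have h0 : HasDerivAt (fun s : ℝ => u (c + t • e + s • e)) v (t - t) := by rwa [sub_self]
  have h1 := h0.comp_sub_const t t
  refine h1.congr_of_eventuallyEq (Eventually.of_forall fun x => ?_)
  show u (c + x • e) = u (c + t • e + (x - t) • e)
  congr 1
  rw [add_assoc, ← add_smul, add_sub_cancel]

variable {w : E n → ℝ} {m C : ℝ}

theorem dmu (hw : Wt w m C) (B : Mt n) (hB : B.PosSemidef) (c e : E n) (i : Fin n) (t : ℝ) :
    HasDerivAt (fun t : ℝ => muF w B (c + t • e) i) (∑ k, e k * AF w B (c + t • e) i k) t := by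
  refine shift (u := fun c => muF w B c i) t ?_
  have h := d1 hw (nonneg_of_psd hB) 0 (c + t • e) e (pg_co i)
  simp only [smul_zero, add_zero] at h
  rw [pt_zero, (lin_c2 hw (adm_of_posSemidef hw.m_pos hB) (c + t • e) (pg_co i)).dot e] at h
  exact h

theorem dA (hw : Wt w m C) (B : Mt n) (hB : B.PosSemidef) (c e : E n) (i j : Fin n) (t : ℝ) :
    HasDerivAt (fun t : ℝ => AF w B (c + t • e) i j) (∑ k, e k * TF w B (c + t • e) i j k) t := by
  refine shift (u := fun c => AF w B c i j) t ?_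
  have h := d2 hw (nonneg_of_psd hB) 0 (c + t • e) e (pg_co i) (pg_co j)
  simp only [smul_zero, add_zero] at h
  rw [pt_zero, (lin_c3 hw (adm_of_posSemidef hw.m_pos hB) (c + t • e) (pg_co i) (pg_co j)).dot e]
    at h
  exact h

theorem dT (hw : Wt w m C) (B : Mt n) (hB : B.PosSemidef) (c e : E n) (i j k : Fin n) (t : ℝ) :
    HasDerivAt (fun t : ℝ => TF w B (c + t • e) i j k)
      (∑ l, e l * KF w B (c + t • e) i j k l) t := by
  refine shift (u := fun c => TF w B c i j k) t ?_
  have h := d3 hw (nonneg_of_psd hB) 0 (c + t • e) e (pg_co i) (pg_co j) (pg_co k)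
  simp only [smul_zero, add_zero] at h
  rw [pt_zero, (lin_c4 hw (adm_of_posSemidef hw.m_pos hB) (c + t • e) (pg_co i) (pg_co j)
    (pg_co k)).dot e] at h
  exact h

theorem dK (hw : Wt w m C) (B : Mt n) (hB : B.PosSemidef) (c e : E n) (i j k l : Fin n) (t : ℝ) :
    HasDerivAt (fun t : ℝ => KF w B (c + t • e) i j k l)
      (∑ r, e r * RF w B (c + t • e) i j k l r) t := by
  refine shift (u := fun c => KF w B c i j k l) t ?_
  have h := d4 hw (nonneg_of_psd hB) 0 (c + t • e) e (pg_co i) (pg_co j) (pg_co k) (pg_co l)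
  simp only [smul_zero, add_zero] at h
  rw [pt_zero, (lin_c5 hw (adm_of_posSemidef hw.m_pos hB) (c + t • e) (pg_co i) (pg_co j)
    (pg_co k) (pg_co l)).dot e] at h
  exact h

theorem isSymm_of_psd {Q : Mt n} (hQ : Q.PosSemidef) : Q.IsSymm := by
  have h := hQ.isHermitian
  rw [Matrix.IsHermitian, Matrix.conjTranspose_eq_transpose_of_trivial] at h
  exact h

/-- the derivative of the mean in the localization direction -/
theorem c2_loc (hw : Wt w m C) {B : Mt n} (hB : Adm m B) (c : E n) {Q : Mt n} (hQ : Q.IsSymm)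
    {f : E n → ℝ} (hf : Pg f) :
    c2 w B c f (pt Q (Q *ᵥ muF w B c)) = -(1 / 2) * ∑ k, ∑ l, Q k l * c3 w B c f (co k) (co l) :=
  (lin_c2 hw hB c hf).loc hQ (muF w B c) (fun k l => c3 w B c f (co k) (co l))
    fun k l => c2_prod w B c f (co k) (co l)

theorem c3_loc (hw : Wt w m C) {B : Mt n} (hB : Adm m B) (c : E n) {Q : Mt n} (hQ : Q.IsSymm)
    {f g : E n → ℝ} (hf : Pg f) (hg : Pg g) :
    c3 w B c f g (pt Q (Q *ᵥ muF w B c)) = -(1 / 2) * ∑ k, ∑ l, Q k l *
      (c4 w B c f g (co k) (co l) + c2 w B c f (co k) * c2 w B c g (co l)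
        + c2 w B c f (co l) * c2 w B c g (co k)) :=
  (lin_c3 hw hB c hf hg).loc hQ (muF w B c) _ fun k l => c3_prod w B c f g (co k) (co l)

theorem c4_loc (hw : Wt w m C) {B : Mt n} (hB : Adm m B) (c : E n) {Q : Mt n} (hQ : Q.IsSymm)
    {f g h : E n → ℝ} (hf : Pg f) (hg : Pg g) (hh : Pg h) :
    c4 w B c f g h (pt Q (Q *ᵥ muF w B c)) = -(1 / 2) * ∑ k, ∑ l, Q k l *
      (c5 w B c f g h (co k) (co l)
        + (c2 w B c f (co k) * c3 w B c g h (co l) + c2 w B c f (co l) * c3 w B c g h (co k))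
        + (c2 w B c g (co k) * c3 w B c f h (co l) + c2 w B c g (co l) * c3 w B c f h (co k))
        + (c2 w B c h (co k) * c3 w B c f g (co l) + c2 w B c h (co l) * c3 w B c f g (co k))) :=
  (lin_c4 hw hB c hf hg hh).loc hQ (muF w B c) _ fun k l => c4_prod w B c f g h (co k) (co l)

theorem sum_swap {Q : Mt n} (hQ : Q.IsSymm) (F : Fin n → Fin n → ℝ) :
    ∑ k, ∑ l, Q k l * F l k = ∑ k, ∑ l, Q k l * F k l := by
  rw [Finset.sum_comm]
  refine Finset.sum_congr rfl fun k _ => Finset.sum_congr rfl fun l _ => ?_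
  rw [hQ.apply]

theorem fA (hw : Wt w m C) (B : Mt n) (hB : B.PosSemidef) (c : E n) (Q : Mt n)
    (hQ : Q.PosSemidef) (i j : Fin n) :
    HasDerivWithinAt (fun t : ℝ => AF w (B + t • Q) (c + t • (Q *ᵥ muF w B c)) i j)
      (-(AF w B c * Q * AF w B c) i j - 1 / 2 * ∑ k, ∑ l, Q k l * KF w B c i j k l)
      (Set.Ici 0) 0 := by
  have h := d2 hw (nonneg_of_psd hB) Q c (Q *ᵥ muF w B c) (pg_co i) (pg_co j)
  have hs := isSymm_of_psd hQ
  rw [c3_loc hw (adm_of_posSemidef hw.m_pos hB) c hs (pg_co i) (pg_co j)] at h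
  have e1 : (AF w B c * Q * AF w B c) i j = ∑ k, ∑ l, Q k l * (AF w B c i k * AF w B c j l) := by
    rw [Matrix.mul_apply, Finset.sum_comm]
    refine Finset.sum_congr rfl fun l _ => ?_
    rw [Matrix.mul_apply, Finset.sum_mul]
    refine Finset.sum_congr rfl fun k _ => ?_
    rw [AF_symm w B c l j]
    ring
  have e2 : ∑ k, ∑ l, Q k l * (AF w B c i l * AF w B c j k)
      = ∑ k, ∑ l, Q k l * (AF w B c i k * AF w B c j l) :=
    sum_swap hs fun k l => AF w B c i k * AF w B c j l
  have e3 : -(AF w B c * Q * AF w B c) i j - 1 / 2 * ∑ k, ∑ l, Q k l * KF w B c i j k l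
      = -(1 / 2) * ∑ k, ∑ l, Q k l *
        (c4 w B c (co i) (co j) (co k) (co l) + c2 w B c (co i) (co k) * c2 w B c (co j) (co l)
          + c2 w B c (co i) (co l) * c2 w B c (co j) (co k)) := by
    have e4 : ∑ k, ∑ l, Q k l *
        (c4 w B c (co i) (co j) (co k) (co l) + c2 w B c (co i) (co k) * c2 w B c (co j) (co l)
          + c2 w B c (co i) (co l) * c2 w B c (co j) (co k))
        = ∑ k, ∑ l, Q k l * KF w B c i j k l
          + ∑ k, ∑ l, Q k l * (AF w B c i k * AF w B c j l)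
          + ∑ k, ∑ l, Q k l * (AF w B c i l * AF w B c j k) := by
      simp only [← Finset.sum_add_distrib]
      refine Finset.sum_congr rfl fun k _ => Finset.sum_congr rfl fun l _ => ?_
      unfold KF
      simp only [AF_apply]
      ring
    rw [e4, e2, ← e1]
    ring
  rw [e3]
  exact h.hasDerivWithinAt

theorem fT (hw : Wt w m C) (B : Mt n) (hB : B.PosSemidef) (c : E n) (Q : Mt n)
    (hQ : Q.PosSemidef) (i j k : Fin n) :
    HasDerivWithinAt (fun t : ℝ => TF w (B + t • Q) (c + t • (Q *ᵥ muF w B c)) i j k)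
      (-(∑ l, ((AF w B c * Q) i l * TF w B c l j k + (AF w B c * Q) j l * TF w B c i l k
        + (AF w B c * Q) k l * TF w B c i j l))
        - 1 / 2 * ∑ l, ∑ r, Q l r * RF w B c i j k l r) (Set.Ici 0) 0 := by
  have h := d3 hw (nonneg_of_psd hB) Q c (Q *ᵥ muF w B c) (pg_co i) (pg_co j) (pg_co k)
  have hs := isSymm_of_psd hQ
  rw [c4_loc hw (adm_of_posSemidef hw.m_pos hB) c hs (pg_co i) (pg_co j) (pg_co k)] at h
  have key : ∀ (a : Fin n) (F : Fin n → ℝ),
      ∑ l, (AF w B c * Q) a l * F l = ∑ p, ∑ l, Q p l * (AF w B c a p * F l) := by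
    intro a F
    rw [Finset.sum_comm]
    refine Finset.sum_congr rfl fun l _ => ?_
    rw [Matrix.mul_apply, Finset.sum_mul]
    exact Finset.sum_congr rfl fun p _ => by ring
  have sw : ∀ (a : Fin n) (F : Fin n → ℝ),
      ∑ p, ∑ l, Q p l * (AF w B c a l * F p) = ∑ p, ∑ l, Q p l * (AF w B c a p * F l) :=
    fun a F => sum_swap hs fun p l => AF w B c a p * F l
  have e4 : ∑ p, ∑ l, Q p l *
      (c5 w B c (co i) (co j) (co k) (co p) (co l)
        + (c2 w B c (co i) (co p) * c3 w B c (co j) (co k) (co l)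
          + c2 w B c (co i) (co l) * c3 w B c (co j) (co k) (co p))
        + (c2 w B c (co j) (co p) * c3 w B c (co i) (co k) (co l)
          + c2 w B c (co j) (co l) * c3 w B c (co i) (co k) (co p))
        + (c2 w B c (co k) (co p) * c3 w B c (co i) (co j) (co l)
          + c2 w B c (co k) (co l) * c3 w B c (co i) (co j) (co p)))
      = ∑ l, ∑ r, Q l r * RF w B c i j k l r
        + (∑ p, ∑ l, Q p l * (AF w B c i p * TF w B c j k l)
          + ∑ p, ∑ l, Q p l * (AF w B c i l * TF w B c j k p))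
        + (∑ p, ∑ l, Q p l * (AF w B c j p * TF w B c i k l)
          + ∑ p, ∑ l, Q p l * (AF w B c j l * TF w B c i k p))
        + (∑ p, ∑ l, Q p l * (AF w B c k p * TF w B c i j l)
          + ∑ p, ∑ l, Q p l * (AF w B c k l * TF w B c i j p)) := by
    simp only [← Finset.sum_add_distrib]
    refine Finset.sum_congr rfl fun p _ => Finset.sum_congr rfl fun l _ => ?_
    unfold RF TF
    simp only [AF_apply]
    ring
  have e5 : ∑ l, ((AF w B c * Q) i l * TF w B c l j k + (AF w B c * Q) j l * TF w B c i l k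
        + (AF w B c * Q) k l * TF w B c i j l)
      = ∑ p, ∑ l, Q p l * (AF w B c i p * TF w B c j k l)
        + ∑ p, ∑ l, Q p l * (AF w B c j p * TF w B c i k l)
        + ∑ p, ∑ l, Q p l * (AF w B c k p * TF w B c i j l) := by
    rw [Finset.sum_add_distrib, Finset.sum_add_distrib, key i fun l => TF w B c l j k,
      key j fun l => TF w B c i l k, key k fun l => TF w B c i j l]
    have s1 : ∀ l, TF w B c l j k = TF w B c j k l := fun l => by
      rw [TF_symm1, TF_symm2]
    have s2 : ∀ l, TF w B c i l k = TF w B c i k l := fun l => TF_symm2 w B c i l k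
    simp only [s1, s2]
  have e3 : -(∑ l, ((AF w B c * Q) i l * TF w B c l j k + (AF w B c * Q) j l * TF w B c i l k
        + (AF w B c * Q) k l * TF w B c i j l))
        - 1 / 2 * ∑ l, ∑ r, Q l r * RF w B c i j k l r
      = -(1 / 2) * ∑ p, ∑ l, Q p l *
      (c5 w B c (co i) (co j) (co k) (co p) (co l)
        + (c2 w B c (co i) (co p) * c3 w B c (co j) (co k) (co l)
          + c2 w B c (co i) (co l) * c3 w B c (co j) (co k) (co p))
        + (c2 w B c (co j) (co p) * c3 w B c (co i) (co k) (co l)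
          + c2 w B c (co j) (co l) * c3 w B c (co i) (co k) (co p))
        + (c2 w B c (co k) (co p) * c3 w B c (co i) (co j) (co l)
          + c2 w B c (co k) (co l) * c3 w B c (co i) (co j) (co p))) := by
    rw [e4, e5, sw i fun l => TF w B c j k l, sw j fun l => TF w B c i k l,
      sw k fun l => TF w B c i j l]
    ring
  rw [e3]
  exact h.hasDerivWithinAt

/-! ### continuity -/

theorem cEv (hw : Wt w m C) {f : E n → ℝ} (hf : Pg f) :
    ContinuousOn (fun z : Mt n × E n => Ev w z.1 z.2 f) {z | Adm m z.1} := by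
  refine (continuousOn_I hw hf).div (continuousOn_I hw (Pg.const 1)) fun z hz => ?_
  exact (I_one_pos hw hz z.2).ne'

theorem cc2 (hw : Wt w m C) {f g : E n → ℝ} (hf : Pg f) (hg : Pg g) :
    ContinuousOn (fun z : Mt n × E n => c2 w z.1 z.2 f g) {z | Adm m z.1} :=
  (cEv hw (hf.mul hg)).sub ((cEv hw hf).mul (cEv hw hg))

theorem cc3 (hw : Wt w m C) {f g h : E n → ℝ} (hf : Pg f) (hg : Pg g) (hh : Pg h) :
    ContinuousOn (fun z : Mt n × E n => c3 w z.1 z.2 f g h) {z | Adm m z.1} :=
  ((cc2 hw (hf.mul hg) hh).sub ((cc2 hw hf hh).mul (cEv hw hg))).sub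
    ((cEv hw hf).mul (cc2 hw hg hh))

theorem psd_subset (hm : 0 < m) : ({B : Mt n | B.PosSemidef} ×ˢ (Set.univ : Set (E n)))
    ⊆ {z | Adm m z.1} := fun _ hz => adm_of_posSemidef hm hz.1

theorem cA (hw : Wt w m C) (i j : Fin n) :
    ContinuousOn (fun p : Mt n × E n => AF w p.1 p.2 i j) ({B | B.PosSemidef} ×ˢ Set.univ) :=
  (cc2 hw (pg_co i) (pg_co j)).mono (psd_subset hw.m_pos)

theorem cT (hw : Wt w m C) (i j k : Fin n) :
    ContinuousOn (fun p : Mt n × E n => TF w p.1 p.2 i j k) ({B | B.PosSemidef} ×ˢ Set.univ) :=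
  (cc3 hw (pg_co i) (pg_co j) (pg_co k)).mono (psd_subset hw.m_pos)

end Vale.Agent.P254.Fr
end

section

/-!
P254, frame block (b) (helper829): the differential entropy of the tilts and its derivatives.
-/

open MeasureTheory Filter Topology Matrix Asymptotics

namespace Vale.Agent.P254.Fr

variable {n : ℕ}

section defs

variable (w : E n → ℝ) (B : Mt n) (c : E n)

/-- minus the logarithm of the unnormalised density -/
noncomputable def ps (x : E n) : ℝ := (1 / 2) * (x ⬝ᵥ B *ᵥ x) - c ⬝ᵥ x - Real.log (w x)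

/-- differential entropy of the tilt -/
noncomputable def EntF : ℝ := Real.log (I w B c (fun _ => 1)) + Ev w B c (ps w B c)

/-- its gradient in `c` -/
noncomputable def gF : E n := fun i => c2 w B c (ps w B c) (co i)

/-- its Hessian in `c` -/
noncomputable def XiF : Mt n := Matrix.of fun i j =>
  c3 w B c (ps w B c) (co i) (co j) - AF w B c i j

end defs

variable {w : E n → ℝ} {m C : ℝ}

theorem pg_ps (hw : Wt w m C) (B : Mt n) (c : E n) : Pg (ps w B c) :=
  (((Pg.quad B).const_mul (1 / 2)).sub (Pg.dot c)).sub hw.pg_log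

theorem ps_line (w : E n → ℝ) (B Q : Mt n) (c e : E n) (t : ℝ) :
    ps w (B + t • Q) (c + t • e) = fun x => ps w B c x - t * pt Q e x := by
  funext x
  unfold ps pt
  rw [add_dotProduct, smul_dotProduct, Matrix.add_mulVec, Matrix.smul_mulVec,
    dotProduct_add, dotProduct_smul, smul_eq_mul, smul_eq_mul]
  ring

theorem adm_line (hm : 0 < m) {B : Mt n} (hB : ∀ x : E n, 0 ≤ x ⬝ᵥ B *ᵥ x) (Q : Mt n) :
    ∀ᶠ t : ℝ in 𝓝 0, Adm m (B + t • Q) := by
  set q : ℝ := ∑ i, ∑ j, |Q i j| with hq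
  have hq0 : 0 ≤ q := Finset.sum_nonneg fun i _ => Finset.sum_nonneg fun j _ => abs_nonneg _
  have hδ0 : 0 < m / (4 * (q + 1)) := by positivity
  filter_upwards [Metric.ball_mem_nhds (0 : ℝ) hδ0] with t ht x
  have ht' : |t| < m / (4 * (q + 1)) := by simpa using ht
  rw [Matrix.add_mulVec, Matrix.smul_mulVec, dotProduct_add, dotProduct_smul, smul_eq_mul]
  have h1 := hB x
  have h2 := abs_quad_le Q x
  have h3 := dot_self_nonneg x
  have h4 : |t * (x ⬝ᵥ Q *ᵥ x)| ≤ m / 4 * (x ⬝ᵥ x) := by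
    rw [abs_mul]
    have h5 : |t| * q ≤ m / 4 := by
      calc |t| * q ≤ m / (4 * (q + 1)) * (q + 1) :=
            mul_le_mul ht'.le (by linarith) hq0 (by positivity)
        _ = m / 4 := by field_simp
    calc |t| * |x ⬝ᵥ Q *ᵥ x| ≤ |t| * (q * (x ⬝ᵥ x)) :=
          mul_le_mul_of_nonneg_left h2 (abs_nonneg _)
      _ = |t| * q * (x ⬝ᵥ x) := by ring
      _ ≤ m / 4 * (x ⬝ᵥ x) := mul_le_mul_of_nonneg_right h5 h3
  have h7 := (abs_le.1 h4).1
  linarith

/-- derivative of the entropy in the direction `(Q, e)` -/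
theorem dEnt (hw : Wt w m C) {B : Mt n} (hB : ∀ x : E n, 0 ≤ x ⬝ᵥ B *ᵥ x) (Q : Mt n) (c e : E n) :
    HasDerivAt (fun t : ℝ => EntF w (B + t • Q) (c + t • e))
      (c2 w B c (ps w B c) (pt Q e)) 0 := by
  have hadm := adm_of_nonneg hw.m_pos hB
  have h1 := hasDerivAt_I hw hB Q c e (Pg.const (n := n) 1)
  have hpos := I_one_pos hw hadm c
  have hne : I w (B + (0 : ℝ) • Q) (c + (0 : ℝ) • e) (fun _ => 1) ≠ 0 := by
    rw [zero_smul, zero_smul, add_zero, add_zero]
    exact hpos.ne'
  have h2 := h1.log hne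
  simp only [zero_smul, add_zero, one_mul] at h2
  have hp := Pg.pt Q e
  have hps := pg_ps hw B c
  have h3 := d1 hw hB Q c e hps
  have h4 := (hasDerivAt_id (0 : ℝ)).mul (d1 hw hB Q c e hp)
  simp only [id, zero_smul, add_zero, zero_mul, one_mul] at h4
  have h5 := h2.add (h3.sub h4)
  have e1 : I w B c (fun x => pt Q e x) / I w B c (fun _ => 1)
      + (c2 w B c (ps w B c) (pt Q e) - Ev w B c (pt Q e)) = c2 w B c (ps w B c) (pt Q e) := by
    unfold Ev
    ring
  rw [e1] at h5
  refine h5.congr_of_eventuallyEq ?_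
  filter_upwards [adm_line hw.m_pos hB Q] with t ht
  unfold EntF
  rw [ps_line w B Q c e t, Ev_sub hw ht _ hps (hp.const_mul t), Ev_const_mul]
  rfl

/-- the first derivative in `c` at every time -/
theorem dEnt1 (hw : Wt w m C) {B : Mt n} (hB : B.PosSemidef) (c e : E n) (t : ℝ) :
    HasDerivAt (fun t : ℝ => EntF w B (c + t • e))
      (c2 w B (c + t • e) (ps w B (c + t • e)) (fun x => e ⬝ᵥ x)) t := by
  refine shift (u := fun c => EntF w B c) t ?_
  have h := dEnt hw (nonneg_of_psd hB) 0 (c + t • e) e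
  simp only [smul_zero, add_zero] at h
  rw [pt_zero] at h
  exact h

/-- the second derivative in `c` -/
theorem dEnt2 (hw : Wt w m C) {B : Mt n} (hB : B.PosSemidef) (c e : E n) :
    HasDerivAt (fun t : ℝ => c2 w B (c + t • e) (ps w B (c + t • e)) (fun x => e ⬝ᵥ x))
      (∑ i, ∑ j, XiF w B c i j * e i * e j) 0 := by
  have hadm := adm_of_posSemidef hw.m_pos hB
  have hps := pg_ps hw B c
  have hd := Pg.dot e
  have h1 := d2 hw (nonneg_of_psd hB) 0 c e hps hd
  have h2 := (hasDerivAt_id (0 : ℝ)).mul (d2 hw (nonneg_of_psd hB) 0 c e hd hd)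
  have h3 := h1.sub h2
  simp only [id, smul_zero, zero_smul, add_zero, zero_mul, one_mul] at h3
  rw [pt_zero] at h3
  have e1 : ∑ i, ∑ j, XiF w B c i j * e i * e j
      = c3 w B c (ps w B c) (fun x => e ⬝ᵥ x) (fun x => e ⬝ᵥ x)
        - c2 w B c (fun x => e ⬝ᵥ x) (fun x => e ⬝ᵥ x) := by
    rw [(lin_c3 hw hadm c hps hd).dot e, (lin_c2 hw hadm c hd).dot e]
    have e2 : ∀ k, c3 w B c (ps w B c) (fun x => e ⬝ᵥ x) (fun x => x k)
        = ∑ j, e j * c3 w B c (ps w B c) (co k) (co j) := fun k => by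
      rw [c3_swap23]
      exact (lin_c3 hw hadm c hps (pg_co k)).dot e
    have e3 : ∀ k, c2 w B c (fun x => e ⬝ᵥ x) (fun x => x k) = ∑ j, e j * AF w B c k j := fun k => by
      rw [c2_comm]
      exact (lin_c2 hw hadm c (pg_co k)).dot e
    simp only [e2, e3]
    rw [← Finset.sum_sub_distrib]
    refine Finset.sum_congr rfl fun i _ => ?_
    rw [← mul_sub, ← Finset.sum_sub_distrib, Finset.mul_sum]
    refine Finset.sum_congr rfl fun j _ => ?_
    simp only [XiF, Matrix.of_apply]
    ring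
  rw [e1]
  refine h3.congr_of_eventuallyEq (Eventually.of_forall fun t => ?_)
  have h4 := ps_line w B 0 c e t
  rw [smul_zero, add_zero] at h4
  show c2 w B (c + t • e) (ps w B (c + t • e)) (fun x => e ⬝ᵥ x)
    = c2 w B (c + t • e) (ps w B c) (fun x => e ⬝ᵥ x)
      - t * c2 w B (c + t • e) (fun x => e ⬝ᵥ x) (fun x => e ⬝ᵥ x)
  rw [h4]
  have h5 : c2 w B (c + t • e) (fun x => ps w B c x - t * pt 0 e x) (fun x => e ⬝ᵥ x)
      = c2 w B (c + t • e) (ps w B c) (fun x => e ⬝ᵥ x)
        - t * c2 w B (c + t • e) (fun x => e ⬝ᵥ x) (fun x => e ⬝ᵥ x) := by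
    have hl := lin_c2 hw hadm (c + t • e) hd
    have e4 : (fun x => ps w B c x - t * pt 0 e x) = fun x => ps w B c x + (-t) * (e ⬝ᵥ x) := by
      funext x
      rw [pt_zero]
      ring
    rw [c2_comm, e4, hl.add _ _ hps (hd.const_mul _), hl.cmul _ _ hd, c2_comm w B _ (ps w B c)]
    ring
  exact h5

/-- second order Taylor expansion from two derivatives -/
theorem taylor2 {f f' : ℝ → ℝ} {d : ℝ} (h1 : ∀ t, HasDerivAt f (f' t) t)
    (h2 : HasDerivAt f' d 0) :
    (fun t : ℝ => f t - f 0 - t * f' 0 - t ^ 2 / 2 * d) =o[𝓝 0] fun t : ℝ => t ^ 2 := by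
  rw [isLittleO_iff]
  intro ε hε
  have h3 := (hasDerivAt_iff_isLittleO.1 h2).def hε
  rw [Metric.eventually_nhds_iff] at h3
  obtain ⟨δ, hδ, h4⟩ := h3
  rw [Metric.eventually_nhds_iff]
  refine ⟨δ, hδ, fun t ht => ?_⟩
  have ht' : |t| < δ := by simpa using ht
  have hcv : Convex ℝ (Metric.closedBall (0 : ℝ) |t|) := convex_closedBall _ _
  have key := hcv.norm_image_sub_le_of_norm_hasDerivWithin_le (𝕜 := ℝ)
    (f := fun t => f t - f 0 - t * f' 0 - t ^ 2 / 2 * d)
    (f' := fun s => f' s - f' 0 - s * d) (C := ε * |t|) (x := 0) (y := t)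
    (fun s _ => ?_) (fun s hs => ?_) (by simp) (by simp)
  · have e0 : f 0 - f 0 - 0 * f' 0 - (0 : ℝ) ^ 2 / 2 * d = 0 := by ring
    rw [e0, sub_zero, sub_zero, Real.norm_eq_abs t] at key
    have e1 : ε * ‖t ^ 2‖ = ε * |t| * |t| := by
      rw [Real.norm_eq_abs, abs_pow]
      ring
    rw [e1]
    exact key
  · have e1 : f' s - f' 0 - s * d = f' s - 0 - 1 * f' 0 - (2 * s) / 2 * d := by ring
    rw [e1]
    refine HasDerivAt.hasDerivWithinAt ?_
    have a1 : HasDerivAt (fun t : ℝ => t * f' 0) (1 * f' 0) s := (hasDerivAt_id s).mul_const _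
    have a2 : HasDerivAt (fun t : ℝ => t ^ 2 / 2 * d) ((2 * s) / 2 * d) s := by
      have := (((hasDerivAt_id s).pow 2).div_const 2).mul_const d
      simpa using this
    exact (((h1 s).sub (hasDerivAt_const s (f 0))).sub a1).sub a2
  · have hs' : |s| ≤ |t| := by simpa using hs
    have h5 := h4 (y := s) (by simpa using hs'.trans_lt ht')
    simp only [sub_zero, smul_eq_mul] at h5
    rw [Real.norm_eq_abs] at h5 ⊢
    calc |f' s - f' 0 - s * d| ≤ ε * ‖s‖ := h5
      _ ≤ ε * |t| := mul_le_mul_of_nonneg_left hs' hε.le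

theorem dE (hw : Wt w m C) (B : Mt n) (hB : B.PosSemidef) (c e : E n) :
    (fun t : ℝ => EntF w B (c + t • e) - EntF w B c - t * (∑ i, gF w B c i * e i)
      - t ^ 2 / 2 * ∑ i, ∑ j, XiF w B c i j * e i * e j) =o[𝓝 0] fun t : ℝ => t ^ 2 := by
  have h := taylor2 (dEnt1 hw hB c e) (dEnt2 hw hB c e)
  simp only [zero_smul, add_zero] at h
  have e1 : ∑ i, gF w B c i * e i = c2 w B c (ps w B c) (fun x => e ⬝ᵥ x) := by
    rw [(lin_c2 hw (adm_of_posSemidef hw.m_pos hB) c (pg_ps hw B c)).dot e]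
    exact Finset.sum_congr rfl fun i _ => mul_comm _ _
  rw [e1]
  exact h

theorem fE (hw : Wt w m C) (B : Mt n) (hB : B.PosSemidef) (c : E n) (Q : Mt n)
    (hQ : Q.PosSemidef) :
    HasDerivWithinAt (fun t : ℝ => EntF w (B + t • Q) (c + t • (Q *ᵥ muF w B c)))
      (-(1 / 2) * ((Q * AF w B c).trace + ∑ i, ∑ j, Q i j * XiF w B c i j)) (Set.Ici 0) 0 := by
  have h := dEnt hw (nonneg_of_psd hB) Q c (Q *ᵥ muF w B c)
  rw [c2_loc hw (adm_of_posSemidef hw.m_pos hB) c (isSymm_of_psd hQ) (pg_ps hw B c)] at h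
  have e1 : (Q * AF w B c).trace + ∑ i, ∑ j, Q i j * XiF w B c i j
      = ∑ k, ∑ l, Q k l * c3 w B c (ps w B c) (co k) (co l) := by
    rw [Matrix.trace, ← Finset.sum_add_distrib]
    refine Finset.sum_congr rfl fun k _ => ?_
    rw [Matrix.diag_apply, Matrix.mul_apply, ← Finset.sum_add_distrib]
    refine Finset.sum_congr rfl fun l _ => ?_
    rw [AF_symm w B c l k]
    simp only [XiF, Matrix.of_apply]
    ring
  rw [e1]
  exact h.hasDerivWithinAt

theorem cE (hw : Wt w m C) :
    ContinuousOn (fun p : Mt n × E n => EntF w p.1 p.2) ({B | B.PosSemidef} ×ˢ Set.univ) := by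
  refine ContinuousOn.mono ?_ (psd_subset hw.m_pos)
  unfold EntF
  refine ContinuousOn.add ?_ ?_
  · exact (continuousOn_I hw (Pg.const 1)).log fun z hz => (I_one_pos hw hz z.2).ne'
  · have h1 : ContinuousOn (fun z : Mt n × E n =>
        (1 / 2) * ∑ k, ∑ l, z.1 k l * Ev w z.1 z.2 (fun x => x k * x l)
          - ∑ k, z.2 k * Ev w z.1 z.2 (fun x => x k) - Ev w z.1 z.2 (fun x => Real.log (w x)))
        {z | Adm m z.1} := by
      refine ((continuousOn_const.mul ?_).sub ?_).sub (cEv hw hw.pg_log)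
      · refine continuousOn_finsetSum _ fun k _ => continuousOn_finsetSum _ fun l _ => ?_
        refine ContinuousOn.mul ?_ (cEv hw ((Pg.coord k).mul (Pg.coord l)))
        exact ((continuous_apply_apply k l).comp continuous_fst).continuousOn
      · refine continuousOn_finsetSum _ fun k _ => ?_
        refine ContinuousOn.mul ?_ (cEv hw (Pg.coord k))
        exact ((continuous_apply k).comp continuous_snd).continuousOn
    refine h1.congr fun z hz => ?_
    have hl := lin_Ev hw hz z.2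
    show Ev w z.1 z.2 (fun x => (1 / 2) * (x ⬝ᵥ z.1 *ᵥ x) - z.2 ⬝ᵥ x - Real.log (w x)) = _
    rw [Ev_sub hw hz z.2 (((Pg.quad z.1).const_mul (1 / 2)).sub (Pg.dot z.2)) hw.pg_log,
      Ev_sub hw hz z.2 ((Pg.quad z.1).const_mul (1 / 2)) (Pg.dot z.2), Ev_const_mul,
      hl.quad, hl.dot]

/-- the entropy is `-∫ ρ log ρ` for the normalised density `ρ` -/
theorem EntF_eq (hw : Wt w m C) {B : Mt n} (hB : Adm m B) (c : E n) :
    EntF w B c = -∫ x, (tl B c x * w x / I w B c (fun _ => 1))
      * Real.log (tl B c x * w x / I w B c (fun _ => 1)) := by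
  have hpos := I_one_pos hw hB c
  have h1 : ∀ x, (tl B c x * w x / I w B c (fun _ => 1))
      * Real.log (tl B c x * w x / I w B c (fun _ => 1))
      = (I w B c (fun _ => 1))⁻¹ * -((Real.log (I w B c (fun _ => 1)) + ps w B c x)
        * (tl B c x * w x)) := by
    intro x
    have hx := mul_pos (tl_pos B c x) (hw.pos x)
    rw [Real.log_div hx.ne' hpos.ne', Real.log_mul (tl_pos B c x).ne' (hw.pos x).ne']
    unfold tl ps
    rw [Real.log_exp]
    ring
  simp only [h1]
  rw [integral_const_mul, integral_neg]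
  have h2 : EntF w B c = Ev w B c (fun x => Real.log (I w B c (fun _ => 1)) + ps w B c x) := by
    rw [Ev_add hw hB c (Pg.const _) (pg_ps hw B c), Ev_const hw hB c]
    rfl
  rw [h2]
  unfold Ev
  rw [div_eq_inv_mul]
  unfold I
  ring

end Vale.Agent.P254.Fr
end

section

/-!
P254, block (C): concentration of the law `∝ 1_K(y) exp (⟨v,y⟩ - ⟨y,Ny⟩/2)` at the support point of
the strictly convex body `K` as `|v| → ∞`, uniformly for bounded `N`.
-/

open MeasureTheory Set Matrix Filter Topology Metric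

namespace Vale.Agent.P254.R304

variable {n : ℕ}

/-- unnormalised integral against the law of `Y` -/
noncomputable def IY (K : Set (Fin n → ℝ)) (N : Matrix (Fin n) (Fin n) ℝ) (v : Fin n → ℝ)
    (φ : (Fin n → ℝ) → ℝ) : ℝ :=
  ∫ y in K, φ y * Real.exp (v ⬝ᵥ y - (1 / 2) * (y ⬝ᵥ N *ᵥ y))

/-- expectation for the law of `Y` -/
noncomputable def EY (K : Set (Fin n → ℝ)) (N : Matrix (Fin n) (Fin n) ℝ) (v : Fin n → ℝ)
    (φ : (Fin n → ℝ) → ℝ) : ℝ :=
  IY K N v φ / IY K N v (fun _ => 1)

lemma abs_dot_le (v y : Fin n → ℝ) : |v ⬝ᵥ y| ≤ n * ‖v‖ * ‖y‖ := by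
  unfold dotProduct
  calc |∑ i, v i * y i| ≤ ∑ i, |v i * y i| := Finset.abs_sum_le_sum_abs _ _
    _ ≤ ∑ _i : Fin n, ‖v‖ * ‖y‖ := by
        refine Finset.sum_le_sum fun i _ => ?_
        rw [abs_mul]
        exact mul_le_mul (norm_le_pi_norm v i) (norm_le_pi_norm y i) (abs_nonneg _) (norm_nonneg _)
    _ = n * ‖v‖ * ‖y‖ := by simp [mul_assoc]

lemma norm_sq_le_dot (v : Fin n → ℝ) : ‖v‖ ^ 2 ≤ v ⬝ᵥ v := by
  have h0 : 0 ≤ v ⬝ᵥ v := by
    unfold dotProduct
    exact Finset.sum_nonneg fun i _ => mul_self_nonneg _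
  have h1 : ‖v‖ ≤ Real.sqrt (v ⬝ᵥ v) := by
    rw [pi_norm_le_iff_of_nonneg (Real.sqrt_nonneg _)]
    intro i
    apply Real.le_sqrt_of_sq_le
    rw [Real.norm_eq_abs, sq_abs]
    unfold dotProduct
    rw [sq]
    exact Finset.single_le_sum (f := fun i => v i * v i) (fun i _ => mul_self_nonneg _)
      (Finset.mem_univ i)
  calc ‖v‖ ^ 2 ≤ Real.sqrt (v ⬝ᵥ v) ^ 2 := by gcongr
    _ = v ⬝ᵥ v := Real.sq_sqrt h0

/-- Modulus of strict convexity, uniform in the direction. -/
lemma strict_mod {K : Set (Fin n → ℝ)} (hK : IsCompact K) (hs : StrictConvex ℝ K) {η : ℝ}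
    (hη : 0 < η) :
    ∃ δ : ℝ, 0 < δ ∧ ∀ v : Fin n → ℝ, ∀ y0 ∈ K, (∀ y ∈ K, v ⬝ᵥ y ≤ v ⬝ᵥ y0) →
      ∀ y ∈ K, η ≤ ‖y - y0‖ → v ⬝ᵥ y ≤ v ⬝ᵥ y0 - 2 * δ * ‖v‖ := by
  set P : Set ((Fin n → ℝ) × (Fin n → ℝ)) := (K ×ˢ K) ∩ {p | η ≤ ‖p.1 - p.2‖} with hP
  have hPc : IsCompact P := by
    refine (hK.prod hK).inter_right ?_
    exact isClosed_le continuous_const (by fun_prop)
  set mid : ((Fin n → ℝ) × (Fin n → ℝ)) → (Fin n → ℝ) :=
    fun p => (1 / 2 : ℝ) • p.1 + (1 / 2 : ℝ) • p.2 with hmid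
  have hmc : Continuous mid := by fun_prop
  have hsub : mid '' P ⊆ interior K := by
    rintro _ ⟨⟨y, z⟩, ⟨⟨hy, hz⟩, hne⟩, rfl⟩
    have hyz : y ≠ z := by
      rintro rfl
      simp only [mem_ofPred_eq, sub_self, norm_zero] at hne
      linarith
    exact hs hy hz hyz (by norm_num) (by norm_num) (by norm_num)
  obtain ⟨δ, hδ, hδs⟩ := (hPc.image hmc).exists_cthickening_subset_open isOpen_interior hsub
  refine ⟨δ, hδ, fun v y0 hy0 hmax y hy hne => ?_⟩
  rcases eq_or_ne v 0 with rfl | hv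
  · simp
  have hvn : 0 < ‖v‖ := norm_pos_iff.2 hv
  have hmem : (y, y0) ∈ P := ⟨⟨hy, hy0⟩, hne⟩
  set p := mid (y, y0) with hp
  set z := p + (δ / ‖v‖) • v with hz
  have hzK : z ∈ K := by
    apply interior_subset
    apply hδs
    apply mem_cthickening_of_dist_le z p δ _ (mem_image_of_mem mid hmem)
    rw [dist_eq_norm, hz, add_sub_cancel_left, norm_smul, Real.norm_eq_abs, abs_of_pos (by positivity)]
    exact (div_mul_cancel₀ _ hvn.ne').le
  have h1 := hmax z hzK
  have h2 : v ⬝ᵥ z = (1 / 2) * (v ⬝ᵥ y) + (1 / 2) * (v ⬝ᵥ y0) + (δ / ‖v‖) * (v ⬝ᵥ v) := by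
    simp only [hz, hp, hmid, dotProduct_add, dotProduct_smul, smul_eq_mul]
  have h3 : δ * ‖v‖ ≤ (δ / ‖v‖) * (v ⬝ᵥ v) := by
    have := norm_sq_le_dot v
    calc δ * ‖v‖ = (δ / ‖v‖) * ‖v‖ ^ 2 := by field_simp
      _ ≤ (δ / ‖v‖) * (v ⬝ᵥ v) := by gcongr
  linarith

/-- quadratic forms are bounded on a bounded set -/
lemma quad_bound {K : Set (Fin n → ℝ)} {D L : ℝ} (hD : ∀ y ∈ K, ‖y‖ ≤ D) (hL : 0 ≤ L)
    {N : Matrix (Fin n) (Fin n) ℝ} (hN : ∀ i j, |N i j| ≤ L) {y : Fin n → ℝ} (hy : y ∈ K) :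
    |(1 / 2) * (y ⬝ᵥ N *ᵥ y)| ≤ n * D * (n * L * D) := by
  have hD0 : 0 ≤ D := (norm_nonneg y).trans (hD y hy)
  have h1 : ‖N *ᵥ y‖ ≤ n * L * D := by
    rw [pi_norm_le_iff_of_nonneg (by positivity)]
    intro i
    rw [Real.norm_eq_abs]
    simp only [mulVec, dotProduct]
    calc |∑ j, N i j * y j| ≤ ∑ j, |N i j * y j| := Finset.abs_sum_le_sum_abs _ _
      _ ≤ ∑ _j : Fin n, L * D := by
          refine Finset.sum_le_sum fun j _ => ?_
          rw [abs_mul]
          exact mul_le_mul (hN i j) ((norm_le_pi_norm y j).trans (hD y hy)) (abs_nonneg _) hL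
      _ = n * L * D := by simp [mul_assoc]
  rw [abs_mul, abs_of_pos (by norm_num : (0:ℝ) < 1 / 2)]
  have h2 := abs_dot_le y (N *ᵥ y)
  have h3 : n * ‖y‖ * ‖N *ᵥ y‖ ≤ n * D * (n * L * D) := by
    have := hD y hy
    gcongr
  have h4 : 0 ≤ |y ⬝ᵥ N *ᵥ y| := abs_nonneg _
  linarith

/-- `Y` is concentrated at the support point. -/
theorem conc {K : Set (Fin n → ℝ)} (hK : IsCompact K) (hs : StrictConvex ℝ K)
    (hi : (interior K).Nonempty) (L : ℝ) {η : ℝ} (hη : 0 < η) :
    ∃ R : ℝ, ∀ N : Matrix (Fin n) (Fin n) ℝ, (∀ i j, |N i j| ≤ L) → ∀ v : Fin n → ℝ, R ≤ ‖v‖ →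
      ∃ y0 ∈ K, IY K N v (fun y => ‖y - y0‖) ≤ η * IY K N v (fun _ => 1) := by
  obtain ⟨D, hDpos, hD⟩ := hK.isBounded.exists_pos_norm_le
  obtain ⟨δ, hδ, hmod⟩ := strict_mod hK hs (half_pos hη)
  obtain ⟨x0, hx0⟩ := hi
  obtain ⟨r, hr, hball⟩ := Metric.isOpen_iff.1 isOpen_interior x0 hx0
  have hball' : ball x0 r ⊆ K := hball.trans interior_subset
  set L' := max L 0 with hL'
  set Cq : ℝ := n * D * (n * L' * D) with hCq
  set S : ℝ := (volume K).toReal with hS
  have hS0 : 0 ≤ S := ENNReal.toReal_nonneg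
  set l : ℝ := min 1 (δ / (2 * n * D + 1)) with hl
  have hl0 : 0 < l := lt_min one_pos (by positivity)
  have hl1 : l ≤ 1 := min_le_left _ _
  have hl2 : l * (2 * n * D) ≤ δ := by
    have h1 : l ≤ δ / (2 * n * D + 1) := min_le_right _ _
    rw [le_div_iff₀ (by positivity)] at h1
    nlinarith
  set V : ℝ := (volume (ball (0 : Fin n → ℝ) (l * r))).toReal with hV
  have hVpos : 0 < V := by
    apply ENNReal.toReal_pos
    · exact (measure_ball_pos _ _ (by positivity)).ne'
    · exact measure_ball_lt_top.ne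
  set a : ℝ := 2 * D * S * Real.exp (2 * Cq) with ha
  have ha0 : 0 ≤ a := by positivity
  set b : ℝ := (η / 2) * V with hb
  have hb0 : 0 < b := by positivity
  refine ⟨a / (b * δ), fun N hN v hv => ?_⟩
  have hN' : ∀ i j, |N i j| ≤ L' := fun i j => (hN i j).trans (le_max_left _ _)
  have hL'0 : 0 ≤ L' := le_max_right _ _
  have hKne : K.Nonempty := ⟨x0, interior_subset hx0⟩
  have hvc : ContinuousOn (fun y : Fin n → ℝ => v ⬝ᵥ y) K := by
    have : Continuous (fun y : Fin n → ℝ => v ⬝ᵥ y) := by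
      unfold dotProduct; fun_prop
    exact this.continuousOn
  obtain ⟨y0, hy0, hmax⟩ := hK.exists_isMaxOn hKne hvc
  have hmax' : ∀ y ∈ K, v ⬝ᵥ y ≤ v ⬝ᵥ y0 := fun y hy => hmax hy
  refine ⟨y0, hy0, ?_⟩
  set w : (Fin n → ℝ) → ℝ := fun y => Real.exp (v ⬝ᵥ y - (1 / 2) * (y ⬝ᵥ N *ᵥ y)) with hw
  have hwc : Continuous w := by
    simp only [hw, dotProduct, mulVec]
    fun_prop
  have hKm : MeasurableSet K := hK.measurableSet
  have hwint : IntegrableOn w K := hwc.continuousOn.integrableOn_compact hK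
  have hwint' : IntegrableOn (fun y => 1 * w y) K := by simpa using hwint
  have hnint : IntegrableOn (fun y => ‖y - y0‖ * w y) K := by
    have hc : Continuous (fun y => ‖y - y0‖ * w y) := by fun_prop
    exact hc.continuousOn.integrableOn_compact hK
  have hKfin : volume K ≠ ⊤ := hK.measure_lt_top.ne
  set E : ℝ := Real.exp (v ⬝ᵥ y0 - δ * ‖v‖ - Cq) with hE
  have hE0 : 0 < E := Real.exp_pos _
  -- upper bound
  have hup : IY K N v (fun y => ‖y - y0‖) ≤
      (η / 2) * IY K N v (fun _ => 1) + S * (2 * D * Real.exp (v ⬝ᵥ y0 - 2 * δ * ‖v‖ + Cq)) := by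
    have e1 : (η / 2) * IY K N v (fun _ => 1) + S * (2 * D * Real.exp (v ⬝ᵥ y0 - 2 * δ * ‖v‖ + Cq))
        = ∫ y in K, ((η / 2) * (1 * w y) + 2 * D * Real.exp (v ⬝ᵥ y0 - 2 * δ * ‖v‖ + Cq)) := by
      rw [integral_add (hwint'.const_mul _) (integrableOn_const hKfin), integral_const_mul,
        setIntegral_const]
      simp only [smul_eq_mul, Measure.real, ← hS]
      rfl
    rw [e1]
    refine setIntegral_mono_on hnint ((hwint'.const_mul _).add (integrableOn_const hKfin)) hKm
      fun y hy => ?_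
    change ‖y - y0‖ * w y ≤ _
    have hw0 : 0 < w y := Real.exp_pos _
    rcases lt_or_ge ‖y - y0‖ (η / 2) with h | h
    · have : ‖y - y0‖ * w y ≤ (η / 2) * w y := by gcongr
      have h2 : 0 ≤ 2 * D * Real.exp (v ⬝ᵥ y0 - 2 * δ * ‖v‖ + Cq) := by positivity
      linarith
    · have h1 := hmod v y0 hy0 hmax' y hy h
      have h2 : w y ≤ Real.exp (v ⬝ᵥ y0 - 2 * δ * ‖v‖ + Cq) := by
        apply Real.exp_le_exp.2
        have := (abs_le.1 (quad_bound hD hL'0 hN' hy)).1
        linarith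
      have h3 : ‖y - y0‖ ≤ 2 * D := by
        calc ‖y - y0‖ ≤ ‖y‖ + ‖y0‖ := norm_sub_le _ _
          _ ≤ D + D := add_le_add (hD y hy) (hD y0 hy0)
          _ = 2 * D := by ring
      have h4 : ‖y - y0‖ * w y ≤ 2 * D * Real.exp (v ⬝ᵥ y0 - 2 * δ * ‖v‖ + Cq) := by
        gcongr
      have h5 : 0 ≤ (η / 2) * (1 * w y) := by positivity
      linarith
  -- lower bound
  set p : Fin n → ℝ := (1 - l) • y0 + l • x0 with hp
  have hsubK : ball p (l * r) ⊆ K := by
    intro y hy
    have hz : x0 + l⁻¹ • (y - p) ∈ K := by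
      apply hball'
      rw [mem_ball, dist_eq_norm, add_sub_cancel_left, norm_smul, norm_inv, Real.norm_eq_abs,
        abs_of_pos hl0]
      rw [mem_ball, dist_eq_norm] at hy
      calc l⁻¹ * ‖y - p‖ < l⁻¹ * (l * r) := by gcongr
        _ = r := by field_simp
    have := hs.convex hy0 hz (by linarith : (0:ℝ) ≤ 1 - l) hl0.le (by ring)
    convert this using 1
    rw [smul_add, smul_smul, mul_inv_cancel₀ hl0.ne', one_smul, hp]
    abel
  have hlow : ∀ y ∈ ball p (l * r), E ≤ w y := by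
    intro y hy
    have hyK := hsubK hy
    have hz : x0 + l⁻¹ • (y - p) ∈ K := by
      apply hball'
      rw [mem_ball, dist_eq_norm, add_sub_cancel_left, norm_smul, norm_inv, Real.norm_eq_abs,
        abs_of_pos hl0]
      rw [mem_ball, dist_eq_norm] at hy
      calc l⁻¹ * ‖y - p‖ < l⁻¹ * (l * r) := by gcongr
        _ = r := by field_simp
    set z := x0 + l⁻¹ • (y - p) with hzdef
    have hyz : y = (1 - l) • y0 + l • z := by
      rw [hzdef, smul_add, smul_smul, mul_inv_cancel₀ hl0.ne', one_smul, hp]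
      abel
    have h1 : v ⬝ᵥ y = v ⬝ᵥ y0 - l * (v ⬝ᵥ (y0 - z)) := by
      rw [hyz, dotProduct_add, dotProduct_smul, dotProduct_smul, dotProduct_sub, smul_eq_mul,
        smul_eq_mul]
      ring
    have h2 : v ⬝ᵥ (y0 - z) ≤ n * ‖v‖ * (2 * D) := by
      refine (le_abs_self _).trans ((abs_dot_le _ _).trans ?_)
      have h3 : ‖y0 - z‖ ≤ 2 * D := by
        calc ‖y0 - z‖ ≤ ‖y0‖ + ‖z‖ := norm_sub_le _ _
          _ ≤ D + D := add_le_add (hD y0 hy0) (hD z hz)
          _ = 2 * D := by ring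
      gcongr
    have h4 : l * (v ⬝ᵥ (y0 - z)) ≤ δ * ‖v‖ := by
      calc l * (v ⬝ᵥ (y0 - z)) ≤ l * (n * ‖v‖ * (2 * D)) := by gcongr
        _ = (l * (2 * n * D)) * ‖v‖ := by ring
        _ ≤ δ * ‖v‖ := by gcongr
    apply Real.exp_le_exp.2
    have := (abs_le.1 (quad_bound hD hL'0 hN' hyK)).2
    linarith
  have hlowI : V * E ≤ IY K N v (fun _ => 1) := by
    have e1 : V * E = ∫ _y in ball p (l * r), E := by
      rw [setIntegral_const, smul_eq_mul, Measure.real, Measure.addHaar_ball_center]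
    rw [e1]
    calc ∫ _y in ball p (l * r), E ≤ ∫ y in ball p (l * r), w y := by
          refine setIntegral_mono_on (integrableOn_const measure_ball_lt_top.ne)
            (hwint.mono_set hsubK) measurableSet_ball hlow
      _ ≤ ∫ y in K, w y := by
          refine setIntegral_mono_set hwint (ae_of_all _ fun y => (Real.exp_pos _).le) ?_
          exact hsubK.eventuallyLE
      _ = IY K N v (fun _ => 1) := by simp [IY, hw]
  -- conclusion
  have hR : a ≤ b * Real.exp (δ * ‖v‖) := by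
    have h1 : a ≤ ‖v‖ * (b * δ) := by
      rwa [div_le_iff₀ (by positivity)] at hv
    have h2 : δ * ‖v‖ + 1 ≤ Real.exp (δ * ‖v‖) := Real.add_one_le_exp _
    calc a ≤ b * (δ * ‖v‖ + 1) := by nlinarith
      _ ≤ b * Real.exp (δ * ‖v‖) := by gcongr
  have hfin : S * (2 * D * Real.exp (v ⬝ᵥ y0 - 2 * δ * ‖v‖ + Cq)) ≤ b * E := by
    have e2 : S * (2 * D * Real.exp (v ⬝ᵥ y0 - 2 * δ * ‖v‖ + Cq))
        = a * Real.exp (-(δ * ‖v‖)) * E := by
      rw [ha, hE]
      have : v ⬝ᵥ y0 - 2 * δ * ‖v‖ + Cq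
          = 2 * Cq + (-(δ * ‖v‖)) + (v ⬝ᵥ y0 - δ * ‖v‖ - Cq) := by ring
      rw [this, Real.exp_add, Real.exp_add]
      ring
    rw [e2]
    have : a * Real.exp (-(δ * ‖v‖)) ≤ b := by
      rw [Real.exp_neg, ← div_eq_mul_inv, div_le_iff₀ (Real.exp_pos _)]
      exact hR
    gcongr
  have : b * E ≤ (η / 2) * IY K N v (fun _ => 1) := by
    calc b * E = (η / 2) * (V * E) := by rw [hb]; ring
      _ ≤ (η / 2) * IY K N v (fun _ => 1) := by gcongr
  linarith

section moments

variable {K : Set (Fin n → ℝ)} {N : Matrix (Fin n) (Fin n) ℝ} {v : Fin n → ℝ}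

lemma wcont (N : Matrix (Fin n) (Fin n) ℝ) (v : Fin n → ℝ) :
    Continuous fun y : Fin n → ℝ => Real.exp (v ⬝ᵥ y - (1 / 2) * (y ⬝ᵥ N *ᵥ y)) := by
  simp only [dotProduct, mulVec]
  fun_prop

lemma IY_int (hK : IsCompact K) {φ : (Fin n → ℝ) → ℝ} (hφ : Continuous φ) :
    IntegrableOn (fun y => φ y * Real.exp (v ⬝ᵥ y - (1 / 2) * (y ⬝ᵥ N *ᵥ y))) K :=
  (hφ.mul (wcont N v)).continuousOn.integrableOn_compact hK

lemma IY_mono (hK : IsCompact K) {φ ψ : (Fin n → ℝ) → ℝ} (hφ : Continuous φ) (hψ : Continuous ψ)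
    (h : ∀ y ∈ K, φ y ≤ ψ y) : IY K N v φ ≤ IY K N v ψ :=
  setIntegral_mono_on (IY_int hK hφ) (IY_int hK hψ) hK.measurableSet
    fun y hy => mul_le_mul_of_nonneg_right (h y hy) (Real.exp_pos _).le

lemma abs_IY_le (φ : (Fin n → ℝ) → ℝ) : |IY K N v φ| ≤ IY K N v (fun y => |φ y|) := by
  unfold IY
  refine (abs_integral_le_integral_abs).trans (le_of_eq ?_)
  congr 1
  ext y
  rw [abs_mul, abs_of_pos (Real.exp_pos _)]

lemma IY_one_pos (hK : IsCompact K) (hi : (interior K).Nonempty) :
    0 < IY K N v (fun _ => 1) := by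
  unfold IY
  have hint : IntegrableOn (fun y : Fin n → ℝ =>
      (1:ℝ) * Real.exp (v ⬝ᵥ y - (1 / 2) * (y ⬝ᵥ N *ᵥ y))) K :=
    IY_int hK continuous_const
  rw [setIntegral_pos_iff_support_of_nonneg_ae
    (ae_of_all _ fun y => by positivity) hint]
  have : Function.support (fun y : Fin n → ℝ =>
      (1:ℝ) * Real.exp (v ⬝ᵥ y - (1 / 2) * (y ⬝ᵥ N *ᵥ y))) = univ := by
    ext y
    simp [(Real.exp_pos _).ne']
  rw [this, univ_inter]
  exact (isOpen_interior.measure_pos _ hi).trans_le (measure_mono interior_subset)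

lemma EY_mono (hK : IsCompact K) (hi : (interior K).Nonempty) {φ ψ : (Fin n → ℝ) → ℝ}
    (hφ : Continuous φ) (hψ : Continuous ψ) (h : ∀ y ∈ K, φ y ≤ ψ y) :
    EY K N v φ ≤ EY K N v ψ :=
  div_le_div_of_nonneg_right (IY_mono hK hφ hψ h) (IY_one_pos hK hi).le

lemma abs_EY_le (hK : IsCompact K) (hi : (interior K).Nonempty) (φ : (Fin n → ℝ) → ℝ) :
    |EY K N v φ| ≤ EY K N v (fun y => |φ y|) := by
  unfold EY
  rw [abs_div, abs_of_pos (IY_one_pos hK hi)]
  exact div_le_div_of_nonneg_right (abs_IY_le φ) (IY_one_pos hK hi).le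

lemma EY_const (hK : IsCompact K) (hi : (interior K).Nonempty) (c : ℝ) :
    EY K N v (fun _ => c) = c := by
  unfold EY
  have : IY K N v (fun _ => c) = c * IY K N v (fun _ => 1) := by
    unfold IY
    rw [← integral_const_mul]
    simp
  rw [this, mul_div_assoc, div_self (IY_one_pos hK hi).ne', mul_one]

lemma EY_add (hK : IsCompact K) {φ ψ : (Fin n → ℝ) → ℝ} (hφ : Continuous φ) (hψ : Continuous ψ) :
    EY K N v (fun y => φ y + ψ y) = EY K N v φ + EY K N v ψ := by
  unfold EY
  rw [← add_div]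
  congr 1
  unfold IY
  rw [← integral_add (IY_int hK hφ) (IY_int hK hψ)]
  congr 1
  ext y
  ring

lemma EY_const_mul (φ : (Fin n → ℝ) → ℝ) (c : ℝ) :
    EY K N v (fun y => c * φ y) = c * EY K N v φ := by
  unfold EY IY
  rw [← mul_div_assoc, ← integral_const_mul]
  simp only [mul_assoc]

/-- Block (C): all centred second and third moments of `Y` tend to zero as `|v| → ∞`, uniformly
for bounded `N`. -/
theorem moments_small (hK : IsCompact K) (hs : StrictConvex ℝ K) (hi : (interior K).Nonempty)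
    (L : ℝ) {η : ℝ} (hη : 0 < η) :
    ∃ R : ℝ, ∀ N : Matrix (Fin n) (Fin n) ℝ, (∀ i j, |N i j| ≤ L) → ∀ v : Fin n → ℝ, R ≤ ‖v‖ →
      (∀ i j, |EY K N v (fun y => (y i - EY K N v (fun z => z i)) *
        (y j - EY K N v (fun z => z j)))| ≤ η) ∧
      (∀ i j k, |EY K N v (fun y => (y i - EY K N v (fun z => z i)) *
        (y j - EY K N v (fun z => z j)) * (y k - EY K N v (fun z => z k)))| ≤ η) := by
  obtain ⟨D, hDpos, hD⟩ := hK.isBounded.exists_pos_norm_le
  set η' : ℝ := η / (4 * D + 8 * D ^ 2) with hη'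
  have hη'0 : 0 < η' := by positivity
  have h2 : 4 * D * η' ≤ η := by
    rw [hη', ← mul_div_assoc, div_le_iff₀ (by positivity)]
    nlinarith [sq_nonneg D]
  have h3 : 8 * D ^ 2 * η' ≤ η := by
    rw [hη', ← mul_div_assoc, div_le_iff₀ (by positivity)]
    nlinarith [sq_nonneg D]
  obtain ⟨R, hR⟩ := conc hK hs hi L hη'0
  refine ⟨R, fun N hN v hv => ?_⟩
  obtain ⟨y0, hy0, hc⟩ := hR N hN v hv
  have hI1 := IY_one_pos (N := N) (v := v) hK hi
  have hc' : EY K N v (fun y => ‖y - y0‖) ≤ η' := by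
    unfold EY
    rwa [div_le_iff₀ hI1]
  set a : Fin n → ℝ := fun i => EY K N v (fun z => z i) with ha
  have hcoord : ∀ i, Continuous fun y : Fin n → ℝ => y i := fun i => continuous_apply i
  have haD : ∀ i, |a i| ≤ D := by
    intro i
    refine (abs_EY_le hK hi _).trans ?_
    refine (EY_mono hK hi (hcoord i).abs continuous_const (ψ := fun _ => D) fun y hy => ?_).trans
      (EY_const hK hi D).le
    exact (norm_le_pi_norm y i).trans (hD y hy)
  have hay : ∀ i, |a i - y0 i| ≤ η' := by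
    intro i
    have e : a i - y0 i = EY K N v (fun y => y i + (- y0 i)) := by
      rw [EY_add hK (hcoord i) continuous_const, EY_const hK hi]
      ring
    rw [e]
    refine (abs_EY_le hK hi _).trans (le_trans ?_ hc')
    refine EY_mono hK hi (by fun_prop) (by fun_prop) fun y _ => ?_
    have := norm_le_pi_norm (y - y0) i
    simpa [sub_eq_add_neg] using this
  have hone : ∀ i, EY K N v (fun y => |y i - a i|) ≤ 2 * η' := by
    intro i
    have : EY K N v (fun y => |y i - a i|) ≤ EY K N v (fun y => ‖y - y0‖ + η') := by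
      refine EY_mono hK hi (by fun_prop) (by fun_prop) fun y _ => ?_
      have h1 := norm_le_pi_norm (y - y0) i
      rw [Pi.sub_apply, Real.norm_eq_abs] at h1
      have h2 := hay i
      rw [abs_sub_comm] at h2
      calc |y i - a i| = |(y i - y0 i) + (y0 i - a i)| := by congr 1; ring
        _ ≤ |y i - y0 i| + |y0 i - a i| := abs_add_le _ _
        _ ≤ ‖y - y0‖ + η' := add_le_add h1 h2
    rw [EY_add hK (by fun_prop) continuous_const, EY_const hK hi] at this
    linarith
  have hdiff : ∀ i, ∀ y ∈ K, |y i - a i| ≤ 2 * D := by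
    intro i y hy
    have h1 : |y i| ≤ D := (norm_le_pi_norm y i).trans (hD y hy)
    calc |y i - a i| ≤ |y i| + |a i| := abs_sub _ _
      _ ≤ D + D := add_le_add h1 (haD i)
      _ = 2 * D := by ring
  refine ⟨fun i j => ?_, fun i j k => ?_⟩
  · refine (abs_EY_le hK hi _).trans ?_
    refine (EY_mono hK hi (ψ := fun y => 2 * D * |y i - a i|) (by fun_prop) (by fun_prop)
      fun y hy => ?_).trans ?_
    · rw [abs_mul, mul_comm]
      exact mul_le_mul_of_nonneg_right (hdiff j y hy) (abs_nonneg _)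
    · rw [EY_const_mul]
      have := hone i
      calc 2 * D * EY K N v (fun y => |y i - a i|) ≤ 2 * D * (2 * η') := by gcongr
        _ = 4 * D * η' := by ring
        _ ≤ η := h2
  · refine (abs_EY_le hK hi _).trans ?_
    refine (EY_mono hK hi (ψ := fun y => (4 * D ^ 2) * |y i - a i|) (by fun_prop) (by fun_prop)
      fun y hy => ?_).trans ?_
    · rw [abs_mul, abs_mul]
      have h4 := hdiff j y hy
      have h5 := hdiff k y hy
      calc |y i - a i| * |y j - a j| * |y k - a k| ≤ |y i - a i| * (2 * D) * (2 * D) := by gcongr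
        _ = (4 * D ^ 2) * |y i - a i| := by ring
    · rw [EY_const_mul]
      have := hone i
      calc 4 * D ^ 2 * EY K N v (fun y => |y i - a i|) ≤ 4 * D ^ 2 * (2 * η') := by gcongr
        _ = 8 * D ^ 2 * η' := by ring
        _ ≤ η := h3

/-- entries of a positive semidefinite matrix `N ≤ L` are bounded by `L` -/
lemma psd_entry_le {N : Matrix (Fin n) (Fin n) ℝ} {L : ℝ} (hN : N.PosSemidef)
    (hL : (L • (1 : Matrix (Fin n) (Fin n) ℝ) - N).PosSemidef) (i j : Fin n) : |N i j| ≤ L := by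
  have hsym : N j i = N i j := by
    have := congrFun (congrFun hN.1 i) j
    simpa [conjTranspose_apply] using this
  have hdiag : ∀ k, N k k ≤ L := by
    intro k
    have := hL.diag_nonneg (i := k)
    simpa using this
  have h2 : ∀ s : ℝ, 0 ≤ N i i + 2 * s * N i j + s ^ 2 * N j j := by
    intro s
    have := hN.dotProduct_mulVec_nonneg (Pi.single i 1 + Pi.single j s)
    simp only [star_trivial, mulVec_add, add_dotProduct, dotProduct_add, mulVec_single,
      single_dotProduct] at this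
    simp only [MulOpposite.op_one, one_smul, col_apply, Pi.smul_apply, MulOpposite.smul_eq_mul_unop,
      MulOpposite.unop_op, one_mul] at this
    rw [hsym] at this
    nlinarith
  have h3 := h2 1
  have h4 := h2 (-1)
  have h5 := hdiag i
  have h6 := hdiag j
  rw [abs_le]
  constructor <;> linarith

end moments

end Vale.Agent.P254.R304
end

section

/-! # P227/M, block LK: the level-`k` descent

`phi k c y = (1/k) log ∫ exp (k ⟪x,y⟫ - k c x) dx`, `Q k p x = log ∫ exp (k ⟪x,y⟫ - (k+1) p y) dy`,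
`T0 k V c = (V + Q k c) / k`.  Along `c ↦ T0 k V c` the functional
`J k V c = ∫ c e^{-V} - log ∫ e^{-phi k c}` drops by at least `KL / k`. -/

open MeasureTheory Set Filter Topology

namespace Vale.Agent.P227.M.LK.Dsc

variable {E : Type*} [NormedAddCommGroup E] [InnerProductSpace ℝ E] [FiniteDimensional ℝ E]
  [MeasurableSpace E] [BorelSpace E]

/-- log-Laplace transform (verbatim `logLap` when `E = EuclideanSpace ℝ (Fin n)`) -/
noncomputable def lap (W : E → ℝ) (y : E) : ℝ := Real.log (∫ x, Real.exp (inner ℝ x y - W x))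

/-- `phi k c y = (1/k) log ∫ exp (k ⟪x,y⟫ - k c x) dx` -/
noncomputable def phi (k : ℝ) (c : E → ℝ) (y : E) : ℝ := 1 / k * lap (fun x => k * c x) (k • y)

/-- `Q k c x = log ∫ exp (k ⟪x,y⟫ - (k+1) phi y) dy` -/
noncomputable def Q (k : ℝ) (c : E → ℝ) (x : E) : ℝ := lap (fun y => (k + 1) * phi k c y) (k • x)

/-- `T(c) = (V + Q_c)/k` -/
noncomputable def T0 (k : ℝ) (V c : E → ℝ) (x : E) : ℝ := (V x + Q k c x) / k

/-- `T(c) = (V + Q_c)/k`, normalised to vanish at `0` -/
noncomputable def T (k : ℝ) (V c : E → ℝ) (x : E) : ℝ := (V x + Q k c x) / k - (V 0 + Q k c 0) / k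

/-- the total mass -/
noncomputable def Z (k : ℝ) (c : E → ℝ) : ℝ := ∫ y : E, Real.exp (-phi k c y)

/-- the potential of the `x`-marginal -/
noncomputable def W (k : ℝ) (c : E → ℝ) (x : E) : ℝ := k * c x - Q k c x + Real.log (Z k c)

/-- the relative entropy of `e^{-V}` with respect to the `x`-marginal -/
noncomputable def KL (k : ℝ) (V c : E → ℝ) : ℝ := ∫ x : E, (W k c x - V x) * Real.exp (-V x)

/-- the functional -/
noncomputable def J (k : ℝ) (V c : E → ℝ) : ℝ := (∫ x : E, c x * Real.exp (-V x)) - Real.log (Z k c)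

theorem phi_eq (k : ℝ) (c : E → ℝ) (y : E) :
    phi k c y = (1 / k) * Real.log (∫ x : E, Real.exp (k * inner ℝ x y - k * c x)) := by
  unfold phi lap
  simp only [inner_smul_right]

theorem Q_eq (k : ℝ) (c : E → ℝ) (x : E) :
    Q k c x = Real.log (∫ y : E, Real.exp (k * inner ℝ x y - (k + 1) * phi k c y)) := by
  unfold Q lap
  simp only [inner_smul_right, real_inner_comm]

theorem exp_phi {k : ℝ} (hk : 0 < k) {c : E → ℝ} {y : E} (h : Integrable fun x : E => Real.exp (k * inner ℝ x y - k * c x)) :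
    Real.exp (k * phi k c y) = ∫ x : E, Real.exp (k * inner ℝ x y - k * c x) := by
  have h1 : k * phi k c y = Real.log (∫ x : E, Real.exp (k * inner ℝ x y - k * c x)) := by
    rw [phi_eq]
    field_simp
  rw [h1, Real.exp_log]
  exact integral_exp_pos h

theorem exp_Q {k : ℝ} {c : E → ℝ} {x : E}
    (h : Integrable fun y : E => Real.exp (k * inner ℝ x y - (k + 1) * phi k c y)) :
    Real.exp (Q k c x) = ∫ y : E, Real.exp (k * inner ℝ x y - (k + 1) * phi k c y) := by
  rw [Q_eq, Real.exp_log]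
  exact integral_exp_pos h

theorem measurable_phi {k : ℝ} {c : E → ℝ} (hc : Measurable c) : Measurable (phi k c) := by
  have h0 : phi k c = fun y => (1 / k) * Real.log (∫ x : E, Real.exp (k * inner ℝ x y - k * c x)) := by
    ext y
    exact phi_eq k c y
  rw [h0]
  refine (Real.measurable_log.comp ?_).const_mul _
  have h1 : StronglyMeasurable (fun p : E × E => Real.exp (k * inner ℝ p.2 p.1 - k * c p.2)) := by
    refine Measurable.stronglyMeasurable ?_
    have : Measurable fun p : E × E => (inner ℝ p.2 p.1 : ℝ) := (continuous_snd.inner continuous_fst).measurable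
    exact Real.measurable_exp.comp ((this.const_mul k).sub ((hc.comp measurable_snd).const_mul k))
  exact (h1.integral_prod_right' (ν := volume)).measurable

theorem measurable_Q {k : ℝ} {c : E → ℝ} (hc : Measurable c) : Measurable (Q k c) := by
  have hp := measurable_phi (k := k) hc
  have h0 : Q k c = fun x => Real.log (∫ y : E, Real.exp (k * inner ℝ x y - (k + 1) * phi k c y)) := by
    ext y
    exact Q_eq k c y
  rw [h0]
  refine Real.measurable_log.comp ?_
  have h1 : StronglyMeasurable (fun q : E × E => Real.exp (k * inner ℝ q.1 q.2 - (k + 1) * phi k c q.2)) := by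
    refine Measurable.stronglyMeasurable ?_
    have : Measurable fun q : E × E => (inner ℝ q.1 q.2 : ℝ) := (continuous_fst.inner continuous_snd).measurable
    exact Real.measurable_exp.comp ((this.const_mul k).sub ((hp.comp measurable_snd).const_mul (k + 1)))
  exact (h1.integral_prod_right' (ν := volume)).measurable

/-- Gaussian tails make exponentials integrable -/
theorem integrable_exp_of_quad {a k A : ℝ} (ha : 0 < a) (hk : 0 < k) {f : E → ℝ} (hf : Measurable f)
    (h : ∀ x, A + a / 2 * ‖x‖ ^ 2 ≤ f x) (l : ℝ) (y : E) :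
    Integrable fun x : E => Real.exp (l * inner ℝ x y - k * f x) := by
  have h1 := (GaussianFourier.integrable_cexp_neg_mul_sq_norm_add (V := E) (b := ((k * a / 2 : ℝ) : ℂ)) (by
    rw [Complex.ofReal_re]; positivity) (l : ℂ) y).norm
  have h2 : Integrable fun x : E => Real.exp (-(k * A)) * Real.exp (l * inner ℝ x y - k * a / 2 * ‖x‖ ^ 2) := by
    refine Integrable.const_mul ?_ _
    refine h1.congr (Eventually.of_forall fun x => ?_)
    simp only [Complex.norm_exp]
    congr 1
    simp only [Complex.add_re, Complex.mul_re, Complex.neg_re, Complex.ofReal_re, Complex.neg_im, Complex.ofReal_im]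
    rw [← Complex.ofReal_pow, Complex.ofReal_re, Complex.ofReal_im, real_inner_comm]
    ring
  refine h2.mono' ?_ (Eventually.of_forall fun x => ?_)
  · have : Measurable fun x : E => (inner ℝ x y : ℝ) := (continuous_id.inner continuous_const).measurable
    exact (Real.measurable_exp.comp ((this.const_mul l).sub (hf.const_mul k))).aestronglyMeasurable
  · rw [Real.norm_eq_abs, abs_of_pos (Real.exp_pos _), ← Real.exp_add]
    refine Real.exp_le_exp.2 ?_
    have := mul_le_mul_of_nonneg_left (h x) hk.le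
    nlinarith

/-- the quantitative class on which everything is integrable -/
structure Qg (a b : ℝ) (c : E → ℝ) : Prop where
  meas : Measurable c
  lo : ∀ x, c 0 + a / 2 * ‖x‖ ^ 2 ≤ c x
  hi : ∀ x, c x ≤ c 0 + b / 2 * ‖x‖ ^ 2

set_option linter.unusedSectionVars false

variable {V : E → ℝ} {k a b : ℝ} {c : E → ℝ}

theorem Qg.int1 (hk : 0 < k) (ha : 0 < a) (h : Qg a b c) (y : E) :
    Integrable fun x : E => Real.exp (k * inner ℝ x y - k * c x) :=
  integrable_exp_of_quad ha hk h.meas h.lo k y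

/-- the Gaussian constant -/
noncomputable def gc (E : Type*) [NormedAddCommGroup E] [InnerProductSpace ℝ E] [FiniteDimensional ℝ E]
    [MeasurableSpace E] [BorelSpace E] (k b : ℝ) : ℝ := (1 / k) * Real.log (∫ x : E, Real.exp (-(k * (b / 2 * ‖x‖ ^ 2))))

theorem integrable_gauss {k b : ℝ} (hk : 0 < k) (hb : 0 < b) : Integrable fun x : E => Real.exp (-(k * (b / 2 * ‖x‖ ^ 2))) := by
  have := integrable_exp_of_quad (f := fun x : E => b / 2 * ‖x‖ ^ 2) (a := b) (A := 0) hb hk (by fun_prop)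
    (fun x => by simp) 0 0
  refine this.congr (Eventually.of_forall fun x => ?_)
  simp

/-- lower bound of the transform from the upper bound of `c` -/
theorem Qg.phi_lo (hk : 0 < k) (ha : 0 < a) (hb : 0 < b) (h : Qg a b c) (y : E) :
    (-c 0 + gc E k b) + 1 / b / 2 * ‖y‖ ^ 2 ≤ phi k c y := by
  have h1 : Real.exp (-(k * c 0) + k * (1 / b / 2 * ‖y‖ ^ 2)) * ∫ x : E, Real.exp (-(k * (b / 2 * ‖x‖ ^ 2)))
      ≤ ∫ x : E, Real.exp (k * inner ℝ x y - k * c x) := by
    have h2 : ∫ x : E, Real.exp (-(k * (b / 2 * ‖x‖ ^ 2))) = ∫ x : E, Real.exp (-(k * (b / 2 * ‖x - b⁻¹ • y‖ ^ 2))) :=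
      (integral_sub_right_eq_self (fun x : E => Real.exp (-(k * (b / 2 * ‖x‖ ^ 2)))) (b⁻¹ • y)).symm
    rw [h2, ← integral_const_mul]
    refine integral_mono (((integrable_gauss hk hb).comp_sub_right (b⁻¹ • y)).const_mul _) (h.int1 hk ha y) fun x => ?_
    simp only
    rw [← Real.exp_add]
    refine Real.exp_le_exp.2 ?_
    have h3 := mul_le_mul_of_nonneg_left (h.hi x) hk.le
    have h4 : ‖x - b⁻¹ • y‖ ^ 2 = ‖x‖ ^ 2 - 2 * (b⁻¹ * inner ℝ x y) + b⁻¹ ^ 2 * ‖y‖ ^ 2 := by
      rw [norm_sub_sq_real, inner_smul_right, norm_smul, mul_pow, Real.norm_eq_abs, sq_abs]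
    rw [h4]
    have h5 : -(k * c 0) + k * (1 / b / 2 * ‖y‖ ^ 2) + -(k * (b / 2 * (‖x‖ ^ 2 - 2 * (b⁻¹ * inner ℝ x y) + b⁻¹ ^ 2 * ‖y‖ ^ 2)))
        = k * inner ℝ x y - k * (c 0 + b / 2 * ‖x‖ ^ 2) := by
      field_simp
      ring
    rw [h5]
    linarith
  have h6 := Real.log_le_log (mul_pos (Real.exp_pos _) (integral_exp_pos (integrable_gauss hk hb))) h1
  rw [Real.log_mul (Real.exp_pos _).ne' (integral_exp_pos (integrable_gauss hk hb)).ne', Real.log_exp] at h6
  rw [phi_eq]
  have h7 := mul_le_mul_of_nonneg_left h6 (by positivity : 0 ≤ 1 / k)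
  refine le_trans (le_of_eq ?_) h7
  unfold gc
  field_simp
  ring

theorem Qg.int2 (hk : 0 < k) (ha : 0 < a) (hb : 0 < b) (h : Qg a b c) (x : E) :
    Integrable fun y : E => Real.exp (k * inner ℝ x y - (k + 1) * phi k c y) := by
  have := integrable_exp_of_quad (a := 1 / b) (by positivity) (by linarith : 0 < k + 1) (measurable_phi h.meas)
    (h.phi_lo hk ha hb) k x
  refine this.congr (Eventually.of_forall fun y => ?_)
  simp only [real_inner_comm]

theorem Qg.int3 (hk : 0 < k) (ha : 0 < a) (hb : 0 < b) (h : Qg a b c) : Integrable fun y : E => Real.exp (-phi k c y) := by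
  have := integrable_exp_of_quad (a := 1 / b) (by positivity) one_pos (measurable_phi h.meas) (h.phi_lo hk ha hb) 0 0
  refine this.congr (Eventually.of_forall fun y => ?_)
  simp

theorem Qg.Z_pos (hk : 0 < k) (ha : 0 < a) (hb : 0 < b) (h : Qg a b c) : 0 < Z k c := integral_exp_pos (h.int3 hk ha hb)

/-- the joint density is integrable -/
theorem Qg.int_joint (hk : 0 < k) (ha : 0 < a) (hb : 0 < b) (h : Qg a b c) :
    Integrable (fun p : E × E => Real.exp (k * inner ℝ p.1 p.2 - k * c p.1 - (k + 1) * phi k c p.2))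
      ((volume : Measure E).prod volume) := by
  have hm : Measurable fun p : E × E => Real.exp (k * inner ℝ p.1 p.2 - k * c p.1 - (k + 1) * phi k c p.2) := by
    have : Measurable fun p : E × E => (inner ℝ p.1 p.2 : ℝ) := (continuous_fst.inner continuous_snd).measurable
    exact Real.measurable_exp.comp (((this.const_mul k).sub ((h.meas.comp measurable_fst).const_mul k)).sub
      (((measurable_phi h.meas).comp measurable_snd).const_mul (k + 1)))
  rw [integrable_prod_iff' hm.aestronglyMeasurable]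
  refine ⟨Eventually.of_forall fun y => ?_, ?_⟩
  · have := (h.int1 hk ha y).mul_const (Real.exp (-((k + 1) * phi k c y)))
    refine this.congr (Eventually.of_forall fun x => ?_)
    simp only
    rw [← Real.exp_add]
    congr 1
  · refine (h.int3 hk ha hb).congr (Eventually.of_forall fun y => ?_)
    simp only [Real.norm_eq_abs, abs_of_pos (Real.exp_pos _)]
    have h1 : (fun x : E => Real.exp (k * inner ℝ x y - k * c x - (k + 1) * phi k c y))
        = fun x : E => Real.exp (k * inner ℝ x y - k * c x) * Real.exp (-((k + 1) * phi k c y)) := by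
      ext x
      rw [← Real.exp_add]
      congr 1
    rw [h1, integral_mul_const, ← exp_phi hk (h.int1 hk ha y), ← Real.exp_add]
    congr 1
    ring

/-- `∫_x` of the joint density -/
theorem Qg.marg_y (hk : 0 < k) (ha : 0 < a) (h : Qg a b c) (y : E) :
    ∫ x : E, Real.exp (k * inner ℝ x y - k * c x - (k + 1) * phi k c y) = Real.exp (-phi k c y) := by
  have h1 : (fun x : E => Real.exp (k * inner ℝ x y - k * c x - (k + 1) * phi k c y))
      = fun x : E => Real.exp (k * inner ℝ x y - k * c x) * Real.exp (-((k + 1) * phi k c y)) := by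
    ext x
    rw [← Real.exp_add]
    congr 1
  rw [h1, integral_mul_const, ← exp_phi hk (h.int1 hk ha y), ← Real.exp_add]
  congr 1
  ring

/-- `∫_y` of the joint density -/
theorem Qg.marg_x (hk : 0 < k) (ha : 0 < a) (hb : 0 < b) (h : Qg a b c) (x : E) :
    ∫ y : E, Real.exp (k * inner ℝ x y - k * c x - (k + 1) * phi k c y) = Real.exp (-(k * c x - Q k c x)) := by
  have h1 : (fun y : E => Real.exp (k * inner ℝ x y - k * c x - (k + 1) * phi k c y))
      = fun y : E => Real.exp (k * inner ℝ x y - (k + 1) * phi k c y) * Real.exp (-(k * c x)) := by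
    ext y
    rw [← Real.exp_add]
    congr 1
    ring
  rw [h1, integral_mul_const, ← exp_Q (h.int2 hk ha hb x), ← Real.exp_add]
  congr 1
  ring

theorem Qg.int_W (hk : 0 < k) (ha : 0 < a) (hb : 0 < b) (h : Qg a b c) :
    Integrable (fun x : E => Real.exp (-(k * c x - Q k c x))) := by
  have h1 := (h.int_joint hk ha hb).integral_prod_left
  refine h1.congr (Eventually.of_forall fun x => ?_)
  exact h.marg_x hk ha hb x

theorem Qg.Z_eq (hk : 0 < k) (ha : 0 < a) (hb : 0 < b) (h : Qg a b c) :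
    ∫ x : E, Real.exp (-(k * c x - Q k c x)) = Z k c := by
  have h1 := integral_integral_swap (f := fun (x y : E) => Real.exp (k * inner ℝ x y - k * c x - (k + 1) * phi k c y))
    (h.int_joint hk ha hb)
  simp only [h.marg_x hk ha hb] at h1
  rw [h1]
  unfold Z
  congr 1
  ext y
  exact h.marg_y hk ha y

theorem Qg.integral_W (hk : 0 < k) (ha : 0 < a) (hb : 0 < b) (h : Qg a b c) :
    ∫ x : E, Real.exp (-W k c x) = 1 := by
  have hZ := h.Z_pos hk ha hb
  have h1 : (fun x : E => Real.exp (-W k c x)) = fun x => Real.exp (-(k * c x - Q k c x)) * (Z k c)⁻¹ := by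
    ext x
    unfold W
    rw [neg_add, Real.exp_add, Real.exp_neg (Real.log _), Real.exp_log hZ]
  rw [h1, integral_mul_const, h.Z_eq hk ha hb]
  field_simp

theorem Qg.integrable_exp_neg_W (hk : 0 < k) (ha : 0 < a) (hb : 0 < b) (h : Qg a b c) :
    Integrable fun x : E => Real.exp (-W k c x) := by
  by_contra hcon
  have := h.integral_W hk ha hb
  rw [integral_undef hcon] at this
  norm_num at this

/-- the key descent inequality for the mass -/
theorem Qg.mass_le (hk : 0 < k) (ha : 0 < a) (hb : 0 < b) (h : Qg a b c) (hT : Qg a b (T0 k V c))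
    (hVi : Integrable fun x : E => Real.exp (-V x)) (hV1 : ∫ x : E, Real.exp (-V x) = 1) :
    (1 + 1 / k) * Real.log (Z k c) ≤ Real.log (Z k (T0 k V c)) := by
  have hZ := h.Z_pos hk ha hb
  have hZ' := hT.Z_pos hk ha hb
  -- the function `t`
  have hkT : ∀ x, k * T0 k V c x = V x + Q k c x := fun x => by
    unfold T0
    field_simp
  have hMV : Measurable V := by
    have h1 : V = fun x => k * T0 k V c x - Q k c x := by
      ext x
      rw [hkT]
      ring
    rw [h1]
    exact (hT.meas.const_mul k).sub (measurable_Q h.meas)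
  have hFm : Measurable fun p : E × E => Real.exp (k * inner ℝ p.1 p.2 - k * T0 k V c p.1 - (k + 1) * phi k c p.2) := by
    have : Measurable fun p : E × E => (inner ℝ p.1 p.2 : ℝ) := (continuous_fst.inner continuous_snd).measurable
    exact Real.measurable_exp.comp (((this.const_mul k).sub ((hT.meas.comp measurable_fst).const_mul k)).sub
      (((measurable_phi h.meas).comp measurable_snd).const_mul (k + 1)))
  have hinner : ∀ x : E, ∫ y : E, Real.exp (k * inner ℝ x y - k * T0 k V c x - (k + 1) * phi k c y) = Real.exp (-V x) := by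
    intro x
    have h1 : (fun y : E => Real.exp (k * inner ℝ x y - k * T0 k V c x - (k + 1) * phi k c y))
        = fun y : E => Real.exp (k * inner ℝ x y - (k + 1) * phi k c y) * Real.exp (-(k * T0 k V c x)) := by
      ext y
      rw [← Real.exp_add]
      congr 1
      ring
    rw [h1, integral_mul_const, ← exp_Q (h.int2 hk ha hb x), ← Real.exp_add, hkT]
    congr 1
    ring
  have hFi : Integrable (fun p : E × E => Real.exp (k * inner ℝ p.1 p.2 - k * T0 k V c p.1 - (k + 1) * phi k c p.2))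
      ((volume : Measure E).prod volume) := by
    rw [integrable_prod_iff hFm.aestronglyMeasurable]
    refine ⟨Eventually.of_forall fun x => ?_, ?_⟩
    · have := (h.int2 hk ha hb x).mul_const (Real.exp (-(k * T0 k V c x)))
      refine this.congr (Eventually.of_forall fun y => ?_)
      simp only
      rw [← Real.exp_add]
      congr 1
      ring
    · refine hVi.congr (Eventually.of_forall fun x => ?_)
      simp only [Real.norm_eq_abs, abs_of_pos (Real.exp_pos _)]
      exact (hinner x).symm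
  have hswap := integral_integral_swap
    (f := fun (x y : E) => Real.exp (k * inner ℝ x y - k * T0 k V c x - (k + 1) * phi k c y)) hFi
  simp only [hinner] at hswap
  rw [hV1] at hswap
  have hy : ∀ y : E, ∫ x : E, Real.exp (k * inner ℝ x y - k * T0 k V c x - (k + 1) * phi k c y)
      = Real.exp (-phi k c y) * Real.exp (k * (phi k (T0 k V c) y - phi k c y)) := by
    intro y
    have h1 : (fun x : E => Real.exp (k * inner ℝ x y - k * T0 k V c x - (k + 1) * phi k c y))
        = fun x : E => Real.exp (k * inner ℝ x y - k * T0 k V c x) * Real.exp (-((k + 1) * phi k c y)) := by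
      ext x
      rw [← Real.exp_add]
      congr 1
    rw [h1, integral_mul_const, ← exp_phi hk (hT.int1 hk ha y), ← Real.exp_add, ← Real.exp_add]
    congr 1
    ring
  have hti : Integrable fun y : E => Real.exp (-phi k c y) * Real.exp (k * (phi k (T0 k V c) y - phi k c y)) := by
    refine hFi.integral_prod_right.congr (Eventually.of_forall fun y => ?_)
    exact hy y
  have ht1 : ∫ y : E, Real.exp (-phi k c y) * Real.exp (k * (phi k (T0 k V c) y - phi k c y)) = 1 := by
    rw [hswap]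
    congr 1
    ext y
    exact (hy y).symm
  -- pointwise inequality
  have hpt : ∀ y : E, Real.exp ((1 / k) * Real.log (Z k c)) * ((1 + 1 / k) * Real.exp (-phi k c y)
      - (Z k c / k) * (Real.exp (-phi k c y) * Real.exp (k * (phi k (T0 k V c) y - phi k c y))))
      ≤ Real.exp (-phi k (T0 k V c) y) := by
    intro y
    set t := Real.exp (k * (phi k (T0 k V c) y - phi k c y)) with ht
    have htp : 0 < t := Real.exp_pos _
    have h1 : Real.exp (-phi k (T0 k V c) y) = Real.exp ((1 / k) * Real.log (Z k c)) * (Real.exp (-phi k c y)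
        * Real.exp (-(1 / k) * Real.log (t * Z k c))) := by
      rw [Real.log_mul htp.ne' hZ.ne', ht, Real.log_exp, ← Real.exp_add, ← Real.exp_add]
      congr 1
      field_simp
      ring
    rw [h1]
    refine mul_le_mul_of_nonneg_left ?_ (Real.exp_pos _).le
    have h2 : 1 - (1 / k) * (t * Z k c - 1) ≤ Real.exp (-(1 / k) * Real.log (t * Z k c)) := by
      have h3 := Real.add_one_le_exp (-(1 / k) * Real.log (t * Z k c))
      have h4 := Real.log_le_sub_one_of_pos (mul_pos htp hZ)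
      have h5 := mul_le_mul_of_nonneg_left h4 (by positivity : 0 ≤ 1 / k)
      linarith
    calc (1 + 1 / k) * Real.exp (-phi k c y) - Z k c / k * (Real.exp (-phi k c y) * t)
        = Real.exp (-phi k c y) * (1 - (1 / k) * (t * Z k c - 1)) := by ring
      _ ≤ _ := mul_le_mul_of_nonneg_left h2 (Real.exp_pos _).le
  have hint := integral_mono ((((h.int3 hk ha hb).const_mul (1 + 1 / k)).sub (hti.const_mul (Z k c / k))).const_mul
    (Real.exp ((1 / k) * Real.log (Z k c)))) (hT.int3 hk ha hb) hpt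
  have hlhs : ∫ y : E, Real.exp ((1 / k) * Real.log (Z k c)) * ((1 + 1 / k) * Real.exp (-phi k c y)
      - (Z k c / k) * (Real.exp (-phi k c y) * Real.exp (k * (phi k (T0 k V c) y - phi k c y))))
      = Real.exp ((1 / k) * Real.log (Z k c)) * Z k c := by
    rw [integral_const_mul, integral_sub ((h.int3 hk ha hb).const_mul _) (hti.const_mul _), integral_const_mul,
      integral_const_mul, ht1]
    unfold Z
    ring
  have hfin : Real.exp ((1 / k) * Real.log (Z k c)) * Z k c ≤ Z k (T0 k V c) := by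
    rw [← hlhs]
    exact hint
  have := Real.log_le_log (by positivity) hfin
  rw [Real.log_mul (Real.exp_pos _).ne' hZ.ne', Real.log_exp] at this
  linarith

/-- **descent** -/
theorem Qg.descent (hk : 0 < k) (ha : 0 < a) (hb : 0 < b) (h : Qg a b c) (hT : Qg a b (T0 k V c))
    (hVi : Integrable fun x : E => Real.exp (-V x)) (hV1 : ∫ x : E, Real.exp (-V x) = 1)
    (hVV : Integrable fun x : E => V x * Real.exp (-V x))
    (hV2 : Integrable fun x : E => ‖x‖ ^ 2 * Real.exp (-V x)) :
    J k V (T0 k V c) ≤ J k V c - KL k V c / k := by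
  have hkT : ∀ x, k * T0 k V c x = V x + Q k c x := fun x => by
    unfold T0
    field_simp
  have hMV : Measurable V := by
    have h1 : V = fun x => k * T0 k V c x - Q k c x := by
      ext x
      rw [hkT]
      ring
    rw [h1]
    exact (hT.meas.const_mul k).sub (measurable_Q h.meas)
  have key : ∀ f : E → ℝ, (∀ x, f 0 + a / 2 * ‖x‖ ^ 2 ≤ f x) → (∀ x, f x ≤ f 0 + b / 2 * ‖x‖ ^ 2) → Measurable f →
      Integrable fun x : E => f x * Real.exp (-V x) := by
    intro f h1 h2 hf
    have h3 : Integrable fun x : E => |f 0| * Real.exp (-V x) + (|b| / 2) * (‖x‖ ^ 2 * Real.exp (-V x)) :=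
      (hVi.const_mul _).add (hV2.const_mul _)
    refine h3.mono' (hf.mul (Real.measurable_exp.comp hMV.neg)).aestronglyMeasurable (Eventually.of_forall fun x => ?_)
    rw [Real.norm_eq_abs, abs_mul, abs_of_pos (Real.exp_pos _)]
    have h4 : |f x| ≤ |f 0| + |b| / 2 * ‖x‖ ^ 2 := by
      have h5 := h1 x
      have h6 := h2 x
      have h7 : 0 ≤ a / 2 * ‖x‖ ^ 2 := by positivity
      have h8 : b / 2 * ‖x‖ ^ 2 ≤ |b| / 2 * ‖x‖ ^ 2 := by
        have := le_abs_self b
        gcongr
      have h9 := neg_abs_le (f 0)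
      have h10 := le_abs_self (f 0)
      rw [abs_le]
      constructor <;> [skip; linarith]
      have h11 : 0 ≤ |b| / 2 * ‖x‖ ^ 2 := by positivity
      linarith
    calc |f x| * Real.exp (-V x) ≤ (|f 0| + |b| / 2 * ‖x‖ ^ 2) * Real.exp (-V x) :=
          mul_le_mul_of_nonneg_right h4 (Real.exp_pos _).le
      _ = _ := by ring
  have hci := key c h.lo h.hi h.meas
  have hTi := key (T0 k V c) hT.lo hT.hi hT.meas
  have hQi : Integrable fun x : E => Q k c x * Real.exp (-V x) := by
    refine ((hTi.const_mul k).sub hVV).congr (Eventually.of_forall fun x => ?_)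
    simp only [Pi.sub_apply]
    rw [← mul_assoc, hkT]
    ring
  have e1 : ∫ x : E, T0 k V c x * Real.exp (-V x)
      = (1 / k) * ((∫ x : E, V x * Real.exp (-V x)) + ∫ x : E, Q k c x * Real.exp (-V x)) := by
    rw [← integral_add hVV hQi, ← integral_const_mul]
    congr 1
    ext x
    unfold T0
    field_simp
  have e2 : KL k V c = k * (∫ x : E, c x * Real.exp (-V x)) - (∫ x : E, Q k c x * Real.exp (-V x))
      + Real.log (Z k c) - ∫ x : E, V x * Real.exp (-V x) := by
    unfold KL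
    have h1 : (fun x : E => (W k c x - V x) * Real.exp (-V x)) = fun x => ((k * (c x * Real.exp (-V x))
        - Q k c x * Real.exp (-V x)) + Real.log (Z k c) * Real.exp (-V x)) - V x * Real.exp (-V x) := by
      ext x
      unfold W
      ring
    have i1 : Integrable fun x : E => k * (c x * Real.exp (-V x)) := hci.const_mul k
    have i2 : Integrable fun x : E => k * (c x * Real.exp (-V x)) - Q k c x * Real.exp (-V x) := i1.sub hQi
    have i3 : Integrable fun x : E => Real.log (Z k c) * Real.exp (-V x) := hVi.const_mul _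
    have i4 : Integrable fun x : E => k * (c x * Real.exp (-V x)) - Q k c x * Real.exp (-V x)
      + Real.log (Z k c) * Real.exp (-V x) := i2.add i3
    rw [h1, integral_sub i4 hVV, integral_add i2 i3, integral_sub i1 hQi,
      integral_const_mul, integral_const_mul, hV1, mul_one]
  have h3 := h.mass_le hk ha hb hT hVi hV1
  unfold J
  rw [e1, e2]
  have e3 : (k * (∫ x : E, c x * Real.exp (-V x)) - (∫ x : E, Q k c x * Real.exp (-V x))
      + Real.log (Z k c) - ∫ x : E, V x * Real.exp (-V x)) / k = (∫ x : E, c x * Real.exp (-V x))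
      - (1 / k) * (∫ x : E, Q k c x * Real.exp (-V x)) + (1 / k) * Real.log (Z k c)
      - (1 / k) * ∫ x : E, V x * Real.exp (-V x) := by
    field_simp
  rw [e3]
  nlinarith [h3]

/-- lower bound of the functional -/
theorem Qg.J_ge (hk : 0 < k) (ha : 0 < a) (hb : 0 < b) (h : Qg a b c)
    (hVi : Integrable fun x : E => Real.exp (-V x)) (hV1 : ∫ x : E, Real.exp (-V x) = 1)
    (hci : Integrable fun x : E => c x * Real.exp (-V x)) :
    gc E k b - Real.log (∫ y : E, Real.exp (-(1 * (1 / b / 2 * ‖y‖ ^ 2)))) ≤ J k V c := by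
  have hga : Integrable fun y : E => Real.exp (-(1 * (1 / b / 2 * ‖y‖ ^ 2))) := integrable_gauss one_pos (by positivity)
  have h1 : c 0 ≤ ∫ x : E, c x * Real.exp (-V x) := by
    have h2 : ∫ x : E, c 0 * Real.exp (-V x) = c 0 := by rw [integral_const_mul, hV1, mul_one]
    rw [← h2]
    refine integral_mono (hVi.const_mul _) hci fun x => ?_
    refine mul_le_mul_of_nonneg_right ?_ (Real.exp_pos _).le
    have : 0 ≤ a / 2 * ‖x‖ ^ 2 := by positivity
    linarith [h.lo x]
  have h7 : Real.log (Z k c) ≤ (c 0 - gc E k b) + Real.log (∫ y : E, Real.exp (-(1 * (1 / b / 2 * ‖y‖ ^ 2)))) := by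
    have h8 : Z k c ≤ Real.exp (c 0 - gc E k b) * ∫ y : E, Real.exp (-(1 * (1 / b / 2 * ‖y‖ ^ 2))) := by
      unfold Z
      rw [← integral_const_mul]
      refine integral_mono (h.int3 hk ha hb) (hga.const_mul _) fun y => ?_
      simp only
      rw [← Real.exp_add]
      refine Real.exp_le_exp.2 ?_
      linarith [h.phi_lo hk ha hb y]
    have h9 := Real.log_le_log (h.Z_pos hk ha hb) h8
    rwa [Real.log_mul (Real.exp_pos _).ne' (integral_exp_pos hga).ne', Real.log_exp] at h9
  unfold J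
  linarith

/-! ### shifts -/

theorem phi_add_const (hk : 0 < k) (s : ℝ) (y : E) (h : Qg a b c) (ha : 0 < a) :
    phi k (fun x => c x + s) y = phi k c y - s := by
  rw [phi_eq, phi_eq]
  have h1 : (fun x : E => Real.exp (k * inner ℝ x y - k * (c x + s)))
      = fun x => Real.exp (k * inner ℝ x y - k * c x) * Real.exp (-(k * s)) := by
    ext x
    rw [← Real.exp_add]
    congr 1
    ring
  rw [h1, integral_mul_const, Real.log_mul (integral_exp_pos (h.int1 hk ha y)).ne' (Real.exp_pos _).ne', Real.log_exp]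
  field_simp
  ring

theorem Q_add_const (hk : 0 < k) (s : ℝ) (x : E) (h : Qg a b c) (ha : 0 < a) (hb : 0 < b) :
    Q k (fun x => c x + s) x = Q k c x + (k + 1) * s := by
  rw [Q_eq, Q_eq]
  have h1 : (fun y : E => Real.exp (k * inner ℝ x y - (k + 1) * phi k (fun x => c x + s) y))
      = fun y => Real.exp (k * inner ℝ x y - (k + 1) * phi k c y) * Real.exp ((k + 1) * s) := by
    ext y
    rw [phi_add_const hk s y h ha, ← Real.exp_add]
    congr 1
    ring
  rw [h1, integral_mul_const, Real.log_mul (integral_exp_pos (h.int2 hk ha hb x)).ne' (Real.exp_pos _).ne', Real.log_exp]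

theorem Z_add_const (hk : 0 < k) (s : ℝ) (h : Qg a b c) (ha : 0 < a) :
    Z k (fun x => c x + s) = Z k c * Real.exp s := by
  unfold Z
  rw [← integral_mul_const]
  congr 1
  ext y
  rw [phi_add_const hk s y h ha, ← Real.exp_add]
  congr 1
  ring

theorem J_add_const (hk : 0 < k) (s : ℝ) (h : Qg a b c) (ha : 0 < a) (hb : 0 < b)
    (hVi : Integrable fun x : E => Real.exp (-V x)) (hV1 : ∫ x : E, Real.exp (-V x) = 1)
    (hci : Integrable fun x : E => c x * Real.exp (-V x)) :
    J k V (fun x => c x + s) = J k V c := by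
  unfold J
  rw [Z_add_const hk s h ha, Real.log_mul (h.Z_pos hk ha hb).ne' (Real.exp_pos _).ne', Real.log_exp]
  have h1 : (fun x : E => (c x + s) * Real.exp (-V x)) = fun x => c x * Real.exp (-V x) + s * Real.exp (-V x) := by
    ext x
    ring
  rw [h1, integral_add hci (hVi.const_mul s), integral_const_mul, hV1]
  ring

theorem Qg.add_const (s : ℝ) (h : Qg a b c) : Qg a b (fun x => c x + s) :=
  ⟨h.meas.add_const s, fun x => by linarith [h.lo x], fun x => by linarith [h.hi x]⟩

/-- hypotheses on the target potential -/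
structure Pot (V : E → ℝ) : Prop where
  meas : Measurable V
  int0 : Integrable fun x : E => Real.exp (-V x)
  one : ∫ x : E, Real.exp (-V x) = 1
  intV : Integrable fun x : E => V x * Real.exp (-V x)
  int2 : Integrable fun x : E => ‖x‖ ^ 2 * Real.exp (-V x)

theorem Qg.integrable (ha : 0 < a) (hb : 0 < b) (h : Qg a b c) (hV : Pot V) : Integrable fun x : E => c x * Real.exp (-V x) := by
  have h3 : Integrable fun x : E => |c 0| * Real.exp (-V x) + (b / 2) * (‖x‖ ^ 2 * Real.exp (-V x)) :=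
    (hV.int0.const_mul _).add (hV.int2.const_mul _)
  refine h3.mono' (h.meas.mul (Real.measurable_exp.comp hV.meas.neg)).aestronglyMeasurable (Eventually.of_forall fun x => ?_)
  rw [Real.norm_eq_abs, abs_mul, abs_of_pos (Real.exp_pos _)]
  have h4 : |c x| ≤ |c 0| + b / 2 * ‖x‖ ^ 2 := by
    have h5 := h.lo x
    have h6 := h.hi x
    have h7 : 0 ≤ a / 2 * ‖x‖ ^ 2 := by positivity
    have h9 := neg_abs_le (c 0)
    have h10 := le_abs_self (c 0)
    have h11 : 0 ≤ b / 2 * ‖x‖ ^ 2 := by positivity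
    rw [abs_le]
    constructor <;> linarith
  calc |c x| * Real.exp (-V x) ≤ (|c 0| + b / 2 * ‖x‖ ^ 2) * Real.exp (-V x) :=
        mul_le_mul_of_nonneg_right h4 (Real.exp_pos _).le
    _ = _ := by ring

/-- descent for the normalised map -/
theorem descentN (hk : 0 < k) (ha : 0 < a) (hb : 0 < b) (hV : Pot V) (h : Qg a b c) (hT : Qg a b (T k V c)) :
    J k V (T k V c) ≤ J k V c - KL k V c / k := by
  have h1 : T0 k V c = fun x => T k V c x + (V 0 + Q k c 0) / k := by
    ext x
    unfold T0 T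
    ring
  have h2 : Qg a b (T0 k V c) := by
    rw [h1]
    exact hT.add_const _
  have h3 := h.descent hk ha hb h2 hV.int0 hV.one hV.intV hV.int2
  have h4 : J k V (T0 k V c) = J k V (T k V c) := by
    rw [h1]
    exact J_add_const hk _ hT ha hb hV.int0 hV.one (hT.integrable ha hb hV)
  rwa [h4] at h3

/-- **small relative entropy along the iteration**, for any invariant class `P` -/
theorem exists_KL_le (hk : 0 < k) (ha : 0 < a) (hb : 0 < b) (hV : Pot V) (P : (E → ℝ) → Prop) (c₀ : E → ℝ) (h0 : P c₀)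
    (hPT : ∀ c, P c → P (T k V c)) (hPG : ∀ c, P c → Qg a b c) {ε : ℝ} (hε : 0 < ε) :
    ∃ c, P c ∧ KL k V c ≤ ε := by
  by_contra hcon
  simp only [not_exists, not_and, not_le] at hcon
  have hPi : ∀ i : ℕ, P ((T k V)^[i] c₀) := by
    intro i
    induction i with
    | zero => exact h0
    | succ i ih =>
      rw [Function.iterate_succ_apply']
      exact hPT _ ih
  have hJi : ∀ i : ℕ, J k V ((T k V)^[i] c₀) ≤ J k V c₀ - i * (ε / k) := by
    intro i
    induction i with
    | zero => simp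
    | succ i ih =>
      rw [Function.iterate_succ_apply']
      have h1 := descentN hk ha hb hV (hPG _ (hPi i)) (hPG _ (hPT _ (hPi i)))
      have h2 := (hcon _ (hPi i)).le
      have h3 : ε / k ≤ KL k V ((T k V)^[i] c₀) / k := by gcongr
      push_cast
      linarith
  set m := gc E k b - Real.log (∫ y : E, Real.exp (-(1 * (1 / b / 2 * ‖y‖ ^ 2)))) with hm
  obtain ⟨i, hi⟩ := exists_nat_gt ((J k V c₀ - m) / (ε / k))
  have h1 := (hPG _ (hPi i)).J_ge hk ha hb hV.int0 hV.one ((hPG _ (hPi i)).integrable ha hb hV)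
  rw [← hm] at h1
  have h2 := hJi i
  rw [div_lt_iff₀ (by positivity)] at hi
  linarith

end Vale.Agent.P227.M.LK.Dsc
end
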