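import Mathlib
import Vale.Agent.P227.PL
import Vale.Agent.P254.MathlibUsed

set_option linter.all false

section

/-!
P227/M, tool: for Lipschitz `W`, `Φ` (`Φ` with compact support), mixed products of first derivatives
can be exchanged: `∫ ∂_a W ∂_e Φ = ∫ ∂_e W ∂_a Φ` (no mollification).
-/

open MeasureTheory Metric Set Filter Topology Measure
open scoped NNReal

namespace Vale.Agent.P227.M.Tool

variable {E : Type*} [NormedAddCommGroup E] [NormedSpace ℝ E] [FiniteDimensional ℝ E]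
  [MeasurableSpace E] [BorelSpace E] {μ : Measure E} [IsAddHaarMeasure μ]
  {C D : ℝ≥0} {W Φ : E → ℝ}

/-- difference quotients of a compactly supported Lipschitz function against a bounded function -/
theorem tendsto_quot_mul_of_bdd {f g : E → ℝ} (hf : LipschitzWith C f) (h'f : HasCompactSupport f)
    (hg : AEStronglyMeasurable g μ) {B : ℝ} (hB : ∀ x, ‖g x‖ ≤ B) (v : E) :
    Tendsto (fun t : ℝ ↦ ∫ x, (t⁻¹ • (f (x + t • v) - f x)) * g x ∂μ) (𝓝[>] 0)
      (𝓝 (∫ x, lineDeriv ℝ f x v * g x ∂μ)) := by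
  let K := cthickening (‖v‖) (tsupport f)
  have K_compact : IsCompact K := IsCompact.cthickening h'f
  have hgK : Integrable (K.indicator g) μ := by
    rw [integrable_indicator_iff K_compact.measurableSet]
    exact Measure.integrableOn_of_bounded K_compact.measure_lt_top.ne hg
      (Eventually.of_forall hB)
  have key := hf.integral_inv_smul_sub_mul_tendsto_integral_lineDeriv_mul hgK v
  have hlim : ∫ x, lineDeriv ℝ f x v * K.indicator g x ∂μ = ∫ x, lineDeriv ℝ f x v * g x ∂μ := by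
    refine integral_congr_ae (Eventually.of_forall fun x => ?_)
    by_cases hx : x ∈ K
    · simp [indicator_of_mem hx]
    · have hx' : x ∉ tsupport f := fun h => hx (self_subset_cthickening _ h)
      have h0 : lineDeriv ℝ f x v = 0 := by
        have : (fun t : ℝ => f (x + t • v)) =ᶠ[𝓝 0] fun _ => 0 := by
          have ho : IsOpen ((tsupport f)ᶜ) := (isClosed_tsupport f).isOpen_compl
          have hcont : Continuous fun t : ℝ => x + t • v := by fun_prop
          have : ∀ᶠ t in 𝓝 (0 : ℝ), x + t • v ∈ (tsupport f)ᶜ := by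
            apply hcont.continuousAt.eventually_mem
            apply ho.mem_nhds
            simpa using hx'
          filter_upwards [this] with t ht
          exact image_eq_zero_of_notMem_tsupport ht
        rw [lineDeriv, this.deriv_eq]; simp
      simp [h0]
  rw [hlim] at key
  refine key.congr' ?_
  filter_upwards [Ioc_mem_nhdsGT zero_lt_one] with t ht
  refine integral_congr_ae (Eventually.of_forall fun x => ?_)
  have t_pos : 0 < t := ht.1
  by_cases hx : x ∈ K
  · simp [indicator_of_mem hx]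
  · have A : f x = 0 := by
      rw [← Function.notMem_support]
      contrapose hx
      exact self_subset_cthickening _ (subset_tsupport _ hx)
    have B' : f (x + t • v) = 0 := by
      rw [← Function.notMem_support]
      contrapose hx
      apply mem_cthickening_of_dist_le _ _ (‖v‖) (tsupport f) (subset_tsupport _ hx)
      simp only [dist_eq_norm, sub_add_cancel_left, norm_neg, norm_smul, Real.norm_eq_abs,
        abs_of_nonneg t_pos.le]
      exact mul_le_of_le_one_left (norm_nonneg v) ht.2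
    simp [A, B']

omit [FiniteDimensional ℝ E] [MeasurableSpace E] [BorelSpace E] in
theorem norm_lineDeriv_le' (hW : LipschitzWith C W) (a x : E) : ‖lineDeriv ℝ W x a‖ ≤ C * ‖a‖ := by
  have := norm_lineDeriv_le_of_lip' (𝕜 := ℝ) (f := W) (x₀ := x) (C := (C : ℝ)) (v := a) C.coe_nonneg
    (Eventually.of_forall fun y => hW.norm_sub_le y x)
  simpa using this

/-- **swap**: `∫ ∂_a W ∂_e Φ = ∫ ∂_e W ∂_a Φ`. -/
theorem swap_lineDeriv (hW : LipschitzWith C W) (hP : LipschitzWith D Φ) (hc : HasCompactSupport Φ)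
    (a e : E) :
    ∫ x, lineDeriv ℝ W x a * lineDeriv ℝ Φ x e ∂μ = ∫ x, lineDeriv ℝ W x e * lineDeriv ℝ Φ x a ∂μ := by
  -- integrability of `lineDeriv Φ`
  have hmeasW : ∀ v, AEStronglyMeasurable (fun x => lineDeriv ℝ W x v) μ := fun v =>
    (aemeasurable_lineDeriv hW.continuous μ).aestronglyMeasurable
  have hmeasP : ∀ v, AEStronglyMeasurable (fun x => lineDeriv ℝ Φ x v) μ := fun v =>
    (aemeasurable_lineDeriv hP.continuous μ).aestronglyMeasurable
  have hsupp : ∀ v x, x ∉ tsupport Φ → lineDeriv ℝ Φ x v = 0 := by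
    intro v x hx'
    have : (fun t : ℝ => Φ (x + t • v)) =ᶠ[𝓝 0] fun _ => 0 := by
      have ho : IsOpen ((tsupport Φ)ᶜ) := (isClosed_tsupport Φ).isOpen_compl
      have hcont : Continuous fun t : ℝ => x + t • v := by fun_prop
      have : ∀ᶠ t in 𝓝 (0 : ℝ), x + t • v ∈ (tsupport Φ)ᶜ := by
        apply hcont.continuousAt.eventually_mem
        apply ho.mem_nhds
        simpa using hx'
      filter_upwards [this] with t ht
      exact image_eq_zero_of_notMem_tsupport ht
    rw [lineDeriv, this.deriv_eq]; simp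
  have hintP : ∀ v, Integrable (fun x => lineDeriv ℝ Φ x v) μ := by
    intro v
    have h1 : IntegrableOn (fun x => lineDeriv ℝ Φ x v) (tsupport Φ) μ :=
      Measure.integrableOn_of_bounded hc.measure_lt_top.ne (hmeasP v)
        (Eventually.of_forall fun x => norm_lineDeriv_le' hP v x)
    exact (integrableOn_iff_integrable_of_support_subset (fun x hx => by
      by_contra h; exact hx (hsupp v x h))).1 h1
  -- quotient function
  have hq : ∀ t : ℝ, ∃ C', LipschitzWith C' fun x => t⁻¹ • (W (x + t • a) - W x) := by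
    intro t
    have h1 : LipschitzWith C fun x => W (x + t • a) := by
      have := hW.comp (isometry_add_right (t • a)).lipschitz
      simpa [Function.comp_def] using this
    have h2 := (h1.sub hW)
    have h3 := (lipschitzWith_smul (t⁻¹ : ℝ) (β := ℝ)).comp h2
    exact ⟨_, h3⟩
  -- step 1 : for every `t`, integrate by parts
  have S1 : ∀ t : ℝ, ∫ x, (t⁻¹ • (W (x + t • a) - W x)) * lineDeriv ℝ Φ x (-e) ∂μ =
      ∫ x, (t⁻¹ • (Φ (x + t • (-a)) - Φ x)) * lineDeriv ℝ W x e ∂μ := by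
    intro t
    obtain ⟨C', hC'⟩ := hq t
    have h1 := hC'.integral_lineDeriv_mul_eq (μ := μ) hP hc e
    have h2 : ∫ x, (t⁻¹ • (W (x + t • a) - W x)) * lineDeriv ℝ Φ x (-e) ∂μ =
        ∫ x, lineDeriv ℝ (fun x => t⁻¹ • (W (x + t • a) - W x)) x e * Φ x ∂μ := by
      rw [h1]; exact integral_congr_ae (Eventually.of_forall fun x => mul_comm _ _)
    rw [h2]
    -- a.e. formula for the derivative of the quotient
    have hd : ∀ᵐ x ∂μ, DifferentiableAt ℝ W x := hW.ae_differentiableAt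
    have hd' : ∀ᵐ x ∂μ, DifferentiableAt ℝ W (x + t • a) := by
      have : QuasiMeasurePreserving (fun x : E => x + t • a) μ μ :=
        (measurePreserving_add_right μ (t • a)).quasiMeasurePreserving
      exact this.ae hd
    have h3 : ∫ x, lineDeriv ℝ (fun x => t⁻¹ • (W (x + t • a) - W x)) x e * Φ x ∂μ =
        ∫ x, (t⁻¹ * (lineDeriv ℝ W (x + t • a) e - lineDeriv ℝ W x e)) * Φ x ∂μ := by
      refine integral_congr_ae ?_
      filter_upwards [hd, hd'] with x hx hx'
      have e1 : HasFDerivAt (fun x => W (x + t • a)) (fderiv ℝ W (x + t • a)) x := by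
        have := hx'.hasFDerivAt.comp x ((hasFDerivAt_id x).add_const (t • a))
        simpa [Function.comp_def] using this
      have e2 : HasFDerivAt (fun x => t⁻¹ • (W (x + t • a) - W x))
          (t⁻¹ • (fderiv ℝ W (x + t • a) - fderiv ℝ W x)) x :=
        (e1.sub hx.hasFDerivAt).const_smul t⁻¹
      have e3 : lineDeriv ℝ (fun x => t⁻¹ • (W (x + t • a) - W x)) x e =
          t⁻¹ * (lineDeriv ℝ W (x + t • a) e - lineDeriv ℝ W x e) := by
        rw [(e2.hasLineDerivAt e).lineDeriv, (hx'.hasFDerivAt.hasLineDerivAt e).lineDeriv,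
          (hx.hasFDerivAt.hasLineDerivAt e).lineDeriv]
        simp
      show lineDeriv ℝ (fun x => t⁻¹ • (W (x + t • a) - W x)) x e * Φ x = _
      rw [e3]
    rw [h3]
    -- translate
    have i1 : Integrable (fun x => lineDeriv ℝ W (x + t • a) e * Φ x) μ := by
      refine (hP.continuous.integrable_of_hasCompactSupport hc).bdd_mul (c := C * ‖e‖) ?_ ?_
      · exact (hmeasW e).comp_quasiMeasurePreserving
          (measurePreserving_add_right μ (t • a)).quasiMeasurePreserving
      · exact Eventually.of_forall fun x => norm_lineDeriv_le' hW e _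
    have i2 : Integrable (fun x => lineDeriv ℝ W x e * Φ x) μ := by
      refine (hP.continuous.integrable_of_hasCompactSupport hc).bdd_mul (c := C * ‖e‖) (hmeasW e) ?_
      exact Eventually.of_forall fun x => norm_lineDeriv_le' hW e _
    have hc' : HasCompactSupport fun x => Φ (x + t • (-a)) :=
      hc.comp_homeomorph (Homeomorph.addRight (t • (-a)))
    have hcont' : Continuous fun x => Φ (x + t • (-a)) :=
      hP.continuous.comp (continuous_add_const _)
    have i3 : Integrable (fun x => lineDeriv ℝ W x e * Φ (x + t • (-a))) μ := by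
      refine (hcont'.integrable_of_hasCompactSupport hc').bdd_mul (c := C * ‖e‖) (hmeasW e) ?_
      exact Eventually.of_forall fun x => norm_lineDeriv_le' hW e _
    have S3 : ∫ x, lineDeriv ℝ W (x + t • a) e * Φ x ∂μ =
        ∫ x, lineDeriv ℝ W x e * Φ (x + t • (-a)) ∂μ := by
      rw [← integral_add_right_eq_self (fun x => lineDeriv ℝ W x e * Φ (x + t • (-a))) (t • a)]
      simp
    calc ∫ x, (t⁻¹ * (lineDeriv ℝ W (x + t • a) e - lineDeriv ℝ W x e)) * Φ x ∂μ
        = t⁻¹ * (∫ x, lineDeriv ℝ W (x + t • a) e * Φ x ∂μ - ∫ x, lineDeriv ℝ W x e * Φ x ∂μ) := by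
          rw [← integral_sub i1 i2, ← integral_const_mul]
          exact integral_congr_ae (Eventually.of_forall fun x => by ring)
      _ = t⁻¹ * (∫ x, lineDeriv ℝ W x e * Φ (x + t • (-a)) ∂μ -
            ∫ x, lineDeriv ℝ W x e * Φ x ∂μ) := by rw [S3]
      _ = ∫ x, (t⁻¹ • (Φ (x + t • (-a)) - Φ x)) * lineDeriv ℝ W x e ∂μ := by
          rw [← integral_sub i3 i2, ← integral_const_mul]
          refine integral_congr_ae (Eventually.of_forall fun x => ?_)
          simp only [smul_eq_mul]; ring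
  -- limits
  have L1 := hW.integral_inv_smul_sub_mul_tendsto_integral_lineDeriv_mul (hintP (-e)) a
  have L2 := tendsto_quot_mul_of_bdd (μ := μ) hP hc (hmeasW e) (norm_lineDeriv_le' hW e) (-a)
  simp only [S1] at L1
  have := tendsto_nhds_unique L1 L2
  simp only [lineDeriv_neg, mul_neg, neg_mul, integral_neg, neg_inj] at this
  rw [this]
  exact integral_congr_ae (Eventually.of_forall fun x => mul_comm _ _)

/-- the same with Fréchet derivatives -/
theorem swap_fderiv (hW : LipschitzWith C W) (hP : LipschitzWith D Φ) (hc : HasCompactSupport Φ)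
    (a e : E) :
    ∫ x, fderiv ℝ W x a * fderiv ℝ Φ x e ∂μ = ∫ x, fderiv ℝ W x e * fderiv ℝ Φ x a ∂μ := by
  have h := swap_lineDeriv (μ := μ) hW hP hc a e
  have hd1 : ∀ᵐ x ∂μ, DifferentiableAt ℝ W x := hW.ae_differentiableAt
  have hd2 : ∀ᵐ x ∂μ, DifferentiableAt ℝ Φ x := hP.ae_differentiableAt
  have e1 : ∫ x, fderiv ℝ W x a * fderiv ℝ Φ x e ∂μ =
      ∫ x, lineDeriv ℝ W x a * lineDeriv ℝ Φ x e ∂μ := by
    refine integral_congr_ae ?_
    filter_upwards [hd1, hd2] with x h1 h2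
    rw [h1.lineDeriv_eq_fderiv, h2.lineDeriv_eq_fderiv]
  have e2 : ∫ x, fderiv ℝ W x e * fderiv ℝ Φ x a ∂μ =
      ∫ x, lineDeriv ℝ W x e * lineDeriv ℝ Φ x a ∂μ := by
    refine integral_congr_ae ?_
    filter_upwards [hd1, hd2] with x h1 h2
    rw [h1.lineDeriv_eq_fderiv, h2.lineDeriv_eq_fderiv]
  rw [e1, e2, h]

end Vale.Agent.P227.M.Tool
end

section

/-!
P227, block LIM: the gradient map of a uniformly convex function is a `C^1` diffeomorphism;
pointwise Monge-Ampere equation from the push forward identity (helper940).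
-/

namespace Vale.Agent.P227.M.LIM

open MeasureTheory Set Filter Topology
open scoped NNReal RealInnerProductSpace ContDiff

noncomputable section

set_option linter.unusedSectionVars false
set_option linter.unusedVariables false

variable {E : Type*} [NormedAddCommGroup E] [InnerProductSpace ℝ E] [FiniteDimensional ℝ E]

/-- a coercive linear map has positive determinant -/
theorem det_pos_of_coercive {a : ℝ} (ha : 0 < a) (D : E →L[ℝ] E)
    (h : ∀ v, a * ‖v‖ ^ 2 ≤ ⟪D v, v⟫) : 0 < D.det := by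
  obtain ⟨f, hf⟩ : ∃ f : ℝ → ℝ, f = fun t =>
      (t • (ContinuousLinearMap.id ℝ E) + (1 - t) • D).det := ⟨_, rfl⟩
  have hcont : Continuous f := by
    rw [hf]
    exact ContinuousLinearMap.continuous_det.comp (by fun_prop)
  have hne : ∀ t ∈ Icc (0 : ℝ) 1, f t ≠ 0 := by
    intro t ht h0
    rw [hf] at h0
    obtain ⟨v, hv, hv0⟩ : ∃ v : E, v ∈ LinearMap.ker
        ((t • (ContinuousLinearMap.id ℝ E) + (1 - t) • D : E →L[ℝ] E) : E →ₗ[ℝ] E) ∧ v ≠ 0 := by
      have h1 := LinearMap.bot_lt_ker_of_det_eq_zero h0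
      exact (Submodule.ne_bot_iff _).1 h1.ne'
    have h2 : t • v + (1 - t) • D v = 0 := by
      simpa using hv
    have h3 : t * ‖v‖ ^ 2 + (1 - t) * ⟪D v, v⟫ = 0 := by
      have h4 : ⟪t • v + (1 - t) • D v, v⟫ = 0 := by
        rw [h2, inner_zero_left]
      rwa [inner_add_left, real_inner_smul_left, real_inner_smul_left,
        real_inner_self_eq_norm_sq] at h4
    have h5 : 0 < ‖v‖ ^ 2 := by positivity
    have h6 := h v
    have h7 : (1 - t) * (a * ‖v‖ ^ 2) ≤ (1 - t) * ⟪D v, v⟫ :=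
      mul_le_mul_of_nonneg_left h6 (by linarith [ht.2])
    have h8 : 0 < t + (1 - t) * a := by
      rcases eq_or_lt_of_le ht.1 with h | h
      · rw [← h]
        linarith
      · have : 0 ≤ (1 - t) * a := mul_nonneg (by linarith [ht.2]) ha.le
        linarith
    have h9 : 0 < (t + (1 - t) * a) * ‖v‖ ^ 2 := mul_pos h8 h5
    nlinarith
  have h1 : f 1 = 1 := by
    rw [hf]
    simp [ContinuousLinearMap.det]
  have h0 : f 0 = D.det := by
    rw [hf]
    simp [ContinuousLinearMap.det]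
  rw [← h0]
  by_contra hle
  push Not at hle
  have h2 : (0 : ℝ) ∈ Icc (f 0) (f 1) := ⟨hle, by rw [h1]; exact zero_le_one⟩
  obtain ⟨t, ht, ht0⟩ := intermediate_value_Icc zero_le_one hcont.continuousOn h2
  exact hne t ht ht0

section Map

variable {a : ℝ} {g : E → E}

theorem norm_le_of_mono (ha : 0 < a) (hm : ∀ x y, a * ‖x - y‖ ^ 2 ≤ ⟪g x - g y, x - y⟫) (x y : E) :
    a * ‖x - y‖ ≤ ‖g x - g y‖ := by
  rcases eq_or_ne x y with h | h
  · simp [h]
  have h1 : 0 < ‖x - y‖ := norm_pos_iff.2 (sub_ne_zero.2 h)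
  have h2 := (hm x y).trans (real_inner_le_norm _ _)
  have h3 : (a * ‖x - y‖) * ‖x - y‖ ≤ ‖g x - g y‖ * ‖x - y‖ := by nlinarith
  exact le_of_mul_le_mul_right h3 h1

theorem injective_of_mono (ha : 0 < a) (hm : ∀ x y, a * ‖x - y‖ ^ 2 ≤ ⟪g x - g y, x - y⟫) :
    Function.Injective g := by
  intro x y h
  have h1 := norm_le_of_mono ha hm x y
  rw [h, sub_self, norm_zero] at h1
  have h2 : ‖x - y‖ ≤ 0 := by
    by_contra h3
    push Not at h3
    have := mul_pos ha h3
    linarith
  exact sub_eq_zero.1 (norm_le_zero_iff.1 h2)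

theorem antilipschitz_of_mono (ha : 0 < a)
    (hm : ∀ x y, a * ‖x - y‖ ^ 2 ≤ ⟪g x - g y, x - y⟫) :
    AntilipschitzWith (Real.toNNReal a⁻¹) g := by
  refine AntilipschitzWith.of_le_mul_dist fun x y => ?_
  rw [dist_eq_norm, dist_eq_norm, Real.coe_toNNReal _ (by positivity)]
  have h1 := norm_le_of_mono ha hm x y
  rw [inv_mul_eq_div, le_div_iff₀ ha, mul_comm]
  exact h1

theorem fderiv_coercive_of_mono (hg : Differentiable ℝ g)
    (hm : ∀ x y, a * ‖x - y‖ ^ 2 ≤ ⟪g x - g y, x - y⟫) (x v : E) :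
    a * ‖v‖ ^ 2 ≤ ⟪fderiv ℝ g x v, v⟫ := by
  have h1 : HasDerivAt (fun t : ℝ => g (x + t • v)) (fderiv ℝ g x v) 0 := by
    have h2 : HasDerivAt (fun t : ℝ => x + t • v) v 0 := by
      simpa using ((hasDerivAt_id (0 : ℝ)).smul_const v).const_add x
    have h3 : HasFDerivAt g (fderiv ℝ g x) (x + (0 : ℝ) • v) := by
      simpa using (hg x).hasFDerivAt
    exact h3.comp_hasDerivAt 0 h2
  have h4 : HasDerivAt (fun t : ℝ => ⟪g (x + t • v), v⟫) ⟪fderiv ℝ g x v, v⟫ 0 := by
    have := h1.inner ℝ (hasDerivAt_const (0 : ℝ) v)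
    simpa using this
  have h5 := h4.tendsto_slope_zero_right
  refine ge_of_tendsto h5 ?_
  filter_upwards [self_mem_nhdsWithin] with t ht
  have ht' : (0 : ℝ) < t := ht
  have h6 := hm (x + t • v) x
  rw [add_sub_cancel_left, norm_smul, Real.norm_eq_abs, abs_of_pos ht', real_inner_smul_right,
    inner_sub_left] at h6
  have h7 : a * ‖v‖ ^ 2 * t ≤ ⟪g (x + t • v), v⟫ - ⟪g x, v⟫ := by
    have : t * (a * ‖v‖ ^ 2 * t) ≤ t * (⟪g (x + t • v), v⟫ - ⟪g x, v⟫) := by nlinarith
    exact le_of_mul_le_mul_left this ht'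
  simp only [zero_add, zero_smul, add_zero, smul_eq_mul]
  rw [inv_mul_eq_div, le_div_iff₀ ht']
  exact h7

theorem det_pos_of_mono (ha : 0 < a) (hg : Differentiable ℝ g)
    (hm : ∀ x y, a * ‖x - y‖ ^ 2 ≤ ⟪g x - g y, x - y⟫) (x : E) : 0 < (fderiv ℝ g x).det :=
  det_pos_of_coercive ha _ (fderiv_coercive_of_mono hg hm x)

theorem surjective_of_mono (ha : 0 < a) (hg : ContDiff ℝ 1 g)
    (hm : ∀ x y, a * ‖x - y‖ ^ 2 ≤ ⟪g x - g y, x - y⟫) : Function.Surjective g := by
  have hd : Differentiable ℝ g := hg.differentiable (by norm_num)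
  have hopen : IsOpenMap g := by
    have h1 : ∀ x, ∃ e : E ≃L[ℝ] E, (e : E →L[ℝ] E) = fderiv ℝ g x := fun x => by
      have h2 : (fderiv ℝ g x).det ≠ 0 := (det_pos_of_mono ha hd hm x).ne'
      exact ⟨(fderiv ℝ g x).toContinuousLinearEquivOfDetNeZero h2,
        ContinuousLinearMap.coe_toContinuousLinearEquivOfDetNeZero _ h2⟩
    choose e he using h1
    refine isOpenMap_of_hasStrictFDerivAt_equiv (f' := e) fun x => ?_
    rw [he]
    exact hg.contDiffAt.hasStrictFDerivAt (by norm_num)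
  have hclosed : IsClosedMap g := by
    have h1 := (antilipschitz_of_mono ha hm).tendsto_cobounded
    rw [Metric.cobounded_eq_cocompact] at h1
    exact (isProperMap_iff_tendsto_cocompact.2 ⟨hg.continuous, h1⟩).isClosedMap
  have h2 : IsClopen (range g) := ⟨by
    rw [← image_univ]
    exact hclosed _ isClosed_univ, hopen.isOpen_range⟩
  have h3 : range g = univ := h2.eq_univ ⟨g 0, mem_range_self 0⟩
  exact range_eq_univ.1 h3

variable [MeasurableSpace E] [BorelSpace E]

/-- change of variables for the whole space -/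
theorem integral_comp_mul_det (ha : 0 < a) (hg : ContDiff ℝ 1 g)
    (hm : ∀ x y, a * ‖x - y‖ ^ 2 ≤ ⟪g x - g y, x - y⟫) (F : E → ℝ) :
    ∫ x, F x = ∫ y, F (g y) * (fderiv ℝ g y).det := by
  have hd : Differentiable ℝ g := hg.differentiable (by norm_num)
  have h1 := integral_image_eq_integral_abs_det_fderiv_smul (volume : Measure E)
    (s := univ) MeasurableSet.univ (f' := fderiv ℝ g)
    (fun x _ => (hd x).hasFDerivAt.hasFDerivWithinAt)
    (injective_of_mono ha hm).injOn F
  rw [image_univ, (surjective_of_mono ha hg hm).range_eq, Measure.restrict_univ] at h1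
  rw [h1]
  refine integral_congr_ae (Eventually.of_forall fun y => ?_)
  simp only [smul_eq_mul]
  rw [abs_of_pos (det_pos_of_mono ha hd hm y), mul_comm]

/-- pointwise Monge-Ampere equation from the push forward identity, tested on Lipschitz functions
with compact support -/
theorem eq_mul_det_of_integral (ha : 0 < a) (hg : ContDiff ℝ 1 g)
    (hm : ∀ x y, a * ‖x - y‖ ^ 2 ≤ ⟪g x - g y, x - y⟫) {f h : E → ℝ} (hf : Continuous f)
    (hh : Continuous h)
    (H : ∀ F : E → ℝ, (∃ K, LipschitzWith K F) → HasCompactSupport F →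
      ∫ y, F (g y) * f y = ∫ x, F x * h x) (y : E) :
    f y = h (g y) * (fderiv ℝ g y).det := by
  have hd : Differentiable ℝ g := hg.differentiable (by norm_num)
  have hinj := injective_of_mono ha hm
  have hsur := surjective_of_mono ha hg hm
  obtain ⟨gi, hgi⟩ : ∃ gi : E → E, ∀ x, g (gi x) = x := ⟨fun x => (hsur x).choose,
    fun x => (hsur x).choose_spec⟩
  have hgi' : ∀ y, gi (g y) = y := fun y => hinj (hgi _)
  have hlip : LipschitzWith (Real.toNNReal a⁻¹) gi := by
    refine LipschitzWith.of_dist_le_mul fun x y => ?_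
    have h1 := (antilipschitz_of_mono ha hm).le_mul_dist (gi x) (gi y)
    rwa [hgi, hgi] at h1
  have hdet : Continuous fun y => (fderiv ℝ g y).det :=
    ContinuousLinearMap.continuous_det.comp (hg.continuous_fderiv (by norm_num))
  obtain ⟨u, hu⟩ : ∃ u : E → ℝ, u = fun y => f y - h (g y) * (fderiv ℝ g y).det := ⟨_, rfl⟩
  have hucont : Continuous u := by
    rw [hu]
    exact hf.sub ((hh.comp hg.continuous).mul hdet)
  have key : ∀ G : E → ℝ, ContDiff ℝ ∞ G → HasCompactSupport G → ∫ y, G y • u y = 0 := by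
    intro G hG hGc
    obtain ⟨K, hK⟩ := hG.lipschitzWith_of_hasCompactSupport hGc (by simp)
    have hFc : HasCompactSupport (fun x => G (gi x)) := by
      refine HasCompactSupport.intro (K := g '' tsupport G) ?_ fun x hx => ?_
      · exact hGc.isCompact.image hg.continuous
      · by_contra h0
        exact hx ⟨gi x, subset_tsupport _ h0, hgi x⟩
    have h1 := H (fun x => G (gi x)) ⟨_, hK.comp hlip⟩ hFc
    have h2 := integral_comp_mul_det ha hg hm (fun x => G (gi x) * h x)
    rw [h2] at h1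
    simp only [hgi'] at h1
    have h3 : Integrable fun y => G y * f y :=
      (hG.continuous.mul hf).integrable_of_hasCompactSupport hGc.mul_right
    have h4 : Integrable fun y => G y * h (g y) * (fderiv ℝ g y).det :=
      ((hG.continuous.mul (hh.comp hg.continuous)).mul hdet).integrable_of_hasCompactSupport
        (hGc.mul_right).mul_right
    have h5 : ∀ y, G y • u y = G y * f y - G y * h (g y) * (fderiv ℝ g y).det := fun y => by
      rw [hu, smul_eq_mul]
      ring
    simp_rw [h5]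
    rw [integral_sub h3 h4, h1, sub_self]
  have h0 : ∀ᵐ y, u y = 0 :=
    ae_eq_zero_of_integral_contDiff_smul_eq_zero hucont.locallyIntegrable key
  have h1 : u = fun _ => 0 := Continuous.ae_eq_iff_eq (μ := (volume : Measure E)) hucont
    continuous_const |>.1 h0
  have h2 := congrFun h1 y
  rw [hu] at h2
  linarith

end Map

end

end Vale.Agent.P227.M.LIM
end

section

/-! Log-convexity (Hoelder) and log-concavity (Prekopa) of integrals of exponentials. -/

open MeasureTheory Set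
open scoped ENNReal

namespace Vale.Agent.P227.M.LKE

/-- Hoelder: if every `y ↦ F y x` is convex, then `y ↦ log ∫ exp (F y x)` is convex. -/
theorem convexOn_log_integral_exp {Y X : Type*} [AddCommGroup Y] [Module ℝ Y]
    [MeasurableSpace X] (μ : Measure X) [NeZero μ] (F : Y → X → ℝ)
    (hF : ∀ x, ConvexOn ℝ univ (fun y => F y x))
    (hint : ∀ y, Integrable (fun x => Real.exp (F y x)) μ) :
    ConvexOn ℝ univ (fun y => Real.log (∫ x, Real.exp (F y x) ∂μ)) := by
  refine ⟨convex_univ, ?_⟩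
  intro y0 _ y1 _ s t hs ht hst
  have hA : 0 < ∫ x, Real.exp (F y0 x) ∂μ := integral_exp_pos (hint y0)
  have hB : 0 < ∫ x, Real.exp (F y1 x) ∂μ := integral_exp_pos (hint y1)
  have hC : 0 < ∫ x, Real.exp (F (s • y0 + t • y1) x) ∂μ := integral_exp_pos (hint _)
  set A := ∫ x, Real.exp (F y0 x) ∂μ with hAd
  set B := ∫ x, Real.exp (F y1 x) ∂μ with hBd
  set P := Real.exp (s * Real.log A + t * Real.log B) with hP
  have hPpos : 0 < P := Real.exp_pos _
  have hpt : ∀ x, Real.exp (F (s • y0 + t • y1) x) ≤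
      P * (s * (Real.exp (F y0 x) / A) + t * (Real.exp (F y1 x) / B)) := by
    intro x
    have h1 : F (s • y0 + t • y1) x ≤ s * F y0 x + t * F y1 x :=
      (hF x).2 (mem_univ _) (mem_univ _) hs ht hst
    have h2 : Real.exp (s * (F y0 x - Real.log A) + t * (F y1 x - Real.log B)) ≤
        s * Real.exp (F y0 x - Real.log A) + t * Real.exp (F y1 x - Real.log B) :=
      convexOn_exp.2 (mem_univ _) (mem_univ _) hs ht hst
    have h3 : Real.exp (F y0 x - Real.log A) = Real.exp (F y0 x) / A := by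
      rw [Real.exp_sub, Real.exp_log hA]
    have h4 : Real.exp (F y1 x - Real.log B) = Real.exp (F y1 x) / B := by
      rw [Real.exp_sub, Real.exp_log hB]
    rw [h3, h4] at h2
    calc Real.exp (F (s • y0 + t • y1) x) ≤ Real.exp (s * F y0 x + t * F y1 x) :=
          Real.exp_le_exp.2 h1
      _ = P * Real.exp (s * (F y0 x - Real.log A) + t * (F y1 x - Real.log B)) := by
          rw [hP, ← Real.exp_add]
          congr 1
          ring
      _ ≤ _ := mul_le_mul_of_nonneg_left h2 hPpos.le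
  have hint2 : Integrable
      (fun x => P * (s * (Real.exp (F y0 x) / A) + t * (Real.exp (F y1 x) / B))) μ :=
    ((((hint y0).div_const A).const_mul s).add (((hint y1).div_const B).const_mul t)).const_mul P
  have h5 := integral_mono (hint (s • y0 + t • y1)) hint2 hpt
  have h6 : ∫ x, P * (s * (Real.exp (F y0 x) / A) + t * (Real.exp (F y1 x) / B)) ∂μ = P := by
    rw [integral_const_mul, integral_add (((hint y0).div_const A).const_mul s)
      (((hint y1).div_const B).const_mul t), integral_const_mul, integral_const_mul,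
      integral_div, integral_div, ← hAd, ← hBd, div_self hA.ne', div_self hB.ne']
    rw [mul_one, mul_one, hst, mul_one]
  rw [h6] at h5
  have h7 := Real.log_le_log hC h5
  rw [hP, Real.log_exp] at h7
  simpa [smul_eq_mul] using h7

/-- Prekopa-Leindler on Euclidean space with weights. -/
theorem pl_euclidean {s t : ℝ} (hs : 0 < s) (ht : 0 < t) (hst : s + t = 1) {d : ℕ}
    (f g h : EuclideanSpace ℝ (Fin d) → ℝ≥0∞) (hf : Measurable f) (hg : Measurable g)
    (hh : Measurable h) (hfg : ∀ x y, f x ^ s * g y ^ t ≤ h (s • x + t • y)) :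
    (∫⁻ x, f x) ^ s * (∫⁻ x, g x) ^ t ≤ ∫⁻ x, h x := by
  have hvp := PiLp.volume_preserving_toLp (Fin d)
  have htr : ∀ u : EuclideanSpace ℝ (Fin d) → ℝ≥0∞, Measurable u →
      ∫⁻ x, u x = ∫⁻ x : Fin d → ℝ, u (WithLp.toLp 2 x) := by
    intro u hu
    rw [← hvp.lintegral_comp hu]
  have hm : ∀ u : EuclideanSpace ℝ (Fin d) → ℝ≥0∞, Measurable u →
      Measurable fun x : Fin d → ℝ => u (WithLp.toLp 2 x) := by
    intro u hu
    exact hu.comp hvp.measurable
  rw [htr f hf, htr g hg, htr h hh]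
  refine pl_pi hs ht hst d _ _ _ (hm f hf) (hm g hg) (hm h hh) ?_
  intro x y
  have := hfg (WithLp.toLp 2 x) (WithLp.toLp 2 y)
  convert this using 2
  ext i
  simp

/-- Prekopa: if `F` is jointly convex, then `y ↦ - log ∫ exp (- F y x) dx` is convex. -/
theorem convexOn_neg_log_integral_exp_neg {Y : Type*} [AddCommGroup Y] [Module ℝ Y] {d : ℕ}
    (F : Y → EuclideanSpace ℝ (Fin d) → ℝ)
    (hF : ∀ y0 y1 x0 x1, ∀ s t : ℝ, 0 < s → 0 < t → s + t = 1 →
      F (s • y0 + t • y1) (s • x0 + t • x1) ≤ s * F y0 x0 + t * F y1 x1)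
    (hmeas : ∀ y, Measurable (F y))
    (hint : ∀ y, Integrable (fun x => Real.exp (- F y x))) :
    ConvexOn ℝ univ (fun y => - Real.log (∫ x, Real.exp (- F y x))) := by
  refine ⟨convex_univ, ?_⟩
  intro y0 _ y1 _ s t hs ht hst
  rcases hs.eq_or_lt with h0 | hs'
  · subst h0
    have ht1 : t = 1 := by linarith
    subst ht1
    simp
  rcases ht.eq_or_lt with h0 | ht'
  · subst h0
    have hs1 : s = 1 := by linarith
    subst hs1
    simp
  have hpos : ∀ y, 0 < ∫ x, Real.exp (- F y x) := fun y => integral_exp_pos (hint y)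
  have hlin : ∀ y, ∫⁻ x, ENNReal.ofReal (Real.exp (- F y x)) =
      ENNReal.ofReal (∫ x, Real.exp (- F y x)) := fun y =>
    (ofReal_integral_eq_lintegral_ofReal (hint y)
      (Filter.Eventually.of_forall fun x => (Real.exp_pos _).le)).symm
  have hm : ∀ y, Measurable (fun x => ENNReal.ofReal (Real.exp (- F y x))) := fun y =>
    (Real.measurable_exp.comp (hmeas y).neg).ennreal_ofReal
  have hpl := pl_euclidean hs' ht' hst _ _ _ (hm y0) (hm y1) (hm (s • y0 + t • y1)) (by
    intro x0 x1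
    rw [ENNReal.ofReal_rpow_of_pos (Real.exp_pos _), ENNReal.ofReal_rpow_of_pos (Real.exp_pos _),
      ← ENNReal.ofReal_mul (Real.rpow_nonneg (Real.exp_pos _).le _)]
    refine ENNReal.ofReal_le_ofReal ?_
    rw [← Real.exp_mul, ← Real.exp_mul, ← Real.exp_add]
    refine Real.exp_le_exp.2 ?_
    have := hF y0 y1 x0 x1 s t hs' ht' hst
    linarith)
  rw [hlin, hlin, hlin, ENNReal.ofReal_rpow_of_pos (hpos _), ENNReal.ofReal_rpow_of_pos (hpos _),
    ← ENNReal.ofReal_mul (Real.rpow_nonneg (hpos _).le _),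
    ENNReal.ofReal_le_ofReal_iff (hpos _).le] at hpl
  have h7 := Real.log_le_log (mul_pos (Real.rpow_pos_of_pos (hpos y0) s)
    (Real.rpow_pos_of_pos (hpos y1) t)) hpl
  rw [Real.log_mul (Real.rpow_pos_of_pos (hpos y0) s).ne' (Real.rpow_pos_of_pos (hpos y1) t).ne',
    Real.log_rpow (hpos y0), Real.log_rpow (hpos y1)] at h7
  simp only [smul_eq_mul]
  linarith

end Vale.Agent.P227.M.LKE
end

section

/-! The log-Laplace transform `Lap k g y = log ∫ exp (k <x,y> - g x) dx` and the convexity bounds. -/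

open MeasureTheory Set
open scoped ENNReal RealInnerProductSpace

namespace Vale.Agent.P227.M.LKE

abbrev EE (n : ℕ) := EuclideanSpace ℝ (Fin n)

variable {n : ℕ}

noncomputable def Lap (k : ℝ) (g : EE n → ℝ) (y : EE n) : ℝ :=
  Real.log (∫ x : EE n, Real.exp (k * ⟪x, y⟫ - g x))

/-- a convex function on a finite dimensional space has an affine lower bound -/
theorem convex_lower_bound {r : EE n → ℝ} (hr : ConvexOn ℝ univ r) :
    ∃ C : ℝ, 0 ≤ C ∧ ∀ x, - C * (1 + ‖x‖) ≤ r x := by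
  have hcont : Continuous r := by
    rw [← continuousOn_univ]
    exact hr.continuousOn isOpen_univ
  obtain ⟨C, hC⟩ := (isCompact_closedBall (0 : EE n) 1).exists_bound_of_continuousOn
    hcont.continuousOn
  have hC0 : 0 ≤ C := (norm_nonneg _).trans (hC 0 (by simp))
  refine ⟨C * 2, by positivity, fun x => ?_⟩
  by_cases hx : ‖x‖ ≤ 1
  · have h1 := hC x (by simpa using hx)
    rw [Real.norm_eq_abs] at h1
    have h2 := (abs_le.1 h1).1
    have := norm_nonneg x
    nlinarith
  · push Not at hx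
    have hx0 : 0 < ‖x‖ := by linarith
    have h1 := hC ((‖x‖)⁻¹ • x) (by
      rw [mem_closedBall_zero_iff, norm_smul, norm_inv, norm_norm, inv_mul_cancel₀ hx0.ne'])
    have h0 := hC 0 (by simp)
    rw [Real.norm_eq_abs] at h1 h0
    have h3 := hr.2 (mem_univ (0 : EE n)) (mem_univ x)
      (sub_nonneg.2 (inv_le_one_of_one_le₀ hx.le)) (inv_nonneg.2 hx0.le) (by ring)
    rw [smul_zero, zero_add, smul_eq_mul, smul_eq_mul] at h3
    have h4 := (abs_le.1 h1).1
    have h5 := (abs_le.1 h0).2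
    have h6 : 0 ≤ 1 - (‖x‖)⁻¹ := sub_nonneg.2 (inv_le_one_of_one_le₀ hx.le)
    have h7 : (1 - (‖x‖)⁻¹) * r 0 ≤ (1 - (‖x‖)⁻¹) * C := mul_le_mul_of_nonneg_left h5 h6
    have h8 : - C - (1 - (‖x‖)⁻¹) * C ≤ (‖x‖)⁻¹ * r x := by linarith
    have h9 := mul_le_mul_of_nonneg_left h8 hx0.le
    rw [← mul_assoc, mul_inv_cancel₀ hx0.ne', one_mul] at h9
    have h10 : ‖x‖ * (- C - (1 - (‖x‖)⁻¹) * C) = - 2 * C * ‖x‖ + C := by
      field_simp
      ring
    rw [h10] at h9
    linarith

theorem integrable_exp_lin_neg_sq {α : ℝ} (hα : 0 < α) (B : ℝ) :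
    Integrable (fun x : EE n => Real.exp (B * ‖x‖ - α * ‖x‖ ^ 2)) := by
  have h := GaussianFourier.integrable_cexp_neg_mul_sq_norm_add (V := EE n)
    (b := ((α / 2 : ℝ) : ℂ)) (by simpa using half_pos hα) 0 0
  have h1 : Integrable (fun x : EE n => Real.exp (-(α / 2) * ‖x‖ ^ 2)) := by
    refine h.norm.congr (Filter.Eventually.of_forall fun x => ?_)
    simp only [Complex.norm_exp]
    congr 1
    simp [← Complex.ofReal_pow]
  refine (h1.const_mul (Real.exp (B ^ 2 / (2 * α)))).mono' ?_ ?_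
  · exact (Real.continuous_exp.comp (by fun_prop)).aestronglyMeasurable
  · refine Filter.Eventually.of_forall fun x => ?_
    rw [Real.norm_eq_abs, abs_of_pos (Real.exp_pos _), ← Real.exp_add]
    refine Real.exp_le_exp.2 ?_
    have h2 : B ^ 2 / (2 * α) + -(α / 2) * ‖x‖ ^ 2 - (B * ‖x‖ - α * ‖x‖ ^ 2) =
        (α * ‖x‖ - B) ^ 2 / (2 * α) := by
      field_simp
      ring
    have h3 : 0 ≤ (α * ‖x‖ - B) ^ 2 / (2 * α) := by positivity
    linarith

/-- integrability of the Laplace integrand -/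
theorem integrable_lap {α : ℝ} (hα : 0 < α) {g : EE n → ℝ}
    (hg : ConvexOn ℝ univ (fun x => g x - α / 2 * ‖x‖ ^ 2)) (k : ℝ) (y : EE n) :
    Integrable (fun x : EE n => Real.exp (k * ⟪x, y⟫ - g x)) := by
  obtain ⟨C, hC0, hC⟩ := convex_lower_bound hg
  have hcont : Continuous g := by
    have h1 : Continuous (fun x => g x - α / 2 * ‖x‖ ^ 2) := by
      rw [← continuousOn_univ]
      exact hg.continuousOn isOpen_univ
    have h2 : Continuous (fun x => (g x - α / 2 * ‖x‖ ^ 2) + α / 2 * ‖x‖ ^ 2) :=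
      h1.add (by fun_prop)
    refine h2.congr fun x => ?_
    ring
  refine ((integrable_exp_lin_neg_sq (n := n) (half_pos hα) (|k| * ‖y‖ + C)).const_mul
    (Real.exp C)).mono' ?_ ?_
  · exact (Real.continuous_exp.comp (by fun_prop)).aestronglyMeasurable
  · refine Filter.Eventually.of_forall fun x => ?_
    rw [Real.norm_eq_abs, abs_of_pos (Real.exp_pos _), ← Real.exp_add]
    refine Real.exp_le_exp.2 ?_
    have h1 := hC x
    have h2 : k * ⟪x, y⟫ ≤ |k| * ‖y‖ * ‖x‖ := by
      calc k * ⟪x, y⟫ ≤ |k * ⟪x, y⟫| := le_abs_self _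
        _ = |k| * |⟪x, y⟫| := abs_mul _ _
        _ ≤ |k| * (‖x‖ * ‖y‖) := mul_le_mul_of_nonneg_left (abs_real_inner_le_norm x y) (abs_nonneg _)
        _ = _ := by ring
    nlinarith

/-- Prekopa: lower convexity bound of `g` gives an upper bound for `Lap`. -/
theorem lap_upper {α : ℝ} (hα : 0 < α) {g : EE n → ℝ}
    (hg : ConvexOn ℝ univ (fun x => g x - α / 2 * ‖x‖ ^ 2)) (k : ℝ) :
    ConvexOn ℝ univ (fun y : EE n => k ^ 2 / (2 * α) * ‖y‖ ^ 2 - Lap k g y) := by
  have hsq : ∀ (y x : EE n), k ^ 2 / (2 * α) * ‖y‖ ^ 2 - (k * ⟪x, y⟫ - g x) =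
      (g x - α / 2 * ‖x‖ ^ 2) + α / 2 * ‖x - (k / α) • y‖ ^ 2 := by
    intro y x
    rw [norm_sub_sq_real, norm_smul, real_inner_smul_right, mul_pow, Real.norm_eq_abs, sq_abs]
    field_simp
    ring
  have hF : ∀ (y0 y1 x0 x1 : EE n), ∀ s t : ℝ, 0 < s → 0 < t → s + t = 1 →
      (fun (y x : EE n) => k ^ 2 / (2 * α) * ‖y‖ ^ 2 - (k * ⟪x, y⟫ - g x)) (s • y0 + t • y1)
        (s • x0 + t • x1) ≤
      s * (fun (y x : EE n) => k ^ 2 / (2 * α) * ‖y‖ ^ 2 - (k * ⟪x, y⟫ - g x)) y0 x0 +
      t * (fun (y x : EE n) => k ^ 2 / (2 * α) * ‖y‖ ^ 2 - (k * ⟪x, y⟫ - g x)) y1 x1 := by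
    intro y0 y1 x0 x1 s t hs ht hst
    simp only [hsq]
    have h1 := hg.2 (mem_univ x0) (mem_univ x1) hs.le ht.le hst
    simp only [smul_eq_mul] at h1
    have h2 : ConvexOn ℝ univ (fun v : EE n => ‖v‖ ^ 2) :=
      (convexOn_norm convex_univ).pow (fun v _ => norm_nonneg v) 2
    have h3 := h2.2 (mem_univ (x0 - (k / α) • y0)) (mem_univ (x1 - (k / α) • y1)) hs.le ht.le hst
    simp only [smul_eq_mul] at h3
    have h4 : s • x0 + t • x1 - (k / α) • (s • y0 + t • y1) =
        s • (x0 - (k / α) • y0) + t • (x1 - (k / α) • y1) := by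
      rw [smul_sub, smul_sub, smul_add, smul_smul, smul_smul, smul_smul, smul_smul,
        mul_comm (k / α) s, mul_comm (k / α) t]
      abel
    rw [h4]
    have h5 := mul_le_mul_of_nonneg_left h3 (half_pos hα).le
    nlinarith
  have hint : ∀ y : EE n, Integrable (fun x : EE n =>
      Real.exp (- (k ^ 2 / (2 * α) * ‖y‖ ^ 2 - (k * ⟪x, y⟫ - g x)))) := by
    intro y
    have h1 := (integrable_lap hα hg k y).const_mul (Real.exp (-(k ^ 2 / (2 * α) * ‖y‖ ^ 2)))
    refine h1.congr (Filter.Eventually.of_forall fun x => ?_)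
    simp only
    rw [← Real.exp_add]
    congr 1
    ring
  have hgm : Measurable g := by
    have h1 : Continuous (fun x => g x - α / 2 * ‖x‖ ^ 2) := by
      rw [← continuousOn_univ]
      exact hg.continuousOn isOpen_univ
    have h2 : Continuous (fun x => (g x - α / 2 * ‖x‖ ^ 2) + α / 2 * ‖x‖ ^ 2) :=
      h1.add (by fun_prop)
    exact (h2.congr fun x => by ring).measurable
  have hmain := convexOn_neg_log_integral_exp_neg
    (fun (y x : EE n) => k ^ 2 / (2 * α) * ‖y‖ ^ 2 - (k * ⟪x, y⟫ - g x)) hF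
    (fun y => by
      have : Continuous (fun x : EE n => k * ⟪x, y⟫) := by fun_prop
      exact measurable_const.sub (this.measurable.sub hgm)) hint
  refine hmain.congr fun y _ => ?_
  have e1 : ∫ x : EE n, Real.exp (- (k ^ 2 / (2 * α) * ‖y‖ ^ 2 - (k * ⟪x, y⟫ - g x))) =
      Real.exp (-(k ^ 2 / (2 * α) * ‖y‖ ^ 2)) * ∫ x : EE n, Real.exp (k * ⟪x, y⟫ - g x) := by
    rw [← integral_const_mul]
    refine integral_congr_ae (Filter.Eventually.of_forall fun x => ?_)
    simp only
    rw [← Real.exp_add]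
    congr 1
    ring
  simp only [e1]
  rw [Real.log_mul (Real.exp_pos _).ne' (integral_exp_pos (integrable_lap hα hg k y)).ne',
    Real.log_exp]
  unfold Lap
  ring

/-- Hoelder: upper convexity bound of `g` gives a lower bound for `Lap`. -/
theorem lap_lower {β : ℝ} (hβ : 0 < β) {g : EE n → ℝ}
    (hg : ConvexOn ℝ univ (fun x => β / 2 * ‖x‖ ^ 2 - g x)) (k : ℝ)
    (hint : ∀ y, Integrable (fun x : EE n => Real.exp (k * ⟪x, y⟫ - g x))) :
    ConvexOn ℝ univ (fun y : EE n => Lap k g y - k ^ 2 / (2 * β) * ‖y‖ ^ 2) := by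
  have hsq : ∀ (y z : EE n), k * ⟪z + (k / β) • y, y⟫ - g (z + (k / β) • y)
      - k ^ 2 / (2 * β) * ‖y‖ ^ 2 =
      (β / 2 * ‖z + (k / β) • y‖ ^ 2 - g (z + (k / β) • y)) - β / 2 * ‖z‖ ^ 2 := by
    intro y z
    rw [norm_add_sq_real, norm_smul, real_inner_smul_right, inner_add_left, real_inner_smul_left,
      mul_pow, Real.norm_eq_abs, sq_abs, real_inner_self_eq_norm_sq]
    field_simp
    ring
  have hconv : ∀ z : EE n, ConvexOn ℝ univ (fun y : EE n =>
      (β / 2 * ‖z + (k / β) • y‖ ^ 2 - g (z + (k / β) • y)) - β / 2 * ‖z‖ ^ 2) := by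
    intro z
    refine ⟨convex_univ, ?_⟩
    intro y0 _ y1 _ s t hs ht hst
    have h1 := hg.2 (mem_univ (z + (k / β) • y0)) (mem_univ (z + (k / β) • y1)) hs ht hst
    have h2 : s • (z + (k / β) • y0) + t • (z + (k / β) • y1) = z + (k / β) • (s • y0 + t • y1) := by
      have : z = s • z + t • z := by rw [← add_smul, hst, one_smul]
      rw [smul_add, smul_add, smul_add, smul_smul, smul_smul, smul_smul, smul_smul,
        mul_comm s (k / β), mul_comm t (k / β)]
      conv_rhs => rw [this]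
      abel
    rw [h2] at h1
    simp only [smul_eq_mul] at h1 ⊢
    have h3 : β / 2 * ‖z‖ ^ 2 = s * (β / 2 * ‖z‖ ^ 2) + t * (β / 2 * ‖z‖ ^ 2) := by
      rw [← add_mul, hst, one_mul]
    nlinarith
  have hshift : ∀ y : EE n, (fun z : EE n => Real.exp
      ((β / 2 * ‖z + (k / β) • y‖ ^ 2 - g (z + (k / β) • y)) - β / 2 * ‖z‖ ^ 2)) =
      fun z => Real.exp (-(k ^ 2 / (2 * β) * ‖y‖ ^ 2)) *
        (fun x : EE n => Real.exp (k * ⟪x, y⟫ - g x)) (z + (k / β) • y) := by
    intro y
    funext z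
    simp only
    rw [← Real.exp_add, ← hsq]
    congr 1
    ring
  have hint2 : ∀ y : EE n, Integrable (fun z : EE n => Real.exp
      ((β / 2 * ‖z + (k / β) • y‖ ^ 2 - g (z + (k / β) • y)) - β / 2 * ‖z‖ ^ 2)) := by
    intro y
    rw [hshift y]
    exact ((hint y).comp_add_right ((k / β) • y)).const_mul _
  have hmain := convexOn_log_integral_exp (volume : Measure (EE n)) (fun (y z : EE n) =>
    (β / 2 * ‖z + (k / β) • y‖ ^ 2 - g (z + (k / β) • y)) - β / 2 * ‖z‖ ^ 2) hconv hint2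
  refine hmain.congr fun y _ => ?_
  simp only
  rw [hshift y, integral_const_mul,
    integral_add_right_eq_self (fun x : EE n => Real.exp (k * ⟪x, y⟫ - g x)) ((k / β) • y),
    Real.log_mul (Real.exp_pos _).ne' (integral_exp_pos (hint y)).ne', Real.log_exp]
  unfold Lap
  ring

end Vale.Agent.P227.M.LKE
end

section

open MeasureTheory Real Set
open scoped ENNReal Pointwise

namespace Vale.Agent.P150.F.PL

theorem bm_compact {K K' C : Set ℝ} (hK : IsCompact K) (hK' : IsCompact K')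
    (hKn : K.Nonempty) (hKn' : K'.Nonempty) (h : ∀ a ∈ K, ∀ b ∈ K', a + b ∈ C) :
    volume K + volume K' ≤ volume C := by
  set a := sSup K with hadef
  have ha : a ∈ K := hK.sSup_mem hKn
  set b := sInf K' with hbdef
  have hb : b ∈ K' := hK'.sInf_mem hKn'
  have h1 : volume ((fun x => x + b) '' K) = volume K := by
    rw [Set.image_add_right, measure_preimage_add_right]
  have h2 : volume ((fun x => a + x) '' K') = volume K' := by
    rw [Set.image_add_left, measure_preimage_add]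
  have hc2 : IsCompact ((fun x => a + x) '' K') := hK'.image (by fun_prop)
  have hd : AEDisjoint volume ((fun x => x + b) '' K) ((fun x => a + x) '' K') := by
    have hsub : ((fun x => x + b) '' K) ∩ ((fun x => a + x) '' K') ⊆ {a + b} := by
      rintro z ⟨⟨x, hx, rfl⟩, ⟨y, hy, hxy⟩⟩
      have hxa : x ≤ a := le_csSup hK.bddAbove hx
      have hby : b ≤ y := csInf_le hK'.bddBelow hy
      have hxy' : a + y = x + b := hxy
      have : x = a := by linarith
      simp [this]
    exact measure_mono_null hsub (measure_singleton _)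
  calc volume K + volume K' = volume ((fun x => x + b) '' K) + volume ((fun x => a + x) '' K') := by
        rw [h1, h2]
    _ = volume (((fun x => x + b) '' K) ∪ ((fun x => a + x) '' K')) := by
        rw [measure_union₀ hc2.measurableSet.nullMeasurableSet hd]
    _ ≤ volume C := by
        apply measure_mono
        rintro z (⟨x, hx, rfl⟩ | ⟨x, hx, rfl⟩)
        · exact h x hx b hb
        · exact h a ha x hx

theorem bm1 {A B C : Set ℝ} (hA : MeasurableSet A) (hB : MeasurableSet B)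
    (hAn : A.Nonempty) (hBn : B.Nonempty) (h : ∀ a ∈ A, ∀ b ∈ B, a + b ∈ C) :
    volume A + volume B ≤ volume C := by
  obtain ⟨a, ha⟩ := hAn
  obtain ⟨b, hb⟩ := hBn
  rw [hA.measure_eq_iSup_isCompact, hB.measure_eq_iSup_isCompact]
  simp only [iSup_and']
  refine ENNReal.biSup_add_biSup_le' (p := fun K => K ⊆ A ∧ IsCompact K)
    (q := fun K => K ⊆ B ∧ IsCompact K) ⟨∅, by simp⟩ ⟨∅, by simp⟩ ?_
  rintro K ⟨hKA, hK⟩ K' ⟨hKB, hK'⟩
  calc volume K + volume K' ≤ volume (insert a K) + volume (insert b K') := by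
        gcongr <;> exact Set.subset_insert _ _
    _ ≤ volume C := by
        apply bm_compact (hK.insert a) (hK'.insert b) (Set.insert_nonempty _ _)
          (Set.insert_nonempty _ _)
        intro x hx y hy
        exact h x (Set.insert_subset ha hKA hx) y (Set.insert_subset hb hKB hy)

theorem amgm_ennreal {s : ℝ} (hs0 : 0 < s) (hs1 : s < 1) (x y : ℝ≥0∞) :
    x ^ (1 - s) * y ^ s ≤ ENNReal.ofReal (1 - s) * x + ENNReal.ofReal s * y := by
  have h1s : 0 < 1 - s := by linarith
  by_cases hx : x = ∞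
  · subst hx
    rw [ENNReal.mul_top (by simpa using h1s)]
    simp
  by_cases hy : y = ∞
  · subst hy
    rw [ENNReal.mul_top (by simpa using hs0)]
    simp
  lift x to NNReal using hx
  lift y to NNReal using hy
  have := Real.geom_mean_le_arith_mean2_weighted h1s.le hs0.le x.coe_nonneg y.coe_nonneg (by ring)
  have h2 := ENNReal.ofReal_le_ofReal this
  rw [ENNReal.ofReal_add (by positivity) (by positivity), ENNReal.ofReal_mul (by positivity),
    ENNReal.ofReal_mul h1s.le, ENNReal.ofReal_mul hs0.le, ← ENNReal.ofReal_rpow_of_nonneg x.coe_nonneg h1s.le,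
    ← ENNReal.ofReal_rpow_of_nonneg y.coe_nonneg hs0.le] at h2
  simpa using h2

theorem pl1_normalized {s : ℝ} (hs0 : 0 < s) (hs1 : s < 1) {f g : ℝ → ℝ} {w : ℝ → ℝ≥0∞}
    (hf : Measurable f) (hg : Measurable g) (hw : Measurable w)
    (hf0 : ∀ x, 0 ≤ f x) (hg0 : ∀ x, 0 ≤ g x) (hf1 : ∀ x, f x ≤ 1) (hg1 : ∀ x, g x ≤ 1)
    (hfs : ∀ t < 1, ∃ x, t < f x) (hgs : ∀ t < 1, ∃ x, t < g x)
    (h : ∀ x y, ENNReal.ofReal (f x ^ (1 - s) * g y ^ s) ≤ w ((1 - s) * x + s * y)) :
    ENNReal.ofReal (1 - s) * (∫⁻ x, ENNReal.ofReal (f x))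
      + ENNReal.ofReal s * (∫⁻ x, ENNReal.ofReal (g x)) ≤ ∫⁻ x, w x := by
  have h1s : 0 < 1 - s := by linarith
  set k : ℝ → ℝ := fun x => (min (w x) 1).toReal with hk
  have hkm : Measurable k := (hw.min measurable_const).ennreal_toReal
  have hk0 : ∀ x, 0 ≤ k x := fun x => ENNReal.toReal_nonneg
  have hkw : ∫⁻ x, ENNReal.ofReal (k x) ≤ ∫⁻ x, w x := by
    apply lintegral_mono
    intro x
    have : min (w x) 1 ≠ ∞ := (lt_of_le_of_lt (min_le_right _ _) ENNReal.one_lt_top).ne
    simp only [hk]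
    rw [ENNReal.ofReal_toReal this]
    exact min_le_left _ _
  refine le_trans ?_ hkw
  rw [lintegral_eq_lintegral_meas_lt volume (Filter.Eventually.of_forall hf0) hf.aemeasurable,
    lintegral_eq_lintegral_meas_lt volume (Filter.Eventually.of_forall hg0) hg.aemeasurable,
    lintegral_eq_lintegral_meas_lt volume (Filter.Eventually.of_forall hk0) hkm.aemeasurable]
  have mf : Measurable fun t => volume {a | t < f a} := by
    apply Antitone.measurable
    intro t t' htt'
    exact measure_mono fun a ha => lt_of_le_of_lt htt' ha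
  have mg : Measurable fun t => volume {a | t < g a} := by
    apply Antitone.measurable
    intro t t' htt'
    exact measure_mono fun a ha => lt_of_le_of_lt htt' ha
  rw [← lintegral_const_mul _ mf, ← lintegral_const_mul _ mg, ← lintegral_add_left (by fun_prop)]
  apply setLIntegral_mono' measurableSet_Ioi
  intro t ht
  have ht0 : 0 < t := ht
  by_cases ht1 : t < 1
  swap
  · have e1 : {a | t < f a} = ∅ := by
      ext a; simp; linarith [hf1 a]
    have e2 : {a | t < g a} = ∅ := by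
      ext a; simp; linarith [hg1 a]
    simp [e1, e2]
  have hA : MeasurableSet ((1 - s) • {a | t < f a}) :=
    (measurableSet_lt measurable_const hf).const_smul₀ _
  have hB : MeasurableSet (s • {a | t < g a}) :=
    (measurableSet_lt measurable_const hg).const_smul₀ _
  have vA : volume ((1 - s) • {a | t < f a}) = ENNReal.ofReal (1 - s) * volume {a | t < f a} := by
    rw [Measure.addHaar_smul]; simp [abs_of_pos h1s]
  have vB : volume (s • {a | t < g a}) = ENNReal.ofReal s * volume {a | t < g a} := by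
    rw [Measure.addHaar_smul]; simp [abs_of_pos hs0]
  rw [← vA, ← vB]
  apply bm1 hA hB
  · obtain ⟨x, hx⟩ := hfs t ht1
    exact ⟨(1 - s) • x, Set.smul_mem_smul_set hx⟩
  · obtain ⟨x, hx⟩ := hgs t ht1
    exact ⟨s • x, Set.smul_mem_smul_set hx⟩
  · rintro _ ⟨x, hx, rfl⟩ _ ⟨y, hy, rfl⟩
    have hx' : t < f x := hx
    have hy' : t < g y := hy
    have h3 : t < f x ^ (1 - s) * g y ^ s := by
      calc t = t ^ (1 - s) * t ^ s := by
            rw [← rpow_add ht0]; simp
        _ < f x ^ (1 - s) * g y ^ s := by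
            apply mul_lt_mul'' (rpow_lt_rpow ht0.le hx' h1s) (rpow_lt_rpow ht0.le hy' hs0)
              (by positivity) (by positivity)
    have h4 : ENNReal.ofReal t < w ((1 - s) * x + s * y) :=
      lt_of_lt_of_le ((ENNReal.ofReal_lt_ofReal_iff_of_nonneg ht0.le).mpr h3) (h x y)
    have h5 : ENNReal.ofReal t < 1 := by
      rw [← ENNReal.ofReal_one]; exact (ENNReal.ofReal_lt_ofReal_iff_of_nonneg ht0.le).mpr ht1
    have h6 : ENNReal.ofReal t < min (w ((1 - s) * x + s * y)) 1 := lt_min h4 h5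
    have : min (w ((1 - s) * x + s * y)) 1 ≠ ∞ :=
      (lt_of_le_of_lt (min_le_right _ _) ENNReal.one_lt_top).ne
    show t < k ((1 - s) • x + s • y)
    simp only [hk, smul_eq_mul]
    exact (ENNReal.ofReal_lt_iff_lt_toReal ht0.le this).mp h6

theorem pl1_bdd {s : ℝ} (hs0 : 0 < s) (hs1 : s < 1) {u v w : ℝ → ℝ≥0∞}
    (hu : Measurable u) (hv : Measurable v) (hw : Measurable w)
    (hub : ⨆ x, u x ≠ ∞) (hvb : ⨆ x, v x ≠ ∞)
    (h : ∀ x y, u x ^ (1 - s) * v y ^ s ≤ w ((1 - s) * x + s * y)) :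
    (∫⁻ x, u x) ^ (1 - s) * (∫⁻ x, v x) ^ s ≤ ∫⁻ x, w x := by
  have h1s : 0 < 1 - s := by linarith
  set Mu := ⨆ x, u x with hMu
  set Mv := ⨆ x, v x with hMv
  by_cases hu0 : Mu = 0
  · have : ∀ x, u x = 0 := fun x => le_antisymm (hu0 ▸ le_iSup u x) bot_le
    simp [this, h1s]
  by_cases hv0 : Mv = 0
  · have : ∀ x, v x = 0 := fun x => le_antisymm (hv0 ▸ le_iSup v x) bot_le
    simp [this, hs0]
  set f : ℝ → ℝ := fun x => (u x / Mu).toReal with hf
  set g : ℝ → ℝ := fun x => (v x / Mv).toReal with hg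
  have huM : ∀ x, u x / Mu ≤ 1 := fun x => by
    rw [ENNReal.div_le_iff hu0 hub, one_mul]; exact le_iSup u x
  have hvM : ∀ x, v x / Mv ≤ 1 := fun x => by
    rw [ENNReal.div_le_iff hv0 hvb, one_mul]; exact le_iSup v x
  have huf : ∀ x, u x / Mu ≠ ∞ := fun x => (lt_of_le_of_lt (huM x) ENNReal.one_lt_top).ne
  have hvf : ∀ x, v x / Mv ≠ ∞ := fun x => (lt_of_le_of_lt (hvM x) ENNReal.one_lt_top).ne
  have hfe : ∀ x, u x = Mu * ENNReal.ofReal (f x) := fun x => by
    simp only [hf]; rw [ENNReal.ofReal_toReal (huf x), ENNReal.mul_div_cancel hu0 hub]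
  have hge : ∀ x, v x = Mv * ENNReal.ofReal (g x) := fun x => by
    simp only [hg]; rw [ENNReal.ofReal_toReal (hvf x), ENNReal.mul_div_cancel hv0 hvb]
  set c := Mu ^ (1 - s) * Mv ^ s with hc
  have hc0 : c ≠ 0 := by
    rw [hc]
    apply mul_ne_zero
    · exact (ENNReal.rpow_pos (pos_iff_ne_zero.mpr hu0) hub).ne'
    · exact (ENNReal.rpow_pos (pos_iff_ne_zero.mpr hv0) hvb).ne'
  have hct : c ≠ ∞ := by
    rw [hc]
    exact ENNReal.mul_ne_top (ENNReal.rpow_ne_top_of_nonneg h1s.le hub)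
      (ENNReal.rpow_ne_top_of_nonneg hs0.le hvb)
  have hf0 : ∀ x, 0 ≤ f x := fun x => ENNReal.toReal_nonneg
  have hg0 : ∀ x, 0 ≤ g x := fun x => ENNReal.toReal_nonneg
  have key := pl1_normalized (f := f) (g := g) (w := fun x => c⁻¹ * w x) hs0 hs1
    (hu.div_const _).ennreal_toReal (hv.div_const _).ennreal_toReal (hw.const_mul _)
    hf0 hg0
    (fun x => (ENNReal.toReal_mono ENNReal.one_ne_top (huM x)).trans_eq ENNReal.toReal_one)
    (fun x => (ENNReal.toReal_mono ENNReal.one_ne_top (hvM x)).trans_eq ENNReal.toReal_one)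
    (by
      intro t ht
      by_cases ht0 : t < 0
      · exact ⟨0, lt_of_lt_of_le ht0 (hf0 0)⟩
      push Not at ht0
      have : Mu * ENNReal.ofReal t < ⨆ x, u x := by
        rw [← hMu]
        calc Mu * ENNReal.ofReal t < Mu * 1 := by
              apply ENNReal.mul_lt_mul_right hu0 hub
              rw [← ENNReal.ofReal_one]; exact (ENNReal.ofReal_lt_ofReal_iff_of_nonneg ht0).mpr ht
          _ = Mu := mul_one _
      obtain ⟨x, hx⟩ := lt_iSup_iff.mp this
      refine ⟨x, ?_⟩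
      rw [hfe x] at hx
      have h3 := lt_of_mul_lt_mul_left' hx
      exact (ENNReal.ofReal_lt_ofReal_iff_of_nonneg ht0).mp h3)
    (by
      intro t ht
      by_cases ht0 : t < 0
      · exact ⟨0, lt_of_lt_of_le ht0 (hg0 0)⟩
      push Not at ht0
      have : Mv * ENNReal.ofReal t < ⨆ x, v x := by
        rw [← hMv]
        calc Mv * ENNReal.ofReal t < Mv * 1 := by
              apply ENNReal.mul_lt_mul_right hv0 hvb
              rw [← ENNReal.ofReal_one]; exact (ENNReal.ofReal_lt_ofReal_iff_of_nonneg ht0).mpr ht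
          _ = Mv := mul_one _
      obtain ⟨x, hx⟩ := lt_iSup_iff.mp this
      refine ⟨x, ?_⟩
      rw [hge x] at hx
      have h3 := lt_of_mul_lt_mul_left' hx
      exact (ENNReal.ofReal_lt_ofReal_iff_of_nonneg ht0).mp h3)
    (by
      intro x y
      have h1 := h x y
      rw [hfe x, hge y, ENNReal.mul_rpow_of_nonneg _ _ h1s.le, ENNReal.mul_rpow_of_nonneg _ _ hs0.le,
        mul_mul_mul_comm, ← hc, ENNReal.ofReal_rpow_of_nonneg (hf0 x) h1s.le,
        ENNReal.ofReal_rpow_of_nonneg (hg0 y) hs0.le, ← ENNReal.ofReal_mul (by positivity)] at h1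
      calc ENNReal.ofReal (f x ^ (1 - s) * g y ^ s)
          = c⁻¹ * (c * ENNReal.ofReal (f x ^ (1 - s) * g y ^ s)) := by
            rw [← mul_assoc, ENNReal.inv_mul_cancel hc0 hct, one_mul]
        _ ≤ c⁻¹ * w ((1 - s) * x + s * y) := by gcongr)
  have key2 := (amgm_ennreal hs0 hs1 _ _).trans key
  have eu : ∫⁻ x, u x = Mu * ∫⁻ x, ENNReal.ofReal (f x) := by
    rw [← lintegral_const_mul' _ _ hub]
    exact lintegral_congr hfe
  have ev : ∫⁻ x, v x = Mv * ∫⁻ x, ENNReal.ofReal (g x) := by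
    rw [← lintegral_const_mul' _ _ hvb]
    exact lintegral_congr hge
  rw [eu, ev, ENNReal.mul_rpow_of_nonneg _ _ h1s.le, ENNReal.mul_rpow_of_nonneg _ _ hs0.le,
    mul_mul_mul_comm, ← hc]
  calc c * _ ≤ c * ∫⁻ x, c⁻¹ * w x := by gcongr
    _ = ∫⁻ x, w x := by
      rw [lintegral_const_mul _ hw, ← mul_assoc, ENNReal.mul_inv_cancel hc0 hct, one_mul]

theorem pl1 {s : ℝ} (hs0 : 0 < s) (hs1 : s < 1) {u v w : ℝ → ℝ≥0∞}
    (hu : Measurable u) (hv : Measurable v) (hw : Measurable w)
    (h : ∀ x y, u x ^ (1 - s) * v y ^ s ≤ w ((1 - s) * x + s * y)) :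
    (∫⁻ x, u x) ^ (1 - s) * (∫⁻ x, v x) ^ s ≤ ∫⁻ x, w x := by
  have h1s : 0 < 1 - s := by linarith
  have trunc : ∀ {q : ℝ → ℝ≥0∞}, Measurable q →
      ∫⁻ x, q x = ⨆ k : ℕ, ∫⁻ x, min (q x) k := by
    intro q hq
    rw [← lintegral_iSup (fun k => hq.min measurable_const)]
    · apply lintegral_congr
      intro x
      apply le_antisymm
      · by_cases hx : q x = ∞
        · rw [hx]
          simp only [le_top, inf_of_le_right]
          exact ENNReal.iSup_natCast.ge
        · obtain ⟨k, hk⟩ := ENNReal.exists_nat_gt hx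
          calc q x = min (q x) k := (min_eq_left hk.le).symm
            _ ≤ _ := le_iSup (fun k : ℕ => min (q x) (k : ℝ≥0∞)) k
      · exact iSup_le fun k => min_le_left _ _
    · intro i j hij x
      exact min_le_min_left _ (by exact_mod_cast hij)
  have hk : ∀ i j : ℕ, (∫⁻ x, min (u x) i) ^ (1 - s) * (∫⁻ x, min (v x) j) ^ s ≤ ∫⁻ x, w x := by
    intro i j
    apply pl1_bdd hs0 hs1 (hu.min measurable_const) (hv.min measurable_const) hw
    · exact (lt_of_le_of_lt (iSup_le fun x => min_le_right _ _) (ENNReal.natCast_lt_top i)).ne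
    · exact (lt_of_le_of_lt (iSup_le fun x => min_le_right _ _) (ENNReal.natCast_lt_top j)).ne
    · intro x y
      refine le_trans ?_ (h x y)
      gcongr
      · exact min_le_left _ _
      · exact min_le_left _ _
  have e1 : (∫⁻ x, u x) ^ (1 - s) = ⨆ i : ℕ, (∫⁻ x, min (u x) i) ^ (1 - s) := by
    rw [trunc hu]
    exact (ENNReal.orderIsoRpow (1 - s) h1s).map_iSup _
  have e2 : (∫⁻ x, v x) ^ s = ⨆ i : ℕ, (∫⁻ x, min (v x) i) ^ s := by
    rw [trunc hv]
    exact (ENNReal.orderIsoRpow s hs0).map_iSup _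
  rw [e1, e2, ENNReal.iSup_mul]
  apply iSup_le
  intro i
  rw [ENNReal.mul_iSup]
  exact iSup_le fun j => hk i j

theorem measurable_insertNth {n : ℕ} (i : Fin (n + 1)) :
    Measurable fun p : ℝ × (Fin n → ℝ) => (i.insertNth p.1 p.2 : Fin (n + 1) → ℝ) :=
  (MeasurableEquiv.piFinSuccAbove (fun _ : Fin (n + 1) => ℝ) i).symm.measurable

theorem lintegral_insertNth {n : ℕ} (i : Fin (n + 1)) {F : (Fin (n + 1) → ℝ) → ℝ≥0∞}
    (hF : Measurable F) :
    ∫⁻ x, F x = ∫⁻ a : ℝ, ∫⁻ x : Fin n → ℝ, F (i.insertNth a x) := by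
  have hmp := (volume_preserving_piFinSuccAbove (fun _ : Fin (n + 1) => ℝ) i).symm
  rw [← hmp.lintegral_comp hF, Measure.volume_eq_prod, lintegral_prod]
  · rfl
  · exact (hF.comp (MeasurableEquiv.measurable _)).aemeasurable

theorem prekopa_leindler {n : ℕ} {s : ℝ} (hs0 : 0 < s) (hs1 : s < 1)
    {u v w : (Fin n → ℝ) → ℝ≥0∞} (hu : Measurable u) (hv : Measurable v) (hw : Measurable w)
    (h : ∀ x y, u x ^ (1 - s) * v y ^ s ≤ w ((1 - s) • x + s • y)) :
    (∫⁻ x, u x) ^ (1 - s) * (∫⁻ x, v x) ^ s ≤ ∫⁻ x, w x := by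
  induction n with
  | zero =>
    have e : ∀ F : (Fin 0 → ℝ) → ℝ≥0∞, ∫⁻ x, F x = F 0 := by
      intro F
      rw [volume_pi, Measure.pi_of_empty (fun _ : Fin 0 => volume) 0, lintegral_dirac]
    rw [e, e, e]
    have := h 0 0
    simpa using this
  | succ n ih =>
    have mU : ∀ {q : (Fin (n + 1) → ℝ) → ℝ≥0∞}, Measurable q →
        Measurable fun a : ℝ => ∫⁻ x : Fin n → ℝ, q ((0 : Fin (n + 1)).insertNth a x) := by
      intro q hq
      exact (hq.comp (measurable_insertNth 0)).lintegral_prod_right'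
    rw [lintegral_insertNth 0 hu, lintegral_insertNth 0 hv, lintegral_insertNth 0 hw]
    apply pl1 hs0 hs1 (mU hu) (mU hv) (mU hw)
    intro a b
    have mc' : ∀ a : ℝ, Measurable fun x : Fin n → ℝ =>
        ((0 : Fin (n + 1)).insertNth a x : Fin (n + 1) → ℝ) :=
      fun a => (measurable_insertNth 0).comp (measurable_const.prodMk measurable_id)
    apply ih (hu.comp (mc' a)) (hv.comp (mc' b)) (hw.comp (mc' _))
    intro x y
    have := h ((0 : Fin (n + 1)).insertNth a x) ((0 : Fin (n + 1)).insertNth b y)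
    have e : (1 - s) • ((0 : Fin (n + 1)).insertNth a x : Fin (n + 1) → ℝ)
        + s • ((0 : Fin (n + 1)).insertNth b y : Fin (n + 1) → ℝ)
        = (0 : Fin (n + 1)).insertNth ((1 - s) * a + s * b) ((1 - s) • x + s • y) := by
      funext i
      refine Fin.cases ?_ (fun j => ?_) i <;> simp
    rw [e] at this
    exact this

end Vale.Agent.P150.F.PL
end

section

/-!
P254, block (R), part 3: dominated convergence of moments and entropies.
-/

open MeasureTheory Set Matrix Filter Topology Metric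

namespace Vale.Agent.P254.R304

variable {n : ℕ}

/-- polynomial times exponential is integrable -/
lemma integrable_poly_exp (n : ℕ) {a : ℝ} (ha : 0 < a) (N : ℕ) :
    Integrable fun x : Fin n → ℝ => (1 + ‖x‖) ^ N * Real.exp (-(a * ‖x‖)) := by
  have h1 : Integrable fun x : Fin n → ℝ => (1 + ‖x‖) ^ (-((n:ℝ) + 1)) := by
    apply integrable_one_add_norm
    rw [Module.finrank_fin_fun]
    linarith
  -- (1+s)^(N+n+1) e^{-a s} bounded
  have h2 : ∃ M : ℝ, 0 ≤ M ∧ ∀ s : ℝ, 0 ≤ s → (1 + s) ^ (N + n + 1) * Real.exp (-(a * s)) ≤ M := by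
    refine ⟨((N + n + 1).factorial) * (a⁻¹) ^ (N + n + 1) * Real.exp a, by positivity,
      fun s hs => ?_⟩
    have h3 : (a * (1 + s)) ^ (N + n + 1) / (N + n + 1).factorial ≤ Real.exp (a * (1 + s)) :=
      Real.pow_div_factorial_le_exp _ (by positivity) _
    rw [div_le_iff₀ (by positivity), mul_pow] at h3
    have h4 : (1 + s) ^ (N + n + 1) ≤
        ((N + n + 1).factorial) * (a⁻¹) ^ (N + n + 1) * Real.exp (a * (1 + s)) := by
      have h5 : 0 < a ^ (N + n + 1) := by positivity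
      rw [← mul_le_mul_iff_right₀ h5]
      calc a ^ (N + n + 1) * (1 + s) ^ (N + n + 1) ≤
            Real.exp (a * (1 + s)) * (N + n + 1).factorial := h3
        _ = a ^ (N + n + 1) * (((N + n + 1).factorial) * (a⁻¹) ^ (N + n + 1) *
            Real.exp (a * (1 + s))) := by
            rw [inv_pow]
            field_simp
    calc (1 + s) ^ (N + n + 1) * Real.exp (-(a * s)) ≤
          ((N + n + 1).factorial) * (a⁻¹) ^ (N + n + 1) * Real.exp (a * (1 + s)) *
            Real.exp (-(a * s)) := by gcongr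
      _ = ((N + n + 1).factorial) * (a⁻¹) ^ (N + n + 1) * Real.exp a := by
          rw [mul_assoc, ← Real.exp_add]
          congr 2
          ring
  obtain ⟨M, hM0, hM⟩ := h2
  refine (h1.const_mul M).mono' (by fun_prop) (ae_of_all _ fun x => ?_)
  have hx : 0 ≤ ‖x‖ := norm_nonneg x
  have hx1 : 0 < 1 + ‖x‖ := by positivity
  rw [Real.norm_eq_abs, abs_of_nonneg (by positivity)]
  have h3 := hM ‖x‖ hx
  have h4 : (1 + ‖x‖) ^ (-((n:ℝ) + 1)) = ((1 + ‖x‖) ^ (n + 1))⁻¹ := by
    rw [Real.rpow_neg hx1.le]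
    congr 1
    have : (n:ℝ) + 1 = ((n + 1 : ℕ) : ℝ) := by push_cast; ring
    rw [this, Real.rpow_natCast]
  rw [h4, ← div_eq_mul_inv, le_div_iff₀ (by positivity)]
  calc (1 + ‖x‖) ^ N * Real.exp (-(a * ‖x‖)) * (1 + ‖x‖) ^ (n + 1)
      = (1 + ‖x‖) ^ (N + n + 1) * Real.exp (-(a * ‖x‖)) := by ring
    _ ≤ M := h3

/-- `|t log t| ≤ 2 (M+1) √t` for `0 ≤ t ≤ M`. -/
lemma abs_mul_log_le {t M : ℝ} (ht : 0 ≤ t) (hM : t ≤ M) :
    |t * Real.log t| ≤ 2 * (M + 1) * Real.sqrt t := by
  rcases eq_or_lt_of_le ht with rfl | ht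
  · simp
  have hs : 0 < Real.sqrt t := Real.sqrt_pos.2 ht
  have hsq : Real.sqrt t * Real.sqrt t = t := Real.mul_self_sqrt ht.le
  have e1 : Real.log t = 2 * Real.log (Real.sqrt t) := by
    rw [Real.log_sqrt ht.le]; ring
  have h1 : Real.log (Real.sqrt t) ≤ Real.sqrt t := by
    have := Real.log_le_sub_one_of_pos hs
    linarith
  have h2 : -Real.log (Real.sqrt t) ≤ (Real.sqrt t)⁻¹ := by
    rw [← Real.log_inv]
    have := Real.log_le_sub_one_of_pos (inv_pos.2 hs)
    linarith
  have h3 : |Real.log (Real.sqrt t)| ≤ Real.sqrt t + (Real.sqrt t)⁻¹ := by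
    have := inv_pos.2 hs
    rw [abs_le]
    constructor <;> linarith
  rw [abs_mul, abs_of_pos ht, e1, abs_mul, abs_of_pos (by norm_num : (0:ℝ) < 2)]
  calc t * (2 * |Real.log (Real.sqrt t)|) ≤ t * (2 * (Real.sqrt t + (Real.sqrt t)⁻¹)) := by gcongr
    _ = 2 * (t + 1) * Real.sqrt t := by
        nth_rewrite 1 [← hsq]
        have : Real.sqrt t * Real.sqrt t * (2 * (Real.sqrt t + (Real.sqrt t)⁻¹))
            = 2 * (Real.sqrt t * Real.sqrt t * Real.sqrt t + Real.sqrt t) := by
          field_simp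
        rw [this, hsq]
        ring
    _ ≤ 2 * (M + 1) * Real.sqrt t := by gcongr

/-- hypotheses of the dominated convergence argument -/
structure Dom (F : ℕ → (Fin n → ℝ) → ℝ) (G : (Fin n → ℝ) → ℝ) (M a : ℝ) : Prop where
  ha : 0 < a
  hM : 0 ≤ M
  meas : ∀ k, AEStronglyMeasurable (F k) volume
  nn : ∀ k x, 0 ≤ F k x
  le : ∀ k x, F k x ≤ M * Real.exp (-(a * ‖x‖))
  lim : ∀ᵐ x, Tendsto (fun k => F k x) atTop (𝓝 (G x))

/-- polynomial growth -/
def PolyGrowth (p : (Fin n → ℝ) → ℝ) : Prop :=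
  AEStronglyMeasurable p volume ∧ ∃ (A : ℝ) (N : ℕ), ∀ x, |p x| ≤ A * (1 + ‖x‖) ^ N

variable {F : ℕ → (Fin n → ℝ) → ℝ} {G : (Fin n → ℝ) → ℝ} {M a : ℝ}

lemma poly_bound_integrable (a M : ℝ) (ha : 0 < a) {p : (Fin n → ℝ) → ℝ} {f : (Fin n → ℝ) → ℝ}
    (hp : PolyGrowth p) (hf : AEStronglyMeasurable f volume) (h0 : ∀ x, 0 ≤ f x)
    (hle : ∀ x, f x ≤ M * Real.exp (-(a * ‖x‖))) : Integrable fun x => p x * f x := by
  obtain ⟨hpm, A, N, hA⟩ := hp
  refine ((integrable_poly_exp n ha N).const_mul (A * M)).mono' (hpm.mul hf)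
    (ae_of_all _ fun x => ?_)
  rw [Real.norm_eq_abs, abs_mul, abs_of_nonneg (h0 x)]
  have h2 : 0 ≤ A * (1 + ‖x‖) ^ N := (abs_nonneg _).trans (hA x)
  calc |p x| * f x ≤ A * (1 + ‖x‖) ^ N * (M * Real.exp (-(a * ‖x‖))) :=
        mul_le_mul (hA x) (hle x) (h0 x) h2
    _ = A * M * ((1 + ‖x‖) ^ N * Real.exp (-(a * ‖x‖))) := by ring

theorem Dom.tendsto_moment (h : Dom F G M a) {p : (Fin n → ℝ) → ℝ} (hp : PolyGrowth p) :
    Tendsto (fun k => ∫ x, p x * F k x) atTop (𝓝 (∫ x, p x * G x)) := by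
  obtain ⟨hpm, A, N, hA⟩ := hp
  refine tendsto_integral_of_dominated_convergence
    (fun x => A * M * ((1 + ‖x‖) ^ N * Real.exp (-(a * ‖x‖))))
    (fun k => hpm.mul (h.meas k)) ((integrable_poly_exp n h.ha N).const_mul (A * M))
    (fun k => ae_of_all _ fun x => ?_) ?_
  · rw [Real.norm_eq_abs, abs_mul, abs_of_nonneg (h.nn k x)]
    have h2 : 0 ≤ A * (1 + ‖x‖) ^ N := (abs_nonneg _).trans (hA x)
    calc |p x| * F k x ≤ A * (1 + ‖x‖) ^ N * (M * Real.exp (-(a * ‖x‖))) :=
          mul_le_mul (hA x) (h.le k x) (h.nn k x) h2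
      _ = A * M * ((1 + ‖x‖) ^ N * Real.exp (-(a * ‖x‖))) := by ring
  · filter_upwards [h.lim] with x hx
    exact hx.const_mul _

lemma sqrt_bound {t : ℝ} (x : Fin n → ℝ) (hM : 0 ≤ M) (hle : t ≤ M * Real.exp (-(a * ‖x‖))) :
    Real.sqrt t ≤ Real.sqrt M * Real.exp (-(a / 2 * ‖x‖)) := by
  calc Real.sqrt t ≤ Real.sqrt (M * Real.exp (-(a * ‖x‖))) := Real.sqrt_le_sqrt hle
    _ = Real.sqrt M * Real.exp (-(a / 2 * ‖x‖)) := by
        rw [Real.sqrt_mul hM]
        congr 1
        rw [show -(a * ‖x‖) = -(a / 2 * ‖x‖) + -(a / 2 * ‖x‖) by ring, Real.exp_add,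
          Real.sqrt_mul_self (Real.exp_pos _).le]

lemma log_bound {t : ℝ} (x : Fin n → ℝ) (ha : 0 < a) (hM : 0 ≤ M) (h0 : 0 ≤ t)
    (hle : t ≤ M * Real.exp (-(a * ‖x‖))) :
    |t * Real.log t| ≤ 2 * (M + 1) * (Real.sqrt M * Real.exp (-(a / 2 * ‖x‖))) := by
  have h1 : t ≤ M := by
    refine hle.trans ?_
    have : Real.exp (-(a * ‖x‖)) ≤ 1 := by
      apply Real.exp_le_one_iff.2
      have : 0 ≤ a * ‖x‖ := by positivity
      linarith
    calc M * Real.exp (-(a * ‖x‖)) ≤ M * 1 := by gcongr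
      _ = M := mul_one _
  refine (abs_mul_log_le h0 h1).trans ?_
  have := sqrt_bound x hM hle
  gcongr

lemma ent_integrable (a M : ℝ) (ha : 0 < a) (hM : 0 ≤ M) {f : (Fin n → ℝ) → ℝ}
    (hf : AEStronglyMeasurable f volume) (h0 : ∀ x, 0 ≤ f x)
    (hle : ∀ x, f x ≤ M * Real.exp (-(a * ‖x‖))) :
    Integrable fun x => f x * Real.log (f x) := by
  have h1 : Integrable fun x : Fin n → ℝ =>
      2 * (M + 1) * (Real.sqrt M * Real.exp (-(a / 2 * ‖x‖))) := by
    have := integrable_poly_exp n (by positivity : 0 < a / 2) 0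
    simp only [pow_zero, one_mul] at this
    exact (this.const_mul _).const_mul _
  refine h1.mono' ?_ (ae_of_all _ fun x => ?_)
  · exact hf.mul (Real.measurable_log.comp_aemeasurable hf.aemeasurable).aestronglyMeasurable
  · rw [Real.norm_eq_abs]
    exact log_bound x ha hM (h0 x) (hle x)

theorem Dom.tendsto_ent (h : Dom F G M a) :
    Tendsto (fun k => ∫ x, F k x * Real.log (F k x)) atTop (𝓝 (∫ x, G x * Real.log (G x))) := by
  have h1 : Integrable fun x : Fin n → ℝ =>
      2 * (M + 1) * (Real.sqrt M * Real.exp (-(a / 2 * ‖x‖))) := by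
    have := integrable_poly_exp n (half_pos h.ha) 0
    simp only [pow_zero, one_mul] at this
    exact (this.const_mul _).const_mul _
  refine tendsto_integral_of_dominated_convergence _ (fun k => ?_) h1
    (fun k => ae_of_all _ fun x => ?_) ?_
  · exact (h.meas k).mul
      (Real.measurable_log.comp_aemeasurable (h.meas k).aemeasurable).aestronglyMeasurable
  · rw [Real.norm_eq_abs]
    exact log_bound x h.ha h.hM (h.nn k x) (h.le k x)
  · filter_upwards [h.lim] with x hx
    have hc : Continuous fun t : ℝ => t * Real.log t := Real.continuous_mul_log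
    exact (hc.tendsto (G x)).comp hx

lemma Dom.limit_nn (h : Dom F G M a) : ∀ᵐ x, 0 ≤ G x := by
  filter_upwards [h.lim] with x hx
  exact ge_of_tendsto' hx fun k => h.nn k x

lemma Dom.limit_le (h : Dom F G M a) : ∀ᵐ x, G x ≤ M * Real.exp (-(a * ‖x‖)) := by
  filter_upwards [h.lim] with x hx
  exact le_of_tendsto' hx fun k => h.le k x

end Vale.Agent.P254.R304
end

section

/-! # P227/M/SC: the discrete (two-point) step for self-concordance of marginals. Definitions.

`dd v f` = directional derivative, `avg δ e w = -log ((e^{-w(x+δe)} + e^{-w(x-δe)})/2)`,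
`St a b C3 C4 κ ε w` = the bounds carried along the steps. -/

namespace Vale.Agent.P227.M.SC

/-- directional derivative -/
noncomputable def dd {E : Type*} [NormedAddCommGroup E] [NormedSpace ℝ E]
    (v : E) (f : E → ℝ) (x : E) : ℝ := fderiv ℝ f x v

/-- two-point average of `e^{-w}` in direction `e`, on the level of `w` -/
noncomputable def avg {E : Type*} [NormedAddCommGroup E] [NormedSpace ℝ E]
    (δ : ℝ) (e : E) (w : E → ℝ) (x : E) : ℝ :=
  -Real.log ((Real.exp (-w (x + δ • e)) + Real.exp (-w (x - δ • e))) / 2)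

/-- the bounds carried along the steps -/
structure St {E : Type*} [NormedAddCommGroup E] [NormedSpace ℝ E]
    (a b C3 C4 κ ε : ℝ) (w : E → ℝ) : Prop where
  smooth : ContDiff ℝ (⊤ : ℕ∞) w
  lower : ∀ x v, a * ‖v‖ ^ 2 ≤ dd v (dd v w) x
  upper : ∀ x v, dd v (dd v w) x ≤ b * ‖v‖ ^ 2
  b3 : ∀ x v₁ v₂ v₃, |dd v₃ (dd v₂ (dd v₁ w)) x| ≤ C3 * (‖v₁‖ * ‖v₂‖ * ‖v₃‖)
  b4 : ∀ x v₁ v₂ v₃ v₄, |dd v₄ (dd v₃ (dd v₂ (dd v₁ w))) x| ≤ C4 * (‖v₁‖ * ‖v₂‖ * ‖v₃‖ * ‖v₄‖)
  sc : ∀ x v, dd v (dd v (dd v w)) x ≤ 2 * κ * (dd v (dd v w) x) ^ ((3 : ℝ) / 2) + ε * ‖v‖ ^ 3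

/-- THE STEP (proved in `Step.lean`). -/
def StepStmt (E : Type*) [NormedAddCommGroup E] [NormedSpace ℝ E] : Prop :=
  ∀ a0 b A3 A4 : ℝ, 0 < a0 → ∃ K : ℝ, 0 ≤ K ∧
    ∀ (κ δ ε a C3 C4 : ℝ) (e : E) (w : E → ℝ), 0 ≤ κ → κ ≤ 1 → 0 < δ → δ ≤ 1 → 0 ≤ ε → ε ≤ 1 →
      a0 ≤ a → C3 ≤ A3 → C4 ≤ A4 → ‖e‖ = 1 → St a b C3 C4 κ ε w →
      St (a * (1 - b * δ ^ 2) - K * δ ^ 3) b
        (C3 * (1 + 3 * b * δ ^ 2) + 2 * b ^ 3 * δ ^ 3)
        (C4 * (1 + 4 * b * δ ^ 2) + δ ^ 2 * (3 * C3 ^ 2 + 12 * C3 * b ^ 2 + 4 * b ^ 4))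
        κ (ε * (1 + K * δ ^ 2) + K * δ ^ 3) (avg δ e w)

end Vale.Agent.P227.M.SC
end

section

/-!
Integrals over pyramids.
-/

open MeasureTheory Set Matrix
open scoped Pointwise

namespace Vale.Agent.P254.FV

variable {p : ℕ}

/-- the pyramid over `K ⊆ ℝᵖ` in `ℝᵖ⁺¹`: base `{0} × K`, apex `(1, 0)` -/
def pyrS (K : Set (Fin p → ℝ)) : Set (Fin (p + 1) → ℝ) :=
  {z | 0 ≤ z 0 ∧ z 0 ≤ 1 ∧ ∃ x ∈ K, ∀ i, z (Fin.succ i) = (1 - z 0) * x i}

/-- the same set in `ℝ × ℝᵖ` -/
def pyrP (K : Set (Fin p → ℝ)) : Set (ℝ × (Fin p → ℝ)) :=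
  (fun w : ℝ × (Fin p → ℝ) => (w.1, (1 - w.1) • w.2)) '' (Icc (0 : ℝ) 1 ×ˢ K)

theorem mem_pyrP {K : Set (Fin p → ℝ)} {w : ℝ × (Fin p → ℝ)} :
    w ∈ pyrP K ↔ w.1 ∈ Icc (0 : ℝ) 1 ∧ w.2 ∈ (1 - w.1) • K := by
  constructor
  · rintro ⟨⟨t, x⟩, ⟨ht, hx⟩, rfl⟩
    exact ⟨ht, smul_mem_smul_set hx⟩
  · rintro ⟨ht, x, hx, hxw⟩
    refine ⟨(w.1, x), ⟨ht, hx⟩, ?_⟩
    ext1
    · rfl
    · exact hxw

theorem isCompact_pyrP {K : Set (Fin p → ℝ)} (hK : IsCompact K) : IsCompact (pyrP K) :=
  (isCompact_Icc.prod hK).image (by fun_prop)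

theorem preimage_pyrS (K : Set (Fin p → ℝ)) :
    (MeasurableEquiv.piFinSuccAbove (fun _ : Fin (p + 1) => ℝ) 0).symm ⁻¹' pyrS K = pyrP K := by
  ext ⟨t, x⟩
  rw [mem_pyrP, mem_preimage]
  have h0 : (MeasurableEquiv.piFinSuccAbove (fun _ : Fin (p + 1) => ℝ) 0).symm (t, x) 0 = t := rfl
  have h1 : ∀ i : Fin p,
      (MeasurableEquiv.piFinSuccAbove (fun _ : Fin (p + 1) => ℝ) 0).symm (t, x) i.succ = x i :=
    fun i => rfl
  simp only [pyrS, mem_ofPred_eq, h0, h1, mem_Icc]
  constructor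
  · rintro ⟨h2, h3, y, hy, h4⟩
    exact ⟨⟨h2, h3⟩, y, hy, by ext i; simp [h4 i]⟩
  · rintro ⟨⟨h2, h3⟩, y, hy, h4⟩
    exact ⟨h2, h3, y, hy, fun i => by rw [← h4]; rfl⟩

theorem isCompact_pyrS {K : Set (Fin p → ℝ)} (hK : IsCompact K) : IsCompact (pyrS K) := by
  have h : pyrS K = (fun w : ℝ × (Fin p → ℝ) => (Fin.cons w.1 w.2 : Fin (p + 1) → ℝ)) '' pyrP K := by
    ext z
    constructor
    · rintro ⟨h1, h2, x, hx, h3⟩
      refine ⟨(z 0, Fin.tail z), mem_pyrP.2 ⟨⟨h1, h2⟩, x, hx, ?_⟩, ?_⟩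
      · ext i; simp [Fin.tail, h3 i]
      · simp
    · rintro ⟨w, hw, rfl⟩
      obtain ⟨⟨h1, h2⟩, x, hx, h3⟩ := mem_pyrP.1 hw
      refine ⟨h1, h2, x, hx, fun i => ?_⟩
      simp only [Fin.cons_succ, Fin.cons_zero]
      rw [← h3]
      rfl
  rw [h]
  refine (isCompact_pyrP hK).image ?_
  refine continuous_pi fun i => ?_
  refine Fin.cases ?_ (fun j => ?_) i
  · simp only [Fin.cons_zero]; fun_prop
  · simp only [Fin.cons_succ]; fun_prop

/-- **Integration of homogeneous functions over a pyramid.** -/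
theorem pyr_int {K : Set (Fin p → ℝ)} (hK : IsCompact K) {F : (Fin p → ℝ) → ℝ} (hF : Continuous F)
    (a k : ℕ) (hom : ∀ (r : ℝ) (x : Fin p → ℝ), F (r • x) = r ^ k * F x) :
    ∫ z in pyrS K, z 0 ^ a * F (Fin.tail z) =
      (∫ t in (0 : ℝ)..1, t ^ a * (1 - t) ^ (p + k)) * ∫ x in K, F x := by
  have hmp := (volume_preserving_piFinSuccAbove (fun _ : Fin (p + 1) => ℝ) 0).symm
  rw [← hmp.setIntegral_preimage_emb
    (MeasurableEquiv.measurableEmbedding _) (fun z => z 0 ^ a * F (Fin.tail z)) (pyrS K),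
    preimage_pyrS]
  have hG : ∀ w : ℝ × (Fin p → ℝ),
      (fun z : Fin (p + 1) → ℝ => z 0 ^ a * F (Fin.tail z))
        ((MeasurableEquiv.piFinSuccAbove (fun _ : Fin (p + 1) => ℝ) 0).symm w) =
      w.1 ^ a * F w.2 := fun w => rfl
  simp only [hG]
  have hm : MeasurableSet (pyrP K) := (isCompact_pyrP hK).measurableSet
  rw [← integral_indicator hm, Measure.volume_eq_prod, integral_prod]
  · have h1 : ∀ᵐ t : ℝ, t ≠ 1 := by
      have : volume ({1} : Set ℝ) = 0 := measure_singleton 1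
      exact compl_mem_ae_iff.2 this
    have h2 : ∀ t : ℝ, t ≠ 1 →
        ∫ x : Fin p → ℝ, (pyrP K).indicator (fun w => w.1 ^ a * F w.2) (t, x) =
          (Ico (0 : ℝ) 1).indicator (fun t => t ^ a * (1 - t) ^ (p + k) * ∫ x in K, F x) t := by
      intro t ht
      by_cases h3 : t ∈ Ico (0 : ℝ) 1
      · rw [indicator_of_mem h3]
        have h4 : ∀ x : Fin p → ℝ, (pyrP K).indicator (fun w => w.1 ^ a * F w.2) (t, x) =
            ((1 - t) • K).indicator (fun x => t ^ a * F x) x := by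
          intro x
          by_cases h5 : x ∈ (1 - t) • K
          · rw [indicator_of_mem h5, indicator_of_mem (mem_pyrP.2 ⟨⟨h3.1, h3.2.le⟩, h5⟩)]
          · rw [indicator_of_notMem h5, indicator_of_notMem fun h => h5 (mem_pyrP.1 h).2]
        simp_rw [h4]
        have h6 : MeasurableSet ((1 - t) • K) := (hK.smul (1 - t)).measurableSet
        rw [integral_indicator h6, integral_const_mul]
        have h7 : 0 < 1 - t := by linarith [h3.2]
        have h8 := Measure.setIntegral_comp_smul_of_pos (volume : Measure (Fin p → ℝ)) F K h7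
        rw [Module.finrank_fin_fun] at h8
        simp_rw [hom] at h8
        rw [integral_const_mul, smul_eq_mul] at h8
        have h9 : ∫ x in (1 - t) • K, F x = (1 - t) ^ (p + k) * ∫ x in K, F x := by
          have h10 : ((1 - t) ^ p) ≠ 0 := (pow_pos h7 p).ne'
          rw [pow_add, mul_assoc, h8]
          field_simp
        rw [h9]
        ring
      · rw [indicator_of_notMem h3]
        have h4 : ∀ x : Fin p → ℝ, (pyrP K).indicator (fun w => w.1 ^ a * F w.2) (t, x) = 0 := by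
          intro x
          refine indicator_of_notMem (fun h => h3 ?_) _
          have h5 := (mem_pyrP.1 h).1
          exact ⟨h5.1, lt_of_le_of_ne h5.2 ht⟩
        simp_rw [h4]
        simp
    rw [integral_congr_ae (h1.mono h2), integral_indicator measurableSet_Ico,
      integral_Ico_eq_integral_Ioo, ← integral_Ioc_eq_integral_Ioo,
      ← intervalIntegral.integral_of_le zero_le_one, intervalIntegral.integral_mul_const]
  · rw [← Measure.volume_eq_prod]
    exact (integrable_indicator_iff hm).2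
      ((by fun_prop : Continuous fun w : ℝ × (Fin p → ℝ) => w.1 ^ a * F w.2).continuousOn.integrableOn_compact
        (isCompact_pyrP hK))

end Vale.Agent.P254.FV
end

section

/-!
P254, bodies near unconditional bodies: the one-dimensional cost inequality.
-/

namespace Vale.Agent.P254.EX

theorem log_cost {c w : ℝ} (hc0 : 0 ≤ c) (hc : c < 1) (hw0 : -1 < w) (hw : w < 1) :
    (1 + c) * Real.log (1 + w) + (1 - c) * Real.log (1 - w) ≤ 2 * c ^ 2 := by
  have h1 : Real.log (1 + w) ≤ c + (w - c) / (1 + c) := by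
    have e : 1 + w = (1 + c) * ((1 + w) / (1 + c)) := by field_simp
    rw [e, Real.log_mul (by linarith) (by
      have : 0 < (1 + w) / (1 + c) := div_pos (by linarith) (by linarith)
      exact this.ne')]
    have h2 := Real.log_le_sub_one_of_pos (x := 1 + c) (by linarith)
    have h3 := Real.log_le_sub_one_of_pos (x := (1 + w) / (1 + c))
      (div_pos (by linarith) (by linarith))
    have h4 : (1 + w) / (1 + c) - 1 = (w - c) / (1 + c) := by field_simp; ring
    linarith
  have h2 : Real.log (1 - w) ≤ -c + (c - w) / (1 - c) := by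
    have hc1 : 0 < 1 - c := by linarith
    have e : 1 - w = (1 - c) * ((1 - w) / (1 - c)) := by field_simp
    rw [e, Real.log_mul (by linarith) (by
      have : 0 < (1 - w) / (1 - c) := div_pos (by linarith) (by linarith)
      exact this.ne')]
    have h2 := Real.log_le_sub_one_of_pos (x := 1 - c) (by linarith)
    have h3 := Real.log_le_sub_one_of_pos (x := (1 - w) / (1 - c))
      (div_pos (by linarith) (by linarith))
    have h4 : (1 - w) / (1 - c) - 1 = (c - w) / (1 - c) := by field_simp; ring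
    linarith
  have h3 : (1 + c) * Real.log (1 + w) ≤ (1 + c) * (c + (w - c) / (1 + c)) :=
    mul_le_mul_of_nonneg_left h1 (by linarith)
  have h4 : (1 - c) * Real.log (1 - w) ≤ (1 - c) * (-c + (c - w) / (1 - c)) :=
    mul_le_mul_of_nonneg_left h2 (by linarith)
  have e3 : (1 + c) * (c + (w - c) / (1 + c)) = (1 + c) * c + (w - c) := by
    have : (1 + c) ≠ 0 := by linarith
    field_simp
  have e4 : (1 - c) * (-c + (c - w) / (1 - c)) = -(1 - c) * c + (c - w) := by
    have : (1 - c) ≠ 0 := by linarith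
    field_simp
  nlinarith

theorem cost {a ρ : ℝ} (ha : 0 ≤ a) (ha' : a ≤ 1 / 8) (hρ : 0 < ρ) {x y : ℝ}
    (hx : 0 < x) (hy : 0 < y) :
    4 * x * y * Real.exp (a * Real.log (1 + (x ^ 2) ^ 2 / ρ)
      - a * Real.log (1 + (y ^ 2) ^ 2 / ρ)) ≤ Real.exp (32 * a ^ 2) * (x + y) ^ 2 := by
  have hpx : 0 < 1 + (x ^ 2) ^ 2 / ρ := by positivity
  have hpy : 0 < 1 + (y ^ 2) ^ 2 / ρ := by positivity
  have h32 : 1 ≤ Real.exp (32 * a ^ 2) := Real.one_le_exp (by positivity)
  rcases le_total x y with hxy | hxy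
  · have h1 : Real.log (1 + (x ^ 2) ^ 2 / ρ) ≤ Real.log (1 + (y ^ 2) ^ 2 / ρ) := by
      apply Real.log_le_log hpx
      gcongr
    have h2 : Real.exp (a * Real.log (1 + (x ^ 2) ^ 2 / ρ)
      - a * Real.log (1 + (y ^ 2) ^ 2 / ρ)) ≤ 1 := by
      apply Real.exp_le_one_iff.2
      have := mul_le_mul_of_nonneg_left h1 ha
      linarith
    calc 4 * x * y * Real.exp (a * Real.log (1 + (x ^ 2) ^ 2 / ρ)
          - a * Real.log (1 + (y ^ 2) ^ 2 / ρ)) ≤ 4 * x * y * 1 := by gcongr
      _ ≤ 1 * (x + y) ^ 2 := by nlinarith [sq_nonneg (x - y)]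
      _ ≤ _ := by gcongr
  · -- the main case
    have hs : 0 < x + y := by linarith
    set w : ℝ := (x - y) / (x + y) with hw
    have hw1 : 1 + w = 2 * x / (x + y) := by rw [hw]; field_simp; ring
    have hw2 : 1 - w = 2 * y / (x + y) := by rw [hw]; field_simp; ring
    have hp1 : 0 < 1 + w := by rw [hw1]; positivity
    have hp2 : 0 < 1 - w := by rw [hw2]; positivity
    have hc := log_cost (c := 4 * a) (w := w) (by linarith) (by linarith) (by linarith)
      (by linarith)
    have h1 : Real.log (1 + (x ^ 2) ^ 2 / ρ) - Real.log (1 + (y ^ 2) ^ 2 / ρ)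
        ≤ 4 * (Real.log (1 + w) - Real.log (1 - w)) := by
      have e1 : Real.log (1 + w) - Real.log (1 - w) = Real.log (x / y) := by
        rw [← Real.log_div hp1.ne' hp2.ne', hw1, hw2]
        congr 1
        field_simp
      rw [e1, ← Real.log_div hpx.ne' hpy.ne']
      have e2 : 4 * Real.log (x / y) = Real.log ((x / y) ^ 4) := by
        rw [Real.log_pow]; push_cast; ring
      rw [e2]
      apply Real.log_le_log (by positivity)
      rw [div_pow, div_le_div_iff₀ hpy (by positivity)]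
      have h4 : y ^ 4 ≤ x ^ 4 := by gcongr
      have e5 : (1 + (x ^ 2) ^ 2 / ρ) * y ^ 4 = y ^ 4 + x ^ 4 * y ^ 4 / ρ := by
        field_simp
      have e6 : x ^ 4 * (1 + (y ^ 2) ^ 2 / ρ) = x ^ 4 + x ^ 4 * y ^ 4 / ρ := by
        field_simp
      rw [e5, e6]
      linarith
    have e7 : 4 * x * y = (x + y) ^ 2 * Real.exp (Real.log (1 + w) + Real.log (1 - w)) := by
      rw [Real.exp_add, Real.exp_log hp1, Real.exp_log hp2, hw1, hw2]
      field_simp
      ring
    rw [e7, mul_assoc, ← Real.exp_add, mul_comm]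
    gcongr
    have h8 := mul_le_mul_of_nonneg_left h1 ha
    nlinarith
end Vale.Agent.P254.EX
end

section

/-!
P254, bodies near unconditional bodies: summation over the coordinates, numerics.
-/

namespace Vale.Agent.P254.EX

theorem sumS {n : ℕ} (y β : Fin n → ℝ) {ε₁ ε₂ L c : ℝ} (hy : ∀ k, 0 < y k)
    (hL : 0 ≤ L) (hc : 0 ≤ c) (hε₂ : 0 ≤ ε₂)
    (h1 : ∀ S : Finset (Fin n), ∑ k ∈ S, β k ≤ S.card + n * ε₁)
    (h2 : ∀ k, Real.log (y k) ≤ L + c * β k)
    (h3 : ∀ k, β k ≤ 2 → y k ≤ β k + ε₂) :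
    ∑ k, Real.log (y k) ≤ n * (ε₂ + ε₁ * (1 + L + 2 * c)) := by
  classical
  set G : Finset (Fin n) := Finset.univ.filter fun k => β k ≤ 2 with hG
  set B : Finset (Fin n) := Finset.univ.filter fun k => ¬ β k ≤ 2 with hB
  have hsplit : ∑ k, Real.log (y k) = ∑ k ∈ G, Real.log (y k) + ∑ k ∈ B, Real.log (y k) :=
    (Finset.sum_filter_add_sum_filter_not _ _ _).symm
  have hGn : (G.card : ℝ) ≤ n := by
    have := Finset.card_le_univ G
    rw [Fintype.card_fin] at this
    exact_mod_cast this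
  have g1 : ∑ k ∈ G, Real.log (y k) ≤ ∑ k ∈ G, (β k - 1 + ε₂) := by
    refine Finset.sum_le_sum fun k hk => ?_
    have hk2 : β k ≤ 2 := (Finset.mem_filter.1 hk).2
    have := Real.log_le_sub_one_of_pos (hy k)
    have := h3 k hk2
    linarith
  have g2 : ∑ k ∈ G, (β k - 1 + ε₂) = ∑ k ∈ G, β k - G.card + G.card * ε₂ := by
    rw [Finset.sum_add_distrib, Finset.sum_sub_distrib, Finset.sum_const, Finset.sum_const,
      nsmul_eq_mul, nsmul_eq_mul, mul_one]
  have g3 := h1 G
  have g4 : (G.card : ℝ) * ε₂ ≤ n * ε₂ := mul_le_mul_of_nonneg_right hGn hε₂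
  have b1 : ∑ k ∈ B, Real.log (y k) ≤ ∑ k ∈ B, (L + c * β k) :=
    Finset.sum_le_sum fun k _ => h2 k
  have b2 : ∑ k ∈ B, (L + c * β k) = B.card * L + c * ∑ k ∈ B, β k := by
    rw [Finset.sum_add_distrib, Finset.sum_const, nsmul_eq_mul, Finset.mul_sum]
  have b3 := h1 B
  have b4 : (B.card : ℝ) * 2 ≤ ∑ k ∈ B, β k := by
    rw [← nsmul_eq_mul, ← Finset.sum_const]
    refine Finset.sum_le_sum fun k hk => ?_
    have hk2 : ¬ β k ≤ 2 := (Finset.mem_filter.1 hk).2
    linarith [not_le.1 hk2]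
  have b5 : (B.card : ℝ) ≤ n * ε₁ := by linarith
  have b6 : ∑ k ∈ B, β k ≤ 2 * (n * ε₁) := by linarith
  have b7 : (B.card : ℝ) * L ≤ n * ε₁ * L := mul_le_mul_of_nonneg_right b5 hL
  have b8 : c * ∑ k ∈ B, β k ≤ c * (2 * (n * ε₁)) := mul_le_mul_of_nonneg_left b6 hc
  rw [hsplit]
  nlinarith

/-- `((m+1)/m)^(2m+1) (1.026) ≤ 8` for `m ≥ 3`. -/
theorem ratio_le {m : ℕ} (h3 : 3 ≤ m) :
    ((m : ℝ) + 1) ^ (2 * m + 1) * (1026 / 1000) ≤ 8 * (m : ℝ) ^ (2 * m + 1) := by
  have hm0 : (0 : ℝ) < m := by positivity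
  have h3' : (3 : ℝ) ≤ m := by exact_mod_cast h3
  set y : ℝ := ((m : ℝ) + 1) / m with hy
  have hy1 : 1 ≤ y := by rw [hy, le_div_iff₀ hm0]; linarith
  have hy0 : 0 < y := by linarith
  have hlog : Real.log y ≤ (y - y⁻¹) / 2 := by
    have h := Real.self_le_sinh_iff.2 (Real.log_nonneg hy1)
    rwa [Real.sinh_log hy0] at h
  have h2 : (y - y⁻¹) / 2 = (2 * (m : ℝ) + 1) / (2 * (m * (m + 1))) := by
    rw [hy, inv_div]
    field_simp
    ring
  have h4 : ((2 * m + 1 : ℕ) : ℝ) * Real.log y ≤ 2 + 1 / 24 := by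
    have h5 : ((2 * m + 1 : ℕ) : ℝ) * Real.log y
        ≤ (2 * (m : ℝ) + 1) * ((2 * (m : ℝ) + 1) / (2 * (m * (m + 1)))) := by
      push_cast
      rw [← h2]
      gcongr
    refine h5.trans ?_
    rw [← mul_div_assoc, div_le_iff₀ (by positivity)]
    nlinarith
  have h6 : y ^ (2 * m + 1) ≤ 8000 / 1026 := by
    have h7 : y ^ (2 * m + 1) = Real.exp (((2 * m + 1 : ℕ) : ℝ) * Real.log y) := by
      rw [Real.exp_nat_mul, Real.exp_log hy0]
    rw [h7]
    refine (Real.exp_le_exp.2 h4).trans ?_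
    have he1 := Real.exp_one_lt_d9
    have he0 : 0 < Real.exp 1 := Real.exp_pos 1
    have e2 : Real.exp (2 + 1 / 24) = Real.exp 1 * Real.exp 1 * Real.exp (1 / 24) := by
      rw [← Real.exp_add, ← Real.exp_add]
      norm_num
    have e3 : Real.exp (1 / 24) ≤ 24 / 23 := by
      have h8 := Real.add_one_le_exp (-(1 / 24) : ℝ)
      rw [Real.exp_neg] at h8
      have h9 : (23 / 24 : ℝ) ≤ (Real.exp (1 / 24))⁻¹ := by linarith
      rw [le_inv_comm₀ (by norm_num) (Real.exp_pos _)] at h9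
      linarith [h9, (by norm_num : (23 / 24 : ℝ)⁻¹ = 24 / 23)]
    rw [e2]
    have e4 : Real.exp 1 * Real.exp 1 ≤ 2.7182818286 * 2.7182818286 := by
      gcongr
    calc Real.exp 1 * Real.exp 1 * Real.exp (1 / 24)
        ≤ (2.7182818286 * 2.7182818286) * (24 / 23) := by gcongr
      _ ≤ 8000 / 1026 := by norm_num
  rw [hy, div_pow, div_le_iff₀ (by positivity)] at h6
  have : (0 : ℝ) < (m : ℝ) ^ (2 * m + 1) := by positivity
  linarith

/-- `(n+1)^(2n+1) (1.026)^n < 8^n (n!)^2` for `n ≥ 2`. -/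
theorem pow_lt_fac {n : ℕ} (hn : 2 ≤ n) :
    ((n : ℝ) + 1) ^ (2 * n + 1) * (1026 / 1000) ^ n < 8 ^ n * (n.factorial : ℝ) ^ 2 := by
  induction n, hn using Nat.le_induction with
  | base => norm_num [Nat.factorial]
  | succ n hn ih =>
    have h := ratio_le (m := n + 1) (by omega)
    push_cast at h ⊢
    have hn0 : (0 : ℝ) < (n : ℝ) + 1 := by positivity
    have e1 : ((n : ℝ) + 1 + 1) ^ (2 * (n + 1) + 1) * (1026 / 1000) ≤
        8 * ((n : ℝ) + 1) ^ (2 * (n + 1) + 1) := h
    have e2 : ((n : ℝ) + 1) ^ (2 * (n + 1) + 1) = ((n : ℝ) + 1) ^ 2 * ((n : ℝ) + 1) ^ (2 * n + 1) := by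
      rw [← pow_add]; congr 1; ring
    have e3 : ((n : ℝ) + 1) ^ 2 * (((n : ℝ) + 1) ^ (2 * n + 1) * (1026 / 1000) ^ n)
        < ((n : ℝ) + 1) ^ 2 * (8 ^ n * (n.factorial : ℝ) ^ 2) := by gcongr
    rw [Nat.factorial_succ]
    push_cast
    calc ((n : ℝ) + 1 + 1) ^ (2 * (n + 1) + 1) * (1026 / 1000) ^ (n + 1)
        = (((n : ℝ) + 1 + 1) ^ (2 * (n + 1) + 1) * (1026 / 1000)) * (1026 / 1000) ^ n := by ring
      _ ≤ (8 * ((n : ℝ) + 1) ^ (2 * (n + 1) + 1)) * (1026 / 1000) ^ n := by gcongr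
      _ = 8 * (((n : ℝ) + 1) ^ 2 * (((n : ℝ) + 1) ^ (2 * n + 1) * (1026 / 1000) ^ n)) := by
          rw [e2]; ring
      _ < 8 * (((n : ℝ) + 1) ^ 2 * (8 ^ n * (n.factorial : ℝ) ^ 2)) := by gcongr
      _ = 8 ^ (n + 1) * (((n : ℝ) + 1) * n.factorial) ^ 2 := by ring

end Vale.Agent.P254.EX
end

section

/-!
# P254, unconditional bodies: the abstract duality lemma

`V` is a compact convex set of moment vectors, `S` a subset of `V` on which the product of the
coordinates is at most `M`.  If every positive linear functional is nearly maximised on `S`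
(`hF1`) and the support function of `V` is uniformly smooth (`hF2`), then the product is at
most `M` on the positive part of `V`.
-/

namespace Vale.Agent.P254.Unc

open Filter Topology

/-- First order condition: at a maximiser of the product, `∑ w i / v i ≤ card`. -/
theorem prod_first_order {ι : Type*} [Fintype ι] (V : Set (ι → ℝ)) (hconv : Convex ℝ V)
    (v : ι → ℝ) (hv : v ∈ V) (hpos : ∀ i, 0 < v i)
    (hmax : ∀ w ∈ V, (∀ i, 0 < w i) → ∏ i, w i ≤ ∏ i, v i) (w : ι → ℝ) (hw : w ∈ V) :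
    ∑ i, (v i)⁻¹ * w i ≤ ∑ i, (v i)⁻¹ * v i := by
  classical
  by_contra hcon
  push Not at hcon
  set d : ι → ℝ := fun i => (v i)⁻¹ * (w i - v i) with hd
  have hdsum : 0 < ∑ i, d i := by
    have : ∑ i, d i = ∑ i, (v i)⁻¹ * w i - ∑ i, (v i)⁻¹ * v i := by
      rw [← Finset.sum_sub_distrib]
      exact Finset.sum_congr rfl (fun i _ => by simp only [hd]; ring)
    rw [this]; linarith
  -- the function `t ↦ ∑ d i / (1 + t d i)` is positive near `0`
  have hcont : Tendsto (fun t : ℝ => ∑ i, d i / (1 + t * d i)) (𝓝[>] 0) (𝓝 (∑ i, d i)) := by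
    have h1 : Tendsto (fun t : ℝ => ∑ i, d i / (1 + t * d i)) (𝓝 0)
        (𝓝 (∑ i, d i / (1 + 0 * d i))) := by
      refine tendsto_finsetSum _ (fun i _ => ?_)
      refine Tendsto.div tendsto_const_nhds ?_ (by simp)
      exact (tendsto_const_nhds).add ((tendsto_id).mul tendsto_const_nhds)
    have h2 : ∑ i, d i / (1 + 0 * d i) = ∑ i, d i := by simp
    rw [h2] at h1
    exact h1.mono_left nhdsWithin_le_nhds
  have hev1 : ∀ᶠ t : ℝ in 𝓝[>] 0, 0 < ∑ i, d i / (1 + t * d i) :=
    hcont.eventually (lt_mem_nhds hdsum)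
  have hev2 : ∀ᶠ t : ℝ in 𝓝[>] 0, ∀ i, 0 < 1 + t * d i := by
    rw [Filter.eventually_all]
    intro i
    have : Tendsto (fun t : ℝ => 1 + t * d i) (𝓝 0) (𝓝 (1 + 0 * d i)) :=
      (tendsto_const_nhds).add ((tendsto_id).mul tendsto_const_nhds)
    exact (this.eventually (lt_mem_nhds (by simp))).filter_mono nhdsWithin_le_nhds
  have hev3 : ∀ᶠ t : ℝ in 𝓝[>] 0, t ∈ Set.Ioo (0:ℝ) 1 := Ioo_mem_nhdsGT (by norm_num)
  obtain ⟨t, h1, h2, h3⟩ := (hev1.and (hev2.and hev3)).exists
  have ht0 : 0 < t := h3.1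
  set x : ι → ℝ := fun i => v i * (1 + t * d i) with hx
  have hxV : x ∈ V := by
    have := hconv hv hw (a := 1 - t) (b := t) (by linarith [h3.2]) ht0.le (by ring)
    convert this using 1
    funext i
    have hvi := (hpos i).ne'
    simp only [hx, hd, Pi.add_apply, Pi.smul_apply, smul_eq_mul]
    field_simp
    ring
  have hle := hmax x hxV (fun i => mul_pos (hpos i) (h2 i))
  have hprod : ∏ i, x i = (∏ i, v i) * ∏ i, (1 + t * d i) := by
    simp only [hx]
    rw [Finset.prod_mul_distrib]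
  have hPv : 0 < ∏ i, v i := Finset.prod_pos (fun i _ => hpos i)
  have hP1 : ∏ i, (1 + t * d i) ≤ 1 := by
    rw [hprod] at hle
    by_contra hc
    push Not at hc
    nlinarith
  have hPpos : 0 < ∏ i, (1 + t * d i) := Finset.prod_pos (fun i _ => h2 i)
  have hlog : Real.log (∏ i, (1 + t * d i)) ≤ 0 := Real.log_nonpos hPpos.le hP1
  rw [Real.log_prod (fun i _ => (h2 i).ne')] at hlog
  have hlow : t * ∑ i, d i / (1 + t * d i) ≤ ∑ i, Real.log (1 + t * d i) := by
    rw [Finset.mul_sum]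
    refine Finset.sum_le_sum (fun i _ => ?_)
    have := Real.one_sub_inv_le_log_of_pos (h2 i)
    have h4 : 1 - (1 + t * d i)⁻¹ = t * (d i / (1 + t * d i)) := by
      have := (h2 i).ne'
      field_simp
      ring
    linarith
  have : 0 < t * ∑ i, d i / (1 + t * d i) := mul_pos ht0 h1
  linarith

/-- The abstract duality lemma. -/
theorem prod_le_of_dual {ι : Type*} [Fintype ι] (V S : Set (ι → ℝ)) (M : ℝ)
    (hV : IsCompact V) (hconv : Convex ℝ V) (hSV : S ⊆ V)
    (hF1 : ∀ u : ι → ℝ, (∀ i, 0 < u i) → ∀ ε : ℝ, 0 < ε → ∃ s ∈ S, ∀ v ∈ V,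
      ∑ i, u i * v i ≤ ∑ i, u i * s i + ε)
    (hF2 : ∀ u : ι → ℝ, (∀ i, 0 < u i) → ∃ C η₀ : ℝ, 0 < η₀ ∧ ∀ i : ι, ∀ η : ℝ, 0 < η → η ≤ η₀ →
      ∀ v ∈ V, ∀ w ∈ V, ∀ c : ℝ, (∀ x ∈ V, ∑ i, u i * x i ≤ c) →
      ∑ i, u i * v i + ∑ i, u i * w i + η * (v i - w i) ≤ 2 * c + C * η ^ 2)
    (hM : ∀ s ∈ S, ∏ i, s i ≤ M) (v : ι → ℝ) (hv : v ∈ V) (hpos : ∀ i, 0 < v i) :
    ∏ i, v i ≤ M := by
  classical
  -- the maximiser
  set K : Set (ι → ℝ) := V ∩ {x | ∀ i, 0 ≤ x i} with hK
  have hKc : IsCompact K := hV.inter_right (by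
    have : {x : ι → ℝ | ∀ i, 0 ≤ x i} = ⋂ i, {x : ι → ℝ | 0 ≤ x i} := by ext; simp
    rw [this]
    exact isClosed_iInter (fun i => isClosed_le continuous_const (continuous_apply i)))
  have hvK : v ∈ K := ⟨hv, fun i => (hpos i).le⟩
  have hfc : Continuous (fun x : ι → ℝ => ∏ i, x i) :=
    continuous_finsetProd _ (fun i _ => continuous_apply i)
  obtain ⟨p, hpK, hpmax⟩ := hKc.exists_isMaxOn ⟨v, hvK⟩ hfc.continuousOn
  have hpmax' : ∀ x ∈ K, ∏ i, x i ≤ ∏ i, p i := fun x hx => hpmax hx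
  have hPv : 0 < ∏ i, v i := Finset.prod_pos (fun i _ => hpos i)
  have hPp : 0 < ∏ i, p i := lt_of_lt_of_le hPv (hpmax' v hvK)
  have hppos : ∀ i, 0 < p i := by
    intro i
    refine lt_of_le_of_ne (hpK.2 i) (fun h => ?_)
    exact hPp.ne' (Finset.prod_eq_zero (Finset.mem_univ i) h.symm)
  refine (hpmax' v hvK).trans ?_
  set u : ι → ℝ := fun i => (p i)⁻¹ with hu
  have hupos : ∀ i, 0 < u i := fun i => inv_pos.mpr (hppos i)
  have hfo : ∀ x ∈ V, ∑ i, u i * x i ≤ ∑ i, u i * p i := fun x hx =>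
    prod_first_order V hconv p hpK.1 hppos
      (fun w hw hwpos => hpmax' w ⟨hw, fun i => (hwpos i).le⟩) x hx
  obtain ⟨C, η₀, hη₀, hF⟩ := hF2 u hupos
  -- `p` is in the closure of `S`
  have hclos : p ∈ closure S := by
    rw [Metric.mem_closure_iff]
    intro δ hδ
    -- choose `η` with `(|C|+1) η < δ/2`, then `ε = η^2`
    set η : ℝ := min η₀ (δ / (2 * (|C| + 2))) with hη
    have hC2 : 0 < |C| + 2 := by positivity
    have hηpos : 0 < η := lt_min hη₀ (by positivity)
    have hη1 : η ≤ η₀ := min_le_left _ _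
    have hη2 : (|C| + 2) * η ≤ δ / 2 := by
      have : η ≤ δ / (2 * (|C| + 2)) := min_le_right _ _
      calc (|C| + 2) * η ≤ (|C| + 2) * (δ / (2 * (|C| + 2))) :=
            mul_le_mul_of_nonneg_left this hC2.le
        _ = δ / 2 := by field_simp
    obtain ⟨s, hs, hsmax⟩ := hF1 u hupos (η ^ 2) (by positivity)
    refine ⟨s, hs, ?_⟩
    have hsp : ∑ i, u i * p i ≤ ∑ i, u i * s i + η ^ 2 := hsmax p hpK.1
    have key : ∀ i, |p i - s i| ≤ δ / 2 := by
      intro i
      have e1 := hF i η hηpos hη1 p hpK.1 s (hSV hs) _ hfo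
      have e2 := hF i η hηpos hη1 s (hSV hs) p hpK.1 _ hfo
      have hCle : C ≤ |C| := le_abs_self C
      have hC' : C * η ^ 2 ≤ |C| * η ^ 2 := mul_le_mul_of_nonneg_right hCle (by positivity)
      have e3 : η * (p i - s i) ≤ (|C| + 1) * η ^ 2 := by nlinarith
      have e4 : η * (s i - p i) ≤ (|C| + 1) * η ^ 2 := by nlinarith
      have e5 : p i - s i ≤ (|C| + 1) * η := by
        have : η * (p i - s i) ≤ η * ((|C| + 1) * η) := by nlinarith
        exact le_of_mul_le_mul_left this hηpos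
      have e6 : s i - p i ≤ (|C| + 1) * η := by
        have : η * (s i - p i) ≤ η * ((|C| + 1) * η) := by nlinarith
        exact le_of_mul_le_mul_left this hηpos
      have e7 : (|C| + 1) * η ≤ δ / 2 := by nlinarith
      rw [abs_le]
      constructor <;> linarith
    rw [dist_pi_lt_iff hδ]
    intro i
    rw [Real.dist_eq]
    exact lt_of_le_of_lt (key i) (by linarith)
  have hcl : closure S ⊆ {x : ι → ℝ | ∏ i, x i ≤ M} :=
    closure_minimal hM (isClosed_le hfc continuous_const)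
  exact hcl hclos

end Vale.Agent.P254.Unc
end

section

open MeasureTheory Set
open scoped Matrix

namespace Vale.Agent.P254.L1

/-- The `L₁`-norm given by the measure `μ`: `N(x) = ∫ |⟨x,v⟩| dμ(v)`. -/
noncomputable def nrm {n : ℕ} (μ : Measure (Fin n → ℝ)) (x : Fin n → ℝ) : ℝ :=
  ∫ v, |x ⬝ᵥ v| ∂μ

end Vale.Agent.P254.L1
end

section

/-! P254/L1, block C: Gaussian integrals on `Fin n → ℝ`. -/

open MeasureTheory Set
open scoped Matrix

namespace Vale.Agent.P254.L1

variable {n : ℕ}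

lemma g1_zero : ∫ t : ℝ, Real.exp (-(t * t) / 2) = Real.sqrt (2 * Real.pi) := by
  have h := integral_gaussian (1 / 2)
  rw [show (Real.pi / (1 / 2) : ℝ) = 2 * Real.pi by ring] at h
  rw [← h]
  congr 1
  funext t
  congr 1
  ring

lemma g1_abs : ∫ t : ℝ, |t| * Real.exp (-(t * t) / 2) = 2 := by
  have e1 : (fun x : ℝ => |x| * Real.exp (-(x * x) / 2))
      = fun x : ℝ => (fun y : ℝ => y * Real.exp (-(y * y) / 2)) |x| := by
    funext x; simp [abs_mul_abs_self]
  rw [e1, integral_comp_abs (f := fun y : ℝ => y * Real.exp (-(y * y) / 2))]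
  have e2 : ∫ x in Ioi (0:ℝ), x * Real.exp (-(x * x) / 2) = 1 := by
    have := integral_rpow_mul_exp_neg_mul_rpow (p := 2) (q := 1) (b := 1/2) (by norm_num)
      (by norm_num) (by norm_num)
    have e3 : (∫ x in Ioi (0:ℝ), x ^ (1:ℝ) * Real.exp (-(1/2) * x ^ (2:ℝ)))
        = ∫ x in Ioi (0:ℝ), x * Real.exp (-(x * x) / 2) := by
      refine setIntegral_congr_fun measurableSet_Ioi ?_
      intro x hx
      simp only [Real.rpow_one]
      congr 2
      rw [show (2:ℝ) = ((2:ℕ):ℝ) by norm_num, Real.rpow_natCast]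
      norm_num; ring
    rw [e3] at this
    rw [this]
    norm_num
  rw [e2]; norm_num

lemma g1_sq : ∫ t : ℝ, t * t * Real.exp (-(t * t) / 2) = Real.sqrt (2 * Real.pi) := by
  have e1 : (fun x : ℝ => x * x * Real.exp (-(x * x) / 2))
      = fun x : ℝ => (fun y : ℝ => y * y * Real.exp (-(y * y) / 2)) |x| := by
    funext x; simp [abs_mul_abs_self]
  rw [e1, integral_comp_abs (f := fun y : ℝ => y * y * Real.exp (-(y * y) / 2))]
  have e2 : ∫ x in Ioi (0:ℝ), x * x * Real.exp (-(x * x) / 2) = Real.sqrt (2 * Real.pi) / 2 := by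
    have := integral_rpow_mul_exp_neg_mul_rpow (p := 2) (q := 2) (b := 1/2) (by norm_num)
      (by norm_num) (by norm_num)
    have e3 : (∫ x in Ioi (0:ℝ), x ^ (2:ℝ) * Real.exp (-(1/2) * x ^ (2:ℝ)))
        = ∫ x in Ioi (0:ℝ), x * x * Real.exp (-(x * x) / 2) := by
      refine setIntegral_congr_fun measurableSet_Ioi ?_
      intro x hx
      simp only
      rw [show (2:ℝ) = ((2:ℕ):ℝ) by norm_num, Real.rpow_natCast]
      congr 1
      · ring
      · congr 1; norm_num; ring
    rw [e3] at this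
    rw [this]
    have hG : Real.Gamma ((2 + 1) / 2) = Real.sqrt Real.pi / 2 := by
      rw [show ((2:ℝ) + 1) / 2 = 1 / 2 + 1 by norm_num, Real.Gamma_add_one (by norm_num),
        Real.Gamma_one_half_eq]
      ring
    rw [hG]
    have h3 : ((1:ℝ) / 2) ^ (-((2:ℝ) + 1) / 2) = 2 * Real.sqrt 2 := by
      rw [show (-((2:ℝ) + 1) / 2) = -(1 + 1 / 2) by norm_num,
        Real.rpow_neg (by norm_num), Real.rpow_add (by norm_num), Real.rpow_one,
        ← Real.sqrt_eq_rpow, Real.sqrt_div (by norm_num), Real.sqrt_one]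
      have : (0:ℝ) < Real.sqrt 2 := by positivity
      field_simp
    rw [h3, Real.sqrt_mul (by norm_num)]
    ring
  rw [e2]; ring

lemma exp_prod (y : Fin n → ℝ) :
    Real.exp (-(y ⬝ᵥ y) / 2) = ∏ i, Real.exp (-(y i * y i) / 2) := by
  rw [← Real.exp_sum]
  congr 1
  simp only [dotProduct, ← Finset.sum_div, Finset.sum_neg_distrib]

theorem gauss_one : ∫ y : Fin n → ℝ, Real.exp (-(y ⬝ᵥ y) / 2) = Real.sqrt (2 * Real.pi) ^ n := by
  simp_rw [exp_prod]
  rw [integral_fintype_prod_volume_eq_prod (fun _ (t : ℝ) => Real.exp (-(t * t) / 2))]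
  simp [g1_zero]

lemma exp_coord (g : ℝ → ℝ) (i : Fin n) (y : Fin n → ℝ) :
    g (y i) * Real.exp (-(y ⬝ᵥ y) / 2) =
      ∏ j, (if j = i then g (y j) else 1) * Real.exp (-(y j * y j) / 2) := by
  rw [Finset.prod_mul_distrib, ← exp_prod]
  congr 1
  rw [Finset.prod_ite_eq' Finset.univ i (fun j => g (y j))]
  simp

lemma int_coord (g : ℝ → ℝ) (i : Fin n) :
    ∫ y : Fin n → ℝ, g (y i) * Real.exp (-(y ⬝ᵥ y) / 2) =
      (∫ t : ℝ, g t * Real.exp (-(t * t) / 2)) * Real.sqrt (2 * Real.pi) ^ (n - 1) := by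
  simp_rw [exp_coord g i]
  rw [integral_fintype_prod_volume_eq_prod
    (fun j (t : ℝ) => (if j = i then g t else 1) * Real.exp (-(t * t) / 2))]
  rw [← Finset.mul_prod_erase Finset.univ _ (Finset.mem_univ i)]
  congr 1
  · simp
  · rw [Finset.prod_congr rfl (g := fun _ => Real.sqrt (2 * Real.pi))]
    · simp [Finset.prod_const, Finset.card_erase_of_mem]
    · intro j hj
      simp only [Finset.mem_erase] at hj
      simp [hj.1, g1_zero]

lemma integrable_coord (g : ℝ → ℝ) (hg : Integrable (fun t => g t * Real.exp (-(t * t) / 2)))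
    (i : Fin n) : Integrable (fun y : Fin n → ℝ => g (y i) * Real.exp (-(y ⬝ᵥ y) / 2)) := by
  simp_rw [exp_coord g i]
  refine Integrable.fintype_prod
    (f := fun j (t : ℝ) => (if j = i then g t else 1) * Real.exp (-(t * t) / 2)) ?_
  intro j
  by_cases hj : j = i
  · simpa [hj] using hg
  · simp only [hj, if_false, one_mul]
    have := integrable_exp_neg_mul_sq (b := 1 / 2) (by norm_num)
    refine this.congr (Filter.Eventually.of_forall fun t => ?_)
    simp only
    congr 1; ring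

theorem gauss_sq : ∫ y : Fin n → ℝ, (y ⬝ᵥ y) * Real.exp (-(y ⬝ᵥ y) / 2) =
    n * Real.sqrt (2 * Real.pi) ^ n := by
  have hi : ∀ i : Fin n, Integrable (fun y : Fin n → ℝ =>
      (fun t : ℝ => t * t) (y i) * Real.exp (-(y ⬝ᵥ y) / 2)) := by
    intro i
    refine integrable_coord (fun t => t * t) ?_ i
    by_contra h
    have := integral_undef h
    rw [g1_sq] at this
    have h2 : (0:ℝ) < Real.sqrt (2 * Real.pi) := by positivity
    linarith
  have h1 : ∀ y : Fin n → ℝ, (y ⬝ᵥ y) * Real.exp (-(y ⬝ᵥ y) / 2) =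
      ∑ i, (fun t : ℝ => t * t) (y i) * Real.exp (-(y ⬝ᵥ y) / 2) := by
    intro y
    rw [← Finset.sum_mul]
    rfl
  simp_rw [h1]
  rw [integral_finsetSum _ (fun i _ => hi i)]
  simp_rw [int_coord (fun t => t * t)]
  simp only [g1_sq, Finset.sum_const, Finset.card_univ, Fintype.card_fin, nsmul_eq_mul]
  rcases n with _ | m
  · simp
  · simp only [Nat.add_sub_cancel]
    rw [pow_succ]
    ring

lemma abs_euclid (w : EuclideanSpace ℝ (Fin n)) (i : Fin n) :
    ∫ y : EuclideanSpace ℝ (Fin n), |inner ℝ w y| * Real.exp (-‖y‖ ^ 2 / 2) =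
      ‖w‖ * ∫ y : EuclideanSpace ℝ (Fin n), |y i| * Real.exp (-‖y‖ ^ 2 / 2) := by
  set u : EuclideanSpace ℝ (Fin n) := ‖w‖ • EuclideanSpace.single i (1 : ℝ) with hu
  have hn : ‖w‖ = ‖u‖ := by
    rw [hu, norm_smul]; simp
  set R := (ℝ ∙ (w - u))ᗮ.reflection with hR
  have hRw : R w = u := Submodule.reflection_sub hn
  have hmp : MeasurePreserving R volume volume := R.measurePreserving
  rw [← hmp.integral_comp R.toHomeomorph.measurableEmbedding, ← integral_const_mul]
  refine integral_congr_ae (Filter.Eventually.of_forall fun y => ?_)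
  simp only [LinearIsometryEquiv.norm_map]
  have h1 : inner ℝ w (R y) = ‖w‖ * y i := by
    have h2 : inner ℝ w (R y) = inner ℝ (R w) (R (R y)) := (R.inner_map_map _ _).symm
    rw [h2, hRw, hR, Submodule.reflection_reflection, hu, inner_smul_left]
    simp [EuclideanSpace.inner_single_left]
  rw [h1, abs_mul, abs_norm, mul_assoc]

lemma to_euclid (f : (Fin n → ℝ) → ℝ) :
    ∫ y : Fin n → ℝ, f y = ∫ y : EuclideanSpace ℝ (Fin n), f (WithLp.ofLp y) :=
  ((PiLp.volume_preserving_ofLp (Fin n)).integral_comp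
    (MeasurableEquiv.toLp 2 (Fin n → ℝ)).symm.measurableEmbedding f).symm

theorem gauss_abs (w : Fin n → ℝ) : ∫ y : Fin n → ℝ, |w ⬝ᵥ y| * Real.exp (-(y ⬝ᵥ y) / 2) =
    Real.sqrt (2 / Real.pi) * Real.sqrt (w ⬝ᵥ w) * Real.sqrt (2 * Real.pi) ^ n := by
  rcases n with _ | m
  · simp
  have hnorm : ∀ z : EuclideanSpace ℝ (Fin (m + 1)), ‖z‖ ^ 2 = z.ofLp ⬝ᵥ z.ofLp := by
    intro z
    rw [EuclideanSpace.norm_sq_eq]
    simp [dotProduct, sq]
  have h1 : ∫ y : Fin (m + 1) → ℝ, |w ⬝ᵥ y| * Real.exp (-(y ⬝ᵥ y) / 2) =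
      ∫ y : EuclideanSpace ℝ (Fin (m + 1)),
        |inner ℝ (WithLp.toLp 2 w : EuclideanSpace ℝ (Fin (m + 1))) y| *
          Real.exp (-‖y‖ ^ 2 / 2) := by
    rw [to_euclid]
    refine integral_congr_ae (Filter.Eventually.of_forall fun y => ?_)
    simp only [hnorm]
    congr 2
    rw [PiLp.inner_apply]
    simp [dotProduct, mul_comm]
  have h2 : ∫ y : EuclideanSpace ℝ (Fin (m + 1)), |y 0| * Real.exp (-‖y‖ ^ 2 / 2) =
      2 * Real.sqrt (2 * Real.pi) ^ m := by
    have h3 := int_coord (n := m + 1) (fun t => |t|) 0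
    rw [g1_abs, Nat.add_sub_cancel] at h3
    rw [← h3, to_euclid]
    refine integral_congr_ae (Filter.Eventually.of_forall fun y => ?_)
    simp only [hnorm]
  have h4 : ‖(WithLp.toLp 2 w : EuclideanSpace ℝ (Fin (m + 1)))‖ = Real.sqrt (w ⬝ᵥ w) := by
    rw [← hnorm, Real.sqrt_sq (norm_nonneg _)]
  have h5 : Real.sqrt (2 / Real.pi) * Real.sqrt (2 * Real.pi) = 2 := by
    rw [← Real.sqrt_mul (by positivity)]
    rw [show (2 / Real.pi * (2 * Real.pi) : ℝ) = 2 ^ 2 by
      have := Real.pi_pos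
      field_simp]
    exact Real.sqrt_sq (by norm_num)
  rw [h1, abs_euclid _ 0, h2, h4, pow_succ]
  calc Real.sqrt (w ⬝ᵥ w) * (2 * Real.sqrt (2 * Real.pi) ^ m)
      = Real.sqrt (w ⬝ᵥ w) * ((Real.sqrt (2 / Real.pi) * Real.sqrt (2 * Real.pi)) *
          Real.sqrt (2 * Real.pi) ^ m) := by rw [h5]
    _ = _ := by ring

end Vale.Agent.P254.L1
end

section

open MeasureTheory Set
open scoped Matrix Pointwise

namespace Vale.Agent.P254.L1

variable {n : ℕ}

lemma a3_abs_dot_le (x v : Fin n → ℝ) : |x ⬝ᵥ v| ≤ (n : ℝ) * ‖x‖ * ‖v‖ := by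
  unfold dotProduct
  refine (Finset.abs_sum_le_sum_abs _ _).trans ?_
  refine (Finset.sum_le_sum (g := fun _ => ‖x‖ * ‖v‖) fun i _ => ?_).trans ?_
  · rw [abs_mul]
    exact mul_le_mul (norm_le_pi_norm x i) (norm_le_pi_norm v i) (abs_nonneg _) (norm_nonneg _)
  · simp [mul_assoc]

lemma a3_cont_dot (x : Fin n → ℝ) : Continuous fun v : Fin n → ℝ => |x ⬝ᵥ v| := by
  unfold dotProduct
  fun_prop

lemma a3_int {μ : Measure (Fin n → ℝ)} (hμ : Integrable (fun v => ‖v‖) μ) (x : Fin n → ℝ) :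
    Integrable (fun v => |x ⬝ᵥ v|) μ := by
  refine (hμ.const_mul ((n : ℝ) * ‖x‖)).mono' (a3_cont_dot x).aestronglyMeasurable ?_
  refine Filter.Eventually.of_forall fun v => ?_
  rw [Real.norm_eq_abs, abs_abs]
  exact a3_abs_dot_le x v

lemma a3_nonneg (μ : Measure (Fin n → ℝ)) (x : Fin n → ℝ) : 0 ≤ nrm μ x :=
  integral_nonneg fun _ => abs_nonneg _

lemma a3_smul (μ : Measure (Fin n → ℝ)) (r : ℝ) (x : Fin n → ℝ) :
    nrm μ (r • x) = |r| * nrm μ x := by
  unfold nrm
  rw [← integral_const_mul]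
  refine integral_congr_ae (Filter.Eventually.of_forall fun v => ?_)
  simp [smul_dotProduct, abs_mul]

lemma a3_sub_le {μ : Measure (Fin n → ℝ)} (hμ : Integrable (fun v => ‖v‖) μ) (x y : Fin n → ℝ) :
    nrm μ x - nrm μ y ≤ (n : ℝ) * (∫ v, ‖v‖ ∂μ) * ‖x - y‖ := by
  have h1 : nrm μ x - nrm μ y = ∫ v, (|x ⬝ᵥ v| - |y ⬝ᵥ v|) ∂μ :=
    (integral_sub (a3_int hμ x) (a3_int hμ y)).symm
  rw [h1]
  have h2 : (n : ℝ) * (∫ v, ‖v‖ ∂μ) * ‖x - y‖ = ∫ v, (n : ℝ) * ‖x - y‖ * ‖v‖ ∂μ := by
    rw [integral_const_mul]; ring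
  rw [h2]
  refine integral_mono ((a3_int hμ x).sub (a3_int hμ y)) (hμ.const_mul _) fun v => ?_
  have h3 : |x ⬝ᵥ v| - |y ⬝ᵥ v| ≤ |(x - y) ⬝ᵥ v| := by
    rw [sub_dotProduct]
    exact abs_sub_abs_le_abs_sub _ _
  exact h3.trans (a3_abs_dot_le _ _)

lemma a3_cont {μ : Measure (Fin n → ℝ)} (hμ : Integrable (fun v => ‖v‖) μ) :
    Continuous (nrm μ) := by
  have hC : 0 ≤ (n : ℝ) * (∫ v, ‖v‖ ∂μ) :=
    mul_nonneg n.cast_nonneg (integral_nonneg fun _ => norm_nonneg _)
  refine (LipschitzWith.of_dist_le_mul (K := ⟨_, hC⟩) fun x y => ?_).continuous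
  rw [Real.dist_eq, dist_eq_norm]
  refine abs_sub_le_iff.2 ⟨a3_sub_le hμ x y, ?_⟩
  rw [norm_sub_rev]
  exact a3_sub_le hμ y x

/-- general form: `(n+1) ∫_{N ≤ 1} N = n |{N ≤ 1}|` for a nonnegative continuous function homogeneous of degree one -/
theorem a3_general {N : (Fin n → ℝ) → ℝ} (hc : Continuous N) (h0 : ∀ x, 0 ≤ N x)
    (hs : ∀ (r : ℝ) (x : Fin n → ℝ), 0 < r → N (r • x) = r * N x)
    (hK : Bornology.IsBounded {x | N x ≤ 1}) :
    ((n : ℝ) + 1) * ∫ x in {x | N x ≤ 1}, N x = n * (volume {x | N x ≤ 1}).toReal := by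
  set K : Set (Fin n → ℝ) := {x | N x ≤ 1} with hKdef
  have hKm : MeasurableSet K := (isClosed_le hc continuous_const).measurableSet
  have hKf : volume K ≠ ⊤ := hK.measure_lt_top.ne
  haveI : IsFiniteMeasure (volume.restrict K) := ⟨by rw [Measure.restrict_apply_univ]; exact hK.measure_lt_top⟩
  have hint : Integrable N (volume.restrict K) := by
    refine (integrable_const (1:ℝ)).mono' hc.aestronglyMeasurable ?_
    refine (ae_restrict_iff' hKm).2 (Filter.Eventually.of_forall fun x hx => ?_)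
    rw [Real.norm_eq_abs, abs_of_nonneg (h0 x)]
    exact hx
  have hlev : ∀ t : ℝ, 0 < t → (volume {x | N x ≤ t}).toReal = t ^ n * (volume K).toReal := by
    intro t ht
    have he : {x | N x ≤ t} = t • K := by
      ext x
      rw [mem_smul_set_iff_inv_smul_mem₀ ht.ne']
      simp only [mem_setOf_eq, hKdef]
      rw [hs _ _ (inv_pos.2 ht), inv_mul_le_iff₀ ht, mul_one]
    rw [he, Measure.addHaar_smul, ENNReal.toReal_mul, ENNReal.toReal_ofReal (abs_nonneg _)]
    simp [abs_of_pos ht]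
  have hrep := Integrable.integral_eq_integral_meas_lt hint (Filter.Eventually.of_forall h0)
  have hm : ∀ t ∈ Ioi (0:ℝ), ((volume.restrict K).real {a | t < N a}) =
      (Ioc (0:ℝ) 1).indicator (fun t => (volume K).toReal * (1 - t ^ n)) t := by
    intro t ht
    have ht : 0 < t := ht
    have hmt : MeasurableSet {a | t < N a} := (isOpen_lt continuous_const hc).measurableSet
    rw [measureReal_def, Measure.restrict_apply hmt]
    by_cases h1 : t ≤ 1
    · rw [indicator_of_mem (show t ∈ Ioc (0:ℝ) 1 from ⟨ht, h1⟩)]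
      have he : {a | t < N a} ∩ K = K \ {x | N x ≤ t} := by
        ext x
        simp only [mem_inter_iff, mem_setOf_eq, mem_diff, not_le]
        tauto
      have hsub : {x | N x ≤ t} ⊆ K := fun x hx => le_trans hx h1
      have hmt' : MeasurableSet {x | N x ≤ t} := (isClosed_le hc continuous_const).measurableSet
      rw [he, measure_diff hsub hmt'.nullMeasurableSet (measure_ne_top_of_subset hsub hKf),
        ENNReal.toReal_sub_of_le (measure_mono hsub) hKf, hlev t ht]
      ring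
    · rw [indicator_of_notMem (fun h => h1 h.2)]
      have he : {a | t < N a} ∩ K = ∅ := by
        ext x
        simp only [mem_inter_iff, mem_setOf_eq, mem_empty_iff_false, iff_false, hKdef, not_and, not_le]
        intro h
        linarith [not_le.1 h1]
      rw [he]; simp
  rw [hrep, setIntegral_congr_fun measurableSet_Ioi hm, setIntegral_indicator measurableSet_Ioc]
  have he : Ioi (0:ℝ) ∩ Ioc 0 1 = Ioc 0 1 := by
    ext t; simp only [mem_inter_iff, mem_Ioi, mem_Ioc]; tauto
  rw [he, ← intervalIntegral.integral_of_le zero_le_one, intervalIntegral.integral_const_mul,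
    intervalIntegral.integral_sub (by simp) (intervalIntegral.intervalIntegrable_pow n)]
  simp only [intervalIntegral.integral_const, sub_zero, smul_eq_mul, mul_one, integral_pow, one_pow]
  have hn : ((n : ℝ) + 1) ≠ 0 := by positivity
  rw [zero_pow (Nat.succ_ne_zero n)]
  field_simp
  ring

/-- A3: `∫_K N = n/(n+1) |K|` -/
theorem setIntegral_nrm {μ : Measure (Fin n → ℝ)} (hμ : Integrable (fun v => ‖v‖) μ)
    (hK : Bornology.IsBounded {x | nrm μ x ≤ 1}) :
    ((n : ℝ) + 1) * ∫ x in {x | nrm μ x ≤ 1}, nrm μ x =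
      n * (volume {x | nrm μ x ≤ 1}).toReal :=
  a3_general (a3_cont hμ) (a3_nonneg μ)
    (fun r x hr => by rw [a3_smul, abs_of_pos hr]) hK

end Vale.Agent.P254.L1
end

section

/-!
# P254, unconditional bodies: Berwald's inequality

For a convex body `K` in the half space `x_k ≥ 0` of `ℝⁿ`, `n = d + 1`:
`(n + 2) |K| ∫_K x_k² ≤ 2 (n + 1) (∫_K x_k)²`.
-/

open MeasureTheory Set
open scoped ENNReal Pointwise

namespace Vale.Agent.P254.Unc.BerH

section BM

variable {d : ℕ} {A B C : Set (Fin d → ℝ)}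

/-- Brunn-Minkowski for two sets compared with cones. -/
theorem bm_scaled (hA : MeasurableSet A) (hB : MeasurableSet B) (hC : MeasurableSet C)
    {a b c l m : ℝ} (ha : 0 < a) (hb : 0 < b) (hc : 0 < c) (hl : 0 < l) (hm : 0 < m)
    (h : ∀ x ∈ A, ∀ y ∈ B, l • x + m • y ∈ C)
    (vA : ENNReal.ofReal (c * a ^ d) ≤ volume A) (vB : ENNReal.ofReal (c * b ^ d) ≤ volume B) :
    ENNReal.ofReal (c * (l * a + m * b) ^ d) ≤ volume C := by
  have hg : 0 < l * a + m * b := by positivity
  set g := l * a + m * b with hgdef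
  have h1 : volume (a⁻¹ • A) ^ (l * a / g) * volume (b⁻¹ • B) ^ (m * b / g) ≤
      volume (g⁻¹ • C) := by
    refine P227.bm_mul (by positivity) (by positivity) (by rw [← add_div, ← hgdef, div_self hg.ne'])
      (hA.const_smul₀ _) (hB.const_smul₀ _) (hC.const_smul₀ _) ?_
    rintro _ ⟨x, hx, rfl⟩ _ ⟨y, hy, rfl⟩
    refine ⟨l • x + m • y, h x hx y hy, ?_⟩
    simp only [smul_add, smul_smul]
    congr 2 <;> field_simp
  have hs : ∀ {r : ℝ}, 0 < r → ∀ {S : Set (Fin d → ℝ)},
      ENNReal.ofReal (c * r ^ d) ≤ volume S → ENNReal.ofReal c ≤ volume (r⁻¹ • S) := by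
    intro r hr S hS
    rw [Measure.addHaar_smul, Module.finrank_fin_fun, abs_of_pos (by positivity)]
    calc ENNReal.ofReal c = ENNReal.ofReal (r⁻¹ ^ d) * ENNReal.ofReal (c * r ^ d) := by
          rw [← ENNReal.ofReal_mul (by positivity)]
          congr 1
          rw [mul_left_comm, ← mul_pow, inv_mul_cancel₀ hr.ne']
          simp
      _ ≤ _ := by gcongr
  have h2 : ENNReal.ofReal c ≤ volume (g⁻¹ • C) := by
    refine le_trans (le_of_eq ?_) ((mul_le_mul' (ENNReal.rpow_le_rpow (hs ha vA) (by positivity))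
      (ENNReal.rpow_le_rpow (hs hb vB) (by positivity))).trans h1)
    rw [← ENNReal.rpow_add _ _ (by simpa using hc) ENNReal.ofReal_ne_top, ← add_div, ← hgdef,
      div_self hg.ne', ENNReal.rpow_one]
  rw [Measure.addHaar_smul, Module.finrank_fin_fun, abs_of_pos (by positivity)] at h2
  calc ENNReal.ofReal (c * g ^ d) = ENNReal.ofReal (g ^ d) * ENNReal.ofReal c := by
        rw [← ENNReal.ofReal_mul (by positivity), mul_comm]
    _ ≤ ENNReal.ofReal (g ^ d) * (ENNReal.ofReal (g⁻¹ ^ d) * volume C) := by gcongr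
    _ = volume C := by
        rw [← mul_assoc, ← ENNReal.ofReal_mul (by positivity), ← mul_pow, mul_inv_cancel₀ hg.ne']
        simp

/-- the same with a point -/
theorem bm_point {l m : ℝ} (hl : 0 < l) {y : Fin d → ℝ}
    (h : ∀ x ∈ A, l • x + m • y ∈ C) :
    ENNReal.ofReal (l ^ d) * volume A ≤ volume C := by
  have h1 : (fun x => x + m • y) '' (l • A) ⊆ C := by
    rintro _ ⟨_, ⟨x, hx, rfl⟩, rfl⟩
    exact h x hx
  calc ENNReal.ofReal (l ^ d) * volume A = volume (l • A) := by
        rw [Measure.addHaar_smul, Module.finrank_fin_fun, abs_of_pos (by positivity)]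
    _ = volume ((fun x => x + m • y) '' (l • A)) := by
        rw [image_add_right, measure_preimage_add_right]
    _ ≤ _ := measure_mono h1

end BM

variable {d : ℕ}

/-- the slice of `K` at height `t` of the coordinate `k` -/
def slice (K : Set (Fin (d + 1) → ℝ)) (k : Fin (d + 1)) (t : ℝ) : Set (Fin d → ℝ) :=
  {y | k.insertNth t y ∈ K}

theorem continuous_insertNth (k : Fin (d + 1)) :
    Continuous (fun p : ℝ × (Fin d → ℝ) => (k.insertNth p.1 p.2 : Fin (d + 1) → ℝ)) := by
  refine continuous_pi fun i => ?_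
  induction i using Fin.succAboveCases k with
  | x => simpa using continuous_fst
  | p i =>
    simp only [Fin.insertNth_apply_succAbove]
    exact (continuous_apply i).comp continuous_snd

theorem measurableSet_slice {K : Set (Fin (d + 1) → ℝ)} (hK : IsCompact K) (k : Fin (d + 1))
    (t : ℝ) : MeasurableSet (slice K k t) := by
  have : Continuous (fun y : Fin d → ℝ => (k.insertNth t y : Fin (d + 1) → ℝ)) :=
    (continuous_insertNth k).comp (g := fun p : ℝ × (Fin d → ℝ) =>
      (k.insertNth p.1 p.2 : Fin (d + 1) → ℝ)) (f := fun y : Fin d → ℝ => (t, y)) (by fun_prop)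
  exact (hK.isClosed.preimage this).measurableSet

theorem slice_conv {K : Set (Fin (d + 1) → ℝ)} (hK : Convex ℝ K) (k : Fin (d + 1))
    {s t l m : ℝ} (hl : 0 ≤ l) (hm : 0 ≤ m) (hlm : l + m = 1) {x y : Fin d → ℝ}
    (hx : x ∈ slice K k s) (hy : y ∈ slice K k t) :
    l • x + m • y ∈ slice K k (l * s + m * t) := by
  have := hK hx hy hl hm hlm
  unfold slice
  simp only [mem_ofPred_eq]
  convert this using 1
  ext i
  induction i using Fin.succAboveCases k with
  | x => simp
  | p i => simp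

/-- Fubini for functions of one coordinate. -/
theorem fubini_slice {K : Set (Fin (d + 1) → ℝ)} (hK : IsCompact K) (k : Fin (d + 1))
    {φ : ℝ → ℝ} (hφ : Continuous φ) :
    Integrable (fun t => φ t * volume.real (slice K k t)) ∧
    ∫ x in K, φ (x k) = ∫ t, φ t * volume.real (slice K k t) := by
  have mp := (volume_preserving_piFinSuccAbove (fun _ : Fin (d + 1) => ℝ) k).symm
  have hint : Integrable (K.indicator (fun x => φ (x k))) :=
    (integrable_indicator_iff hK.measurableSet).2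
      ((hφ.comp (continuous_apply k)).continuousOn.integrableOn_compact hK)
  have e1 : ∫ x in K, φ (x k) = ∫ x, K.indicator (fun x => φ (x k)) x :=
    (integral_indicator hK.measurableSet).symm
  have hint2 : Integrable (fun p : ℝ × (Fin d → ℝ) => K.indicator (fun x => φ (x k))
      ((MeasurableEquiv.piFinSuccAbove (fun _ : Fin (d + 1) => ℝ) k).symm p))
      (volume.prod volume) := (mp.integrable_comp_emb (MeasurableEquiv.measurableEmbedding _)).2 hint
  have e2 := mp.integral_comp' (g := K.indicator (fun x => φ (x k)))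
  have e3 : ∀ t, ∫ y : Fin d → ℝ, K.indicator (fun x => φ (x k))
      ((MeasurableEquiv.piFinSuccAbove (fun _ : Fin (d + 1) => ℝ) k).symm (t, y)) =
      φ t * volume.real (slice K k t) := by
    intro t
    have : (fun y : Fin d → ℝ => K.indicator (fun x => φ (x k))
      ((MeasurableEquiv.piFinSuccAbove (fun _ : Fin (d + 1) => ℝ) k).symm (t, y))) =
      (slice K k t).indicator (fun _ => φ t) := by
      ext y
      have h0 : (MeasurableEquiv.piFinSuccAbove (fun _ : Fin (d + 1) => ℝ) k).symm (t, y) =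
        k.insertNth t y := rfl
      rw [h0]
      by_cases h : (k.insertNth t y : Fin (d + 1) → ℝ) ∈ K
      · rw [indicator_of_mem h, indicator_of_mem (show y ∈ slice K k t from h)]
        simp
      · rw [indicator_of_notMem h, indicator_of_notMem (show y ∉ slice K k t from h)]
    rw [this, integral_indicator_const _ (measurableSet_slice hK k t), smul_eq_mul, mul_comm]
  constructor
  · have := hint2.integral_prod_left
    simpa only [e3] using this
  · rw [e1, ← e2]
    rw [show (volume : Measure (ℝ × (Fin d → ℝ))) = volume.prod volume from rfl,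
      integral_prod _ hint2]
    exact integral_congr_ae (Filter.Eventually.of_forall e3)


/-- moments of the cone -/
theorem cone_moment {b : ℝ} (hb : 0 < b) (d j : ℕ) :
    ∫ t in (0 : ℝ)..b, t ^ j * (1 - t / b) ^ d =
      b ^ (j + 1) * ∫ u in (0 : ℝ)..1, (1 - u) ^ j * u ^ d := by
  have h1 : ∫ t in (0 : ℝ)..b, t ^ j * (1 - t / b) ^ d =
      b ^ (j + 1) * ∫ v in (0 : ℝ)..1, v ^ j * (1 - v) ^ d := by
    have := intervalIntegral.integral_comp_div (a := 0) (b := b)
      (fun v : ℝ => v ^ j * (1 - v) ^ d) hb.ne'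
    rw [div_self hb.ne', zero_div, smul_eq_mul] at this
    rw [pow_succ, mul_assoc, ← this, ← intervalIntegral.integral_const_mul]
    refine intervalIntegral.integral_congr fun t _ => ?_
    simp only [div_pow]
    field_simp
  rw [h1]
  congr 1
  have := intervalIntegral.integral_comp_sub_left (a := 0) (b := 1)
    (fun u : ℝ => (1 - u) ^ j * u ^ d) 1
  simp only [sub_sub_cancel, sub_self, sub_zero] at this
  exact this

theorem cone0 (d : ℕ) : ∫ u in (0 : ℝ)..1, (1 - u) ^ 0 * u ^ d = 1 / ((d : ℝ) + 1) := by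
  simp [integral_pow]

theorem cone1 (d : ℕ) : ∫ u in (0 : ℝ)..1, (1 - u) ^ 1 * u ^ d = 1 / (((d : ℝ) + 1) * (d + 2)) := by
  have : ∀ u : ℝ, (1 - u) ^ 1 * u ^ d = u ^ d - u ^ (d + 1) := fun u => by ring
  simp only [this]
  rw [intervalIntegral.integral_sub (by simp) (by simp), integral_pow, integral_pow]
  push_cast
  field_simp
  ring_nf

theorem cone2 (d : ℕ) :
    ∫ u in (0 : ℝ)..1, (1 - u) ^ 2 * u ^ d = 2 / (((d : ℝ) + 1) * (d + 2) * (d + 3)) := by
  have : ∀ u : ℝ, (1 - u) ^ 2 * u ^ d = u ^ d - 2 * u ^ (d + 1) + u ^ (d + 2) := fun u => by ring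
  simp only [this]
  rw [intervalIntegral.integral_add (Continuous.intervalIntegrable (by fun_prop) _ _)
      (Continuous.intervalIntegrable (by fun_prop) _ _),
    intervalIntegral.integral_sub (Continuous.intervalIntegrable (by fun_prop) _ _)
      (Continuous.intervalIntegrable (by fun_prop) _ _),
    intervalIntegral.integral_const_mul, integral_pow, integral_pow, integral_pow]
  push_cast
  field_simp
  ring_nf

/-- the cone profile -/
noncomputable def cone (d : ℕ) (c b t : ℝ) : ℝ := (Ico 0 b).indicator (fun t => c * (1 - t / b) ^ d) t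

theorem cone_integral (d j : ℕ) (c : ℝ) {b : ℝ} (hb : 0 < b) :
    Integrable (fun t => t ^ j * cone d c b t) ∧
    ∫ t, t ^ j * cone d c b t = c * b ^ (j + 1) * ∫ u in (0 : ℝ)..1, (1 - u) ^ j * u ^ d := by
  have e : (fun t => t ^ j * cone d c b t) =
      (Ico 0 b).indicator (fun t => c * (t ^ j * (1 - t / b) ^ d)) := by
    ext t
    unfold cone
    by_cases h : t ∈ Ico 0 b
    · rw [indicator_of_mem h, indicator_of_mem h]; ring
    · rw [indicator_of_notMem h, indicator_of_notMem h]; ring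
  have hcont : Continuous (fun t : ℝ => c * (t ^ j * (1 - t / b) ^ d)) := by fun_prop
  constructor
  · rw [e, integrable_indicator_iff measurableSet_Ico]
    exact (hcont.continuousOn.integrableOn_compact isCompact_Icc).mono_set Ico_subset_Icc_self
  · rw [e, integral_indicator measurableSet_Ico, integral_Ico_eq_integral_Ioo,
      ← integral_Ioc_eq_integral_Ioo, ← intervalIntegral.integral_of_le hb.le,
      intervalIntegral.integral_const_mul, cone_moment hb, mul_assoc]

/-- Comparison lemma in one variable. -/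
theorem berwald_one (d : ℕ) {F : ℝ → ℝ} {R : ℝ}
    (hF : ∀ t, t < 0 → F t = 0) (i0 : Integrable F) (i1 : Integrable (fun t => t * F t))
    (i2 : Integrable (fun t => t ^ 2 * F t)) (hm0 : 0 < ∫ t, F t) (hm1 : 0 < ∫ t, t * F t)
    (hT : ∀ c b : ℝ, 0 < c → 0 < b → ∃ T : Set ℝ, T ⊆ Icc 0 R ∧ T.OrdConnected ∧
      (∀ t ∈ T, cone d c b t ≤ F t) ∧ ∀ t, 0 ≤ t → t ∉ T → F t ≤ cone d c b t) :
    (d + 3) * (∫ t, F t) * ∫ t, t ^ 2 * F t ≤ 2 * (d + 2) * (∫ t, t * F t) ^ 2 := by
  set M0 := ∫ t, F t with hM0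
  set M1 := ∫ t, t * F t with hM1
  set M2 := ∫ t, t ^ 2 * F t with hM2
  set b := (d + 2) * M1 / M0 with hb
  have hbp : 0 < b := by positivity
  set c := (d + 1) * M0 / b with hc
  have hcp : 0 < c := by positivity
  obtain ⟨T, hT1, hT2, hT3, hT4⟩ := hT c b hcp hbp
  have hbb : BddBelow T := ⟨0, fun t ht => (hT1 ht).1⟩
  have hba : BddAbove T := ⟨R, fun t ht => (hT1 ht).2⟩
  set α := sInf T
  set β := sSup T
  have key : ∀ t, (t - α) * (t - β) * (F t - cone d c b t) ≤ 0 := by
    intro t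
    rcases lt_or_ge t 0 with h0 | h0
    · rw [hF t h0]
      unfold cone
      rw [indicator_of_notMem (fun h => absurd h.1 (not_le.2 h0))]
      simp
    · by_cases ht : t ∈ T
      · have h1 : α ≤ t := csInf_le hbb ht
        have h2 : t ≤ β := le_csSup hba ht
        have h3 := hT3 t ht
        have : (t - α) * (t - β) ≤ 0 := mul_nonpos_of_nonneg_of_nonpos (by linarith) (by linarith)
        exact mul_nonpos_of_nonpos_of_nonneg this (by linarith)
      · have h3 := hT4 t h0 ht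
        refine mul_nonpos_of_nonneg_of_nonpos ?_ (by linarith)
        rcases T.eq_empty_or_nonempty with hE | hE
        · have ha : α = 0 := by simp [α, hE]
          have hb' : β = 0 := by simp [β, hE]
          rw [ha, hb']
          nlinarith
        · have hab : α ≤ β := csInf_le_csSup hE hbb hba
          rcases le_or_gt t α with h | h
          · exact mul_nonneg_of_nonpos_of_nonpos (by linarith) (by linarith)
          · rcases le_or_gt β t with h' | h'
            · exact mul_nonneg (by linarith) (by linarith)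
            · obtain ⟨s, hs, hs'⟩ := exists_lt_of_csInf_lt hE h
              obtain ⟨s2, hs2, hs2'⟩ := exists_lt_of_lt_csSup hE h'
              exact absurd (hT2.out hs hs2 ⟨hs'.le, hs2'.le⟩) ht
  have hint : ∫ t, (t - α) * (t - β) * (F t - cone d c b t) ≤ 0 :=
    integral_nonpos key
  obtain ⟨j0, g0⟩ := cone_integral d 0 c hbp
  obtain ⟨j1, g1⟩ := cone_integral d 1 c hbp
  obtain ⟨j2, g2⟩ := cone_integral d 2 c hbp
  rw [cone0] at g0
  rw [cone1] at g1
  rw [cone2] at g2
  simp only [pow_zero, one_mul, pow_one, zero_add] at j0 j1 j2 g0 g1 g2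
  have hexp : ∫ t, (t - α) * (t - β) * (F t - cone d c b t) =
      (M2 - ∫ t, t ^ 2 * cone d c b t) - (α + β) * (M1 - ∫ t, t * cone d c b t) +
        α * β * (M0 - ∫ t, cone d c b t) := by
    have e1 : ∀ t, (t - α) * (t - β) * (F t - cone d c b t) =
        (t ^ 2 * F t - t ^ 2 * cone d c b t) - (α + β) * (t * F t - t * cone d c b t) +
          α * β * (F t - cone d c b t) := fun t => by ring
    simp only [e1]
    have k2 : Integrable (fun t => t ^ 2 * F t - t ^ 2 * cone d c b t) := i2.sub j2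
    have k1 : Integrable (fun t => (α + β) * (t * F t - t * cone d c b t)) :=
      (i1.sub j1).const_mul _
    have k0 : Integrable (fun t => α * β * (F t - cone d c b t)) := (i0.sub j0).const_mul _
    have k21 : Integrable (fun t => t ^ 2 * F t - t ^ 2 * cone d c b t -
      (α + β) * (t * F t - t * cone d c b t)) := k2.sub k1
    rw [integral_add k21 k0, integral_sub k2 k1, integral_const_mul, integral_const_mul,
      integral_sub i2 j2, integral_sub i1 j1, integral_sub i0 j0]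
  rw [hexp, g0, g1, g2] at hint
  have hcb : c * b = (d + 1) * M0 := by rw [hc]; field_simp
  have hb0 : b * M0 = (d + 2) * M1 := by rw [hb]; field_simp
  have h0 : c * b * (1 / ((d : ℝ) + 1)) = M0 := by rw [hcb]; field_simp
  have h1 : c * b ^ (1 + 1) * (1 / (((d : ℝ) + 1) * (d + 2))) = M1 := by
    have : c * b ^ (1 + 1) = (d + 1) * ((d + 2) * M1) := by rw [← hb0, pow_succ, pow_one, ← mul_assoc, hcb]; ring
    rw [this]; field_simp
  have h2 : M0 * (c * b ^ (2 + 1) * (2 / (((d : ℝ) + 1) * (d + 2) * (d + 3)))) * (d + 3) =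
      2 * (d + 2) * M1 ^ 2 := by
    have : M0 * (c * b ^ (2 + 1)) = (d + 1) * ((d + 2) * M1) ^ 2 := by
      rw [← hb0, show M0 * (c * b ^ (2 + 1)) = (c * b) * (b ^ 2 * M0) by ring, hcb]; ring
    rw [← mul_assoc, this]; field_simp
  rw [h0, h1] at hint
  simp only [sub_self, mul_zero, sub_zero, add_zero] at hint
  rw [← h2]
  have h3 : M2 ≤ c * b ^ (2 + 1) * (2 / (((d : ℝ) + 1) * (d + 2) * (d + 3))) := by linarith
  calc (d + 3) * M0 * M2 ≤ (d + 3) * M0 *
      (c * b ^ (2 + 1) * (2 / (((d : ℝ) + 1) * (d + 2) * (d + 3)))) := by gcongr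
    _ = _ := by ring

/-- **Berwald's inequality** for a convex body in a half space. -/
theorem berwald {K : Set (Fin (d + 1) → ℝ)} (hK : Convex ℝ K) (hc : IsCompact K)
    (k : Fin (d + 1)) (hk : ∀ x ∈ K, 0 ≤ x k) (hv : 0 < volume.real K) :
    (d + 3) * volume.real K * ∫ x in K, x k ^ 2 ≤ 2 * (d + 2) * (∫ x in K, x k) ^ 2 := by
  obtain ⟨i0, f0⟩ := fubini_slice hc k (φ := fun _ => 1) continuous_const
  obtain ⟨i1, f1⟩ := fubini_slice hc k (φ := fun t => t) continuous_id
  obtain ⟨i2, f2⟩ := fubini_slice hc k (φ := fun t => t ^ 2) (by fun_prop)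
  simp only [one_mul] at i0 f0
  have f0' : ∫ x in K, (1 : ℝ) = volume.real K := by simp
  rw [f0'] at f0
  obtain ⟨R, hR⟩ : ∃ R : ℝ, ∀ x ∈ K, x k ≤ R := by
    obtain ⟨R, hR⟩ := (hc.image (continuous_apply k)).bddAbove
    exact ⟨R, fun x hx => hR ⟨x, hx, rfl⟩⟩
  have hneg : ∀ t, t < 0 → slice K k t = ∅ := by
    intro t ht
    ext y
    simp only [slice, mem_ofPred_eq, mem_empty_iff_false, iff_false]
    intro h
    have := hk _ h
    simp at this
    linarith
  have hle : ∀ t, (slice K k t).Nonempty → t ≤ R := by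
    rintro t ⟨y, hy⟩
    have := hR _ hy
    simpa using this
  have hge : ∀ t, (slice K k t).Nonempty → 0 ≤ t := by
    rintro t ⟨y, hy⟩
    have := hk _ hy
    simpa using this
  have hfin : ∀ t, volume (slice K k t) ≠ ∞ := by
    intro t
    have hb : Bornology.IsBounded (slice K k t) := by
      obtain ⟨r, hr⟩ := hc.isBounded.exists_norm_le
      refine (Metric.isBounded_iff_subset_closedBall 0).2 ⟨r, fun y hy => ?_⟩
      rw [mem_closedBall_zero_iff]
      have h1 := hr _ hy
      have h0 : 0 ≤ r := (norm_nonneg _).trans h1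
      rw [pi_norm_le_iff_of_nonneg h0] at h1 ⊢
      intro i
      simpa using h1 (k.succAbove i)
    exact hb.measure_lt_top.ne
  have hpos1 : 0 < ∫ t, t * volume.real (slice K k t) := by
    have hnn : 0 ≤ fun t => t * volume.real (slice K k t) := by
      intro t
      rcases lt_or_ge t 0 with h | h
      · simp [hneg t h]
      · exact mul_nonneg h measureReal_nonneg
    refine lt_of_le_of_ne (integral_nonneg hnn) fun h0 => ?_
    have h1 := (integral_eq_zero_iff_of_nonneg hnn i1).1 h0.symm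
    have h2 : ∀ᵐ t : ℝ, t ≠ 0 := by
      rw [ae_iff]
      simp
    have h3 : (fun t => volume.real (slice K k t)) =ᵐ[volume] 0 := by
      filter_upwards [h1, h2] with t h1 h2
      simpa [h2] using h1
    have h4 := integral_congr_ae h3
    simp only [Pi.zero_apply, integral_zero] at h4
    rw [f0] at hv
    rw [h4] at hv
    exact lt_irrefl _ hv
  rw [f1, f2, f0]
  refine berwald_one d (R := R) (fun t ht => by simp [hneg t ht]) i0 i1 i2 (f0 ▸ hv) hpos1 ?_
  intro c b hcp hbp
  have hcone : ∀ t, 0 ≤ t → t < b → cone d c b t = c * (1 - t / b) ^ d := fun t h1 h2 => by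
    unfold cone; rw [indicator_of_mem (show t ∈ Ico 0 b from ⟨h1, h2⟩)]
  have hcone' : ∀ t, b ≤ t → cone d c b t = 0 := fun t h1 => by
    unfold cone; rw [indicator_of_notMem (fun h => absurd h.2 (not_lt.2 h1))]
  have hpos : ∀ t, 0 ≤ t → t < b → 0 < 1 - t / b := fun t _ h2 => by
    rw [sub_pos, div_lt_one hbp]; exact h2
  have hmem : ∀ t, 0 ≤ t → t < b → cone d c b t ≤ volume.real (slice K k t) →
      ENNReal.ofReal (c * (1 - t / b) ^ d) ≤ volume (slice K k t) := by
    intro t h1 h2 h3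
    rw [hcone t h1 h2] at h3
    exact ENNReal.ofReal_le_of_le_toReal h3
  have hmem' : ∀ t, 0 ≤ t → t < b → ENNReal.ofReal (c * (1 - t / b) ^ d) ≤ volume (slice K k t) →
      cone d c b t ≤ volume.real (slice K k t) := by
    intro t h1 h2 h3
    rw [hcone t h1 h2]
    exact (ENNReal.ofReal_le_iff_le_toReal (hfin t)).1 h3
  have hne : ∀ t, 0 ≤ t → t < b → cone d c b t ≤ volume.real (slice K k t) →
      (slice K k t).Nonempty := by
    intro t h1 h2 h3
    rw [nonempty_iff_ne_empty]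
    intro h
    have := hmem t h1 h2 h3
    rw [h, measure_empty, nonpos_iff_eq_zero, ENNReal.ofReal_eq_zero] at this
    have h4 := hpos t h1 h2
    have : 0 < c * (1 - t / b) ^ d := by positivity
    linarith
  refine ⟨{t | (0 ≤ t ∧ t < b ∧ cone d c b t ≤ volume.real (slice K k t)) ∨
    (b ≤ t ∧ (slice K k t).Nonempty)}, ?_, ?_, ?_, ?_⟩
  · rintro t (⟨h1, h2, h3⟩ | ⟨h1, h2⟩)
    · exact ⟨h1, hle t (hne t h1 h2 h3)⟩
    · exact ⟨hbp.le.trans h1, hle t h2⟩
  · rw [ordConnected_iff]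
    intro s hs t ht _ u hu
    rcases hu.1.eq_or_lt with rfl | hsu
    · exact hs
    rcases hu.2.eq_or_lt with rfl | hut
    · exact ht
    have hst : s < t := hsu.trans hut
    have hts : 0 < t - s := sub_pos.2 hst
    set l := (t - u) / (t - s) with hl
    set m := (u - s) / (t - s) with hm
    have hl0 : 0 < l := div_pos (sub_pos.2 hut) hts
    have hm0 : 0 < m := div_pos (sub_pos.2 hsu) hts
    have hlm : l + m = 1 := by rw [hl, hm]; field_simp; ring
    have hu' : l * s + m * t = u := by rw [hl, hm]; field_simp; ring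
    have hsne : (slice K k s).Nonempty := by
      rcases hs with ⟨h1, h2, h3⟩ | ⟨h1, h2⟩
      · exact hne s h1 h2 h3
      · exact h2
    have htne : (slice K k t).Nonempty := by
      rcases ht with ⟨h1, h2, h3⟩ | ⟨h1, h2⟩
      · exact hne t h1 h2 h3
      · exact h2
    have hs0 : 0 ≤ s := hge s hsne
    have hu0 : 0 ≤ u := hs0.trans hsu.le
    have hune : (slice K k u).Nonempty := by
      obtain ⟨x, hx⟩ := hsne
      obtain ⟨y, hy⟩ := htne
      exact ⟨_, hu' ▸ slice_conv hK k hl0.le hm0.le hlm hx hy⟩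
    rcases le_or_gt b u with hbu | hub
    · exact Or.inr ⟨hbu, hune⟩
    refine Or.inl ⟨hu0, hub, hmem' u hu0 hub ?_⟩
    have hs3 : cone d c b s ≤ volume.real (slice K k s) := by
      rcases hs with ⟨h1, h2, h3⟩ | ⟨h1, h2⟩
      · exact h3
      · linarith
    have hsb : s < b := hsu.trans hub
    have hS := hmem s hs0 hsb hs3
    rcases le_or_gt b t with hbt | htb
    · obtain ⟨y, hy⟩ := htne
      have := bm_point (A := slice K k s) (C := slice K k u) (m := m) hl0 (y := y)
        (fun x hx => hu' ▸ slice_conv hK k hl0.le hm0.le hlm hx hy)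
      refine le_trans ?_ this
      refine le_trans ?_ (mul_le_mul_right hS _)
      rw [← ENNReal.ofReal_mul (by positivity)]
      apply ENNReal.ofReal_le_ofReal
      have h1 : 1 - u / b ≤ l * (1 - s / b) := by
        have e : 1 - u / b = l * (1 - s / b) + m * (1 - t / b) := by
          rw [← hu']
          have : (1 : ℝ) = l + m := hlm.symm
          field_simp
          linear_combination (b : ℝ) * this
        have h2 : m * (1 - t / b) ≤ 0 := by
          apply mul_nonpos_of_nonneg_of_nonpos hm0.le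
          rw [sub_nonpos, one_le_div hbp]
          exact hbt
        linarith
      have h2 := hpos u hu0 hub
      calc c * (1 - u / b) ^ d ≤ c * (l * (1 - s / b)) ^ d := by gcongr
        _ = _ := by rw [mul_pow]; ring
    · have ht0 : 0 ≤ t := hge t htne
      have ht3 : cone d c b t ≤ volume.real (slice K k t) := by
        rcases ht with ⟨h1, h2, h3⟩ | ⟨h1, h2⟩
        · exact h3
        · linarith
      have := bm_scaled (measurableSet_slice hc k s) (measurableSet_slice hc k t)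
        (measurableSet_slice hc k u) (hpos s hs0 hsb) (hpos t ht0 htb) hcp hl0 hm0
        (fun x hx y hy => hu' ▸ slice_conv hK k hl0.le hm0.le hlm hx hy) hS (hmem t ht0 htb ht3)
      convert this using 4
      rw [← hu']
      have : (1 : ℝ) = l + m := hlm.symm
      field_simp
      linear_combination (b : ℝ) * this
  · rintro t (⟨h1, h2, h3⟩ | ⟨h1, h2⟩)
    · exact h3
    · rw [hcone' t h1]; exact measureReal_nonneg
  · intro t h0 ht
    rcases lt_or_ge t b with h | h
    · by_contra hcon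
      exact ht (Or.inl ⟨h0, h, (not_le.1 hcon).le⟩)
    · have : slice K k t = ∅ := by
        rw [← not_nonempty_iff_eq_empty]
        exact fun h' => ht (Or.inr ⟨h, h'⟩)
      rw [this, hcone' t h]
      simp

end BerH

open BerH in
/-- Berwald's inequality in the form of the plan. -/
theorem berwald_two {n : ℕ} (K : Set (Fin n → ℝ)) (hK : IsCompact K)
    (hc : Convex ℝ K) (hne : (interior K).Nonempty) (hpos : ∀ x ∈ K, ∀ k, 0 ≤ x k)
    (_hlow : ∀ x ∈ K, ∀ y : Fin n → ℝ, (∀ k, 0 ≤ y k ∧ y k ≤ x k) → y ∈ K) (k : Fin n) :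
    ((n : ℝ) + 2) * ((volume K).toReal * ∫ x in K, x k ^ 2) ≤
      2 * ((n : ℝ) + 1) * (∫ x in K, x k) ^ 2 := by
  obtain ⟨d, rfl⟩ : ∃ d, n = d + 1 := ⟨n - 1, by have := k.pos; omega⟩
  have hv : 0 < volume.real K := by
    refine ENNReal.toReal_pos (fun h => ?_) hK.measure_lt_top.ne
    have := isOpen_interior.measure_pos volume hne
    rw [measure_mono_null interior_subset h] at this
    exact lt_irrefl _ this
  have h := BerH.berwald hc hK k (fun x hx => hpos x hx k) hv
  have e : volume.real K = (volume K).toReal := rfl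
  rw [e] at h
  push_cast
  linarith

end Vale.Agent.P254.Unc
end

section

/-! P254, bodies inside a parallelepiped, C0a: the variance of a truncated exponential is at most
`1/12`. -/

open MeasureTheory Set

namespace Vale.Agent.P254.Par

/-- `sinh z ≤ z cosh z` for `z ≥ 0`. -/
theorem sinh_le_mul_cosh {z : ℝ} (hz : 0 ≤ z) : Real.sinh z ≤ z * Real.cosh z := by
  have hmono : MonotoneOn (fun z : ℝ => z * Real.cosh z - Real.sinh z) (Ici 0) := by
    apply monotoneOn_of_deriv_nonneg (convex_Ici 0)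
    · fun_prop
    · exact fun x _ => (((hasDerivAt_id x).mul (Real.hasDerivAt_cosh x)).sub
        (Real.hasDerivAt_sinh x)).differentiableAt.differentiableWithinAt
    · intro x hx
      rw [interior_Ici] at hx
      have h : HasDerivAt (fun z : ℝ => z * Real.cosh z - Real.sinh z)
          (1 * Real.cosh x + x * Real.sinh x - Real.cosh x) x :=
        ((hasDerivAt_id x).mul (Real.hasDerivAt_cosh x)).sub (Real.hasDerivAt_sinh x)
      rw [h.deriv]
      have : 0 ≤ x * Real.sinh x := mul_nonneg (le_of_lt hx) (Real.sinh_nonneg_iff.2 (le_of_lt hx))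
      linarith
  have := hmono (mem_Ici.2 le_rfl) (mem_Ici.2 hz) hz
  simp at this
  linarith

/-- the key scalar inequality -/
theorem key_nonneg {z : ℝ} (hz : 0 ≤ z) :
    0 ≤ z ^ 2 * (Real.cosh z - 1) - 12 * (Real.cosh z - 1) + 6 * z ^ 2 := by
  have d0 : ∀ x : ℝ, HasDerivAt
      (fun z : ℝ => z ^ 2 * (Real.cosh z - 1) - 12 * (Real.cosh z - 1) + 6 * z ^ 2)
      (2 * x * (Real.cosh x - 1) + x ^ 2 * Real.sinh x - 12 * Real.sinh x + 12 * x) x := by
    intro x
    have hp : HasDerivAt (fun z : ℝ => z ^ 2) (2 * x) x := by simpa using hasDerivAt_pow 2 x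
    have hc : HasDerivAt (fun z : ℝ => Real.cosh z - 1) (Real.sinh x) x :=
      (Real.hasDerivAt_cosh x).sub_const 1
    exact (((hp.mul hc).sub (hc.const_mul 12)).add (hp.const_mul 6)).congr_deriv (by ring)
  have d1 : ∀ x : ℝ, HasDerivAt
      (fun x : ℝ => 2 * x * (Real.cosh x - 1) + x ^ 2 * Real.sinh x - 12 * Real.sinh x + 12 * x)
      (10 - 10 * Real.cosh x + 4 * x * Real.sinh x + x ^ 2 * Real.cosh x) x := by
    intro x
    have hp : HasDerivAt (fun z : ℝ => z ^ 2) (2 * x) x := by simpa using hasDerivAt_pow 2 x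
    have hc : HasDerivAt (fun z : ℝ => Real.cosh z - 1) (Real.sinh x) x :=
      (Real.hasDerivAt_cosh x).sub_const 1
    have hs := Real.hasDerivAt_sinh x
    have hi : HasDerivAt (fun z : ℝ => 2 * z) 2 x := by
      simpa using (hasDerivAt_id x).const_mul (2 : ℝ)
    have hi12 : HasDerivAt (fun z : ℝ => 12 * z) 12 x := by
      simpa using (hasDerivAt_id x).const_mul (12 : ℝ)
    exact ((((hi.mul hc).add (hp.mul hs)).sub (hs.const_mul 12)).add hi12).congr_deriv (by ring)
  have d2 : ∀ x : ℝ, HasDerivAt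
      (fun x : ℝ => 10 - 10 * Real.cosh x + 4 * x * Real.sinh x + x ^ 2 * Real.cosh x)
      (6 * (x * Real.cosh x - Real.sinh x) + x ^ 2 * Real.sinh x) x := by
    intro x
    have hp : HasDerivAt (fun z : ℝ => z ^ 2) (2 * x) x := by simpa using hasDerivAt_pow 2 x
    have hc := Real.hasDerivAt_cosh x
    have hs := Real.hasDerivAt_sinh x
    have hi : HasDerivAt (fun z : ℝ => 4 * z) 4 x := by
      simpa using (hasDerivAt_id x).const_mul (4 : ℝ)
    exact (((hc.const_mul 10).const_sub 10).add (hi.mul hs)).add (hp.mul hc) |>.congr_deriv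
      (by ring)
  have n2 : ∀ x : ℝ, 0 ≤ x →
      0 ≤ 10 - 10 * Real.cosh x + 4 * x * Real.sinh x + x ^ 2 * Real.cosh x := by
    intro x hx
    have hmono : MonotoneOn
        (fun x : ℝ => 10 - 10 * Real.cosh x + 4 * x * Real.sinh x + x ^ 2 * Real.cosh x)
        (Ici 0) := by
      apply monotoneOn_of_deriv_nonneg (convex_Ici 0)
      · exact fun y _ => (d2 y).continuousAt.continuousWithinAt
      · exact fun y _ => (d2 y).differentiableAt.differentiableWithinAt
      · intro y hy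
        rw [interior_Ici] at hy
        rw [(d2 y).deriv]
        have h1 := sinh_le_mul_cosh (le_of_lt hy)
        have h2 : 0 ≤ y ^ 2 * Real.sinh y :=
          mul_nonneg (sq_nonneg y) (Real.sinh_nonneg_iff.2 (le_of_lt hy))
        linarith
    have := hmono (mem_Ici.2 le_rfl) (mem_Ici.2 hx) hx
    simpa using this
  have n1 : ∀ x : ℝ, 0 ≤ x →
      0 ≤ 2 * x * (Real.cosh x - 1) + x ^ 2 * Real.sinh x - 12 * Real.sinh x + 12 * x := by
    intro x hx
    have hmono : MonotoneOn
        (fun x : ℝ => 2 * x * (Real.cosh x - 1) + x ^ 2 * Real.sinh x - 12 * Real.sinh x + 12 * x)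
        (Ici 0) := by
      apply monotoneOn_of_deriv_nonneg (convex_Ici 0)
      · exact fun y _ => (d1 y).continuousAt.continuousWithinAt
      · exact fun y _ => (d1 y).differentiableAt.differentiableWithinAt
      · intro y hy
        rw [interior_Ici] at hy
        rw [(d1 y).deriv]
        exact n2 y (le_of_lt hy)
    have := hmono (mem_Ici.2 le_rfl) (mem_Ici.2 hx) hx
    simpa using this
  have hmono : MonotoneOn
      (fun z : ℝ => z ^ 2 * (Real.cosh z - 1) - 12 * (Real.cosh z - 1) + 6 * z ^ 2) (Ici 0) := by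
    apply monotoneOn_of_deriv_nonneg (convex_Ici 0)
    · exact fun y _ => (d0 y).continuousAt.continuousWithinAt
    · exact fun y _ => (d0 y).differentiableAt.differentiableWithinAt
    · intro y hy
      rw [interior_Ici] at hy
      rw [(d0 y).deriv]
      exact n1 y (le_of_lt hy)
  have := hmono (mem_Ici.2 le_rfl) (mem_Ici.2 hz) hz
  simpa using this

/-- the same for every real `z` -/
theorem key_nonneg' (z : ℝ) :
    0 ≤ z ^ 2 * (Real.cosh z - 1) - 12 * (Real.cosh z - 1) + 6 * z ^ 2 := by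
  have := key_nonneg (abs_nonneg z)
  rwa [Real.cosh_abs, sq_abs] at this

theorem int_exp {l : ℝ} (hl : l ≠ 0) :
    (∫ t in (0 : ℝ)..1, Real.exp (l * t)) = (Real.exp l - 1) / l := by
  have h : ∀ t ∈ uIcc (0 : ℝ) 1, HasDerivAt (fun t : ℝ => Real.exp (l * t) / l)
      (Real.exp (l * t)) t := by
    intro t _
    have h1 : HasDerivAt (fun t : ℝ => l * t) l t := by
      simpa using (hasDerivAt_id t).const_mul l
    exact (h1.exp.div_const l).congr_deriv (by field_simp)
  rw [intervalIntegral.integral_eq_sub_of_hasDerivAt h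
    ((by fun_prop : Continuous fun t : ℝ => Real.exp (l * t)).intervalIntegrable _ _)]
  simp
  ring

theorem int_t_exp {l : ℝ} (hl : l ≠ 0) :
    (∫ t in (0 : ℝ)..1, t * Real.exp (l * t)) = (Real.exp l * (l - 1) + 1) / l ^ 2 := by
  have h : ∀ t ∈ uIcc (0 : ℝ) 1, HasDerivAt
      (fun t : ℝ => (t / l - 1 / l ^ 2) * Real.exp (l * t)) (t * Real.exp (l * t)) t := by
    intro t _
    have h1 : HasDerivAt (fun t : ℝ => l * t) l t := by
      simpa using (hasDerivAt_id t).const_mul l
    have h2 : HasDerivAt (fun t : ℝ => t / l - 1 / l ^ 2) (1 / l) t := by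
      simpa using ((hasDerivAt_id t).div_const l).sub_const (1 / l ^ 2)
    exact (h2.mul h1.exp).congr_deriv (by field_simp; ring)
  rw [intervalIntegral.integral_eq_sub_of_hasDerivAt h
    ((by fun_prop : Continuous fun t : ℝ => t * Real.exp (l * t)).intervalIntegrable _ _)]
  simp
  field_simp

theorem int_sq_exp {l : ℝ} (hl : l ≠ 0) :
    (∫ t in (0 : ℝ)..1, t ^ 2 * Real.exp (l * t)) =
      (Real.exp l * (l ^ 2 - 2 * l + 2) - 2) / l ^ 3 := by
  have h : ∀ t ∈ uIcc (0 : ℝ) 1, HasDerivAt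
      (fun t : ℝ => (t ^ 2 / l - 2 * t / l ^ 2 + 2 / l ^ 3) * Real.exp (l * t))
      (t ^ 2 * Real.exp (l * t)) t := by
    intro t _
    have h1 : HasDerivAt (fun t : ℝ => l * t) l t := by
      simpa using (hasDerivAt_id t).const_mul l
    have hp : HasDerivAt (fun z : ℝ => z ^ 2) (2 * t) t := by simpa using hasDerivAt_pow 2 t
    have hi : HasDerivAt (fun z : ℝ => 2 * z) 2 t := by
      simpa using (hasDerivAt_id t).const_mul (2 : ℝ)
    have h2 : HasDerivAt (fun t : ℝ => t ^ 2 / l - 2 * t / l ^ 2 + 2 / l ^ 3)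
        (2 * t / l - 2 / l ^ 2) t :=
      ((hp.div_const l).sub (hi.div_const (l ^ 2))).add_const (2 / l ^ 3)
    exact (h2.mul h1.exp).congr_deriv (by field_simp; ring)
  rw [intervalIntegral.integral_eq_sub_of_hasDerivAt h
    ((by fun_prop : Continuous fun t : ℝ => t ^ 2 * Real.exp (l * t)).intervalIntegrable _ _)]
  simp
  field_simp

/-- C0a (file ExpA.lean): variance of a truncated exponential. -/
theorem exp_var (l : ℝ) :
    (∫ t in (0 : ℝ)..1, t ^ 2 * Real.exp (l * t)) * (∫ t in (0 : ℝ)..1, Real.exp (l * t))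
      - (∫ t in (0 : ℝ)..1, t * Real.exp (l * t)) ^ 2
      ≤ 1 / 12 * (∫ t in (0 : ℝ)..1, Real.exp (l * t)) ^ 2 := by
  by_cases hl : l = 0
  · subst hl
    norm_num [integral_pow]
  · rw [int_exp hl, int_t_exp hl, int_sq_exp hl]
    have hk := key_nonneg' l
    rw [Real.cosh_eq] at hk
    have he : 0 < Real.exp l := Real.exp_pos l
    have hen : Real.exp (-l) = 1 / Real.exp l := by rw [Real.exp_neg, one_div]
    rw [hen] at hk
    obtain ⟨u, hu⟩ : ∃ u, u = Real.exp l := ⟨_, rfl⟩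
    rw [← hu] at hk he ⊢
    have hl4 : 0 < l ^ 4 := by positivity
    have hk2 : 0 ≤ 12 * l ^ 2 * u - (12 - l ^ 2) * (u - 1) ^ 2 := by
      have h2 : 12 * l ^ 2 * u - (12 - l ^ 2) * (u - 1) ^ 2 =
          2 * u * (l ^ 2 * ((u + 1 / u) / 2 - 1) - 12 * ((u + 1 / u) / 2 - 1) + 6 * l ^ 2) := by
        field_simp
        ring
      rw [h2]
      positivity
    have h3 : 1 / 12 * ((u - 1) / l) ^ 2 -
        ((u * (l ^ 2 - 2 * l + 2) - 2) / l ^ 3 * ((u - 1) / l) - ((u * (l - 1) + 1) / l ^ 2) ^ 2) =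
        (12 * l ^ 2 * u - (12 - l ^ 2) * (u - 1) ^ 2) / (12 * l ^ 4) := by
      field_simp
      ring
    have h4 : 0 ≤ (12 * l ^ 2 * u - (12 - l ^ 2) * (u - 1) ^ 2) / (12 * l ^ 4) := by positivity
    linarith

end Vale.Agent.P254.Par
end

section

/-! P254, Par, C0b: every mean in `(0,1)` is the mean of a truncated exponential. -/

open MeasureTheory Set

namespace Vale.Agent.P254.Par

/-- closed form -/
theorem ebh_form {m l : ℝ} (hl : l ≠ 0) :
    (∫ t in (0 : ℝ)..1, (t - m) * Real.exp (l * t))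
      = Real.exp l * ((1 - m) / l - 1 / l ^ 2) + m / l + 1 / l ^ 2 := by
  have hd : ∀ t ∈ uIcc (0 : ℝ) 1, HasDerivAt
      (fun t : ℝ => Real.exp (l * t) * ((t - m) / l - 1 / l ^ 2)) ((t - m) * Real.exp (l * t)) t := by
    intro t _
    have h1 : HasDerivAt (fun t : ℝ => Real.exp (l * t)) (Real.exp (l * t) * l) t := by
      have h := ((hasDerivAt_id t).const_mul l).exp
      simpa using h
    have h2 : HasDerivAt (fun t : ℝ => (t - m) / l - 1 / l ^ 2) (1 / l) t := by
      have h := (((hasDerivAt_id t).sub_const m).div_const l).sub_const (1 / l ^ 2)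
      simpa using h
    have h3 := h1.mul h2
    have e : (t - m) * Real.exp (l * t)
        = Real.exp (l * t) * l * ((t - m) / l - 1 / l ^ 2) + Real.exp (l * t) * (1 / l) := by
      field_simp
      ring
    rw [e]
    exact h3
  rw [intervalIntegral.integral_eq_sub_of_hasDerivAt hd (by
    apply Continuous.intervalIntegrable
    fun_prop)]
  simp
  field_simp
  ring

/-- C0b: every mean in `(0,1)` is the mean of a truncated exponential. -/
theorem exp_mean {m : ℝ} (h0 : 0 < m) (h1 : m < 1) :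
    ∃ l : ℝ, (∫ t in (0 : ℝ)..1, t * Real.exp (l * t)) = m * ∫ t in (0 : ℝ)..1, Real.exp (l * t) := by
  have hc : Continuous fun l : ℝ => ∫ t in (0 : ℝ)..1, (t - m) * Real.exp (l * t) := by
    apply intervalIntegral.continuous_parametric_intervalIntegral_of_continuous'
    fun_prop
  have hpos : 0 < ∫ t in (0 : ℝ)..1, (t - m) * Real.exp (2 / (1 - m) * t) := by
    have h2 : 0 < 1 - m := by linarith
    have h3 : 2 / (1 - m) ≠ 0 := by positivity
    rw [ebh_form h3]
    have e1 : (1 - m) / (2 / (1 - m)) - 1 / (2 / (1 - m)) ^ 2 = (1 - m) ^ 2 / 4 := by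
      field_simp
      ring
    rw [e1]
    positivity
  have hneg : (∫ t in (0 : ℝ)..1, (t - m) * Real.exp (-2 / m * t)) < 0 := by
    have h3 : -2 / m ≠ 0 := by
      rw [neg_div]
      exact neg_ne_zero.2 (by positivity)
    rw [ebh_form h3]
    have e1 : (1 - m) / (-2 / m) - 1 / (-2 / m) ^ 2 = -(m * (1 - m) / 2 + m ^ 2 / 4) := by
      field_simp
      ring
    have e2 : m / (-2 / m) + 1 / (-2 / m) ^ 2 = -(m ^ 2 / 4) := by
      field_simp
      ring
    rw [e1, add_assoc, e2]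
    have h4 : 0 < Real.exp (-2 / m) * (m * (1 - m) / 2 + m ^ 2 / 4) := by
      have h5 : 0 < 1 - m := by linarith
      positivity
    have h6 : 0 < m ^ 2 / 4 := by positivity
    nlinarith
  obtain ⟨l, hl⟩ := mem_range_of_exists_le_of_exists_ge hc ⟨_, hneg.le⟩ ⟨_, hpos.le⟩
  refine ⟨l, ?_⟩
  have hl' : (∫ t in (0 : ℝ)..1, (t - m) * Real.exp (l * t)) = 0 := hl
  have e : (∫ t in (0 : ℝ)..1, (t - m) * Real.exp (l * t))
      = (∫ t in (0 : ℝ)..1, t * Real.exp (l * t)) - m * ∫ t in (0 : ℝ)..1, Real.exp (l * t) := by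
    rw [← intervalIntegral.integral_const_mul, ← intervalIntegral.integral_sub]
    · refine intervalIntegral.integral_congr fun t _ => ?_
      ring
    · apply Continuous.intervalIntegrable
      fun_prop
    · apply Continuous.intervalIntegrable
      fun_prop
  rw [e] at hl'
  linarith

end Vale.Agent.P254.Par
end
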