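import Mathlib
import Vale.Agent.P254.Bdl.B7
import Vale.Agent.P254.Defs
import Vale.Agent.P254.Bdl.B6
import Vale.Agent.P254.MathlibUsed
import Vale.Agent.P254.Bdl.B2
import Vale.Agent.P254.Bdl.B5

set_option linter.all false

section

/-!
P254, block (R), part 1: strictly convex compact inner approximations of a closed convex set with
nonempty interior.
-/

open MeasureTheory Set Matrix Filter Topology Metric

namespace Vale.Agent.P254.R304

variable {n : ℕ}

lemma dot_nonneg (v : Fin n → ℝ) : 0 ≤ v ⬝ᵥ v := by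
  unfold dotProduct
  exact Finset.sum_nonneg fun i _ => mul_self_nonneg _

lemma norm_sq_le_dot' (v : Fin n → ℝ) : ‖v‖ ^ 2 ≤ v ⬝ᵥ v := by
  have h1 : ‖v‖ ≤ Real.sqrt (v ⬝ᵥ v) := by
    rw [pi_norm_le_iff_of_nonneg (Real.sqrt_nonneg _)]
    intro i
    apply Real.le_sqrt_of_sq_le
    rw [Real.norm_eq_abs, sq_abs]
    unfold dotProduct
    rw [sq]
    exact Finset.single_le_sum (f := fun i => v i * v i) (fun i _ => mul_self_nonneg _)
      (Finset.mem_univ i)
  calc ‖v‖ ^ 2 ≤ Real.sqrt (v ⬝ᵥ v) ^ 2 := by gcongr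
    _ = v ⬝ᵥ v := Real.sq_sqrt (dot_nonneg v)

lemma dot_pos {v : Fin n → ℝ} (hv : v ≠ 0) : 0 < v ⬝ᵥ v := by
  have := norm_sq_le_dot' v
  have h2 : 0 < ‖v‖ := norm_pos_iff.2 hv
  have : 0 < ‖v‖ ^ 2 := by positivity
  linarith

lemma dot_le_norm_sq (v : Fin n → ℝ) : v ⬝ᵥ v ≤ n * ‖v‖ ^ 2 := by
  unfold dotProduct
  calc ∑ i, v i * v i ≤ ∑ _i : Fin n, ‖v‖ ^ 2 := by
        refine Finset.sum_le_sum fun i _ => ?_
        have := norm_le_pi_norm v i
        rw [Real.norm_eq_abs] at this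
        rw [← sq, ← sq_abs]
        gcongr
    _ = n * ‖v‖ ^ 2 := by simp

lemma continuous_dot_self : Continuous fun v : Fin n → ℝ => v ⬝ᵥ v := by
  unfold dotProduct; fun_prop

/-- the approximating function -/
noncomputable def FF (C : Set (Fin n → ℝ)) (x0 : Fin n → ℝ) (δ : ℝ) (x : Fin n → ℝ) : ℝ :=
  gauge ((fun x => x + x0) ⁻¹' C) (x - x0) ^ 2 + δ * ((x - x0) ⬝ᵥ (x - x0))

theorem exists_strictConvex_approx {C : Set (Fin n → ℝ)} (hC : IsClosed C) (hconv : Convex ℝ C)
    (hi : (interior C).Nonempty) :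
    ∃ K : ℕ → Set (Fin n → ℝ), (∀ k, IsCompact (K k)) ∧ (∀ k, StrictConvex ℝ (K k)) ∧
      (∀ k, (interior (K k)).Nonempty) ∧ (∀ k, K k ⊆ C) ∧
      ∀ x ∈ interior C, ∃ r > 0, ∀ᶠ k in atTop, closedBall x r ⊆ K k := by
  obtain ⟨x0, hx0⟩ := hi
  set C0 : Set (Fin n → ℝ) := (fun x => x + x0) ⁻¹' C with hC0
  have hC0conv : Convex ℝ C0 := hconv.translate_preimage_left x0
  have hC0n : C0 ∈ 𝓝 (0 : Fin n → ℝ) := by
    apply (continuous_id.add continuous_const).continuousAt.preimage_mem_nhds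
    simpa using mem_interior_iff_mem_nhds.1 hx0
  have hC0cl : IsClosed C0 := hC.preimage (by fun_prop)
  have habs : Absorbent ℝ C0 := absorbent_nhds_zero hC0n
  have hgc : Continuous (gauge C0) := continuous_gauge hC0conv hC0n
  have hFc : ∀ δ, Continuous (FF C x0 δ) := by
    intro δ
    unfold FF
    refine ((hgc.comp (continuous_id.sub continuous_const)).pow 2).add
      (continuous_const.mul (continuous_dot_self.comp (continuous_id.sub continuous_const)))
  have hsc : ∀ δ > 0, ∀ x y, x ≠ y → FF C x0 δ x ≤ 1 → FF C x0 δ y ≤ 1 → ∀ a b : ℝ, 0 < a → 0 < b →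
      a + b = 1 → FF C x0 δ (a • x + b • y) < 1 := by
    intro δ hδ x y hxy hx hy a b ha hb hab
    set u := x - x0 with hu
    set w := y - x0 with hw
    have e1 : a • x + b • y - x0 = a • u + b • w := by
      have : x0 = a • x0 + b • x0 := by rw [← add_smul, hab, one_smul]
      rw [hu, hw, smul_sub, smul_sub]
      nth_rewrite 1 [this]
      abel
    have h1 : gauge C0 (a • u + b • w) ≤ a * gauge C0 u + b * gauge C0 w := by
      refine (gauge_add_le hC0conv habs _ _).trans ?_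
      rw [gauge_smul_of_nonneg ha.le, gauge_smul_of_nonneg hb.le, smul_eq_mul, smul_eq_mul]
    have h2 : gauge C0 (a • u + b • w) ^ 2 ≤ a * gauge C0 u ^ 2 + b * gauge C0 w ^ 2 := by
      have h0 : 0 ≤ gauge C0 (a • u + b • w) := gauge_nonneg _
      have hb' : b = 1 - a := by linarith
      calc gauge C0 (a • u + b • w) ^ 2 ≤ (a * gauge C0 u + b * gauge C0 w) ^ 2 := by gcongr
        _ = a * gauge C0 u ^ 2 + b * gauge C0 w ^ 2 - a * b * (gauge C0 u - gauge C0 w) ^ 2 := by
            rw [hb']; ring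
        _ ≤ a * gauge C0 u ^ 2 + b * gauge C0 w ^ 2 := by
            have : 0 ≤ a * b * (gauge C0 u - gauge C0 w) ^ 2 := by positivity
            linarith
    have h3 : (a • u + b • w) ⬝ᵥ (a • u + b • w) =
        a * (u ⬝ᵥ u) + b * (w ⬝ᵥ w) - a * b * ((u - w) ⬝ᵥ (u - w)) := by
      have hb' : b = 1 - a := by linarith
      simp only [dotProduct_add, add_dotProduct, dotProduct_smul, smul_dotProduct, smul_eq_mul,
        dotProduct_sub, sub_dotProduct]
      rw [dotProduct_comm w u, hb']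
      ring
    have h4 : 0 < (u - w) ⬝ᵥ (u - w) := by
      apply dot_pos
      rw [hu, hw]
      simpa [sub_eq_zero] using hxy
    unfold FF at hx hy ⊢
    rw [← hC0, ← hu] at hx
    rw [← hC0, ← hw] at hy
    rw [← hC0, e1, h3]
    have h5 : 0 < δ * (a * b * ((u - w) ⬝ᵥ (u - w))) := by positivity
    nlinarith [mul_le_mul_of_nonneg_left hx ha.le, mul_le_mul_of_nonneg_left hy hb.le]
  set K : ℕ → Set (Fin n → ℝ) := fun k => {x | FF C x0 (1 / ((k:ℝ) + 1)) x ≤ 1} with hK
  have hKcl : ∀ k, IsClosed (K k) := fun k => isClosed_le (hFc _) continuous_const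
  have hpos : ∀ k : ℕ, (0:ℝ) < 1 / ((k:ℝ) + 1) := fun k => by positivity
  have hopen : ∀ δ, IsOpen {x | FF C x0 δ x < 1} := fun δ => isOpen_lt (hFc δ) continuous_const
  have hint : ∀ k : ℕ, {x | FF C x0 (1 / ((k:ℝ) + 1)) x < 1} ⊆ interior (K k) := by
    intro k
    refine interior_maximal ?_ (hopen _)
    intro x hx
    have hx' : FF C x0 (1 / ((k:ℝ) + 1)) x < 1 := hx
    exact hx'.le
  refine ⟨K, fun k => ?_, fun k => ?_, fun k => ?_, fun k => ?_, fun x hx => ?_⟩
  · -- compact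
    apply Metric.isCompact_of_isClosed_isBounded (hKcl k)
    rw [Metric.isBounded_iff_subset_closedBall x0]
    refine ⟨(k:ℝ) + 1, fun x hx => ?_⟩
    rw [mem_closedBall, dist_eq_norm]
    have h1 : FF C x0 (1 / ((k:ℝ) + 1)) x ≤ 1 := hx
    unfold FF at h1
    have h2 : 1 / ((k:ℝ) + 1) * ((x - x0) ⬝ᵥ (x - x0)) ≤ 1 := by
      have := sq_nonneg (gauge ((fun x => x + x0) ⁻¹' C) (x - x0))
      linarith
    rw [div_mul_eq_mul_div, one_mul, div_le_iff₀ (by positivity), one_mul] at h2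
    have h3 := norm_sq_le_dot' (x - x0)
    have hk : (0:ℝ) ≤ k := Nat.cast_nonneg k
    have h4 : ‖x - x0‖ ^ 2 ≤ ((k:ℝ) + 1) ^ 2 := by nlinarith
    exact abs_le_of_sq_le_sq' h4 (by positivity) |>.2
  · intro x hx y hy hxy a b ha hb hab
    exact hint k (hsc _ (hpos k) x y hxy hx hy a b ha hb hab)
  · refine ⟨x0, hint k ?_⟩
    simp [FF]
  · intro x hx
    have h1 : FF C x0 (1 / ((k:ℝ) + 1)) x ≤ 1 := hx
    unfold FF at h1
    rw [← hC0] at h1
    have h2 : 0 ≤ 1 / ((k:ℝ) + 1) * ((x - x0) ⬝ᵥ (x - x0)) :=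
      mul_nonneg (hpos k).le (dot_nonneg _)
    have h3 : gauge C0 (x - x0) ≤ 1 := by
      have h0 : 0 ≤ gauge C0 (x - x0) := gauge_nonneg _
      nlinarith
    rw [gauge_le_one_iff_mem_closure hC0conv hC0n, hC0cl.closure_eq] at h3
    simpa [hC0] using h3
  · -- exhaustion
    have hxC0 : x - x0 ∈ interior C0 := by
      rw [mem_interior_iff_mem_nhds]
      apply (continuous_id.add continuous_const).continuousAt.preimage_mem_nhds
      simpa using mem_interior_iff_mem_nhds.1 hx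
    have h1 : gauge C0 (x - x0) < 1 := (gauge_lt_one_iff_mem_interior hC0conv hC0n).2 hxC0
    obtain ⟨ρ, hρ1, hρ2⟩ := exists_between h1
    have hρ0 : 0 ≤ ρ := (gauge_nonneg _).trans hρ1.le
    have hcont : Continuous fun y => gauge C0 (y - x0) :=
      hgc.comp (continuous_id.sub continuous_const)
    have hev : ∀ᶠ y in 𝓝 x, gauge C0 (y - x0) < ρ := hcont.continuousAt.eventually_lt_const hρ1
    obtain ⟨r, hr, hball⟩ := Metric.eventually_nhds_iff_ball.1 hev
    refine ⟨r / 2, by positivity, ?_⟩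
    set M : ℝ := n * (‖x - x0‖ + r) ^ 2 with hM
    have hlim : Tendsto (fun k : ℕ => ρ ^ 2 + 1 / ((k:ℝ) + 1) * M) atTop (𝓝 (ρ ^ 2 + 0 * M)) := by
      refine tendsto_const_nhds.add (Tendsto.mul_const _ ?_)
      exact tendsto_one_div_add_atTop_nhds_zero_nat
    have hlt : ρ ^ 2 + 0 * M < 1 := by nlinarith
    filter_upwards [hlim.eventually_lt_const hlt] with k hk
    intro y hy
    rw [mem_closedBall, dist_eq_norm] at hy
    have hy1 : gauge C0 (y - x0) < ρ := by
      apply hball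
      rw [mem_ball, dist_eq_norm]
      linarith
    have hy2 : (y - x0) ⬝ᵥ (y - x0) ≤ M := by
      refine (dot_le_norm_sq _).trans ?_
      have : ‖y - x0‖ ≤ ‖x - x0‖ + r := by
        calc ‖y - x0‖ = ‖(x - x0) + (y - x)‖ := by congr 1; abel
          _ ≤ ‖x - x0‖ + ‖y - x‖ := norm_add_le _ _
          _ ≤ ‖x - x0‖ + r := by linarith
      rw [hM]
      gcongr
    change FF C x0 (1 / ((k:ℝ) + 1)) y ≤ 1
    unfold FF
    rw [← hC0]
    have h0 : 0 ≤ gauge C0 (y - x0) := gauge_nonneg _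
    have h5 : gauge C0 (y - x0) ^ 2 ≤ ρ ^ 2 := by gcongr
    have h6 : 1 / ((k:ℝ) + 1) * ((y - x0) ⬝ᵥ (y - x0)) ≤ 1 / ((k:ℝ) + 1) * M := by
      gcongr
    linarith

end Vale.Agent.P254.R304
end

section

/-!
P254, block (R), part 2: bounds for Gaussian convolutions of indicator functions.
-/

open MeasureTheory Set Matrix Filter Topology Metric

namespace Vale.Agent.P254.R304

variable {n : ℕ}

/-- Gaussian integral over a set -/
noncomputable def qq (ε : ℝ) (S : Set (Fin n → ℝ)) (x : Fin n → ℝ) : ℝ :=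
  ∫ y in S, Real.exp (-((x - y) ⬝ᵥ (x - y)) / (2 * ε))

/-- total mass of the Gaussian -/
noncomputable def GG (n : ℕ) (ε : ℝ) : ℝ :=
  ∫ z : Fin n → ℝ, Real.exp (-(z ⬝ᵥ z) / (2 * ε))

lemma gauss_integrable {ε : ℝ} (hε : 0 < ε) :
    Integrable fun z : Fin n → ℝ => Real.exp (-(z ⬝ᵥ z) / (2 * ε)) := by
  have h1 : Integrable (fun v : Fin n → ℝ => ∏ i, Real.exp (-(1 / (2 * ε)) * (v i) ^ 2)) := by
    apply Integrable.fintype_prod
      (f := fun _ : Fin n => fun t : ℝ => Real.exp (-(1 / (2 * ε)) * t ^ 2))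
    intro i
    exact integrable_exp_neg_mul_sq (by positivity)
  refine h1.congr (ae_of_all _ fun v => ?_)
  simp only
  rw [← Real.exp_sum]
  congr 1
  unfold dotProduct
  rw [neg_div, Finset.sum_div, ← Finset.sum_neg_distrib]
  refine Finset.sum_congr rfl fun i _ => ?_
  ring

lemma GG_pos {ε : ℝ} (hε : 0 < ε) : 0 < GG n ε := integral_exp_pos (gauss_integrable hε)

lemma gauss_integrable' {ε : ℝ} (hε : 0 < ε) (x : Fin n → ℝ) :
    Integrable fun y : Fin n → ℝ => Real.exp (-((x - y) ⬝ᵥ (x - y)) / (2 * ε)) :=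
  (gauss_integrable hε).comp_sub_left x

lemma gauss_total (ε : ℝ) (x : Fin n → ℝ) :
    ∫ y : Fin n → ℝ, Real.exp (-((x - y) ⬝ᵥ (x - y)) / (2 * ε)) = GG n ε :=
  integral_sub_left_eq_self (fun z : Fin n → ℝ => Real.exp (-(z ⬝ᵥ z) / (2 * ε))) volume x

lemma GG_two (n : ℕ) {ε : ℝ} (hε : 0 < ε) : GG n (2 * ε) = Real.sqrt 2 ^ n * GG n ε := by
  have h := Measure.integral_comp_smul (volume : Measure (Fin n → ℝ))
    (fun z : Fin n → ℝ => Real.exp (-(z ⬝ᵥ z) / (2 * (2 * ε)))) (Real.sqrt 2)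
  have e1 : (fun x : Fin n → ℝ => Real.exp (-((Real.sqrt 2 • x) ⬝ᵥ (Real.sqrt 2 • x)) / (2 * (2 * ε))))
      = fun x : Fin n → ℝ => Real.exp (-(x ⬝ᵥ x) / (2 * ε)) := by
    ext x
    congr 1
    rw [dotProduct_smul, smul_dotProduct, smul_eq_mul, smul_eq_mul, ← mul_assoc,
      Real.mul_self_sqrt (by norm_num)]
    field_simp
  rw [e1] at h
  have h2 : (0:ℝ) < Real.sqrt 2 ^ n := by positivity
  rw [Module.finrank_fin_fun, abs_of_pos (by positivity), smul_eq_mul] at h
  unfold GG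
  rw [h, mul_inv_cancel_left₀ h2.ne']

lemma qq_nonneg (ε : ℝ) (S : Set (Fin n → ℝ)) (x : Fin n → ℝ) : 0 ≤ qq ε S x :=
  integral_nonneg fun _ => (Real.exp_pos _).le

lemma qq_le_GG {ε : ℝ} (hε : 0 < ε) (S : Set (Fin n → ℝ)) (x : Fin n → ℝ) :
    qq ε S x ≤ GG n ε := by
  rw [← gauss_total ε x]
  exact setIntegral_le_integral (gauss_integrable' hε x) (ae_of_all _ fun _ => (Real.exp_pos _).le)

/-- Gaussian tail. -/
lemma qq_le_tail {ε : ℝ} (hε : 0 < ε) {S : Set (Fin n → ℝ)} (hS : MeasurableSet S)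
    (x : Fin n → ℝ) (d : ℝ)
    (hd : ∀ y ∈ S, d ^ 2 ≤ (x - y) ⬝ᵥ (x - y)) :
    qq ε S x ≤ Real.exp (-d ^ 2 / (4 * ε)) * (Real.sqrt 2 ^ n * GG n ε) := by
  have h1 : qq ε S x ≤ ∫ y in S, Real.exp (-d ^ 2 / (4 * ε)) *
      Real.exp (-((x - y) ⬝ᵥ (x - y)) / (2 * (2 * ε))) := by
    unfold qq
    refine setIntegral_mono_on (gauss_integrable' hε x).integrableOn
      ((gauss_integrable' (by positivity) x).const_mul _).integrableOn hS fun y hy => ?_
    rw [← Real.exp_add]
    apply Real.exp_le_exp.2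
    have := hd y hy
    rw [div_add_div _ _ (by positivity) (by positivity), div_le_div_iff₀ (by positivity) (by positivity)]
    have h3 : 0 < ε ^ 3 := by positivity
    have h2 : 0 < ε ^ 2 := by positivity
    nlinarith [mul_le_mul_of_nonneg_left this h2.le]
  refine h1.trans ?_
  rw [integral_const_mul]
  have h2 := qq_le_GG (by positivity : 0 < 2 * ε) S x
  rw [GG_two n hε] at h2
  unfold qq at h2
  gcongr

lemma qq_ge {ε r : ℝ} (hε : 0 < ε) (hr : 0 < r) {S : Set (Fin n → ℝ)} (hS : MeasurableSet S)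
    (x : Fin n → ℝ) (hb : closedBall x r ⊆ S) :
    GG n ε - Real.exp (-r ^ 2 / (4 * ε)) * (Real.sqrt 2 ^ n * GG n ε) ≤ qq ε S x := by
  have h1 : qq ε S x + qq ε Sᶜ x = GG n ε := by
    rw [← gauss_total ε x]
    exact integral_add_compl hS (gauss_integrable' hε x)
  have h2 : qq ε Sᶜ x ≤ Real.exp (-r ^ 2 / (4 * ε)) * (Real.sqrt 2 ^ n * GG n ε) := by
    apply qq_le_tail hε hS.compl
    intro y hy
    have hy' : y ∉ closedBall x r := fun h => hy (hb h)
    rw [mem_closedBall, not_le, dist_comm, dist_eq_norm] at hy'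
    have := norm_sq_le_dot' (x - y)
    have h3 : r ^ 2 ≤ ‖x - y‖ ^ 2 := by gcongr
    linarith
  linarith

/-- normalised Gaussian convolution of the indicator of `S` -/
noncomputable def hh (ε : ℝ) (S : Set (Fin n → ℝ)) (x : Fin n → ℝ) : ℝ := (GG n ε)⁻¹ * qq ε S x

lemma hh_nonneg {ε : ℝ} (hε : 0 < ε) (S : Set (Fin n → ℝ)) (x : Fin n → ℝ) : 0 ≤ hh ε S x :=
  mul_nonneg (inv_nonneg.2 (GG_pos hε).le) (qq_nonneg _ _ _)

lemma hh_le_one {ε : ℝ} (hε : 0 < ε) (S : Set (Fin n → ℝ)) (x : Fin n → ℝ) : hh ε S x ≤ 1 := by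
  unfold hh
  rw [inv_mul_le_iff₀ (GG_pos hε), mul_one]
  exact qq_le_GG hε S x

lemma hh_le_tail {ε : ℝ} (hε : 0 < ε) {S : Set (Fin n → ℝ)} (hS : MeasurableSet S)
    (x : Fin n → ℝ) (d : ℝ) (hd : ∀ y ∈ S, d ^ 2 ≤ (x - y) ⬝ᵥ (x - y)) :
    hh ε S x ≤ Real.sqrt 2 ^ n * Real.exp (-d ^ 2 / (4 * ε)) := by
  unfold hh
  rw [inv_mul_le_iff₀ (GG_pos hε)]
  refine (qq_le_tail hε hS x d hd).trans (le_of_eq ?_)
  ring

lemma hh_ge {ε r : ℝ} (hε : 0 < ε) (hr : 0 < r) {S : Set (Fin n → ℝ)} (hS : MeasurableSet S)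
    (x : Fin n → ℝ) (hb : closedBall x r ⊆ S) :
    1 - Real.sqrt 2 ^ n * Real.exp (-r ^ 2 / (4 * ε)) ≤ hh ε S x := by
  unfold hh
  rw [← mul_le_mul_iff_right₀ (GG_pos (n := n) hε), ← mul_assoc, mul_inv_cancel₀ (GG_pos hε).ne',
    one_mul]
  refine le_trans (le_of_eq ?_) (qq_ge hε hr hS x hb)
  ring

lemma exp_neg_div_tendsto {r : ℝ} (hr : 0 < r) {ε : ℕ → ℝ} (hε : ∀ k, 0 < ε k)
    (hlim : Tendsto ε atTop (𝓝 0)) :
    Tendsto (fun k => Real.exp (-r ^ 2 / (4 * ε k))) atTop (𝓝 0) := by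
  apply Real.tendsto_exp_atBot.comp
  have h1 : Tendsto (fun k => 4 * ε k) atTop (𝓝[>] 0) := by
    apply tendsto_nhdsWithin_iff.2
    refine ⟨by simpa using hlim.const_mul 4, Eventually.of_forall fun k => ?_⟩
    have := hε k
    simp only [mem_Ioi]
    positivity
  have h2 := (tendsto_inv_nhdsGT_zero.comp h1).const_mul_atTop_of_neg (r := -r ^ 2)
    (by have := pow_pos hr 2; linarith)
  refine h2.congr fun k => ?_
  simp [div_eq_mul_inv]

/-- pointwise convergence of the convolutions -/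
lemma hh_tendsto_one {K : ℕ → Set (Fin n → ℝ)} (hKm : ∀ k, MeasurableSet (K k)) {ε : ℕ → ℝ}
    (hε : ∀ k, 0 < ε k) (hlim : Tendsto ε atTop (𝓝 0)) {x : Fin n → ℝ} {r : ℝ} (hr : 0 < r)
    (hb : ∀ᶠ k in atTop, closedBall x r ⊆ K k) :
    Tendsto (fun k => hh (ε k) (K k) x) atTop (𝓝 1) := by
  have h1 : Tendsto (fun k => 1 - Real.sqrt 2 ^ n * Real.exp (-r ^ 2 / (4 * ε k))) atTop
      (𝓝 (1 - Real.sqrt 2 ^ n * 0)) :=
    tendsto_const_nhds.sub ((exp_neg_div_tendsto hr hε hlim).const_mul _)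
  rw [mul_zero, sub_zero] at h1
  refine tendsto_of_tendsto_of_tendsto_of_le_of_le' h1 tendsto_const_nhds ?_ ?_
  · filter_upwards [hb] with k hk
    exact hh_ge (hε k) hr (hKm k) x hk
  · exact Eventually.of_forall fun k => hh_le_one (hε k) _ _

lemma hh_tendsto_zero {K : ℕ → Set (Fin n → ℝ)} (hKm : ∀ k, MeasurableSet (K k)) {ε : ℕ → ℝ}
    (hε : ∀ k, 0 < ε k) (hlim : Tendsto ε atTop (𝓝 0)) {x : Fin n → ℝ} {r : ℝ} (hr : 0 < r)
    (hb : ∀ k, ∀ y ∈ K k, r ≤ ‖x - y‖) :
    Tendsto (fun k => hh (ε k) (K k) x) atTop (𝓝 0) := by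
  have h1 : Tendsto (fun k => Real.sqrt 2 ^ n * Real.exp (-r ^ 2 / (4 * ε k))) atTop
      (𝓝 (Real.sqrt 2 ^ n * 0)) := (exp_neg_div_tendsto hr hε hlim).const_mul _
  rw [mul_zero] at h1
  refine squeeze_zero (fun k => hh_nonneg (hε k) _ _) (fun k => ?_) h1
  apply hh_le_tail (hε k) (hKm k)
  intro y hy
  have h2 := hb k y hy
  have h3 := norm_sq_le_dot' (x - y)
  have h4 : r ^ 2 ≤ ‖x - y‖ ^ 2 := by gcongr
  linarith

end Vale.Agent.P254.R304
end

section

/-!
P254, block (R), part 4: the nice weights converge, with domination, to `1_C exp (⟨c,x⟩ - ⟨x,Bx⟩/2)`.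
-/

open MeasureTheory Set Matrix Filter Topology Metric

namespace Vale.Agent.P254.R304

variable {n : ℕ}

/-- tilt factor -/
noncomputable def tilt (B : Matrix (Fin n) (Fin n) ℝ) (c x : Fin n → ℝ) : ℝ :=
  Real.exp (c ⬝ᵥ x - (1 / 2) * (x ⬝ᵥ B *ᵥ x))

lemma tilt_pos (B : Matrix (Fin n) (Fin n) ℝ) (c x : Fin n → ℝ) : 0 < tilt B c x := Real.exp_pos _

lemma continuous_tilt (B : Matrix (Fin n) (Fin n) ℝ) (c : Fin n → ℝ) : Continuous (tilt B c) := by
  unfold tilt
  simp only [dotProduct, mulVec]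
  fun_prop

lemma tilt_le {B : Matrix (Fin n) (Fin n) ℝ} (hB : B.PosSemidef) (c x : Fin n → ℝ) :
    tilt B c x ≤ Real.exp (c ⬝ᵥ x) := by
  apply Real.exp_le_exp.2
  have := hB.dotProduct_mulVec_nonneg x
  simp only [star_trivial] at this
  linarith

lemma measurable_qq (ε : ℝ) {K : Set (Fin n → ℝ)} : Measurable (qq ε K) := by
  have h : StronglyMeasurable fun p : (Fin n → ℝ) × (Fin n → ℝ) =>
      Real.exp (-((p.1 - p.2) ⬝ᵥ (p.1 - p.2)) / (2 * ε)) := by
    apply Continuous.stronglyMeasurable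
    simp only [dotProduct]
    fun_prop
  have := h.integral_prod_right' (ν := (volume : Measure (Fin n → ℝ)).restrict K)
  exact this.measurable

lemma measurable_hh (ε : ℝ) {K : Set (Fin n → ℝ)} : Measurable (hh ε K) :=
  (measurable_qq ε).const_mul _

lemma abs_dot_le' (v y : Fin n → ℝ) : |v ⬝ᵥ y| ≤ n * ‖v‖ * ‖y‖ := by
  unfold dotProduct
  calc |∑ i, v i * y i| ≤ ∑ i, |v i * y i| := Finset.abs_sum_le_sum_abs _ _
    _ ≤ ∑ _i : Fin n, ‖v‖ * ‖y‖ := by
        refine Finset.sum_le_sum fun i _ => ?_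
        rw [abs_mul]
        exact mul_le_mul (norm_le_pi_norm v i) (norm_le_pi_norm y i) (abs_nonneg _) (norm_nonneg _)
    _ = n * ‖v‖ * ‖y‖ := by simp [mul_assoc]

/-- the approximating densities -/
noncomputable def dens (B : Matrix (Fin n) (Fin n) ℝ) (c : Fin n → ℝ) (K : Set (Fin n → ℝ))
    (ε t : ℝ) (x : Fin n → ℝ) : ℝ :=
  tilt B c x * (hh ε K x * Real.exp (-(t / 2) * (x ⬝ᵥ x)))

lemma dens_nonneg (B : Matrix (Fin n) (Fin n) ℝ) (c : Fin n → ℝ) (K : Set (Fin n → ℝ))
    {ε : ℝ} (hε : 0 < ε) (t : ℝ) (x : Fin n → ℝ) : 0 ≤ dens B c K ε t x :=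
  mul_nonneg (tilt_pos _ _ _).le (mul_nonneg (hh_nonneg hε _ _) (Real.exp_pos _).le)

lemma measurable_dens (B : Matrix (Fin n) (Fin n) ℝ) (c : Fin n → ℝ) (K : Set (Fin n → ℝ))
    (ε t : ℝ) : Measurable (dens B c K ε t) := by
  unfold dens
  refine (continuous_tilt B c).measurable.mul ((measurable_hh ε).mul ?_)
  apply Continuous.measurable
  simp only [dotProduct]
  fun_prop

lemma dens_le {B : Matrix (Fin n) (Fin n) ℝ} (hB : B.PosSemidef) {c : Fin n → ℝ}
    {C : Set (Fin n → ℝ)} (hC : IsClosed C) (hne : C.Nonempty) {a b : ℝ} (ha : 0 < a)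
    (hdec : ∀ y ∈ C, c ⬝ᵥ y ≤ b - a * ‖y‖) {K : Set (Fin n → ℝ)} (hK : MeasurableSet K)
    (hKC : K ⊆ C) {ε t : ℝ} (hε : 0 < ε) (hε1 : ε ≤ 1) (ht : 0 ≤ t) (x : Fin n → ℝ) :
    dens B c K ε t x ≤
      (Real.sqrt 2 ^ n * Real.exp (b + (a + n * ‖c‖) ^ 2)) * Real.exp (-(a * ‖x‖)) := by
  obtain ⟨y0, hy0, hd⟩ := hC.exists_infDist_eq_dist hne x
  set d := infDist x C with hdd
  have hd0 : 0 ≤ d := infDist_nonneg
  have h1 : hh ε K x ≤ Real.sqrt 2 ^ n * Real.exp (-d ^ 2 / (4 * ε)) := by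
    apply hh_le_tail hε hK
    intro y hy
    have h2 : d ≤ ‖x - y‖ := by
      rw [← dist_eq_norm]
      exact infDist_le_dist_of_mem (hKC hy)
    have h3 := norm_sq_le_dot' (x - y)
    have h4 : d ^ 2 ≤ ‖x - y‖ ^ 2 := by gcongr
    linarith
  have h2 : Real.exp (-d ^ 2 / (4 * ε)) ≤ Real.exp (-(d ^ 2 / 4)) := by
    apply Real.exp_le_exp.2
    rw [neg_div, neg_le_neg_iff]
    apply div_le_div_of_nonneg_left (sq_nonneg d) (by positivity)
    linarith
  have h3 : Real.exp (-(t / 2) * (x ⬝ᵥ x)) ≤ 1 := by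
    apply Real.exp_le_one_iff.2
    have := dot_nonneg x
    have h4 : 0 ≤ t / 2 * (x ⬝ᵥ x) := by positivity
    linarith
  have h4 : tilt B c x ≤ Real.exp (b - a * ‖x‖ + (a + n * ‖c‖) * d) := by
    refine (tilt_le hB c x).trans (Real.exp_le_exp.2 ?_)
    have e1 : c ⬝ᵥ x = c ⬝ᵥ y0 + c ⬝ᵥ (x - y0) := by rw [dotProduct_sub]; ring
    have e2 := hdec y0 hy0
    have e3 := (le_abs_self _).trans (abs_dot_le' c (x - y0))
    rw [← dist_eq_norm, ← hd] at e3
    have e4 : ‖x‖ ≤ ‖y0‖ + d := by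
      rw [hd, dist_eq_norm]
      calc ‖x‖ = ‖y0 + (x - y0)‖ := by congr 1; abel
        _ ≤ ‖y0‖ + ‖x - y0‖ := norm_add_le _ _
    have e5 : a * ‖x‖ ≤ a * (‖y0‖ + d) := by gcongr
    rw [e1]
    linarith
  unfold dens
  have h0 : 0 ≤ hh ε K x := hh_nonneg hε _ _
  calc tilt B c x * (hh ε K x * Real.exp (-(t / 2) * (x ⬝ᵥ x)))
      ≤ Real.exp (b - a * ‖x‖ + (a + n * ‖c‖) * d) *
          ((Real.sqrt 2 ^ n * Real.exp (-(d ^ 2 / 4))) * 1) := by
        have h5 : hh ε K x ≤ Real.sqrt 2 ^ n * Real.exp (-(d ^ 2 / 4)) :=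
          h1.trans (by gcongr)
        have := (Real.exp_pos (-(t / 2) * (x ⬝ᵥ x))).le
        gcongr
    _ = Real.sqrt 2 ^ n * Real.exp (b - a * ‖x‖ + (a + n * ‖c‖) * d - d ^ 2 / 4) := by
        rw [mul_one, sub_eq_add_neg (b - a * ‖x‖ + (a + n * ‖c‖) * d),
          Real.exp_add (b - a * ‖x‖ + (a + n * ‖c‖) * d)]
        ring
    _ ≤ Real.sqrt 2 ^ n * Real.exp ((b + (a + n * ‖c‖) ^ 2) + (-(a * ‖x‖))) := by
        have : b - a * ‖x‖ + (a + n * ‖c‖) * d - d ^ 2 / 4 ≤
            (b + (a + n * ‖c‖) ^ 2) + (-(a * ‖x‖)) := by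
          nlinarith [sq_nonneg (a + n * ‖c‖ - d / 2)]
        gcongr
    _ = _ := by rw [Real.exp_add]; ring

/-- the limit of the approximating densities -/
noncomputable def limDens (B : Matrix (Fin n) (Fin n) ℝ) (c : Fin n → ℝ) (C : Set (Fin n → ℝ)) :
    (Fin n → ℝ) → ℝ := C.indicator (tilt B c)

theorem dom_dens {B : Matrix (Fin n) (Fin n) ℝ} (hB : B.PosSemidef) {c : Fin n → ℝ}
    {C : Set (Fin n → ℝ)} (hC : IsClosed C) (hconv : Convex ℝ C) (hne : C.Nonempty) {a b : ℝ}
    (ha : 0 < a) (hdec : ∀ y ∈ C, c ⬝ᵥ y ≤ b - a * ‖y‖) {K : ℕ → Set (Fin n → ℝ)}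
    (hK : ∀ k, MeasurableSet (K k)) (hKC : ∀ k, K k ⊆ C)
    (hex : ∀ x ∈ interior C, ∃ r > 0, ∀ᶠ k in atTop, closedBall x r ⊆ K k) {ε t : ℕ → ℝ}
    (hε : ∀ k, 0 < ε k) (hε1 : ∀ k, ε k ≤ 1) (ht : ∀ k, 0 ≤ t k)
    (hεl : Tendsto ε atTop (𝓝 0)) (htl : Tendsto t atTop (𝓝 0)) :
    Dom (fun k => dens B c (K k) (ε k) (t k)) (limDens B c C)
      (Real.sqrt 2 ^ n * Real.exp (b + (a + n * ‖c‖) ^ 2)) a where
  ha := ha
  hM := by positivity
  meas := fun k => (measurable_dens B c (K k) (ε k) (t k)).aestronglyMeasurable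
  nn := fun k x => dens_nonneg B c (K k) (hε k) (t k) x
  le := fun k x => dens_le hB hC hne ha hdec (hK k) (hKC k) (hε k) (hε1 k) (ht k) x
  lim := by
    have h0 : ∀ᵐ x ∂(volume : Measure (Fin n → ℝ)), x ∉ frontier C := by
      rw [ae_iff]
      simpa using hconv.addHaar_frontier volume
    filter_upwards [h0] with x hx
    have hexp : Tendsto (fun k => Real.exp (-(t k / 2) * (x ⬝ᵥ x))) atTop (𝓝 1) := by
      have : Tendsto (fun k => -(t k / 2) * (x ⬝ᵥ x)) atTop (𝓝 (-(0 / 2) * (x ⬝ᵥ x))) :=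
        ((htl.div_const 2).neg).mul_const _
      have h2 := (Real.continuous_exp.tendsto _).comp this
      simpa [Function.comp_def] using h2
    by_cases hxC : x ∈ C
    · have hxi : x ∈ interior C := by
        by_contra hxi
        exact hx ⟨subset_closure hxC, hxi⟩
      obtain ⟨r, hr, hb⟩ := hex x hxi
      have h1 := hh_tendsto_one hK hε hεl hr hb
      have h2 := (h1.mul hexp).const_mul (tilt B c x)
      rw [limDens, indicator_of_mem hxC]
      rw [mul_one, mul_one] at h2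
      exact h2
    · have hr : 0 < infDist x C := (hC.notMem_iff_infDist_pos hne).1 hxC
      have h1 := hh_tendsto_zero hK hε hεl hr (x := x) (fun k y hy => by
        rw [← dist_eq_norm]
        exact infDist_le_dist_of_mem (hKC k hy))
      have h2 := (h1.mul hexp).const_mul (tilt B c x)
      rw [limDens, indicator_of_notMem hxC]
      rw [mul_one, mul_zero] at h2
      exact h2

end Vale.Agent.P254.R304
end

section

/-!
P254, block (R), part 5: the functional `D(f) = h(f) - ½ log det Cov(f) - n` and its continuity.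
-/

open MeasureTheory Set Matrix Filter Topology Metric

namespace Vale.Agent.P254.R304

variable {n : ℕ}

/-- expectation of `φ` for the (unnormalised) density `f` -/
noncomputable def Ef (f φ : (Fin n → ℝ) → ℝ) : ℝ := (∫ x, φ x * f x) / (∫ x, f x)

/-- covariance matrix of the density `f` -/
noncomputable def covF (f : (Fin n → ℝ) → ℝ) : Matrix (Fin n) (Fin n) ℝ :=
  Matrix.of fun i j => Ef f (fun x => x i * x j) - Ef f (fun x => x i) * Ef f (fun x => x j)

/-- entropy of the normalised density `f / ∫ f` -/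
noncomputable def entF (f : (Fin n → ℝ) → ℝ) : ℝ :=
  Real.log (∫ x, f x) - (∫ x, f x * Real.log (f x)) / (∫ x, f x)

/-- `D(f) = h(f) - ½ log det Cov(f) - n` -/
noncomputable def DD (f : (Fin n → ℝ) → ℝ) : ℝ :=
  entF f - 1 / 2 * Real.log (covF f).det - n

lemma pg_one : PolyGrowth (fun _ : Fin n → ℝ => (1:ℝ)) :=
  ⟨aestronglyMeasurable_const, 1, 0, fun x => by simp⟩

lemma pg_coord (i : Fin n) : PolyGrowth (fun x : Fin n → ℝ => x i) := by
  refine ⟨(continuous_apply i).aestronglyMeasurable, 1, 1, fun x => ?_⟩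
  have := norm_le_pi_norm x i
  rw [Real.norm_eq_abs] at this
  linarith

lemma PolyGrowth.mul {p q : (Fin n → ℝ) → ℝ} (hp : PolyGrowth p) (hq : PolyGrowth q) :
    PolyGrowth (fun x => p x * q x) := by
  obtain ⟨hpm, A, N, hA⟩ := hp
  obtain ⟨hqm, A', N', hA'⟩ := hq
  refine ⟨hpm.mul hqm, A * A', N + N', fun x => ?_⟩
  rw [abs_mul]
  calc |p x| * |q x| ≤ (A * (1 + ‖x‖) ^ N) * (A' * (1 + ‖x‖) ^ N') :=
        mul_le_mul (hA x) (hA' x) (abs_nonneg _) ((abs_nonneg _).trans (hA x))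
    _ = A * A' * (1 + ‖x‖) ^ (N + N') := by ring

lemma pg_coord2 (i j : Fin n) : PolyGrowth (fun x : Fin n → ℝ => x i * x j) :=
  (pg_coord i).mul (pg_coord j)

variable {F : ℕ → (Fin n → ℝ) → ℝ} {G : (Fin n → ℝ) → ℝ} {M a : ℝ}

theorem Dom.tendsto_mass (h : Dom F G M a) :
    Tendsto (fun k => ∫ x, F k x) atTop (𝓝 (∫ x, G x)) := by
  have := h.tendsto_moment pg_one
  simpa using this

theorem Dom.tendsto_Ef (h : Dom F G M a) (hG : (∫ x, G x) ≠ 0) {p : (Fin n → ℝ) → ℝ}
    (hp : PolyGrowth p) : Tendsto (fun k => Ef (F k) p) atTop (𝓝 (Ef G p)) :=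
  (h.tendsto_moment hp).div h.tendsto_mass hG

theorem Dom.tendsto_cov (h : Dom F G M a) (hG : (∫ x, G x) ≠ 0) :
    Tendsto (fun k => covF (F k)) atTop (𝓝 (covF G)) := by
  refine tendsto_pi_nhds.2 fun i => tendsto_pi_nhds.2 fun j => ?_
  exact (h.tendsto_Ef hG (pg_coord2 i j)).sub
    ((h.tendsto_Ef hG (pg_coord i)).mul (h.tendsto_Ef hG (pg_coord j)))

theorem Dom.tendsto_entF (h : Dom F G M a) (hG : (∫ x, G x) ≠ 0) :
    Tendsto (fun k => entF (F k)) atTop (𝓝 (entF G)) :=
  (h.tendsto_mass.log hG).sub (h.tendsto_ent.div h.tendsto_mass hG)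

theorem Dom.tendsto_DD (h : Dom F G M a) (hG : (∫ x, G x) ≠ 0) (hdet : (covF G).det ≠ 0) :
    Tendsto (fun k => DD (F k)) atTop (𝓝 (DD G)) := by
  have h1 : Tendsto (fun k => (covF (F k)).det) atTop (𝓝 (covF G).det) :=
    (Continuous.matrix_det continuous_id).continuousAt.tendsto.comp (h.tendsto_cov hG)
  exact ((h.tendsto_entF hG).sub ((h1.log hdet).const_mul _)).sub_const _

/-! ### scaling -/

lemma Ef_smul {s : ℝ} (hs : s ≠ 0) (f φ : (Fin n → ℝ) → ℝ) :
    Ef (fun x => s * f x) φ = Ef f φ := by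
  unfold Ef
  have e1 : ∫ x, φ x * (s * f x) = s * ∫ x, φ x * f x := by
    rw [← integral_const_mul]
    congr 1
    ext x
    ring
  rw [e1, integral_const_mul, mul_div_mul_left _ _ hs]

lemma covF_smul {s : ℝ} (hs : s ≠ 0) (f : (Fin n → ℝ) → ℝ) :
    covF (fun x => s * f x) = covF f := by
  unfold covF
  simp only [Ef_smul hs]

lemma entF_smul {s : ℝ} (hs : 0 < s) {f : (Fin n → ℝ) → ℝ} (hf : Integrable f)
    (hfl : Integrable fun x => f x * Real.log (f x)) (hZ : (∫ x, f x) ≠ 0) :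
    entF (fun x => s * f x) = entF f := by
  unfold entF
  have e1 : (∫ x, s * f x * Real.log (s * f x)) =
      s * (Real.log s * (∫ x, f x) + ∫ x, f x * Real.log (f x)) := by
    rw [← integral_const_mul, ← integral_add (hf.const_mul _) hfl, ← integral_const_mul]
    congr 1
    ext x
    rcases eq_or_ne (f x) 0 with h | h
    · simp [h]
    · rw [Real.log_mul hs.ne' h]
      ring
  rw [e1, integral_const_mul, Real.log_mul hs.ne' hZ, mul_div_mul_left _ _ hs.ne', add_div,
    mul_div_assoc, div_self hZ]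
  ring

lemma DD_smul {s : ℝ} (hs : 0 < s) {f : (Fin n → ℝ) → ℝ} (hf : Integrable f)
    (hfl : Integrable fun x => f x * Real.log (f x)) (hZ : (∫ x, f x) ≠ 0) :
    DD (fun x => s * f x) = DD f := by
  unfold DD
  rw [entF_smul hs hf hfl hZ, covF_smul hs.ne']

/-! ### positivity -/

/-- data of a density positive on a nonempty open set, with exponential decay -/
structure Good (f : (Fin n → ℝ) → ℝ) (M a : ℝ) : Prop where
  ha : 0 < a
  meas : AEStronglyMeasurable f volume
  nn : ∀ x, 0 ≤ f x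
  le : ∀ x, f x ≤ M * Real.exp (-(a * ‖x‖))
  pos : ∃ U : Set (Fin n → ℝ), IsOpen U ∧ U.Nonempty ∧ ∀ x ∈ U, 0 < f x

variable {f : (Fin n → ℝ) → ℝ}

lemma Good.int (h : Good f M a) {p : (Fin n → ℝ) → ℝ} (hp : PolyGrowth p) :
    Integrable fun x => p x * f x :=
  poly_bound_integrable a M h.ha hp h.meas h.nn h.le

lemma Good.int1 (h : Good f M a) : Integrable f := by simpa using h.int pg_one

lemma Good.mass_pos (h : Good f M a) : 0 < ∫ x, f x := by
  obtain ⟨U, hU, hUne, hpos⟩ := h.pos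
  rw [integral_pos_iff_support_of_nonneg h.nn h.int1]
  refine (hU.measure_pos _ hUne).trans_le (measure_mono fun x hx => ?_)
  exact (hpos x hx).ne'

lemma Good.covF_quad (h : Good f M a) (u : Fin n → ℝ) :
    u ⬝ᵥ covF f *ᵥ u = Ef f (fun x => (u ⬝ᵥ x - u ⬝ᵥ (fun i => Ef f (fun y => y i))) ^ 2) := by
  have hZ := h.mass_pos
  set Z := ∫ x, f x with hZd
  set m : Fin n → ℝ := fun i => Ef f (fun y => y i) with hm
  -- integrability facts
  have h1 : ∀ i, Integrable fun x : Fin n → ℝ => x i * f x := fun i => h.int (pg_coord i)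
  have h2 : ∀ i j, Integrable fun x : Fin n → ℝ => x i * x j * f x := fun i j =>
    h.int (pg_coord2 i j)
  have hlin : ∀ v : Fin n → ℝ, ∫ x, (v ⬝ᵥ x) * f x = v ⬝ᵥ (fun i => ∫ x, x i * f x) := by
    intro v
    have : (fun x : Fin n → ℝ => (v ⬝ᵥ x) * f x) = fun x => ∑ i, v i * (x i * f x) := by
      ext x
      unfold dotProduct
      rw [Finset.sum_mul]
      exact Finset.sum_congr rfl fun i _ => by ring
    rw [this, integral_finsetSum _ fun i _ => (h1 i).const_mul _]
    unfold dotProduct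
    exact Finset.sum_congr rfl fun i _ => integral_const_mul _ _
  have hlini : Integrable fun x : Fin n → ℝ => (u ⬝ᵥ x) * f x := by
    have : (fun x : Fin n → ℝ => (u ⬝ᵥ x) * f x) = fun x => ∑ i, u i * (x i * f x) := by
      ext x
      unfold dotProduct
      rw [Finset.sum_mul]
      exact Finset.sum_congr rfl fun i _ => by ring
    rw [this]
    exact integrable_finsetSum _ fun i _ => (h1 i).const_mul _
  have hquad_eq : (fun x : Fin n → ℝ => (u ⬝ᵥ x) ^ 2 * f x) =
      fun x => ∑ i, ∑ j, u i * u j * (x i * x j * f x) := by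
    ext x
    unfold dotProduct
    rw [sq, Finset.sum_mul_sum, Finset.sum_mul]
    refine Finset.sum_congr rfl fun i _ => ?_
    rw [Finset.sum_mul]
    exact Finset.sum_congr rfl fun j _ => by ring
  have hquadi : Integrable fun x : Fin n → ℝ => (u ⬝ᵥ x) ^ 2 * f x := by
    rw [hquad_eq]
    exact integrable_finsetSum _ fun i _ => integrable_finsetSum _ fun j _ =>
      (h2 i j).const_mul _
  have hquad : ∫ x, (u ⬝ᵥ x) ^ 2 * f x = ∑ i, ∑ j, u i * u j * ∫ x, x i * x j * f x := by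
    rw [hquad_eq, integral_finsetSum _ fun i _ => integrable_finsetSum _ fun j _ =>
      (h2 i j).const_mul _]
    refine Finset.sum_congr rfl fun i _ => ?_
    rw [integral_finsetSum _ fun j _ => (h2 i j).const_mul _]
    exact Finset.sum_congr rfl fun j _ => integral_const_mul _ _
  have hum : u ⬝ᵥ m = (∫ x, (u ⬝ᵥ x) * f x) / Z := by
    rw [hlin]
    unfold dotProduct
    rw [Finset.sum_div]
    refine Finset.sum_congr rfl fun i _ => ?_
    simp only [hm, Ef]
    ring
  have hexp : (∫ x, (u ⬝ᵥ x - u ⬝ᵥ m) ^ 2 * f x) =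
      (∫ x, (u ⬝ᵥ x) ^ 2 * f x) - 2 * (u ⬝ᵥ m) * (∫ x, (u ⬝ᵥ x) * f x) + (u ⬝ᵥ m) ^ 2 * Z := by
    have : (fun x : Fin n → ℝ => (u ⬝ᵥ x - u ⬝ᵥ m) ^ 2 * f x) =
        fun x => ((u ⬝ᵥ x) ^ 2 * f x - 2 * (u ⬝ᵥ m) * ((u ⬝ᵥ x) * f x)) + (u ⬝ᵥ m) ^ 2 * f x := by
      ext x; ring
    have hsub : Integrable fun x : Fin n → ℝ =>
        (u ⬝ᵥ x) ^ 2 * f x - 2 * (u ⬝ᵥ m) * ((u ⬝ᵥ x) * f x) := hquadi.sub (hlini.const_mul _)
    rw [this, integral_add hsub (h.int1.const_mul _),
      integral_sub hquadi (hlini.const_mul _), integral_const_mul, integral_const_mul]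
  change _ = (∫ x, (u ⬝ᵥ x - u ⬝ᵥ m) ^ 2 * f x) / Z
  rw [hexp]
  have hlhs : u ⬝ᵥ covF f *ᵥ u = (∑ i, ∑ j, u i * u j * ∫ x, x i * x j * f x) / Z -
      (u ⬝ᵥ m) ^ 2 := by
    unfold covF
    simp only [dotProduct, mulVec, of_apply]
    rw [Finset.sum_div, sq, Finset.sum_mul_sum, ← Finset.sum_sub_distrib]
    refine Finset.sum_congr rfl fun i _ => ?_
    rw [Finset.mul_sum, Finset.sum_div, ← Finset.sum_sub_distrib]
    refine Finset.sum_congr rfl fun j _ => ?_
    simp only [hm]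
    rw [Ef, ← hZd]
    ring
  rw [hlhs, ← hquad]
  have hL : (∫ x, (u ⬝ᵥ x) * f x) = (u ⬝ᵥ m) * Z := by
    rw [hum]; field_simp
  rw [hL]
  field_simp
  ring

lemma Good.covF_posDef (h : Good f M a) : (covF f).PosDef := by
  rw [Matrix.posDef_iff_dotProduct_mulVec]
  refine ⟨?_, fun u hu => ?_⟩
  · ext i j
    simp only [conjTranspose_apply, star_trivial, covF, of_apply]
    have : (fun x : Fin n → ℝ => x j * x i) = fun x => x i * x j := by
      ext x; ring
    rw [this]
    ring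
  · have hst : star u = u := star_trivial u
    rw [hst, h.covF_quad]
    set b := u ⬝ᵥ (fun i => Ef f (fun y => y i)) with hb
    unfold Ef
    apply div_pos _ h.mass_pos
    have hpg : PolyGrowth (fun x : Fin n → ℝ => (u ⬝ᵥ x - b) ^ 2) := by
      refine ⟨?_, (n * ‖u‖ + |b|) ^ 2, 2, fun x => ?_⟩
      · apply Continuous.aestronglyMeasurable
        simp only [dotProduct]
        fun_prop
      · rw [abs_pow]
        have h1 := abs_dot_le' u x
        have h2 : |u ⬝ᵥ x - b| ≤ (n * ‖u‖ + |b|) * (1 + ‖x‖) := by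
          have h3 : |u ⬝ᵥ x - b| ≤ |u ⬝ᵥ x| + |b| := abs_sub _ _
          have h4 : 0 ≤ |b| := abs_nonneg _
          have h5 : 0 ≤ ‖x‖ := norm_nonneg _
          have h6 : 0 ≤ n * ‖u‖ := by positivity
          nlinarith [mul_nonneg h4 h5]
        calc |u ⬝ᵥ x - b| ^ 2 ≤ ((n * ‖u‖ + |b|) * (1 + ‖x‖)) ^ 2 := by gcongr
          _ = _ := by ring
    rw [integral_pos_iff_support_of_nonneg (fun x => mul_nonneg (sq_nonneg _) (h.nn x))
      (h.int hpg)]
    obtain ⟨U, hU, hUne, hpos⟩ := h.pos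
    -- the open set U minus the hyperplane
    set H : Set (Fin n → ℝ) := {x | u ⬝ᵥ x ≠ b} with hH
    have hcu : Continuous fun x : Fin n → ℝ => u ⬝ᵥ x := by
      simp only [dotProduct]
      fun_prop
    have hHo : IsOpen H := isOpen_ne_fun hcu continuous_const
    have hne : (U ∩ H).Nonempty := by
      obtain ⟨x, hx⟩ := hUne
      by_cases hxb : u ⬝ᵥ x = b
      · -- perturb
        have hc : Tendsto (fun s : ℝ => x + s • u) (𝓝[>] 0) (𝓝 x) := by
          have : Continuous fun s : ℝ => x + s • u := by fun_prop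
          have := (this.tendsto 0).mono_left (nhdsWithin_le_nhds (s := Ioi (0:ℝ)))
          simpa using this
        have h1 : ∀ᶠ s in 𝓝[>] (0:ℝ), x + s • u ∈ U := hc (hU.mem_nhds hx)
        have h2 : ∀ᶠ s in 𝓝[>] (0:ℝ), 0 < s := eventually_mem_nhdsWithin
        obtain ⟨s, hs1, hs2⟩ := (h1.and h2).exists
        refine ⟨x + s • u, hs1, ?_⟩
        change u ⬝ᵥ (x + s • u) ≠ b
        rw [dotProduct_add, dotProduct_smul, smul_eq_mul, hxb]
        have := dot_pos hu
        have h3 : 0 < s * (u ⬝ᵥ u) := by positivity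
        linarith
      · exact ⟨x, hx, hxb⟩
    refine ((hU.inter hHo).measure_pos _ hne).trans_le (measure_mono ?_)
    rintro x ⟨hxU, hxH⟩
    have h1 : u ⬝ᵥ x - b ≠ 0 := sub_ne_zero.2 hxH
    exact mul_ne_zero (pow_ne_zero _ h1) (hpos x hxU).ne'

lemma Good.det_pos (h : Good f M a) : 0 < (covF f).det := h.covF_posDef.det_pos

end Vale.Agent.P254.R304
end

section

/-!
P254, block (R), part 6: `D ≥ 0` (and all moments, the entropy) pass from the nice measures to
`1_C exp (⟨c,x⟩ - ⟨x,Bx⟩/2)`, `C` closed convex with nonempty interior.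
-/

open MeasureTheory Set Matrix Filter Topology Metric

namespace Vale.Agent.P254.R304

variable {n : ℕ}

/-- nice weight (not normalised) -/
noncomputable def nice (K : Set (Fin n → ℝ)) (ε m : ℝ) (x : Fin n → ℝ) : ℝ :=
  qq ε K x * Real.exp (-(m / 2) * (x ⬝ᵥ x))

/-- convergence package: strictly convex bodies `K k`, and `ε, t → 0` -/
theorem exists_dom {B : Matrix (Fin n) (Fin n) ℝ} (hB : B.PosSemidef) {c : Fin n → ℝ}
    {C : Set (Fin n → ℝ)} (hC : IsClosed C) (hconv : Convex ℝ C) (hi : (interior C).Nonempty)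
    {a b : ℝ} (ha : 0 < a) (hdec : ∀ y ∈ C, c ⬝ᵥ y ≤ b - a * ‖y‖) :
    ∃ (K : ℕ → Set (Fin n → ℝ)) (s : ℕ → ℝ) (M : ℝ), (∀ k, IsCompact (K k)) ∧
      (∀ k, StrictConvex ℝ (K k)) ∧ (∀ k, (interior (K k)).Nonempty) ∧ (∀ k, K k ⊆ C) ∧
      (∀ k, 0 < s k) ∧ (∀ k, s k ≤ 1) ∧ Tendsto s atTop (𝓝 0) ∧
      Dom (fun k => dens B c (K k) (s k) (s k + s k)) (limDens B c C) M a := by
  obtain ⟨K, hK1, hK2, hK3, hK4, hK5⟩ := exists_strictConvex_approx hC hconv hi
  refine ⟨K, fun k => 1 / ((k:ℝ) + 1), _, hK1, hK2, hK3, hK4, fun k => by positivity, fun k => ?_,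
    tendsto_one_div_add_atTop_nhds_zero_nat,
    dom_dens hB hC hconv (hi.mono interior_subset) ha hdec (fun k => (hK1 k).measurableSet) hK4 hK5
      (fun k => by positivity) (fun k => ?_) (fun k => by positivity)
      tendsto_one_div_add_atTop_nhds_zero_nat ?_⟩
  · rw [div_le_one (by positivity)]
    have : (0:ℝ) ≤ k := Nat.cast_nonneg k
    linarith
  · rw [div_le_one (by positivity)]
    have : (0:ℝ) ≤ k := Nat.cast_nonneg k
    linarith
  · have := (tendsto_one_div_add_atTop_nhds_zero_nat (𝕜 := ℝ)).add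
      (tendsto_one_div_add_atTop_nhds_zero_nat (𝕜 := ℝ))
    simpa using this

lemma tilt_add_smul (B : Matrix (Fin n) (Fin n) ℝ) (c : Fin n → ℝ) (δ : ℝ) (x : Fin n → ℝ) :
    tilt (B + δ • 1) c x = tilt B c x * Real.exp (-(δ / 2) * (x ⬝ᵥ x)) := by
  unfold tilt
  rw [← Real.exp_add]
  congr 1
  rw [add_mulVec, dotProduct_add, smul_mulVec, one_mulVec, dotProduct_smul, smul_eq_mul]
  ring

/-- the approximating densities are nice weights up to a constant factor -/
lemma dens_eq (B : Matrix (Fin n) (Fin n) ℝ) (c : Fin n → ℝ) (K : Set (Fin n → ℝ)) (ε m δ : ℝ)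
    (x : Fin n → ℝ) :
    dens B c K ε (m + δ) x = (GG n ε)⁻¹ * (tilt (B + δ • 1) c x * nice K ε m x) := by
  unfold dens nice hh
  rw [tilt_add_smul]
  have : Real.exp (-((m + δ) / 2) * (x ⬝ᵥ x)) =
      Real.exp (-(m / 2) * (x ⬝ᵥ x)) * Real.exp (-(δ / 2) * (x ⬝ᵥ x)) := by
    rw [← Real.exp_add]; congr 1; ring
  rw [this]
  ring

lemma posDef_add_smul {B : Matrix (Fin n) (Fin n) ℝ} (hB : B.PosSemidef) {δ : ℝ} (hδ : 0 < δ) :
    (B + δ • (1 : Matrix (Fin n) (Fin n) ℝ)).PosDef := by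
  apply Matrix.PosDef.posSemidef_add hB
  exact Matrix.PosDef.smul Matrix.PosDef.one hδ

/-- the limit density is `Good` -/
lemma good_limDens {B : Matrix (Fin n) (Fin n) ℝ} (hB : B.PosSemidef) {c : Fin n → ℝ}
    {C : Set (Fin n → ℝ)} (hC : IsClosed C) (hi : (interior C).Nonempty)
    {a b : ℝ} (ha : 0 < a) (hdec : ∀ y ∈ C, c ⬝ᵥ y ≤ b - a * ‖y‖) :
    Good (limDens B c C) (Real.exp b) a where
  ha := ha
  meas := ((continuous_tilt B c).measurable.indicator hC.measurableSet).aestronglyMeasurable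
  nn := fun x => indicator_nonneg (fun y _ => (tilt_pos B c y).le) x
  le := fun x => by
    unfold limDens
    by_cases hx : x ∈ C
    · rw [indicator_of_mem hx, ← Real.exp_add]
      refine (tilt_le hB c x).trans (Real.exp_le_exp.2 ?_)
      have := hdec x hx
      linarith
    · rw [indicator_of_notMem hx]
      positivity
  pos := ⟨interior C, isOpen_interior, hi, fun x hx => by
    unfold limDens
    rw [indicator_of_mem (interior_subset hx)]
    exact tilt_pos B c x⟩

/-- the approximating densities are `Good` -/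
lemma good_dens {B : Matrix (Fin n) (Fin n) ℝ} (hB : B.PosSemidef) {c : Fin n → ℝ}
    {C : Set (Fin n → ℝ)} (hC : IsClosed C) (hne : C.Nonempty) {a b : ℝ} (ha : 0 < a)
    (hdec : ∀ y ∈ C, c ⬝ᵥ y ≤ b - a * ‖y‖) {K : Set (Fin n → ℝ)} (hK : MeasurableSet K)
    (hKi : (interior K).Nonempty)
    (hKC : K ⊆ C) {ε t : ℝ} (hε : 0 < ε) (hε1 : ε ≤ 1) (ht : 0 ≤ t) :
    Good (dens B c K ε t) (Real.sqrt 2 ^ n * Real.exp (b + (a + n * ‖c‖) ^ 2)) a where
  ha := ha
  meas := (measurable_dens B c K ε t).aestronglyMeasurable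
  nn := fun x => dens_nonneg B c K hε t x
  le := fun x => dens_le hB hC hne ha hdec hK hKC hε hε1 ht x
  pos := ⟨univ, isOpen_univ, univ_nonempty, fun x _ => by
    unfold dens hh qq
    refine mul_pos (tilt_pos _ _ _) (mul_pos (mul_pos (inv_pos.2 (GG_pos hε)) ?_)
      (Real.exp_pos _))
    rw [setIntegral_pos_iff_support_of_nonneg_ae (ae_of_all _ fun y => (Real.exp_pos _).le)
      (gauss_integrable' hε x).integrableOn]
    have : Function.support (fun y : Fin n → ℝ =>
        Real.exp (-((x - y) ⬝ᵥ (x - y)) / (2 * ε))) = univ := by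
      ext y
      simp [(Real.exp_pos _).ne']
    rw [this, univ_inter]
    exact (isOpen_interior.measure_pos _ hKi).trans_le (measure_mono interior_subset)⟩

/-- `D ≥ 0` for all nice measures (in dimension `n`) -/
def NiceDD (n : ℕ) : Prop :=
  ∀ (K : Set (Fin n → ℝ)), IsCompact K → StrictConvex ℝ K → (interior K).Nonempty →
    ∀ ε m : ℝ, 0 < ε → 0 < m → ∀ (B : Matrix (Fin n) (Fin n) ℝ), B.PosDef → ∀ c : Fin n → ℝ,
      0 ≤ DD (fun x => tilt B c x * nice K ε m x)

/-- Block (R): `D ≥ 0` for `1_C exp (⟨c,x⟩ - ⟨x,Bx⟩/2)`. -/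
theorem DD_limDens_nonneg (hN : NiceDD n) {B : Matrix (Fin n) (Fin n) ℝ} (hB : B.PosSemidef)
    {c : Fin n → ℝ} {C : Set (Fin n → ℝ)} (hC : IsClosed C) (hconv : Convex ℝ C)
    (hi : (interior C).Nonempty) {a b : ℝ} (ha : 0 < a)
    (hdec : ∀ y ∈ C, c ⬝ᵥ y ≤ b - a * ‖y‖) :
    0 ≤ DD (limDens B c C) := by
  obtain ⟨K, s, M, hK1, hK2, hK3, hK4, hs, hs1, -, hdom⟩ := exists_dom hB hC hconv hi ha hdec
  have hgood := good_limDens hB hC hi ha hdec
  have hlim := hdom.tendsto_DD hgood.mass_pos.ne' hgood.det_pos.ne'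
  refine ge_of_tendsto' hlim fun k => ?_
  have hg := good_dens hB hC (hi.mono interior_subset) ha hdec (hK1 k).measurableSet (hK3 k)
    (hK4 k) (hs k) (hs1 k) (t := s k + s k) (by have := hs k; linarith)
  have h1 := hN (K k) (hK1 k) (hK2 k) (hK3 k) (s k) (s k) (hs k) (hs k) (B + (s k) • 1)
    (posDef_add_smul hB (hs k)) c
  have e1 : (fun x => tilt (B + (s k) • 1) c x * nice (K k) (s k) (s k) x) =
      fun x => GG n (s k) * dens B c (K k) (s k) (s k + s k) x := by
    ext x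
    rw [dens_eq, mul_inv_cancel_left₀ (GG_pos (hs k)).ne']
  rw [e1, DD_smul (GG_pos (hs k)) hg.int1 ?_ hg.mass_pos.ne'] at h1
  · exact h1
  · exact ent_integrable a _ ha (by positivity) hg.meas hg.nn hg.le

end Vale.Agent.P254.R304
end

section

/-!
P254, block (R), part 7: the cone over a convex body.
-/

open MeasureTheory Set Matrix Filter Topology Metric

namespace Vale.Agent.P254.R304

variable {n : ℕ}

/-- the cone `{(t, t y) : t ≥ 0, y ∈ K}` -/
def cone (K : Set (Fin n → ℝ)) : Set (Fin (n + 1) → ℝ) :=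
  {z | 0 ≤ z 0 ∧ ∃ y ∈ K, Fin.tail z = z 0 • y}

/-- the linear functional `-z₀` -/
def mc (n : ℕ) : Fin (n + 1) → ℝ := Fin.cons (-1) 0

lemma mc_dot (z : Fin (n + 1) → ℝ) : mc n ⬝ᵥ z = -z 0 := by
  unfold mc dotProduct
  rw [Fin.sum_univ_succ]
  simp

lemma continuous_tail : Continuous (Fin.tail : (Fin (n + 1) → ℝ) → (Fin n → ℝ)) := by
  unfold Fin.tail
  fun_prop

lemma isClosed_cone {K : Set (Fin n → ℝ)} (hK : IsCompact K) : IsClosed (cone K) := by
  have : CompactSpace K := isCompact_iff_compactSpace.1 hK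
  have hS : IsClosed {p : (Fin (n + 1) → ℝ) × K | 0 ≤ p.1 0 ∧
      Fin.tail p.1 = p.1 0 • (p.2 : Fin n → ℝ)} := by
    apply IsClosed.inter
    · have h1 : Continuous fun p : (Fin (n + 1) → ℝ) × K => p.1 0 :=
        (continuous_apply 0).comp continuous_fst
      exact isClosed_le continuous_const h1
    · refine isClosed_eq (continuous_tail.comp continuous_fst) ?_
      exact ((continuous_apply 0).comp continuous_fst).smul
        (continuous_subtype_val.comp continuous_snd)
  have := isClosedMap_fst_of_compactSpace _ hS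
  convert this using 1
  ext z
  constructor
  · rintro ⟨h0, y, hy, h⟩
    exact ⟨(z, ⟨y, hy⟩), ⟨h0, h⟩, rfl⟩
  · rintro ⟨⟨z', y⟩, ⟨h0, h⟩, rfl⟩
    exact ⟨h0, y, y.2, h⟩

lemma convex_cone {K : Set (Fin n → ℝ)} (hK : Convex ℝ K) : Convex ℝ (cone K) := by
  rintro z ⟨hz0, y, hy, hz⟩ z' ⟨hz0', y', hy', hz'⟩ a b ha hb hab
  have h0 : 0 ≤ a * z 0 := mul_nonneg ha hz0
  have h0' : 0 ≤ b * z' 0 := mul_nonneg hb hz0'
  refine ⟨by simp only [Pi.add_apply, Pi.smul_apply, smul_eq_mul]; linarith, ?_⟩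
  have ht : Fin.tail (a • z + b • z') = (a * z 0) • y + (b * z' 0) • y' := by
    have : Fin.tail (a • z + b • z') = a • Fin.tail z + b • Fin.tail z' := by
      ext i; simp [Fin.tail]
    rw [this, hz, hz', smul_smul, smul_smul]
  rcases eq_or_lt_of_le (add_nonneg h0 h0') with h | h
  · have e1 : a * z 0 = 0 := by linarith
    have e2 : b * z' 0 = 0 := by linarith
    refine ⟨y, hy, ?_⟩
    rw [ht, e1, e2]
    simp [e1, e2]
  · refine ⟨((a * z 0) / (a * z 0 + b * z' 0)) • y + ((b * z' 0) / (a * z 0 + b * z' 0)) • y',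
      hK hy hy' (by positivity) (by positivity) (by field_simp), ?_⟩
    rw [ht]
    simp only [Pi.add_apply, Pi.smul_apply, smul_eq_mul, smul_add, smul_smul]
    congr 2 <;> field_simp

lemma cone_interior {K : Set (Fin n → ℝ)} (hi : (interior K).Nonempty) :
    (interior (cone K)).Nonempty := by
  obtain ⟨y, hy⟩ := hi
  have hopen : IsOpen ({z : Fin (n + 1) → ℝ | 0 < z 0} ∩
      (fun z : Fin (n + 1) → ℝ => (z 0)⁻¹ • Fin.tail z) ⁻¹' (interior K)) := by
    apply ContinuousOn.isOpen_inter_preimage _ _ isOpen_interior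
    · have h1 : ContinuousOn (fun z : Fin (n + 1) → ℝ => (z 0)⁻¹) {z | 0 < z 0} :=
        (continuous_apply (0 : Fin (n + 1))).continuousOn.inv₀ fun z hz => ne_of_gt hz
      exact h1.smul continuous_tail.continuousOn
    · exact isOpen_lt continuous_const (by fun_prop)
  refine ⟨Fin.cons 1 y, mem_interior.2 ⟨_, ?_, hopen, ?_⟩⟩
  · rintro z ⟨hz0, hz⟩
    have hz0' : 0 < z 0 := hz0
    refine ⟨hz0'.le, _, interior_subset hz, ?_⟩
    rw [smul_smul, mul_inv_cancel₀ hz0'.ne', one_smul]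
  · refine ⟨by simp, ?_⟩
    simpa [Fin.tail] using hy

lemma cone_decay {K : Set (Fin n → ℝ)} (hK : IsCompact K) :
    ∃ a : ℝ, 0 < a ∧ ∀ z ∈ cone K, mc n ⬝ᵥ z ≤ 0 - a * ‖z‖ := by
  obtain ⟨D, hD0, hD⟩ := hK.isBounded.exists_pos_norm_le
  refine ⟨(1 + D)⁻¹, by positivity, ?_⟩
  rintro z ⟨hz0, y, hy, hz⟩
  rw [mc_dot]
  have h1 : ‖z‖ ≤ (1 + D) * z 0 := by
    rw [pi_norm_le_iff_of_nonneg (by positivity)]
    intro i
    refine Fin.cases ?_ (fun j => ?_) i
    · rw [Real.norm_eq_abs, abs_of_nonneg hz0]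
      nlinarith
    · have e : z j.succ = z 0 * y j := by
        have := congrFun hz j
        simpa [Fin.tail] using this
      rw [e, Real.norm_eq_abs, abs_mul, abs_of_nonneg hz0]
      have h2 : |y j| ≤ D := (norm_le_pi_norm y j).trans (hD y hy)
      calc z 0 * |y j| ≤ z 0 * D := by gcongr
        _ ≤ (1 + D) * z 0 := by nlinarith
  have h2 : (1 + D)⁻¹ * ‖z‖ ≤ z 0 := by
    rw [inv_mul_le_iff₀ (by positivity)]
    exact h1
  linarith

/-- density of the cone measure -/
noncomputable def coneDens (K : Set (Fin n → ℝ)) : (Fin (n + 1) → ℝ) → ℝ :=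
  (cone K).indicator fun z => Real.exp (-z 0)

lemma coneDens_eq (K : Set (Fin n → ℝ)) : coneDens K = limDens 0 (mc n) (cone K) := by
  unfold coneDens limDens
  congr 1
  ext z
  unfold tilt
  rw [mc_dot]
  simp

/-- `D ≥ 0` for the cone measure of a convex body. -/
theorem DD_coneDens_nonneg (hN : NiceDD (n + 1)) {K : Set (Fin n → ℝ)} (hK : IsConvexBody K) :
    0 ≤ DD (coneDens K) := by
  obtain ⟨a, ha, hdec⟩ := cone_decay hK.2.1
  rw [coneDens_eq]
  exact DD_limDens_nonneg hN Matrix.PosSemidef.zero (isClosed_cone hK.2.1) (convex_cone hK.1)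
    (cone_interior hK.2.2) ha hdec

lemma good_coneDens {K : Set (Fin n → ℝ)} (hK : IsConvexBody K) :
    ∃ M a : ℝ, Good (coneDens K) M a := by
  obtain ⟨a, ha, hdec⟩ := cone_decay hK.2.1
  rw [coneDens_eq]
  exact ⟨_, a, good_limDens Matrix.PosSemidef.zero (isClosed_cone hK.2.1)
    (cone_interior hK.2.2) ha hdec⟩

end Vale.Agent.P254.R304
end

section

/-!
P254: bridge between the functional `DD` of block (R) and the frame of `Frame829`.
-/

open MeasureTheory Set Matrix Filter Topology Metric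

namespace Vale.Agent.P254.R304

variable {n : ℕ}

lemma tilt_eq_tl (B : Matrix (Fin n) (Fin n) ℝ) (c x : Fin n → ℝ) : tilt B c x = Fr.tl B c x := rfl

lemma Ef_eq_Ev (w : (Fin n → ℝ) → ℝ) (B : Matrix (Fin n) (Fin n) ℝ) (c : Fin n → ℝ)
    (φ : (Fin n → ℝ) → ℝ) :
    Ef (fun x => tilt B c x * w x) φ = Fr.Ev w B c φ := by
  unfold Ef Fr.Ev Fr.I
  simp only [one_mul]
  rfl

lemma covF_eq_AF (w : (Fin n → ℝ) → ℝ) (B : Matrix (Fin n) (Fin n) ℝ) (c : Fin n → ℝ) :
    covF (fun x => tilt B c x * w x) = Fr.AF w B c := by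
  unfold covF Fr.AF
  simp only [Ef_eq_Ev]
  rfl

lemma entF_eq_EntF {w : (Fin n → ℝ) → ℝ} (hw : ∀ x, 0 < w x) (B : Matrix (Fin n) (Fin n) ℝ)
    (c : Fin n → ℝ) :
    entF (fun x => tilt B c x * w x) = Fr.EntF w B c := by
  unfold entF Fr.EntF Fr.Ev Fr.I
  have e1 : ∀ x, tilt B c x * w x * Real.log (tilt B c x * w x) =
      -(Fr.ps w B c x * (Fr.tl B c x * w x)) := by
    intro x
    rw [Real.log_mul (tilt_pos _ _ _).ne' (hw x).ne']
    unfold Fr.ps
    rw [← tilt_eq_tl]
    have : Real.log (tilt B c x) = c ⬝ᵥ x - (1 / 2) * (x ⬝ᵥ B *ᵥ x) := by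
      unfold tilt; rw [Real.log_exp]
    rw [this]
    ring
  simp only [e1, one_mul, integral_neg, neg_div, sub_neg_eq_add]
  rfl

/-- `DD` in the notation of the frame -/
lemma DD_eq {w : (Fin n → ℝ) → ℝ} (hw : ∀ x, 0 < w x) (B : Matrix (Fin n) (Fin n) ℝ)
    (c : Fin n → ℝ) :
    DD (fun x => tilt B c x * w x) =
      Fr.EntF w B c - 1 / 2 * Real.log (Fr.AF w B c).det - n := by
  unfold DD
  rw [entF_eq_EntF hw, covF_eq_AF]

lemma nice_pos {K : Set (Fin n → ℝ)} (hKi : (interior K).Nonempty) {ε : ℝ} (hε : 0 < ε) (m : ℝ)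
    (x : Fin n → ℝ) : 0 < nice K ε m x := by
  unfold nice qq
  refine mul_pos ?_ (Real.exp_pos _)
  rw [setIntegral_pos_iff_support_of_nonneg_ae (ae_of_all _ fun y => (Real.exp_pos _).le)
    (gauss_integrable' hε x).integrableOn]
  have : Function.support (fun y : Fin n → ℝ =>
      Real.exp (-((x - y) ⬝ᵥ (x - y)) / (2 * ε))) = univ := by
    ext y
    simp [(Real.exp_pos _).ne']
  rw [this, univ_inter]
  exact (isOpen_interior.measure_pos _ hKi).trans_le (measure_mono interior_subset)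

/-- what the minimum principle gives for the nice measures, in the notation of the frame -/
def NiceFr (n : ℕ) : Prop :=
  ∀ (K : Set (Fin n → ℝ)), IsCompact K → StrictConvex ℝ K → (interior K).Nonempty →
    ∀ ε m : ℝ, 0 < ε → 0 < m → ∀ (B : Matrix (Fin n) (Fin n) ℝ), B.PosDef → ∀ c : Fin n → ℝ,
      (n : ℝ) + 1 / 2 * Real.log (Fr.AF (nice K ε m) B c).det ≤ Fr.EntF (nice K ε m) B c

theorem NiceFr.niceDD (h : NiceFr n) : NiceDD n := by
  intro K h1 h2 h3 ε m hε hm B hB c
  rw [DD_eq (nice_pos h3 hε m)]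
  have := h K h1 h2 h3 ε m hε hm B hB c
  linarith

end Vale.Agent.P254.R304
end

section

/-!
P254, block (K): from convex bodies in `ℝⁿ` to the cone measure `e^{-t} 1{x ∈ t K}` on `ℝ^{n+1}`.
-/

open MeasureTheory Set Matrix
open scoped Pointwise ENNReal

namespace Vale.Agent.P254.K468

variable {n N : ℕ}

/-- total mass of a density -/
noncomputable def massF (f : (Fin N → ℝ) → ℝ) : ℝ := ∫ y, f y

/-- mean of the probability density `f / ∫ f` -/
noncomputable def meanF (f : (Fin N → ℝ) → ℝ) : Fin N → ℝ :=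
  fun i => (∫ y, y i * f y) / massF f

/-- covariance matrix of the probability density `f / ∫ f` -/
noncomputable def covF (f : (Fin N → ℝ) → ℝ) : Matrix (Fin N) (Fin N) ℝ :=
  fun i j => (∫ y, (y i - meanF f i) * (y j - meanF f j) * f y) / massF f

/-- differential entropy of the probability density `f / ∫ f` -/
noncomputable def entF (f : (Fin N → ℝ) → ℝ) : ℝ :=
  -∫ y, (f y / massF f) * Real.log (f y / massF f)

/-- `D(f) = Ent - ½ log det Cov - N ≥ 0` -/
def DNonneg (f : (Fin N → ℝ) → ℝ) : Prop :=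
  (N : ℝ) + 1 / 2 * Real.log (covF f).det ≤ entF f

open Classical in
/-- the cone density: `e^{-t}` on `{(t, x) : 0 < t, x ∈ t K}`, `t = y 0` -/
noncomputable def coneF (K : Set (Fin n → ℝ)) (y : Fin (n + 1) → ℝ) : ℝ :=
  if 0 < y 0 ∧ (fun i : Fin n => y i.succ) ∈ y 0 • K then Real.exp (-(y 0)) else 0

/-- `Gamma(n+1)` law, unnormalised -/
noncomputable def gamM (n : ℕ) : Measure ℝ :=
  (volume.restrict (Ioi (0 : ℝ))).withDensity fun t => ENNReal.ofReal (t ^ n * Real.exp (-t))

instance : SFinite (gamM n) := by unfold gamM; infer_instance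

/-- `(t, u) ↦ (t, t u)` -/
def conePt (z : ℝ × (Fin n → ℝ)) : Fin (n + 1) → ℝ := Fin.cons z.1 (z.1 • z.2)

lemma measurable_conePt : Measurable (conePt : ℝ × (Fin n → ℝ) → _) := by
  unfold conePt
  rw [measurable_pi_iff]
  intro i
  refine Fin.cases ?_ (fun j => ?_) i
  · simpa using measurable_fst
  · simp only [Fin.cons_succ, Pi.smul_apply, smul_eq_mul]
    exact measurable_fst.mul ((measurable_pi_apply j).comp measurable_snd)

lemma coneF_nonneg (K : Set (Fin n → ℝ)) (y) : 0 ≤ coneF K y := by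
  unfold coneF; split_ifs
  · exact (Real.exp_pos _).le
  · exact le_rfl

/-- the open cone -/
def coneS (K : Set (Fin n → ℝ)) : Set (Fin (n + 1) → ℝ) :=
  {y | 0 < y 0 ∧ (fun i : Fin n => y i.succ) ∈ y 0 • K}

lemma coneS_eq (K : Set (Fin n → ℝ)) : coneS K =
    {y | 0 < y 0} ∩ (fun y : Fin (n + 1) → ℝ => (y 0)⁻¹ • (fun i : Fin n => y i.succ)) ⁻¹' K := by
  ext y
  simp only [coneS, mem_ofPred_eq, mem_inter_iff, mem_preimage]
  refine and_congr_right fun h => ?_
  rw [mem_smul_set_iff_inv_smul_mem₀ h.ne']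

lemma measurableSet_coneS {K : Set (Fin n → ℝ)} (hK : MeasurableSet K) :
    MeasurableSet (coneS K) := by
  rw [coneS_eq]
  refine (measurableSet_lt measurable_const (measurable_pi_apply 0)).inter
    (measurableSet_preimage ?_ hK)
  rw [measurable_pi_iff]
  intro i
  simp only [Pi.smul_apply, smul_eq_mul]
  exact (measurable_pi_apply 0).inv.mul (measurable_pi_apply _)

lemma coneF_eq (K : Set (Fin n → ℝ)) :
    coneF K = (coneS K).indicator fun y => Real.exp (-(y 0)) := by
  ext y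
  unfold coneF
  by_cases h : y ∈ coneS K
  · rw [indicator_of_mem h]; exact if_pos h
  · rw [indicator_of_notMem h]; exact if_neg h

lemma measurable_coneF {K : Set (Fin n → ℝ)} (hK : MeasurableSet K) : Measurable (coneF K) := by
  rw [coneF_eq]
  exact Measurable.indicator (by fun_prop) (measurableSet_coneS hK)

/-- scaling of a set integral -/
lemma lintegral_scale {K : Set (Fin n → ℝ)} (hK : MeasurableSet K)
    {F : (Fin n → ℝ) → ℝ≥0∞} (hF : Measurable F) {t : ℝ} (ht : 0 < t) :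
    ∫⁻ x in t • K, F x = ENNReal.ofReal (t ^ n) * ∫⁻ u in K, F (t • u) := by
  have htK : MeasurableSet (t • K) := hK.const_smul_of_ne_zero ht.ne'
  have h1 : ∫⁻ u in K, F (t • u) = ∫⁻ u, (t • K).indicator F (t • u) := by
    rw [← lintegral_indicator hK]
    refine lintegral_congr fun u => ?_
    by_cases hu : u ∈ K
    · rw [indicator_of_mem hu, indicator_of_mem (smul_mem_smul_set hu)]
    · rw [indicator_of_notMem hu, indicator_of_notMem]
      intro h
      exact hu ((smul_mem_smul_set_iff₀ ht.ne' K u).1 h)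
  have h2 := Measure.map_addHaar_smul (volume : Measure (Fin n → ℝ)) ht.ne'
  have h3 : ∫⁻ u, (t • K).indicator F (t • u) =
      ENNReal.ofReal |(t ^ n)⁻¹| * ∫⁻ x, (t • K).indicator F x := by
    rw [← lintegral_map (μ := volume) (hF.indicator htK) (measurable_const_smul t), h2,
      lintegral_smul_measure]
    simp
  rw [h1, h3, lintegral_indicator htK, ← mul_assoc, abs_of_pos (by positivity),
    ← ENNReal.ofReal_mul (by positivity), mul_inv_cancel₀ (by positivity), ENNReal.ofReal_one,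
    one_mul]

lemma lintegral_cone {K : Set (Fin n → ℝ)} (hK : MeasurableSet K)
    {f : (Fin (n + 1) → ℝ) → ℝ≥0∞} (hf : Measurable f) :
    ∫⁻ y, f y * ENNReal.ofReal (coneF K y) =
      ∫⁻ z, f (conePt z) ∂((gamM n).prod (volume.restrict K)) := by
  have hmcons : Measurable fun p : ℝ × (Fin n → ℝ) => (Fin.cons p.1 p.2 : Fin (n + 1) → ℝ) := by
    rw [measurable_pi_iff]
    intro i
    refine Fin.cases ?_ (fun j => ?_) i
    · simpa using measurable_fst
    · simp only [Fin.cons_succ]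
      exact (measurable_pi_apply j).comp measurable_snd
  have hg : Measurable fun y => f y * ENNReal.ofReal (coneF K y) :=
    hf.mul (measurable_coneF hK).ennreal_ofReal
  have e1 : ∫⁻ y, f y * ENNReal.ofReal (coneF K y) =
      ∫⁻ p : ℝ × (Fin n → ℝ), f (Fin.cons p.1 p.2) * ENNReal.ofReal (coneF K (Fin.cons p.1 p.2)) := by
    have h := (volume_preserving_piFinSuccAbove (fun _ : Fin (n + 1) => ℝ) 0).symm
    rw [← h.lintegral_comp hg]
    refine lintegral_congr fun p => ?_
    have : (MeasurableEquiv.piFinSuccAbove (fun _ : Fin (n + 1) => ℝ) 0).symm p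
        = Fin.cons p.1 p.2 := by
      simp [MeasurableEquiv.piFinSuccAbove, Fin.insertNthEquiv]
    rw [this]
  have hG : Measurable fun p : ℝ × (Fin n → ℝ) =>
      f (Fin.cons p.1 p.2) * ENNReal.ofReal (coneF K (Fin.cons p.1 p.2)) := hg.comp hmcons
  have e3 : ∫⁻ p : ℝ × (Fin n → ℝ),
      f (Fin.cons p.1 p.2) * ENNReal.ofReal (coneF K (Fin.cons p.1 p.2)) =
      ∫⁻ t : ℝ, ∫⁻ x : Fin n → ℝ,
        f (Fin.cons t x) * ENNReal.ofReal (coneF K (Fin.cons t x)) := by
    rw [Measure.volume_eq_prod]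
    exact lintegral_prod _ hG.aemeasurable
  have hC : Measurable fun z : ℝ × (Fin n → ℝ) => f (conePt z) := hf.comp measurable_conePt
  have e4 : ∫⁻ z, f (conePt z) ∂((gamM n).prod (volume.restrict K)) =
      ∫⁻ t, (∫⁻ u in K, f (conePt (t, u))) ∂(gamM n) := lintegral_prod _ hC.aemeasurable
  have hin : Measurable fun t : ℝ => ∫⁻ u in K, f (conePt (t, u)) :=
    hC.lintegral_prod_right'
  have e5 : ∫⁻ t, (∫⁻ u in K, f (conePt (t, u))) ∂(gamM n) =
      ∫⁻ t : ℝ, (Ioi (0 : ℝ)).indicator (fun t => ENNReal.ofReal (t ^ n * Real.exp (-t)) *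
        ∫⁻ u in K, f (conePt (t, u))) t := by
    rw [gamM, lintegral_withDensity_eq_lintegral_mul _ (by fun_prop) hin,
      lintegral_indicator measurableSet_Ioi]
    rfl
  rw [e1, e3, e4, e5]
  refine lintegral_congr fun t => ?_
  by_cases ht : 0 < t
  · rw [indicator_of_mem (mem_Ioi.2 ht)]
    have e2 : ∀ x : Fin n → ℝ, f (Fin.cons t x) * ENNReal.ofReal (coneF K (Fin.cons t x)) =
        ENNReal.ofReal (Real.exp (-t)) * (t • K).indicator (fun x => f (Fin.cons t x)) x := by
      intro x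
      unfold coneF
      by_cases hx : x ∈ t • K
      · rw [if_pos ⟨by simpa using ht, by simpa using hx⟩, indicator_of_mem hx, mul_comm]
        simp
      · rw [if_neg (fun h => hx (by simpa using h.2)), indicator_of_notMem hx]
        simp
    simp_rw [e2]
    have hft : Measurable fun x : Fin n → ℝ => f (Fin.cons t x) :=
      hf.comp (hmcons.comp (measurable_const.prodMk measurable_id))
    rw [lintegral_const_mul _ (hft.indicator (hK.const_smul_of_ne_zero ht.ne')),
      lintegral_indicator (hK.const_smul_of_ne_zero ht.ne'), lintegral_scale hK hft ht,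
      ← mul_assoc, ← ENNReal.ofReal_mul (Real.exp_pos _).le]
    simp only [conePt]
    rw [mul_comm (Real.exp (-t))]
  · rw [indicator_of_notMem (fun h => ht (mem_Ioi.1 h))]
    have e2 : ∀ x : Fin n → ℝ, f (Fin.cons t x) * ENNReal.ofReal (coneF K (Fin.cons t x)) = 0 := by
      intro x
      unfold coneF
      rw [if_neg (fun h => ht (by simpa using h.1))]
      simp
    simp [e2]

/-- the cone measure is the image of `Gamma(n+1) ⊗ K` -/
lemma map_cone {K : Set (Fin n → ℝ)} (hK : MeasurableSet K) :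
    ((gamM n).prod (volume.restrict K)).map conePt =
      volume.withDensity fun y => ENNReal.ofReal (coneF K y) := by
  refine Measure.ext_of_lintegral _ fun f hf => ?_
  rw [lintegral_map hf measurable_conePt, lintegral_withDensity_eq_lintegral_mul _
    (measurable_coneF hK).ennreal_ofReal hf, ← lintegral_cone hK hf]
  refine lintegral_congr fun y => ?_
  rw [Pi.mul_apply, mul_comm]

lemma integral_cone {K : Set (Fin n → ℝ)} (hK : MeasurableSet K)
    {φ : (Fin (n + 1) → ℝ) → ℝ} (hφ : Measurable φ) :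
    ∫ y, φ y * coneF K y = ∫ z, φ (conePt z) ∂((gamM n).prod (volume.restrict K)) := by
  have h1 : ∫ z, φ (conePt z) ∂((gamM n).prod (volume.restrict K)) =
      ∫ y, φ y ∂(((gamM n).prod (volume.restrict K)).map conePt) :=
    (integral_map measurable_conePt.aemeasurable hφ.aestronglyMeasurable).symm
  rw [h1, map_cone hK]
  have h2 := integral_withDensity_eq_integral_toReal_smul
    (μ := (volume : Measure (Fin (n + 1) → ℝ))) (f := fun y => ENNReal.ofReal (coneF K y))
    (measurable_coneF hK).ennreal_ofReal (by simp) φ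
  rw [h2]
  refine integral_congr_ae (Filter.Eventually.of_forall fun y => ?_)
  simp only [smul_eq_mul]
  rw [ENNReal.toReal_ofReal (coneF_nonneg K y), mul_comm]

lemma integrable_gam (k : ℕ) : Integrable (fun t : ℝ => t ^ k) (gamM n) := by
  unfold gamM
  rw [integrable_withDensity_iff_integrable_smul' (by fun_prop) (by simp)]
  have h := integrableOn_pow_mul_exp (n + k) (c := 1) one_pos
  refine (h.congr_fun (fun t ht => ?_) measurableSet_Ioi)
  have ht' : 0 < t := ht
  simp only [smul_eq_mul]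
  rw [ENNReal.toReal_ofReal (by positivity)]
  ring_nf

lemma integral_gam (k : ℕ) : ∫ t : ℝ, t ^ k ∂(gamM n) = ((n + k).factorial : ℝ) := by
  unfold gamM
  rw [integral_withDensity_eq_integral_toReal_smul (by fun_prop) (by simp)]
  have h := integral_Ioi_pow_mul_exp (n + k) (c := 1) one_pos
  rw [one_pow, div_one] at h
  rw [← h]
  refine setIntegral_congr_fun measurableSet_Ioi fun t ht => ?_
  have ht' : 0 < t := ht
  simp only [smul_eq_mul]
  rw [ENNReal.toReal_ofReal (by positivity)]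
  ring_nf

lemma integral_prod_gam (K : Set (Fin n → ℝ)) (k : ℕ) (ψ : (Fin n → ℝ) → ℝ) :
    ∫ z : ℝ × (Fin n → ℝ), z.1 ^ k * ψ z.2 ∂((gamM n).prod (volume.restrict K)) =
      ((n + k).factorial : ℝ) * ∫ u in K, ψ u := by
  rw [← integral_gam (n := n) k]
  exact integral_prod_mul (μ := gamM n) (ν := volume.restrict K) (fun t : ℝ => t ^ k) ψ

lemma integrable_cone {K : Set (Fin n → ℝ)} (hK : MeasurableSet K)
    {φ : (Fin (n + 1) → ℝ) → ℝ} (hφ : Measurable φ)
    (hi : Integrable (fun z => φ (conePt z)) ((gamM n).prod (volume.restrict K))) :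
    Integrable fun y => φ y * coneF K y := by
  have h1 : Integrable φ (((gamM n).prod (volume.restrict K)).map conePt) :=
    (integrable_map_measure hφ.aestronglyMeasurable measurable_conePt.aemeasurable).2 hi
  rw [map_cone hK, integrable_withDensity_iff_integrable_smul'
    (measurable_coneF hK).ennreal_ofReal (by simp)] at h1
  refine h1.congr (Filter.Eventually.of_forall fun y => ?_)
  simp only [smul_eq_mul]
  rw [ENNReal.toReal_ofReal (coneF_nonneg K y), mul_comm]

lemma integrable_prod_gam {K : Set (Fin n → ℝ)} (k : ℕ) {ψ : (Fin n → ℝ) → ℝ}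
    (hψ : IntegrableOn ψ K) :
    Integrable (fun z : ℝ × (Fin n → ℝ) => z.1 ^ k * ψ z.2)
      ((gamM n).prod (volume.restrict K)) :=
  (integrable_gam k).mul_prod hψ

/-- the coordinates in terms of `(t, u)` -/
lemma conePt_eq (i : Fin (n + 1)) (z : ℝ × (Fin n → ℝ)) :
    conePt z i = z.1 * (Fin.cons 1 z.2 : Fin (n + 1) → ℝ) i := by
  refine Fin.cases ?_ (fun j => ?_) i
  · simp [conePt]
  · simp [conePt]

lemma cont_cons (i : Fin (n + 1)) :
    Continuous fun u : Fin n → ℝ => (Fin.cons 1 u : Fin (n + 1) → ℝ) i := by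
  refine Fin.cases ?_ (fun j => ?_) i
  · simpa using continuous_const
  · simpa using continuous_apply j

section body

variable {K : Set (Fin n → ℝ)} (hK : IsCompact K)

include hK

lemma mom0 : ∫ y, coneF K y = (n.factorial : ℝ) * (volume K).toReal := by
  have h := integral_cone hK.measurableSet (φ := fun _ => 1) measurable_const
  have h2 := integral_prod_gam K 0 (fun _ => (1 : ℝ))
  simp only [one_mul] at h
  rw [h]
  simp only [pow_zero, one_mul] at h2
  rw [h2]
  simp [Measure.real]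

lemma mom_t : ∫ y, y 0 * coneF K y = ((n + 1).factorial : ℝ) * (volume K).toReal := by
  have h := integral_cone hK.measurableSet (φ := fun y => y 0) (measurable_pi_apply 0)
  have h2 := integral_prod_gam K 1 (fun _ => (1 : ℝ))
  rw [h]
  simp only [pow_one, mul_one] at h2
  have e : ∀ z : ℝ × (Fin n → ℝ), conePt z 0 = z.1 := fun z => rfl
  simp_rw [e]
  rw [h2]
  simp [Measure.real]

lemma mom_x (i : Fin n) :
    ∫ y, y i.succ * coneF K y = ((n + 1).factorial : ℝ) * ∫ u in K, u i := by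
  have h := integral_cone hK.measurableSet (φ := fun y => y i.succ) (measurable_pi_apply _)
  have h2 := integral_prod_gam K 1 (fun u : Fin n → ℝ => u i)
  rw [h]
  simp only [pow_one] at h2
  have e : ∀ z : ℝ × (Fin n → ℝ), conePt z i.succ = z.1 * z.2 i := fun z => rfl
  simp_rw [e]
  rw [h2]

lemma mom_tt : ∫ y, y 0 * y 0 * coneF K y = ((n + 2).factorial : ℝ) * (volume K).toReal := by
  have h := integral_cone hK.measurableSet (φ := fun y => y 0 * y 0)
    ((measurable_pi_apply 0).mul (measurable_pi_apply 0))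
  have h2 := integral_prod_gam K 2 (fun _ => (1 : ℝ))
  rw [h]
  simp only [mul_one] at h2
  have e : ∀ z : ℝ × (Fin n → ℝ), conePt z 0 * conePt z 0 = z.1 ^ 2 := by
    intro z; rw [sq]; rfl
  simp_rw [e]
  rw [h2]
  simp [Measure.real]

lemma mom_tx (i : Fin n) :
    ∫ y, y 0 * y i.succ * coneF K y = ((n + 2).factorial : ℝ) * ∫ u in K, u i := by
  have h := integral_cone hK.measurableSet (φ := fun y => y 0 * y i.succ)
    ((measurable_pi_apply 0).mul (measurable_pi_apply _))
  have h2 := integral_prod_gam K 2 (fun u : Fin n → ℝ => u i)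
  rw [h]
  have e : ∀ z : ℝ × (Fin n → ℝ), conePt z 0 * conePt z i.succ = z.1 ^ 2 * z.2 i := by
    intro z
    have : conePt z 0 * conePt z i.succ = z.1 * (z.1 * z.2 i) := rfl
    rw [this]; ring
  simp_rw [e]
  rw [h2]

lemma mom_xx (i j : Fin n) :
    ∫ y, y i.succ * y j.succ * coneF K y
      = ((n + 2).factorial : ℝ) * ∫ u in K, u i * u j := by
  have h := integral_cone hK.measurableSet (φ := fun y => y i.succ * y j.succ)
    ((measurable_pi_apply _).mul (measurable_pi_apply _))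
  have h2 := integral_prod_gam K 2 (fun u : Fin n → ℝ => u i * u j)
  rw [h]
  have e : ∀ z : ℝ × (Fin n → ℝ),
      conePt z i.succ * conePt z j.succ = z.1 ^ 2 * (z.2 i * z.2 j) := by
    intro z
    have : conePt z i.succ * conePt z j.succ = (z.1 * z.2 i) * (z.1 * z.2 j) := rfl
    rw [this]; ring
  simp_rw [e]
  rw [h2]

lemma int0 : Integrable (coneF K) := by
  have h := integrable_cone hK.measurableSet (φ := fun _ => 1) measurable_const
    (by simpa using integrable_prod_gam (n := n) 0 (intOn hK (continuous_const (y := (1:ℝ)))))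
  simpa using h

lemma int1 (i : Fin (n + 1)) : Integrable fun y => y i * coneF K y := by
  refine integrable_cone hK.measurableSet (φ := fun y => y i) (measurable_pi_apply i) ?_
  refine (integrable_prod_gam (n := n) 1 (intOn hK (cont_cons i))).congr
    (Filter.Eventually.of_forall fun z => ?_)
  simp only [conePt_eq, pow_one]

lemma int2 (i j : Fin (n + 1)) : Integrable fun y => y i * y j * coneF K y := by
  refine integrable_cone hK.measurableSet (φ := fun y => y i * y j)
    ((measurable_pi_apply i).mul (measurable_pi_apply j)) ?_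
  refine (integrable_prod_gam (n := n) 2
    (intOn hK ((cont_cons i).mul (cont_cons j)))).congr
    (Filter.Eventually.of_forall fun z => ?_)
  simp only [conePt_eq, Pi.mul_apply]
  ring

lemma covF_cone (i j : Fin (n + 1)) (hZ : massF (coneF K) ≠ 0) :
    covF (coneF K) i j = (∫ y, y i * y j * coneF K y) / massF (coneF K)
      - meanF (coneF K) i * meanF (coneF K) j := by
  unfold covF
  set mi := meanF (coneF K) i with hmi
  set mj := meanF (coneF K) j with hmj
  have e : ∀ y : Fin (n + 1) → ℝ, (y i - mi) * (y j - mj) * coneF K y =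
      (y i * y j * coneF K y - mj * (y i * coneF K y)) - (mi * (y j * coneF K y)
        - mi * mj * coneF K y) := by
    intro y; ring
  simp_rw [e]
  have i1 := (int1 hK i).const_mul mj
  have i2 := (int1 hK j).const_mul mi
  have i3 := (int0 hK).const_mul (mi * mj)
  have i12 : Integrable fun y : Fin (n + 1) → ℝ => y i * y j * coneF K y - mj * (y i * coneF K y) :=
    (int2 hK i j).sub i1
  have i23 : Integrable fun y : Fin (n + 1) → ℝ => mi * (y j * coneF K y) - mi * mj * coneF K y :=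
    i2.sub i3
  rw [integral_sub i12 i23, integral_sub (int2 hK i j) i1,
    integral_sub i2 i3, integral_const_mul, integral_const_mul, integral_const_mul]
  have e1 : ∫ y, y i * coneF K y = mi * massF (coneF K) := by
    rw [hmi, meanF, div_mul_cancel₀ _ hZ]
  have e2 : ∫ y, y j * coneF K y = mj * massF (coneF K) := by
    rw [hmj, meanF, div_mul_cancel₀ _ hZ]
  have e3 : ∫ y, coneF K y = massF (coneF K) := rfl
  rw [e1, e2, e3]
  field_simp
  ring

end body

end Vale.Agent.P254.K468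
end

section

/-!
P254, block (K), continued: covariance matrix and entropy of the cone measure, and the
implication `D(cone) ≥ 0 ⟹ L_K ≤ L_Δ`.
-/

open MeasureTheory Set Matrix
open scoped Pointwise ENNReal

namespace Vale.Agent.P254.K468

variable {n : ℕ} {K : Set (Fin n → ℝ)}

lemma massF_cone (hK : IsCompact K) :
    massF (coneF K) = (n.factorial : ℝ) * (volume K).toReal := mom0 hK

lemma mean_cone_zero (hK : IsCompact K) (hV : (volume K).toReal ≠ 0) :
    meanF (coneF K) 0 = (n : ℝ) + 1 := by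
  rw [meanF, mom_t hK, massF_cone hK, Nat.factorial_succ]
  push_cast
  have : (n.factorial : ℝ) ≠ 0 := by positivity
  field_simp

lemma mean_cone_succ (hK : IsCompact K) (hV : (volume K).toReal ≠ 0) (i : Fin n) :
    meanF (coneF K) i.succ = ((n : ℝ) + 1) * centroid K i := by
  rw [meanF, mom_x hK, massF_cone hK, Nat.factorial_succ, centroid]
  push_cast
  have : (n.factorial : ℝ) ≠ 0 := by positivity
  field_simp

lemma massF_cone_ne (hK : IsCompact K) (hV : (volume K).toReal ≠ 0) :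
    massF (coneF K) ≠ 0 := by
  rw [massF_cone hK]
  exact mul_ne_zero (by positivity) hV

lemma fac2 (n : ℕ) : ((n + 2).factorial : ℝ) = ((n : ℝ) + 2) * ((n : ℝ) + 1) * n.factorial := by
  rw [Nat.factorial_succ, Nat.factorial_succ]
  push_cast
  ring

lemma cov_cone_zz (hK : IsCompact K) (hV : (volume K).toReal ≠ 0) :
    covF (coneF K) 0 0 = (n : ℝ) + 1 := by
  rw [covF_cone hK 0 0 (massF_cone_ne hK hV), mean_cone_zero hK hV, mom_tt hK, massF_cone hK,
    fac2]
  have : (n.factorial : ℝ) ≠ 0 := by positivity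
  field_simp
  ring

lemma cov_cone_zs (hK : IsCompact K) (hV : (volume K).toReal ≠ 0) (i : Fin n) :
    covF (coneF K) 0 i.succ = ((n : ℝ) + 1) * centroid K i := by
  rw [covF_cone hK 0 _ (massF_cone_ne hK hV), mean_cone_zero hK hV, mean_cone_succ hK hV,
    mom_tx hK, massF_cone hK, fac2, centroid]
  have : (n.factorial : ℝ) ≠ 0 := by positivity
  field_simp
  ring

lemma covF_symm (f : (Fin n → ℝ) → ℝ) (i j : Fin n) : covF f i j = covF f j i := by
  simp only [covF]
  congr 1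
  refine integral_congr_ae (Filter.Eventually.of_forall (fun x => ?_))
  simp only
  ring

lemma cov_cone_ss (hK : IsCompact K) (hV : (volume K).toReal ≠ 0) (i j : Fin n) :
    covF (coneF K) i.succ j.succ = ((n : ℝ) + 1) * (n + 2) * covMatrix K i j
      + ((n : ℝ) + 1) * centroid K i * centroid K j := by
  rw [covF_cone hK _ _ (massF_cone_ne hK hV), mean_cone_succ hK hV, mean_cone_succ hK hV,
    mom_xx hK, massF_cone hK, fac2, cov_eq hK hV]
  have : (n.factorial : ℝ) ≠ 0 := by positivity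
  field_simp
  ring

/-- determinant of the covariance matrix of the cone measure -/
lemma det_cov_cone (hK : IsCompact K) (hV : (volume K).toReal ≠ 0) :
    (covF (coneF K)).det = ((n : ℝ) + 1) * ((((n : ℝ) + 1) * (n + 2)) ^ n * (covMatrix K).det) := by
  set C' : Matrix (Fin (n + 1)) (Fin (n + 1)) ℝ :=
    fun i j => covF (coneF K) i j - (Fin.cons 0 (centroid K) : Fin (n + 1) → ℝ) i
      * covF (coneF K) 0 j with hC'
  have h1 : (covF (coneF K)).det = C'.det := by
    refine det_eq_of_forall_row_eq_smul_add_const (Fin.cons 0 (centroid K)) 0 (by simp) ?_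
    intro i j
    simp only [hC', Fin.cons_zero, zero_mul, sub_zero]
    ring
  have hz : ∀ i : Fin n, C' i.succ 0 = 0 := by
    intro i
    simp only [hC', Fin.cons_succ]
    rw [covF_symm, cov_cone_zs hK hV, cov_cone_zz hK hV]
    ring
  have hs : C'.submatrix (Fin.succAbove 0) Fin.succ
      = (((n : ℝ) + 1) * (n + 2)) • covMatrix K := by
    ext i j
    rw [submatrix_apply, Matrix.smul_apply, smul_eq_mul, Fin.succAbove_zero]
    simp only [hC', Fin.cons_succ]
    rw [cov_cone_ss hK hV, cov_cone_zs hK hV]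
    ring
  have h0 : C' 0 0 = (n : ℝ) + 1 := by
    simp only [hC', Fin.cons_zero, zero_mul, sub_zero]
    exact cov_cone_zz hK hV
  rw [h1, det_succ_column_zero, Fin.sum_univ_succ, hs, h0]
  simp only [hz]
  rw [det_smul]
  simp

/-- entropy of the cone measure -/
lemma ent_cone (hK : IsCompact K) (hV : 0 < (volume K).toReal) :
    entF (coneF K) = ((n : ℝ) + 1) + Real.log ((n.factorial : ℝ) * (volume K).toReal) := by
  have hZ : 0 < massF (coneF K) := by
    rw [massF_cone hK]; positivity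
  have e : ∀ y : Fin (n + 1) → ℝ, (coneF K y / massF (coneF K)) *
      Real.log (coneF K y / massF (coneF K)) =
      -((massF (coneF K))⁻¹ * (y 0 * coneF K y)
        + (massF (coneF K))⁻¹ * Real.log (massF (coneF K)) * coneF K y) := by
    intro y
    have hc : coneF K y = (coneS K).indicator (fun y => Real.exp (-(y 0))) y := by
      rw [coneF_eq]
    rw [hc]
    by_cases hy : y ∈ coneS K
    · rw [indicator_of_mem hy, Real.log_div (Real.exp_pos _).ne' hZ.ne', Real.log_exp]
      ring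
    · rw [indicator_of_notMem hy]
      simp
  unfold entF
  simp_rw [e]
  rw [integral_neg, integral_add ((int1 hK 0).const_mul _) ((int0 hK).const_mul _),
    integral_const_mul, integral_const_mul, neg_neg]
  have e1 : (massF (coneF K))⁻¹ * ∫ y, y 0 * coneF K y = (n : ℝ) + 1 := by
    rw [← mean_cone_zero hK hV.ne', meanF, div_eq_inv_mul]
  have e2 : ∫ y, coneF K y = massF (coneF K) := rfl
  rw [e1, e2, massF_cone hK]
  rw [massF_cone hK] at hZ
  field_simp

lemma det_Bmat (n : ℕ) :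
    (Bmat n).det = ((n : ℝ) + 1) * (((n : ℝ) + 1) * (n + 2)) ^ n := by
  have e : Bmat n = (((n : ℝ) + 1) * (n + 2)) •
      (1 + vecMulVec (fun _ : Fin n => (1 : ℝ)) (fun _ => 1)) := by
    ext i j
    rw [Matrix.smul_apply, Matrix.add_apply, Matrix.one_apply, vecMulVec_apply, smul_eq_mul, Bmat]
    split_ifs <;> ring
  rw [e, det_smul, det_rank_one]
  simp
  ring

/-- value of `det Σ / |Δ|²` for the simplex -/
lemma ratio_stdS (n : ℕ) : (covMatrix (stdS n)).det / (volume (stdS n)).toReal ^ 2 =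
    (n.factorial : ℝ) ^ 2 / (((n : ℝ) + 1) * (((n : ℝ) + 1) * (n + 2)) ^ n) := by
  have h1 := det_B_mul_det_cov (n := n)
  rw [det_Bmat] at h1
  have hp : (0 : ℝ) < ((n : ℝ) + 1) * (((n : ℝ) + 1) * (n + 2)) ^ n := by positivity
  have h2 : (covMatrix (stdS n)).det = (((n : ℝ) + 1) * (((n : ℝ) + 1) * (n + 2)) ^ n)⁻¹ :=
    eq_inv_of_mul_eq_one_right h1
  rw [h2, volume_stdS]
  have : (n.factorial : ℝ) ≠ 0 := by positivity
  field_simp

lemma volume_pos_of_body (hK : IsConvexBody K) : 0 < (volume K).toReal := by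
  obtain ⟨-, hc, hi⟩ := hK
  refine ENNReal.toReal_pos ?_ hc.measure_lt_top.ne
  exact (Measure.measure_pos_of_nonempty_interior volume hi).ne'

lemma det_cov_nonneg (hK : IsCompact K) : 0 ≤ (covMatrix K).det :=
  (covMatrix_posSemidef hK).det_nonneg

/-- `D` of the cone measure: nonnegative iff the ratio is at most the one of the simplex
(`det Σ_K > 0` assumed) -/
lemma DNonneg_iff (hK : IsConvexBody K) (hdet : 0 < (covMatrix K).det) :
    DNonneg (coneF K) ↔ (covMatrix K).det / (volume K).toReal ^ 2 ≤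
      (covMatrix (stdS n)).det / (volume (stdS n)).toReal ^ 2 := by
  have hV := volume_pos_of_body hK
  have hc := hK.2.1
  have hp : (0 : ℝ) < ((n : ℝ) + 1) * (((n : ℝ) + 1) * (n + 2)) ^ n := by positivity
  have hf : (0 : ℝ) < (n.factorial : ℝ) := by positivity
  unfold DNonneg
  rw [ent_cone hc hV, det_cov_cone hc hV.ne', ratio_stdS, ← mul_assoc]
  push_cast
  rw [add_le_add_iff_left]
  have e : 1 / 2 * Real.log (((n : ℝ) + 1) * (((n : ℝ) + 1) * (n + 2)) ^ n * (covMatrix K).det) ≤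
      Real.log ((n.factorial : ℝ) * (volume K).toReal) ↔
      Real.log (((n : ℝ) + 1) * (((n : ℝ) + 1) * (n + 2)) ^ n * (covMatrix K).det) ≤
      Real.log (((n.factorial : ℝ) * (volume K).toReal) ^ 2) := by
    rw [Real.log_pow]
    push_cast
    constructor <;> intro h <;> linarith
  rw [e, Real.log_le_log_iff (by positivity) (by positivity), div_le_div_iff₀ (by positivity) hp]
  constructor <;> intro h <;> nlinarith

theorem isoConst_le_of_cone (hn : 1 ≤ n) (hK : IsConvexBody K) {S : Set (Fin n → ℝ)}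
    (hS : IsSimplex S) (hD : DNonneg (coneF K)) : isoConst K ≤ isoConst S := by
  rw [isoConst_simplex hS]
  have hr : 0 ≤ (covMatrix K).det / (volume K).toReal ^ 2 :=
    div_nonneg (det_cov_nonneg hK.2.1) (sq_nonneg _)
  have h1 : (covMatrix K).det / (volume K).toReal ^ 2 ≤
      (covMatrix (stdS n)).det / (volume (stdS n)).toReal ^ 2 := by
    rcases (det_cov_nonneg hK.2.1).eq_or_lt with h0 | h0
    · rw [← h0, zero_div]
      exact div_nonneg (det_cov_nonneg isCompact_stdS) (sq_nonneg _)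
    · exact (DNonneg_iff hK h0).1 hD
  exact Real.rpow_le_rpow hr h1 (by positivity)

lemma ratio_pos (n : ℕ) : 0 < (covMatrix (stdS n)).det / (volume (stdS n)).toReal ^ 2 := by
  rw [ratio_stdS]; positivity

/-- in the equality case the cone measure has `D = 0` -/
theorem D_eq_of_isoConst_eq (hn : 1 ≤ n) (hK : IsConvexBody K) {S : Set (Fin n → ℝ)}
    (hS : IsSimplex S) (he : isoConst K = isoConst S) :
    0 < (covMatrix K).det ∧
    ((n + 1 : ℕ) : ℝ) + 1 / 2 * Real.log (covF (coneF K)).det = entF (coneF K) := by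
  rw [isoConst_simplex hS] at he
  have hr : 0 ≤ (covMatrix K).det / (volume K).toReal ^ 2 :=
    div_nonneg (det_cov_nonneg hK.2.1) (sq_nonneg _)
  have hV := volume_pos_of_body hK
  have hn0 : (0 : ℝ) < n := by exact_mod_cast hn
  have h1 : (covMatrix K).det / (volume K).toReal ^ 2 =
      (covMatrix (stdS n)).det / (volume (stdS n)).toReal ^ 2 :=
    (Real.rpow_left_inj hr (ratio_pos n).le (by positivity)).1 he
  have hd : 0 < (covMatrix K).det := by
    rcases (det_cov_nonneg hK.2.1).eq_or_lt with h0 | h0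
    · rw [← h0, zero_div] at h1
      exact absurd h1.symm (ratio_pos n).ne'
    · exact h0
  refine ⟨hd, ?_⟩
  have hp : (0 : ℝ) < ((n : ℝ) + 1) * (((n : ℝ) + 1) * (n + 2)) ^ n := by positivity
  have hf : (0 : ℝ) < (n.factorial : ℝ) := by positivity
  rw [ratio_stdS, div_eq_div_iff (by positivity) hp.ne'] at h1
  rw [ent_cone hK.2.1 hV, det_cov_cone hK.2.1 hV.ne', ← mul_assoc]
  have e : ((n : ℝ) + 1) * (((n : ℝ) + 1) * (n + 2)) ^ n * (covMatrix K).det =
      ((n.factorial : ℝ) * (volume K).toReal) ^ 2 := by linarith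
  rw [e, Real.log_pow]
  push_cast
  ring

end Vale.Agent.P254.K468
end

section

/-!
P254: the output of block (R) in the format of block (K).
-/

open MeasureTheory Set Matrix Filter Topology Metric
open scoped Pointwise

namespace Vale.Agent.P254.R304

variable {n : ℕ} {f : (Fin n → ℝ) → ℝ} {M a : ℝ}

lemma Good.covF_eq (h : Good f M a) : K468.covF f = covF f := by
  have hZ := h.mass_pos
  ext i j
  unfold K468.covF K468.meanF K468.massF covF Ef
  simp only [of_apply]
  set Z := ∫ y, f y with hZd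
  set mi := (∫ y, y i * f y) / Z with hmi
  set mj := (∫ y, y j * f y) / Z with hmj
  have h1 : ∀ i, Integrable fun x : Fin n → ℝ => x i * f x := fun i => h.int (pg_coord i)
  have h2 : ∀ i j, Integrable fun x : Fin n → ℝ => x i * x j * f x := fun i j =>
    h.int (pg_coord2 i j)
  have e1 : (fun y : Fin n → ℝ => (y i - mi) * (y j - mj) * f y) =
      fun y => ((y i * y j * f y - mj * (y i * f y)) - mi * (y j * f y)) + mi * mj * f y := by
    ext y; ring
  have i1 : Integrable fun y : Fin n → ℝ => y i * y j * f y - mj * (y i * f y) :=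
    (h2 i j).sub ((h1 i).const_mul _)
  have i2 : Integrable fun y : Fin n → ℝ =>
      (y i * y j * f y - mj * (y i * f y)) - mi * (y j * f y) := i1.sub ((h1 j).const_mul _)
  rw [e1, integral_add i2 (h.int1.const_mul _), integral_sub i1 ((h1 j).const_mul _),
    integral_sub (h2 i j) ((h1 i).const_mul _), integral_const_mul, integral_const_mul,
    integral_const_mul]
  have ei : (∫ y, y i * f y) = mi * Z := by rw [hmi]; field_simp
  have ej : (∫ y, y j * f y) = mj * Z := by rw [hmj]; field_simp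
  rw [ei, ej, ← hZd]
  field_simp
  ring

lemma Good.entF_eq (h : Good f M a) (hM : 0 ≤ M) : K468.entF f = entF f := by
  have hZ := h.mass_pos
  unfold K468.entF K468.massF entF
  set Z := ∫ y, f y with hZd
  have hl : Integrable fun x => f x * Real.log (f x) :=
    ent_integrable a M h.ha hM h.meas h.nn h.le
  have e1 : (fun y => f y / Z * Real.log (f y / Z)) =
      fun y => Z⁻¹ * (f y * Real.log (f y)) - Z⁻¹ * Real.log Z * f y := by
    ext y
    rcases eq_or_ne (f y) 0 with h0 | h0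
    · simp [h0]
    · rw [Real.log_div h0 hZ.ne']
      ring
  rw [e1, integral_sub (hl.const_mul _) (h.int1.const_mul _), integral_const_mul,
    integral_const_mul, ← hZd]
  field_simp
  ring

lemma covF_congr {f g : (Fin n → ℝ) → ℝ} (h : f =ᵐ[volume] g) : K468.covF f = K468.covF g := by
  have hm : K468.massF f = K468.massF g := integral_congr_ae h
  have hmean : K468.meanF f = K468.meanF g := by
    ext i
    unfold K468.meanF
    rw [hm]
    congr 1
    exact integral_congr_ae (h.mono fun x hx => by simp only [hx])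
  ext i j
  unfold K468.covF
  rw [hm, hmean]
  congr 1
  exact integral_congr_ae (h.mono fun x hx => by simp only [hx])

lemma entF_congr {f g : (Fin n → ℝ) → ℝ} (h : f =ᵐ[volume] g) : K468.entF f = K468.entF g := by
  have hm : K468.massF f = K468.massF g := integral_congr_ae h
  unfold K468.entF
  rw [hm]
  congr 1
  exact integral_congr_ae (h.mono fun x hx => by simp only [hx])

lemma coneF_ae {K : Set (Fin n → ℝ)} : K468.coneF K =ᵐ[volume] coneDens K := by
  have h0 : ∀ᵐ z : Fin (n + 1) → ℝ, z ≠ 0 := by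
    rw [ae_iff]
    simp
  filter_upwards [h0] with z hz
  unfold K468.coneF coneDens
  by_cases h : 0 < z 0 ∧ (fun i : Fin n => z i.succ) ∈ z 0 • K
  · rw [if_pos h, indicator_of_mem]
    obtain ⟨h1, y, hy, h2⟩ := h
    refine ⟨h1.le, y, hy, ?_⟩
    rw [show z 0 • y = fun i : Fin n => z i.succ from h2]
    rfl
  · rw [if_neg h, indicator_of_notMem]
    rintro ⟨h1, y, hy, h2⟩
    rcases eq_or_lt_of_le h1 with h3 | h3
    · apply hz
      ext i
      refine Fin.cases h3.symm (fun j => ?_) i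
      have := congrFun h2 j
      simpa [Fin.tail, ← h3] using this
    · exact h ⟨h3, y, hy, h2.symm⟩

/-- The output of block (R) for block (K). -/
theorem DNonneg_coneF (hN : NiceDD (n + 1)) {K : Set (Fin n → ℝ)} (hK : IsConvexBody K) :
    K468.DNonneg (K468.coneF K) := by
  have h1 := DD_coneDens_nonneg hN hK
  obtain ⟨a, ha, hdec⟩ := cone_decay hK.2.1
  have hg : Good (coneDens K) (Real.exp 0) a := by
    rw [coneDens_eq]
    exact good_limDens Matrix.PosSemidef.zero (isClosed_cone hK.2.1)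
      (cone_interior hK.2.2) ha hdec
  unfold K468.DNonneg
  rw [covF_congr coneF_ae, entF_congr coneF_ae, hg.covF_eq, hg.entF_eq (Real.exp_pos _).le]
  unfold DD at h1
  linarith

end Vale.Agent.P254.R304
end

section

/-!
P254, stage 3, block N4: the passage from the nice measures to convex bodies, with a loss `δ` per
dimension: `D ≥ -δ N` for the nice measures in dimension `N = n + 1` gives
`L_K ≤ exp (δ (n + 1) / n) L_Δ`.
-/

open MeasureTheory Set Matrix Filter Topology Metric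
open scoped Pointwise

namespace Vale.Agent.P254.X.Loss

open R304

variable {n : ℕ}

/-- `D ≥ -δ n` for all nice measures (in dimension `n`), in the notation of the frame -/
def NiceFrL (δ : ℝ) (n : ℕ) : Prop :=
  ∀ (K : Set (Fin n → ℝ)), IsCompact K → StrictConvex ℝ K → (interior K).Nonempty →
    ∀ ε m : ℝ, 0 < ε → 0 < m → ∀ (B : Matrix (Fin n) (Fin n) ℝ), B.PosDef → ∀ c : Fin n → ℝ,
      (n : ℝ) + 1 / 2 * Real.log (Fr.AF (nice K ε m) B c).det ≤
        Fr.EntF (nice K ε m) B c + δ * n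

/-- `D ≥ -δ n` for all nice measures (in dimension `n`) -/
def NiceDDL (δ : ℝ) (n : ℕ) : Prop :=
  ∀ (K : Set (Fin n → ℝ)), IsCompact K → StrictConvex ℝ K → (interior K).Nonempty →
    ∀ ε m : ℝ, 0 < ε → 0 < m → ∀ (B : Matrix (Fin n) (Fin n) ℝ), B.PosDef → ∀ c : Fin n → ℝ,
      -(δ * n) ≤ DD (fun x => tilt B c x * nice K ε m x)

theorem NiceFrL.niceDDL {δ : ℝ} (h : NiceFrL δ n) : NiceDDL δ n := by
  intro K h1 h2 h3 ε m hε hm B hB c
  rw [DD_eq (nice_pos h3 hε m)]
  have := h K h1 h2 h3 ε m hε hm B hB c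
  linarith

/-- `D ≥ -δ n` for `1_C exp (⟨c,x⟩ - ⟨x,Bx⟩/2)`. -/
theorem DD_limDens_loss {δ : ℝ} (hN : NiceDDL δ n) {B : Matrix (Fin n) (Fin n) ℝ}
    (hB : B.PosSemidef) {c : Fin n → ℝ} {C : Set (Fin n → ℝ)} (hC : IsClosed C)
    (hconv : Convex ℝ C) (hi : (interior C).Nonempty) {a b : ℝ} (ha : 0 < a)
    (hdec : ∀ y ∈ C, c ⬝ᵥ y ≤ b - a * ‖y‖) :
    -(δ * n) ≤ DD (limDens B c C) := by
  obtain ⟨K, s, M, hK1, hK2, hK3, hK4, hs, hs1, -, hdom⟩ := exists_dom hB hC hconv hi ha hdec
  have hgood := good_limDens hB hC hi ha hdec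
  have hlim := hdom.tendsto_DD hgood.mass_pos.ne' hgood.det_pos.ne'
  refine ge_of_tendsto' hlim fun k => ?_
  have hg := good_dens hB hC (hi.mono interior_subset) ha hdec (hK1 k).measurableSet (hK3 k)
    (hK4 k) (hs k) (hs1 k) (t := s k + s k) (by have := hs k; linarith)
  have h1 := hN (K k) (hK1 k) (hK2 k) (hK3 k) (s k) (s k) (hs k) (hs k) (B + (s k) • 1)
    (posDef_add_smul hB (hs k)) c
  have e1 : (fun x => tilt (B + (s k) • 1) c x * nice (K k) (s k) (s k) x) =
      fun x => GG n (s k) * dens B c (K k) (s k) (s k + s k) x := by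
    ext x
    rw [dens_eq, mul_inv_cancel_left₀ (GG_pos (hs k)).ne']
  rw [e1, DD_smul (GG_pos (hs k)) hg.int1 ?_ hg.mass_pos.ne'] at h1
  · exact h1
  · exact ent_integrable a _ ha (by positivity) hg.meas hg.nn hg.le

/-- `D ≥ -δ (n + 1)` for the cone measure of a convex body. -/
theorem DD_coneDens_loss {δ : ℝ} (hN : NiceDDL δ (n + 1)) {K : Set (Fin n → ℝ)}
    (hK : IsConvexBody K) : -(δ * ((n : ℝ) + 1)) ≤ DD (coneDens K) := by
  obtain ⟨a, ha, hdec⟩ := cone_decay hK.2.1
  rw [coneDens_eq]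
  have h := DD_limDens_loss hN Matrix.PosSemidef.zero (isClosed_cone hK.2.1) (convex_cone hK.1)
    (cone_interior hK.2.2) ha hdec
  push_cast at h
  exact h

/-- The output of block (R) for block (K), with loss. -/
theorem DLoss_coneF {δ : ℝ} (hN : NiceDDL δ (n + 1)) {K : Set (Fin n → ℝ)}
    (hK : IsConvexBody K) :
    ((n + 1 : ℕ) : ℝ) + 1 / 2 * Real.log (K468.covF (K468.coneF K)).det ≤
      K468.entF (K468.coneF K) + δ * ((n : ℝ) + 1) := by
  have h1 := DD_coneDens_loss hN hK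
  obtain ⟨a, ha, hdec⟩ := cone_decay hK.2.1
  have hg : Good (coneDens K) (Real.exp 0) a := by
    rw [coneDens_eq]
    exact good_limDens Matrix.PosSemidef.zero (isClosed_cone hK.2.1)
      (cone_interior hK.2.2) ha hdec
  rw [covF_congr coneF_ae, entF_congr coneF_ae, hg.covF_eq, hg.entF_eq (Real.exp_pos _).le]
  unfold DD at h1
  linarith

open K468 in
/-- the ratio `det Σ / |K|²` -/
theorem ratio_le_of_loss {δ : ℝ} {K : Set (Fin n → ℝ)} (hK : IsConvexBody K)
    (hdet : 0 < (covMatrix K).det)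
    (h : ((n + 1 : ℕ) : ℝ) + 1 / 2 * Real.log (K468.covF (coneF K)).det ≤
      K468.entF (coneF K) + δ * ((n : ℝ) + 1)) :
    (covMatrix K).det / (volume K).toReal ^ 2 ≤
      Real.exp (2 * (δ * ((n : ℝ) + 1))) *
        ((covMatrix (stdS n)).det / (volume (stdS n)).toReal ^ 2) := by
  have hV := volume_pos_of_body hK
  have hc := hK.2.1
  have hp : (0 : ℝ) < ((n : ℝ) + 1) * (((n : ℝ) + 1) * (n + 2)) ^ n := by positivity
  have hf : (0 : ℝ) < (n.factorial : ℝ) := by positivity
  rw [ent_cone hc hV, det_cov_cone hc hV.ne', ← mul_assoc] at h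
  rw [ratio_stdS]
  push_cast at h
  have h2 : Real.log (((n : ℝ) + 1) * (((n : ℝ) + 1) * (n + 2)) ^ n * (covMatrix K).det) ≤
      Real.log (Real.exp (2 * (δ * ((n : ℝ) + 1))) *
        ((n.factorial : ℝ) * (volume K).toReal) ^ 2) := by
    rw [Real.log_mul (Real.exp_pos _).ne' (by positivity), Real.log_exp, Real.log_pow]
    push_cast
    linarith
  rw [Real.log_le_log_iff (by positivity) (by positivity)] at h2
  rw [← mul_div_assoc, div_le_div_iff₀ (by positivity) hp]
  nlinarith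

open K468 in
/-- **The isotropic constant with a loss**: `L_K ≤ exp (δ (n + 1) / n) L_Δ`. -/
theorem isoConst_le_of_niceDDL (hn : 1 ≤ n) {δ : ℝ} (hN : NiceDDL δ (n + 1))
    {K S : Set (Fin n → ℝ)} (hK : IsConvexBody K) (hS : IsSimplex S) :
    isoConst K ≤ Real.exp (δ * ((n : ℝ) + 1) / n) * isoConst S := by
  have hn0 : (0 : ℝ) < n := by exact_mod_cast hn
  rw [isoConst_simplex hS]
  have hr : 0 ≤ (covMatrix K).det / (volume K).toReal ^ 2 :=
    div_nonneg (det_cov_nonneg hK.2.1) (sq_nonneg _)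
  have hs := (ratio_pos n).le
  have h1 : (covMatrix K).det / (volume K).toReal ^ 2 ≤
      Real.exp (2 * (δ * ((n : ℝ) + 1))) *
        ((covMatrix (stdS n)).det / (volume (stdS n)).toReal ^ 2) := by
    rcases (det_cov_nonneg hK.2.1).eq_or_lt with h0 | h0
    · rw [← h0, zero_div]
      exact mul_nonneg (Real.exp_pos _).le hs
    · exact ratio_le_of_loss hK h0 (DLoss_coneF hN hK)
  have h2 := Real.rpow_le_rpow hr h1 (z := 1 / (2 * (n : ℝ))) (by positivity)
  rw [Real.mul_rpow (Real.exp_pos _).le hs, ← Real.exp_mul] at h2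
  have e : 2 * (δ * ((n : ℝ) + 1)) * (1 / (2 * (n : ℝ))) = δ * ((n : ℝ) + 1) / n := by
    field_simp
  rw [e] at h2
  exact h2

end Vale.Agent.P254.X.Loss
end

section

open MeasureTheory Set Filter Real
open scoped Topology

namespace Vale.Agent.P227.M.SC1

theorem cut_anti {f : ℝ → ℝ} {u v : ℝ} (huv : u ≤ v) (hf : AntitoneOn f (Ioo u v)) :
    ∃ a, u ≤ a ∧ a ≤ v ∧ (∀ x, u < x → x < a → 0 ≤ f x) ∧ (∀ x, a < x → x < v → f x ≤ 0) := by
  set A : Set ℝ := {x | x ∈ Ioo u v ∧ 0 < f x} ∪ {u} with hA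
  have hbdd : BddAbove A := by
    refine ⟨v, ?_⟩
    rintro x (⟨hx, -⟩ | rfl)
    · exact hx.2.le
    · exact huv
  have hne : A.Nonempty := ⟨u, Or.inr rfl⟩
  refine ⟨sSup A, le_csSup hbdd (Or.inr rfl), csSup_le hne ?_, ?_, ?_⟩
  · rintro x (⟨hx, -⟩ | rfl)
    · exact hx.2.le
    · exact huv
  · intro x hux hxa
    obtain ⟨y, hy, hxy⟩ := exists_lt_of_lt_csSup hne hxa
    rcases hy with ⟨hy, hfy⟩ | rfl
    · have : f y ≤ f x := hf ⟨hux, hxy.trans hy.2⟩ hy hxy.le
      linarith
    · exact absurd hxy (not_lt.2 hux.le)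
  · intro x hax hxv
    by_contra hcon
    push Not at hcon
    have hux : u < x := lt_of_le_of_lt (le_csSup hbdd (Or.inr rfl)) hax
    have : x ∈ A := Or.inl ⟨⟨hux, hxv⟩, hcon⟩
    exact absurd (le_csSup hbdd this) (not_le.2 hax)

theorem cut_mono {f : ℝ → ℝ} {u v : ℝ} (huv : u ≤ v) (hf : MonotoneOn f (Ioo u v)) :
    ∃ a, u ≤ a ∧ a ≤ v ∧ (∀ x, u < x → x < a → f x ≤ 0) ∧ (∀ x, a < x → x < v → 0 ≤ f x) := by
  obtain ⟨a, h1, h2, h3, h4⟩ := cut_anti (f := fun x => - f x) huv (fun x hx y hy hxy =>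
    neg_le_neg (hf hx hy hxy))
  refine ⟨a, h1, h2, fun x hx hxa => ?_, fun x hx hxv => ?_⟩
  · have := h3 x hx hxa; linarith
  · have := h4 x hx hxv; linarith

/-- Cut on a half line, for a function which is nonpositive far away. -/
theorem cut_anti' {f : ℝ → ℝ} {u V : ℝ} (hf : AntitoneOn f (Ioi u)) (hV : ∀ x, V ≤ x → f x ≤ 0) :
    ∃ a, u ≤ a ∧ (∀ x, u < x → x < a → 0 ≤ f x) ∧ (∀ x, a < x → f x ≤ 0) := by
  obtain ⟨a, h1, h2, h3, h4⟩ := cut_anti (f := f) (le_max_left u V)
    (hf.mono Ioo_subset_Ioi_self)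
  refine ⟨a, h1, h3, fun x hx => ?_⟩
  rcases lt_or_ge x (max u V) with h | h
  · exact h4 x hx h
  · exact hV x ((le_max_right _ _).trans h)

/-- The sign pattern of the difference of the logarithms. -/
theorem pattern {U U1 U2 : ℝ → ℝ} {c0 c k β LA : ℝ} (hU1 : ∀ x, HasDerivAt U (U1 x) x)
    (hU2 : ∀ x, HasDerivAt U1 (U2 x) x) (hc0 : 0 < c0) (h0 : ∀ x, c0 ≤ U2 x) (hc : 0 < c)
    (hk : k = 1 / c ^ 2)
    (hL : ∀ x y, |(√(U2 x))⁻¹ - (√(U2 y))⁻¹| ≤ c * |x - y|) :
    ∃ a b d s t : ℝ, 0 ≤ a ∧ a ≤ s ∧ s ≤ b ∧ b ≤ t ∧ t ≤ d ∧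
      (∀ x, 0 < x → x < a → 0 ≤ -U x - (LA + k * log x - β * x)) ∧
      (∀ x, a < x → x < s → -U x - (LA + k * log x - β * x) ≤ 0) ∧
      (∀ x, s < x → x < b → -U x - (LA + k * log x - β * x) ≤ 0) ∧
      (∀ x, b < x → x < t → 0 ≤ -U x - (LA + k * log x - β * x)) ∧
      (∀ x, t < x → x < d → 0 ≤ -U x - (LA + k * log x - β * x)) ∧
      (∀ x, d < x → -U x - (LA + k * log x - β * x) ≤ 0) := by
  have hU2pos : ∀ x, 0 < U2 x := fun x => hc0.trans_le (h0 x)
  have hkpos : 0 < k := by rw [hk]; positivity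
  set l : ℝ → ℝ := fun x => -U x - (LA + k * log x - β * x) with hl
  set l1 : ℝ → ℝ := fun x => -U1 x - k / x + β with hl1
  have hdl : ∀ x, 0 < x → HasDerivAt l (l1 x) x := by
    intro x hx
    have h1 := (hU1 x).neg
    have h2 := ((hasDerivAt_log hx.ne').const_mul k).const_add LA
    have h3 := (hasDerivAt_id x).const_mul β
    have h4 := h1.sub (h2.sub h3)
    have e : l1 x = -U1 x - (k * x⁻¹ - β * 1) := by
      simp only [hl1]; ring
    rw [e]
    exact h4
  have hdl1 : ∀ x, 0 < x → HasDerivAt l1 (-U2 x + k / x ^ 2) x := by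
    intro x hx
    have h1 := (hU2 x).neg
    have h2 := (hasDerivAt_inv hx.ne').const_mul k
    have h3 := (h1.sub h2).add_const β
    have e : -U2 x + k / x ^ 2 = -U2 x - k * (-(x ^ 2)⁻¹) := by ring
    rw [e]
    refine h3.congr_of_eventuallyEq (Eventually.of_forall fun y => ?_)
    simp only [hl1, Pi.sub_apply, Pi.neg_apply, div_eq_mul_inv]
  -- the function D
  have hDanti : Antitone (fun x => (√(U2 x))⁻¹ - c * x) := by
    intro x y hxy
    have h1 := hL x y
    rw [abs_sub_comm x y, abs_of_nonneg (sub_nonneg.2 hxy), abs_sub_comm] at h1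
    have h2 := le_abs_self ((√(U2 y))⁻¹ - (√(U2 x))⁻¹)
    simp only
    linarith
  have hsqrt : ∀ x, (√(U2 x))⁻¹ ≤ (√c0)⁻¹ := fun x =>
    inv_anti₀ (Real.sqrt_pos.2 hc0) (Real.sqrt_le_sqrt (h0 x))
  obtain ⟨x1, hx10, hx1a, hx1b⟩ := cut_anti' (f := fun x => (√(U2 x))⁻¹ - c * x) (u := 0)
    (V := (√c0)⁻¹ / c) (hDanti.antitoneOn _) (by
      intro x hx
      rw [div_le_iff₀ hc] at hx
      have := hsqrt x
      linarith)
  -- signs of the second derivative
  have hsec : ∀ x, 0 < x → (0 ≤ (√(U2 x))⁻¹ - c * x ↔ 0 ≤ -U2 x + k / x ^ 2) := by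
    intro x hx
    have e1 : 0 ≤ (√(U2 x))⁻¹ - c * x ↔ c * x * √(U2 x) ≤ 1 := by
      rw [sub_nonneg, ← one_div, le_div_iff₀ (Real.sqrt_pos.2 (hU2pos x))]
    have e2 : c * x * √(U2 x) ≤ 1 ↔ (c * x) ^ 2 * U2 x ≤ 1 := by
      rw [← Real.sq_sqrt (hU2pos x).le, ← mul_pow, sq_sqrt (hU2pos x).le]
      rw [sq_le_one_iff₀ (by positivity)]
    have e3 : 0 ≤ -U2 x + k / x ^ 2 ↔ (c * x) ^ 2 * U2 x ≤ 1 := by
      rw [hk, neg_add_eq_sub, sub_nonneg, div_div, le_div_iff₀ (by positivity)]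
      constructor <;> intro h <;> nlinarith
    rw [e1, e2, e3]
  have hsec' : ∀ x, 0 < x → (√(U2 x))⁻¹ - c * x ≤ 0 → -U2 x + k / x ^ 2 ≤ 0 := by
    intro x hx h
    have hsp := Real.sqrt_pos.2 (hU2pos x)
    have h1 : 1 ≤ c * x * √(U2 x) := by
      have h2 : (√(U2 x))⁻¹ ≤ c * x := by linarith
      rwa [← one_div, div_le_iff₀ hsp] at h2
    have h3 : 1 ≤ (c * x) ^ 2 * U2 x := by
      have h4 : (c * x * √(U2 x)) ^ 2 = (c * x) ^ 2 * U2 x := by
        rw [mul_pow, Real.sq_sqrt (hU2pos x).le]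
      rw [← h4]
      exact one_le_pow₀ h1
    have h5 : k / x ^ 2 ≤ U2 x := by
      rw [hk, div_div, div_le_iff₀ (by positivity)]
      nlinarith
    linarith
  -- monotonicity of l1
  have hmono1 : MonotoneOn l1 (Ioc 0 x1) := by
    apply monotoneOn_of_deriv_nonneg (convex_Ioc 0 x1)
    · intro x hx
      exact (hdl1 x hx.1).continuousAt.continuousWithinAt
    · intro x hx
      rw [interior_Ioc] at hx
      exact (hdl1 x hx.1).differentiableAt.differentiableWithinAt
    · intro x hx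
      rw [interior_Ioc] at hx
      rw [(hdl1 x hx.1).deriv]
      exact (hsec x hx.1).1 (hx1a x hx.1 hx.2)
  have hanti1 : AntitoneOn l1 (Ioi x1) := by
    apply antitoneOn_of_deriv_nonpos (convex_Ioi x1)
    · intro x hx
      exact (hdl1 x (hx10.trans_lt hx)).continuousAt.continuousWithinAt
    · intro x hx
      rw [interior_Ioi] at hx
      exact (hdl1 x (hx10.trans_lt hx)).differentiableAt.differentiableWithinAt
    · intro x hx
      rw [interior_Ioi] at hx
      rw [(hdl1 x (hx10.trans_lt hx)).deriv]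
      exact hsec' x (hx10.trans_lt hx) (hx1b x hx)
  -- growth of U1 and U
  have hg1 : ∀ x, 0 ≤ x → U1 0 + c0 * x ≤ U1 x := by
    intro x hx
    have hm : MonotoneOn (fun y => U1 y - c0 * y) (Ici 0) := by
      apply monotoneOn_of_deriv_nonneg (convex_Ici 0)
      · intro y _
        exact ((hU2 y).sub ((hasDerivAt_id y).const_mul c0)).continuousAt.continuousWithinAt
      · intro y _
        exact ((hU2 y).sub ((hasDerivAt_id y).const_mul c0)).differentiableAt.differentiableWithinAt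
      · intro y _
        have h1 : HasDerivAt (fun y => U1 y - c0 * y) (U2 y - c0 * 1) y :=
          (hU2 y).sub ((hasDerivAt_id y).const_mul c0)
        rw [h1.deriv]
        have := h0 y
        linarith
    have := hm (mem_Ici.2 le_rfl) (mem_Ici.2 hx) hx
    simp only at this
    linarith
  have hg0 : ∀ x, 0 ≤ x → U 0 + U1 0 * x + c0 / 2 * x ^ 2 ≤ U x := by
    intro x hx
    have hm : MonotoneOn (fun y => U y - (U1 0 * y + c0 / 2 * y ^ 2)) (Ici 0) := by
      have hd : ∀ y, HasDerivAt (fun y => U y - (U1 0 * y + c0 / 2 * y ^ 2))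
          (U1 y - (U1 0 * 1 + c0 / 2 * (2 * y ^ (2 - 1) * 1))) y := by
        intro y
        exact (hU1 y).sub (((hasDerivAt_id y).const_mul (U1 0)).add
          (((hasDerivAt_id y).pow 2).const_mul (c0 / 2)))
      apply monotoneOn_of_deriv_nonneg (convex_Ici 0)
      · intro y _
        exact (hd y).continuousAt.continuousWithinAt
      · intro y _
        exact (hd y).differentiableAt.differentiableWithinAt
      · intro y hy
        rw [interior_Ici] at hy
        rw [(hd y).deriv]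
        have := hg1 y (le_of_lt hy)
        simp only [Nat.add_one_sub_one, pow_one]
        linarith
    have := hm (mem_Ici.2 le_rfl) (mem_Ici.2 hx) hx
    simp only at this
    nlinarith
  -- s and t
  obtain ⟨s, hs0, hsx1, hsa, hsb⟩ := cut_mono (f := l1) hx10 (hmono1.mono Ioo_subset_Ioc_self)
  obtain ⟨t, htx1, hta, htb⟩ := cut_anti' (f := l1) (u := x1) (V := max 1 ((β - U1 0) / c0))
    hanti1 (by
      intro x hx
      have hx1 : 1 ≤ x := (le_max_left _ _).trans hx
      have hx2 : (β - U1 0) / c0 ≤ x := (le_max_right _ _).trans hx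
      rw [div_le_iff₀ hc0] at hx2
      have h1 := hg1 x (by linarith)
      have h2 : 0 ≤ k / x := by positivity
      simp only [hl1]
      linarith)
  have hst : s ≤ t := hsx1.trans htx1
  have hpos1 : ∀ x, s < x → x < t → 0 ≤ l1 x := by
    intro x hsx hxt
    rcases lt_trichotomy x x1 with h | h | h
    · exact hsb x hsx h
    · subst h
      have hm1 : s < (s + x) / 2 := by linarith
      have hm2 : (s + x) / 2 < x := by linarith
      have h1 := hsb _ hm1 hm2
      have h2 := hmono1 (show (s + x) / 2 ∈ Ioc 0 x from ⟨by linarith, hm2.le⟩)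
        (show x ∈ Ioc 0 x from ⟨by linarith, le_rfl⟩) hm2.le
      linarith
    · exact hta x h hxt
  -- monotonicity of l
  have hl_a : AntitoneOn l (Ioo 0 s) := by
    apply antitoneOn_of_deriv_nonpos (convex_Ioo 0 s)
    · intro x hx
      exact (hdl x hx.1).continuousAt.continuousWithinAt
    · intro x hx
      rw [interior_Ioo] at hx
      exact (hdl x hx.1).differentiableAt.differentiableWithinAt
    · intro x hx
      rw [interior_Ioo] at hx
      rw [(hdl x hx.1).deriv]
      exact hsa x hx.1 hx.2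
  have hl_b : MonotoneOn l (Ioo s t) := by
    apply monotoneOn_of_deriv_nonneg (convex_Ioo s t)
    · intro x hx
      exact (hdl x (hs0.trans_lt hx.1)).continuousAt.continuousWithinAt
    · intro x hx
      rw [interior_Ioo] at hx
      exact (hdl x (hs0.trans_lt hx.1)).differentiableAt.differentiableWithinAt
    · intro x hx
      rw [interior_Ioo] at hx
      rw [(hdl x (hs0.trans_lt hx.1)).deriv]
      exact hpos1 x hx.1 hx.2
  have ht0 : 0 ≤ t := hs0.trans hst
  have hl_c : AntitoneOn l (Ioi t) := by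
    apply antitoneOn_of_deriv_nonpos (convex_Ioi t)
    · intro x hx
      exact (hdl x (ht0.trans_lt hx)).continuousAt.continuousWithinAt
    · intro x hx
      rw [interior_Ioi] at hx
      exact (hdl x (ht0.trans_lt hx)).differentiableAt.differentiableWithinAt
    · intro x hx
      rw [interior_Ioi] at hx
      rw [(hdl x (ht0.trans_lt hx)).deriv]
      exact htb x hx
  obtain ⟨a, ha0, has, haa, hab⟩ := cut_anti hs0 hl_a
  obtain ⟨b, hsb', hbt, hba, hbb⟩ := cut_mono hst hl_b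
  obtain ⟨d, htd, hda, hdb⟩ := cut_anti' (f := l) (u := t)
    (V := max 1 (2 * (|β - U1 0| + |U 0 + LA|) / c0)) hl_c (by
      intro x hx
      have hx1 : 1 ≤ x := (le_max_left _ _).trans hx
      have hx2 : 2 * (|β - U1 0| + |U 0 + LA|) / c0 ≤ x := (le_max_right _ _).trans hx
      rw [div_le_iff₀ hc0] at hx2
      have h1 := hg0 x (by linarith)
      have h2 : 0 ≤ k * log x := mul_nonneg hkpos.le (log_nonneg hx1)
      have h3 := le_abs_self (β - U1 0)
      have h4 := neg_abs_le (U 0 + LA)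
      have h5 : 0 ≤ |U 0 + LA| := abs_nonneg _
      simp only [hl]
      nlinarith [mul_le_mul_of_nonneg_right h3 (by linarith : (0:ℝ) ≤ x),
        mul_le_mul_of_nonneg_right hx2 (by linarith : (0:ℝ) ≤ x),
        mul_nonneg h5 (by linarith : (0:ℝ) ≤ x - 1)])
  exact ⟨a, b, d, s, t, ha0, has, hsb', hbt, htd, haa, hab, hba, hbb, hda, hdb⟩

/-! ### Gamma densities -/

/-- The Gamma density of shape `k+1` and rate `β`. -/
noncomputable def q (k β : ℝ) : ℝ → ℝ :=
  (Ioi (0 : ℝ)).indicator fun x => exp (log (((1 / β) ^ (k + 1) * Gamma (k + 1))⁻¹) + k * log x - β * x)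

theorem q_eq {k β : ℝ} (hk : 0 < k) (hβ : 0 < β) {x : ℝ} (hx : 0 < x) :
    q k β x = ((1 / β) ^ (k + 1) * Gamma (k + 1))⁻¹ * (x ^ k * exp (-β * x)) := by
  have hG : 0 < (1 / β) ^ (k + 1) * Gamma (k + 1) :=
    mul_pos (rpow_pos_of_pos (by positivity) _) (Gamma_pos_of_pos (by linarith))
  unfold q
  rw [indicator_of_mem (show x ∈ Ioi (0 : ℝ) from hx)]
  rw [show log (((1 / β) ^ (k + 1) * Gamma (k + 1))⁻¹) + k * log x - β * x =
    log (((1 / β) ^ (k + 1) * Gamma (k + 1))⁻¹) + (log x * k + (-β * x)) by ring]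
  rw [exp_add, exp_log (inv_pos.2 hG), exp_add, ← rpow_def_of_pos hx]

theorem q_int {k β : ℝ} (hk : 0 < k) (hβ : 0 < β) (j : ℕ) :
    Integrable (fun x => x ^ j * q k β x) ∧
    ∫ x, x ^ j * q k β x = (1 / β) ^ j * (Gamma (k + 1 + j) / Gamma (k + 1)) := by
  have hG : 0 < (1 / β) ^ (k + 1) * Gamma (k + 1) :=
    mul_pos (rpow_pos_of_pos (by positivity) _) (Gamma_pos_of_pos (by linarith))
  set A := ((1 / β) ^ (k + 1) * Gamma (k + 1))⁻¹ with hA
  have h1 : (fun x => x ^ j * q k β x) =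
      (Ioi (0 : ℝ)).indicator (fun x => A * (x ^ (k + j) * exp (-β * x ^ (1 : ℝ)))) := by
    funext x
    by_cases hx : 0 < x
    · rw [indicator_of_mem (show x ∈ Ioi (0 : ℝ) from hx), q_eq hk hβ hx, rpow_add hx,
        rpow_natCast, rpow_one]
      ring
    · rw [indicator_of_notMem (show x ∉ Ioi (0 : ℝ) from hx)]
      unfold q
      rw [indicator_of_notMem (show x ∉ Ioi (0 : ℝ) from hx), mul_zero]
  have h2 : IntegrableOn (fun x : ℝ => x ^ (k + j) * exp (-β * x ^ (1 : ℝ))) (Ioi 0) :=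
    integrableOn_rpow_mul_exp_neg_mul_rpow (by have : (0:ℝ) ≤ j := Nat.cast_nonneg j; linarith) one_pos hβ
  constructor
  · rw [h1, integrable_indicator_iff measurableSet_Ioi]
    exact h2.const_mul A
  · rw [h1, integral_indicator measurableSet_Ioi, integral_const_mul]
    have h3 : ∫ x in Ioi (0 : ℝ), x ^ (k + j) * exp (-β * x ^ (1 : ℝ)) =
        (1 / β) ^ (k + 1 + j) * Gamma (k + 1 + j) := by
      rw [← integral_rpow_mul_exp_neg_mul_Ioi (by positivity) hβ]
      refine setIntegral_congr_fun measurableSet_Ioi fun x hx => ?_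
      simp only [rpow_one]
      congr 2 <;> ring
    rw [h3, rpow_add (by positivity), rpow_natCast, hA]
    have h4 : (1 / β) ^ (k + 1) ≠ 0 := (rpow_pos_of_pos (by positivity) _).ne'
    have h5 : Gamma (k + 1) ≠ 0 := (Gamma_pos_of_pos (by linarith)).ne'
    field_simp

theorem q_nonneg (k β x : ℝ) : 0 ≤ q k β x := by
  unfold q
  exact indicator_nonneg (fun x _ => (exp_pos _).le) x

theorem gam1 {a : ℝ} (ha : 0 < a) : Gamma (a + (1 : ℕ)) / Gamma a = a := by
  have h5 : Gamma a ≠ 0 := (Gamma_pos_of_pos ha).ne'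
  rw [Nat.cast_one, Gamma_add_one ha.ne']
  field_simp

theorem gam2 {a : ℝ} (ha : 0 < a) : Gamma (a + (2 : ℕ)) / Gamma a = (a + 1) * a := by
  have h5 : Gamma a ≠ 0 := (Gamma_pos_of_pos ha).ne'
  rw [show a + ((2 : ℕ) : ℝ) = (a + 1) + 1 by push_cast; ring, Gamma_add_one (by positivity),
    Gamma_add_one ha.ne']
  field_simp

theorem gam3 {a : ℝ} (ha : 0 < a) : Gamma (a + (3 : ℕ)) / Gamma a = (a + 2) * (a + 1) * a := by
  have h5 : Gamma a ≠ 0 := (Gamma_pos_of_pos ha).ne'
  rw [show a + ((3 : ℕ) : ℝ) = ((a + 1) + 1) + 1 by push_cast; ring, Gamma_add_one (by positivity),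
    Gamma_add_one (by positivity), Gamma_add_one ha.ne']
  field_simp
  ring

/-! ### Integrability -/

theorem growth {U U1 U2 : ℝ → ℝ} {c0 : ℝ} (hU1 : ∀ x, HasDerivAt U (U1 x) x)
    (hU2 : ∀ x, HasDerivAt U1 (U2 x) x) (h0 : ∀ x, c0 ≤ U2 x) (x : ℝ) :
    U 0 + U1 0 * x + c0 / 2 * x ^ 2 ≤ U x := by
  have hconv : ConvexOn ℝ univ (fun y => U y - (c0 / 2 * y ^ 2)) := by
    have hd : ∀ y, HasDerivAt (fun y => U y - (c0 / 2 * y ^ 2)) (U1 y - c0 * y) y := by
      intro y
      have h1 := (hU1 y).sub (((hasDerivAt_id y).pow 2).const_mul (c0 / 2))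
      refine h1.congr_deriv ?_
      simp
      ring
    have hd2 : ∀ y, HasDerivAt (fun y => U1 y - c0 * y) (U2 y - c0) y := by
      intro y
      have h1 := (hU2 y).sub ((hasDerivAt_id y).const_mul c0)
      refine h1.congr_deriv ?_
      simp
    apply convexOn_of_hasDerivWithinAt2_nonneg (f' := fun y => U1 y - c0 * y)
      (f'' := fun y => U2 y - c0) convex_univ
    · exact fun y _ => (hd y).continuousAt.continuousWithinAt
    · intro y _
      exact (hd y).hasDerivWithinAt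
    · intro y _
      exact (hd2 y).hasDerivWithinAt
    · intro y _
      have := h0 y
      linarith
  have hd0 : HasDerivAt (fun y => U y - (c0 / 2 * y ^ 2)) (U1 0) 0 := by
    have h1 := (hU1 0).sub (((hasDerivAt_id (0:ℝ)).pow 2).const_mul (c0 / 2))
    refine h1.congr_deriv ?_
    simp
  have key : (fun y => U y - (c0 / 2 * y ^ 2)) 0 + U1 0 * x ≤ (fun y => U y - (c0 / 2 * y ^ 2)) x := by
    rcases lt_trichotomy x 0 with hx | hx | hx
    · have h2 := hconv.slope_le_of_hasDerivAt (mem_univ x) (mem_univ 0) hx hd0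
      rw [slope_def_field, div_le_iff₀ (by linarith)] at h2
      simp only at h2 ⊢
      linarith
    · subst hx; simp
    · have h2 := hconv.le_slope_of_hasDerivAt (mem_univ 0) (mem_univ x) hx hd0
      rw [slope_def_field, le_div_iff₀ (by linarith)] at h2
      simp only at h2 ⊢
      linarith
  simp only at key
  nlinarith

theorem integrable_pow_mul {U : ℝ → ℝ} (hU : Continuous U) {A B c0 : ℝ} (hc0 : 0 < c0)
    (h : ∀ x, A + B * x + c0 / 2 * x ^ 2 ≤ U x) (j : ℕ) :
    Integrable (fun x => x ^ j * exp (-U x)) := by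
  have hg : Integrable (fun x : ℝ => (j.factorial : ℝ) * (exp (-A) * exp ((1 + |B|) ^ 2 / c0)) *
      exp (-(c0 / 4) * x ^ 2)) := (integrable_exp_neg_mul_sq (by positivity)).const_mul _
  refine hg.mono' (by fun_prop) (Eventually.of_forall fun x => ?_)
  rw [norm_mul, norm_pow, Real.norm_eq_abs, Real.norm_eq_abs, abs_of_pos (exp_pos _)]
  have h1 : |x| ^ j ≤ (j.factorial : ℝ) * exp |x| := by
    have := Real.pow_div_factorial_le_exp |x| (abs_nonneg x) j
    rwa [div_le_iff₀ (by positivity), mul_comm] at this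
  have h2 : exp |x| * exp (-U x) ≤ exp (-A) * exp ((1 + |B|) ^ 2 / c0) * exp (-(c0 / 4) * x ^ 2) := by
    rw [← exp_add, ← exp_add, ← exp_add]
    apply exp_le_exp.2
    have h3 := h x
    have h4 : -(|B| * |x|) ≤ B * x := by
      rw [← abs_mul]; exact neg_abs_le _
    have h5 : (1 + |B|) * |x| ≤ (1 + |B|) ^ 2 / c0 + c0 / 4 * x ^ 2 := by
      have h6 : 0 ≤ ((1 + |B|) / √c0 - √c0 / 2 * |x|) ^ 2 := sq_nonneg _
      have h7 : ((1 + |B|) / √c0 - √c0 / 2 * |x|) ^ 2 =
          (1 + |B|) ^ 2 / c0 + c0 / 4 * x ^ 2 - (1 + |B|) * |x| := by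
        have h8 : √c0 ≠ 0 := (Real.sqrt_pos.2 hc0).ne'
        rw [sub_sq, div_pow, Real.sq_sqrt hc0.le, mul_pow, div_pow, Real.sq_sqrt hc0.le, sq_abs]
        field_simp
        ring
      linarith
    linarith
  calc |x| ^ j * exp (-U x) ≤ ((j.factorial : ℝ) * exp |x|) * exp (-U x) :=
        mul_le_mul_of_nonneg_right h1 (exp_pos _).le
    _ = (j.factorial : ℝ) * (exp |x| * exp (-U x)) := by ring
    _ ≤ (j.factorial : ℝ) * (exp (-A) * exp ((1 + |B|) ^ 2 / c0) * exp (-(c0 / 4) * x ^ 2)) :=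
        mul_le_mul_of_nonneg_left h2 (by positivity)
    _ = _ := by ring

/-! ### The comparison -/

theorem int_comb {f0 f1 f2 f3 : ℝ → ℝ} (h0 : Integrable f0) (h1 : Integrable f1)
    (h2 : Integrable f2) (h3 : Integrable f3) (A B C : ℝ) :
    ∫ x, (f3 x - A * f2 x + B * f1 x - C * f0 x) =
      (∫ x, f3 x) - A * (∫ x, f2 x) + B * (∫ x, f1 x) - C * ∫ x, f0 x := by
  have i2 := h2.const_mul A
  have i1 := h1.const_mul B
  have i0 := h0.const_mul C
  have j1 : Integrable (fun x => f3 x - A * f2 x) := h3.sub i2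
  have j2 : Integrable (fun x => f3 x - A * f2 x + B * f1 x) := j1.add i1
  rw [integral_sub j2 i0, integral_add j1 i1, integral_sub h3 i2, integral_const_mul,
    integral_const_mul, integral_const_mul]

/-- Normalised form, the gamma law of shape `k+1` and rate `β` having the same mass, first and
second moment. -/
theorem core {U U1 U2 : ℝ → ℝ} {c0 c k β : ℝ} (hU1 : ∀ x, HasDerivAt U (U1 x) x)
    (hU2 : ∀ x, HasDerivAt U1 (U2 x) x) (hc0 : 0 < c0) (h0 : ∀ x, c0 ≤ U2 x) (hc : 0 < c)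
    (hk : k = 1 / c ^ 2) (hβ : 0 < β)
    (hL : ∀ x y, |(√(U2 x))⁻¹ - (√(U2 y))⁻¹| ≤ c * |x - y|)
    (hm0 : ∫ x, exp (-U x) = 1) (hm1 : ∫ x, x * exp (-U x) = (k + 1) / β)
    (hm2 : ∫ x, x ^ 2 * exp (-U x) = (k + 2) * (k + 1) / β ^ 2) :
    ∫ x, x ^ 3 * exp (-U x) ≤ (k + 3) * (k + 2) * (k + 1) / β ^ 3 := by
  have hkpos : 0 < k := by rw [hk]; positivity
  have hUc : Continuous U := continuous_iff_continuousAt.2 fun x => (hU1 x).continuousAt
  have hp := integrable_pow_mul hUc hc0 (growth hU1 hU2 h0)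
  have hq := q_int hkpos hβ
  obtain ⟨a, b, d, s, t, ha0, has, hsb, hbt, htd, p1, p2, p3, p4, p5, p6⟩ :=
    pattern (LA := log (((1 / β) ^ (k + 1) * Gamma (k + 1))⁻¹)) (β := β) hU1 hU2 hc0 h0 hc hk hL
  have hqx : ∀ x, 0 < x → q k β x =
      exp (log (((1 / β) ^ (k + 1) * Gamma (k + 1))⁻¹) + k * log x - β * x) := by
    intro x hx
    unfold q
    rw [indicator_of_mem (show x ∈ Ioi (0 : ℝ) from hx)]
  have hqx0 : ∀ x, x ≤ 0 → q k β x = 0 := by
    intro x hx
    unfold q
    rw [indicator_of_notMem (show x ∉ Ioi (0 : ℝ) from not_lt.2 hx)]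
  have hpos : ∀ x, 0 < x →
      0 ≤ -U x - (log (((1 / β) ^ (k + 1) * Gamma (k + 1))⁻¹) + k * log x - β * x) →
      0 ≤ exp (-U x) - q k β x := by
    intro x hx h
    rw [hqx x hx, sub_nonneg]
    exact exp_le_exp.2 (by linarith)
  have hneg : ∀ x, 0 < x →
      -U x - (log (((1 / β) ^ (k + 1) * Gamma (k + 1))⁻¹) + k * log x - β * x) ≤ 0 →
      exp (-U x) - q k β x ≤ 0 := by
    intro x hx h
    rw [hqx x hx, sub_nonpos]
    exact exp_le_exp.2 (by linarith)
  -- pointwise sign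
  have hsign : ∀ x, x ∉ ({0, s, t, a, b, d} : Set ℝ) →
      (x - a) * (x - b) * (x - d) * (exp (-U x) - q k β x) ≤ 0 := by
    intro x hx
    simp only [mem_insert_iff, mem_singleton_iff, not_or] at hx
    obtain ⟨n0, ns, nt, na, nb, nd⟩ := hx
    rcases lt_or_gt_of_ne n0 with h | h
    · -- x < 0
      rw [hqx0 x h.le, sub_zero]
      have e1 : 0 < (x - a) * (x - b) := mul_pos_of_neg_of_neg (by linarith) (by linarith)
      have e2 : (x - a) * (x - b) * (x - d) < 0 := mul_neg_of_pos_of_neg e1 (by linarith)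
      exact (mul_neg_of_neg_of_pos e2 (exp_pos _)).le
    rcases lt_or_gt_of_ne na with ha | ha
    · have e0 := hpos x h (p1 x h ha)
      have e1 : 0 < (x - a) * (x - b) := mul_pos_of_neg_of_neg (by linarith) (by linarith)
      have e2 : (x - a) * (x - b) * (x - d) < 0 := mul_neg_of_pos_of_neg e1 (by linarith)
      exact mul_nonpos_of_nonpos_of_nonneg e2.le e0
    rcases lt_or_gt_of_ne ns with hs | hs
    · have e0 := hneg x h (p2 x ha hs)
      have e1 : (x - a) * (x - b) < 0 := mul_neg_of_pos_of_neg (by linarith) (by linarith)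
      have e2 : 0 < (x - a) * (x - b) * (x - d) := mul_pos_of_neg_of_neg e1 (by linarith)
      exact mul_nonpos_of_nonneg_of_nonpos e2.le e0
    rcases lt_or_gt_of_ne nb with hb | hb
    · have e0 := hneg x h (p3 x hs hb)
      have e1 : (x - a) * (x - b) < 0 := mul_neg_of_pos_of_neg (by linarith) (by linarith)
      have e2 : 0 < (x - a) * (x - b) * (x - d) := mul_pos_of_neg_of_neg e1 (by linarith)
      exact mul_nonpos_of_nonneg_of_nonpos e2.le e0
    rcases lt_or_gt_of_ne nt with ht | ht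
    · have e0 := hpos x h (p4 x hb ht)
      have e1 : 0 < (x - a) * (x - b) := mul_pos (by linarith) (by linarith)
      have e2 : (x - a) * (x - b) * (x - d) < 0 := mul_neg_of_pos_of_neg e1 (by linarith)
      exact mul_nonpos_of_nonpos_of_nonneg e2.le e0
    rcases lt_or_gt_of_ne nd with hd | hd
    · have e0 := hpos x h (p5 x ht hd)
      have e1 : 0 < (x - a) * (x - b) := mul_pos (by linarith) (by linarith)
      have e2 : (x - a) * (x - b) * (x - d) < 0 := mul_neg_of_pos_of_neg e1 (by linarith)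
      exact mul_nonpos_of_nonpos_of_nonneg e2.le e0
    · have e0 := hneg x h (p6 x hd)
      have e1 : 0 < (x - a) * (x - b) := mul_pos (by linarith) (by linarith)
      have e2 : 0 < (x - a) * (x - b) * (x - d) := mul_pos e1 (by linarith)
      exact mul_nonpos_of_nonneg_of_nonpos e2.le e0
  have hae : ∀ᵐ x : ℝ, (x - a) * (x - b) * (x - d) * (exp (-U x) - q k β x) ≤ 0 := by
    have hfin : ({0, s, t, a, b, d} : Set ℝ).Countable :=
      (Set.toFinite _).countable
    filter_upwards [hfin.ae_notMem volume] with x hx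
    exact hsign x hx
  have hint : ∫ x, (x - a) * (x - b) * (x - d) * (exp (-U x) - q k β x) ≤ 0 :=
    integral_nonpos_of_ae hae
  -- expansion
  set h : ℝ → ℝ := fun x => exp (-U x) - q k β x with hh
  have hj : ∀ j : ℕ, Integrable (fun x => x ^ j * h x) := by
    intro j
    have := (hp j).sub (hq j).1
    refine this.congr (Eventually.of_forall fun x => ?_)
    simp only [hh, Pi.sub_apply]
    ring
  have hjv : ∀ j : ℕ, ∫ x, x ^ j * h x = (∫ x, x ^ j * exp (-U x)) -
      (1 / β) ^ j * (Gamma (k + 1 + j) / Gamma (k + 1)) := by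
    intro j
    rw [← (hq j).2, ← integral_sub (hp j) (hq j).1]
    refine integral_congr_ae (Eventually.of_forall fun x => ?_)
    simp only [hh]
    ring
  have hexp : ∫ x, (x - a) * (x - b) * (x - d) * h x =
      (∫ x, x ^ 3 * h x) - (a + b + d) * (∫ x, x ^ 2 * h x) +
        (a * b + b * d + a * d) * (∫ x, x ^ 1 * h x) - a * b * d * ∫ x, x ^ 0 * h x := by
    rw [← int_comb (hj 0) (hj 1) (hj 2) (hj 3)]
    refine integral_congr_ae (Eventually.of_forall fun x => ?_)
    simp only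
    ring
  have hG : Gamma (k + 1) ≠ 0 := (Gamma_pos_of_pos (by linarith)).ne'
  have z0 : ∫ x, x ^ 0 * h x = 0 := by
    rw [hjv 0]
    simp only [pow_zero, one_mul, Nat.cast_zero, add_zero, div_self hG, hm0, sub_self]
  have z1 : ∫ x, x ^ 1 * h x = 0 := by
    rw [hjv 1, gam1 (by linarith)]
    simp only [pow_one]
    rw [hm1]
    ring
  have z2 : ∫ x, x ^ 2 * h x = 0 := by
    rw [hjv 2, gam2 (by linarith), hm2]
    rw [div_pow, one_pow]
    ring
  have z3 : ∫ x, x ^ 3 * h x ≤ 0 := by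
    rw [hexp, z0, z1, z2] at hint
    linarith
  rw [hjv 3, gam3 (by linarith)] at z3
  have e : (1 / β) ^ 3 * ((k + 1 + 2) * (k + 1 + 1) * (k + 1)) =
      (k + 3) * (k + 2) * (k + 1) / β ^ 3 := by
    rw [div_pow, one_pow]
    ring
  rw [e] at z3
  linarith

/-- Upper bound for the third central moment. -/
theorem third_le' {W W1 W2 : ℝ → ℝ} {c0 c : ℝ} (hW1 : ∀ x, HasDerivAt W (W1 x) x)
    (hW2 : ∀ x, HasDerivAt W1 (W2 x) x) (hc0 : 0 < c0) (h0 : ∀ x, c0 ≤ W2 x) (hc : 0 < c)
    (hL : ∀ x y, |(√(W2 x))⁻¹ - (√(W2 y))⁻¹| ≤ c * |x - y|) {Z m v : ℝ}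
    (hZ : Z = ∫ x, exp (-W x)) (hm : m = (∫ x, x * exp (-W x)) / Z)
    (hv : v = (∫ x, (x - m) ^ 2 * exp (-W x)) / Z) :
    (∫ x, (x - m) ^ 3 * exp (-W x)) / Z ≤ 2 * (c / √(1 + c ^ 2)) * √v ^ 3 := by
  have hWc : Continuous W := continuous_iff_continuousAt.2 fun x => (hW1 x).continuousAt
  have hp := integrable_pow_mul hWc hc0 (growth hW1 hW2 h0)
  have hI0 : Integrable (fun x => exp (-W x)) := by simpa using hp 0
  have hZpos : 0 < Z := by
    rw [hZ]
    exact integral_exp_pos hI0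
  have hI1 : Integrable (fun x => x * exp (-W x)) := by simpa using hp 1
  have hI2 := hp 2
  have hI3 := hp 3
  -- positivity of the variance
  have hIc2 : Integrable (fun x => (x - m) ^ 2 * exp (-W x)) := by
    have := (hI2.sub (hI1.const_mul (2 * m))).add (hI0.const_mul (m ^ 2))
    refine this.congr (Eventually.of_forall fun x => ?_)
    simp only [Pi.sub_apply, Pi.add_apply]
    ring
  have hvpos : 0 < v := by
    rw [hv]
    apply div_pos _ hZpos
    rw [integral_pos_iff_support_of_nonneg (fun x => mul_nonneg (sq_nonneg _) (exp_pos _).le) hIc2]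
    have hsup : Function.support (fun x => (x - m) ^ 2 * exp (-W x)) = {m}ᶜ := by
      ext x
      simp only [Function.mem_support, mem_compl_iff, mem_singleton_iff]
      constructor
      · intro h hx
        apply h
        rw [hx]
        simp
      · intro h
        exact mul_ne_zero (pow_ne_zero _ (sub_ne_zero.2 h)) (exp_pos _).ne'
    rw [hsup]
    have : volume ({m}ᶜ : Set ℝ) = ⊤ := by
      rw [measure_compl (measurableSet_singleton m) (by simp)]
      simp
    rw [this]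
    exact ENNReal.zero_lt_top
  obtain ⟨k, hk⟩ : ∃ k : ℝ, k = 1 / c ^ 2 := ⟨_, rfl⟩
  have hkpos : 0 < k := by rw [hk]; positivity
  set β : ℝ := √(k + 1) / √v with hβ
  have hs1 : 0 < √(k + 1) := Real.sqrt_pos.2 (by linarith)
  have hsv : 0 < √v := Real.sqrt_pos.2 hvpos
  have hβpos : 0 < β := div_pos hs1 hsv
  set x0 : ℝ := m - (k + 1) / β with hx0
  set U : ℝ → ℝ := fun x => W (x + x0) + log Z with hU
  have hexpU : ∀ x, exp (-U x) = exp (-W (x + x0)) / Z := by
    intro x
    simp only [hU]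
    rw [neg_add, exp_add, exp_neg (log Z), exp_log hZpos]
    rfl
  have hU1 : ∀ x, HasDerivAt U (W1 (x + x0)) x := by
    intro x
    exact ((hW1 (x + x0)).comp_add_const x x0).add_const _
  have hU2 : ∀ x, HasDerivAt (fun x => W1 (x + x0)) (W2 (x + x0)) x := by
    intro x
    exact (hW2 (x + x0)).comp_add_const x x0
  -- moments of the translated density
  have hmom : ∀ f : ℝ → ℝ, ∫ x, f x * exp (-U x) = (∫ x, f (x - x0) * exp (-W x)) / Z := by
    intro f
    have h1 : ∫ x, f x * exp (-U x) = (∫ x, f x * exp (-W (x + x0))) / Z := by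
      rw [← integral_div]
      refine integral_congr_ae (Eventually.of_forall fun x => ?_)
      simp only [hexpU]
      ring
    rw [h1]
    congr 1
    have h2 := integral_add_right_eq_self (μ := (volume : Measure ℝ))
      (fun x => f (x - x0) * exp (-W x)) x0
    rw [← h2]
    refine integral_congr_ae (Eventually.of_forall fun x => ?_)
    simp only [add_sub_cancel_right]
  have hmZ : ∫ x, x * exp (-W x) = m * Z := by
    rw [hm]; field_simp
  have hvZ : ∫ x, (x - m) ^ 2 * exp (-W x) = v * Z := by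
    rw [hv]; field_simp
  have hc1 : ∫ x, (x - m) * exp (-W x) = 0 := by
    have : ∫ x, (x - m) * exp (-W x) = (∫ x, x * exp (-W x)) - m * ∫ x, exp (-W x) := by
      rw [← integral_const_mul, ← integral_sub hI1 (hI0.const_mul m)]
      refine integral_congr_ae (Eventually.of_forall fun x => ?_)
      simp only
      ring
    rw [this, hmZ, ← hZ]
    ring
  have hIc1 : Integrable (fun x => (x - m) * exp (-W x)) := by
    have := hI1.sub (hI0.const_mul m)
    refine this.congr (Eventually.of_forall fun x => ?_)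
    simp only [Pi.sub_apply]
    ring
  have hIc3 : Integrable (fun x => (x - m) ^ 3 * exp (-W x)) := by
    have := ((hI3.sub (hI2.const_mul (3 * m))).add (hI1.const_mul (3 * m ^ 2))).sub
      (hI0.const_mul (m ^ 3))
    refine this.congr (Eventually.of_forall fun x => ?_)
    simp only [Pi.sub_apply, Pi.add_apply]
    ring
  set T := ∫ x, (x - m) ^ 3 * exp (-W x) with hT
  set r : ℝ := (k + 1) / β with hr
  have hmx : m = x0 + r := by rw [hx0]; ring
  have hm0 : ∫ x, exp (-U x) = 1 := by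
    have := hmom (fun _ => 1)
    simp only [one_mul] at this
    rw [this, ← hZ, div_self hZpos.ne']
  have hm1 : ∫ x, x * exp (-U x) = (k + 1) / β := by
    have h1 := hmom (fun x => x)
    rw [h1, div_eq_iff hZpos.ne']
    have h2 := int_comb hI0 hIc1 hIc1 hIc1 0 0 (-r)
    have h3 : ∫ x, (x - x0) * exp (-W x) = ∫ x, ((x - m) * exp (-W x) -
        0 * ((x - m) * exp (-W x)) + 0 * ((x - m) * exp (-W x)) - (-r) * exp (-W x)) := by
      refine integral_congr_ae (Eventually.of_forall fun x => ?_)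
      simp only
      rw [hmx]
      ring
    rw [h3, h2, hc1, ← hZ]
    ring
  have hrv : r ^ 2 = (k + 1) * v := by
    rw [hr, hβ]
    have e1 : √(k + 1) ^ 2 = k + 1 := Real.sq_sqrt (by linarith)
    have e2 : √v ^ 2 = v := Real.sq_sqrt hvpos.le
    rw [div_div_eq_mul_div, div_pow, mul_pow, e1, e2]
    field_simp
  have hβv : 1 / β ^ 2 = v / (k + 1) := by
    rw [hβ, div_pow, Real.sq_sqrt (by linarith), Real.sq_sqrt hvpos.le, one_div_div]
  have hm2 : ∫ x, x ^ 2 * exp (-U x) = (k + 2) * (k + 1) / β ^ 2 := by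
    have h1 := hmom (fun x => x ^ 2)
    rw [h1, div_eq_iff hZpos.ne']
    have h2 := int_comb hI0 hIc1 hIc2 hIc2 0 (2 * r) (-r ^ 2)
    have h3 : ∫ x, (x - x0) ^ 2 * exp (-W x) = ∫ x, ((x - m) ^ 2 * exp (-W x) -
        0 * ((x - m) ^ 2 * exp (-W x)) + (2 * r) * ((x - m) * exp (-W x)) -
          (-r ^ 2) * exp (-W x)) := by
      refine integral_congr_ae (Eventually.of_forall fun x => ?_)
      simp only
      rw [hmx]
      ring
    rw [h3, h2, hc1, ← hZ, hvZ, hrv]
    have e : (k + 2) * (k + 1) / β ^ 2 = (k + 2) * v := by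
      rw [← mul_one_div, hβv]
      field_simp
    rw [e]
    ring
  have hmain := core (U := U) (U1 := fun x => W1 (x + x0)) (U2 := fun x => W2 (x + x0)) hU1 hU2 hc0
    (fun x => h0 _) hc hk hβpos (fun x y => by
      have := hL (x + x0) (y + x0)
      rwa [add_sub_add_right_eq_sub] at this) hm0 hm1 hm2
  have h1 := hmom (fun x => x ^ 3)
  rw [h1] at hmain
  have h2 := int_comb hI0 hIc1 hIc2 hIc3 (-(3 * r)) (3 * r ^ 2) (-r ^ 3)
  have h3 : ∫ x, (x - x0) ^ 3 * exp (-W x) = ∫ x, ((x - m) ^ 3 * exp (-W x) -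
      (-(3 * r)) * ((x - m) ^ 2 * exp (-W x)) + (3 * r ^ 2) * ((x - m) * exp (-W x)) -
        (-r ^ 3) * exp (-W x)) := by
    refine integral_congr_ae (Eventually.of_forall fun x => ?_)
    simp only
    rw [hmx]
    ring
  rw [h3, h2, hc1, ← hZ, hvZ] at hmain
  have h4 : (T - -(3 * r) * (v * Z) + 3 * r ^ 2 * 0 - -r ^ 3 * Z) / Z = T / Z + 3 * r * v + r ^ 3 := by
    field_simp
    ring
  rw [h4] at hmain
  -- arithmetic: r = (k+1)/β, v = (k+1)/β²
  have hvβ : v = (k + 1) / β ^ 2 := by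
    rw [← mul_one_div, hβv]
    field_simp
  have h5 : T / Z ≤ 2 * (k + 1) / β ^ 3 := by
    have e : (k + 3) * (k + 2) * (k + 1) / β ^ 3 - 3 * r * v - r ^ 3 = 2 * (k + 1) / β ^ 3 := by
      rw [hvβ, hr]
      field_simp
      ring
    linarith
  refine h5.trans (le_of_eq ?_)
  rw [hβ, div_pow]
  have e1 : √(k + 1) ^ 3 = (k + 1) * √(k + 1) := by
    rw [pow_succ, Real.sq_sqrt (by linarith)]
  rw [e1]
  have e2 : √(1 + c ^ 2) = c * √(k + 1) := by
    have : 1 + c ^ 2 = c ^ 2 * (k + 1) := by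
      rw [hk]; field_simp
    rw [this, Real.sqrt_mul (by positivity), Real.sqrt_sq hc.le]
  rw [e2]
  field_simp

/-- `c`-self-concordance in one dimension (in the form: `(W'')^{-1/2}` is `c`-Lipschitz) bounds the
third central moment. -/
theorem third_le {W W1 W2 : ℝ → ℝ} {c0 c : ℝ} (hW1 : ∀ x, HasDerivAt W (W1 x) x)
    (hW2 : ∀ x, HasDerivAt W1 (W2 x) x) (hc0 : 0 < c0) (h0 : ∀ x, c0 ≤ W2 x) (hc : 0 < c)
    (hL : ∀ x y, |(√(W2 x))⁻¹ - (√(W2 y))⁻¹| ≤ c * |x - y|) {Z m v : ℝ}
    (hZ : Z = ∫ x, exp (-W x)) (hm : m = (∫ x, x * exp (-W x)) / Z)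
    (hv : v = (∫ x, (x - m) ^ 2 * exp (-W x)) / Z) :
    |(∫ x, (x - m) ^ 3 * exp (-W x)) / Z| ≤ 2 * (c / √(1 + c ^ 2)) * √v ^ 3 := by
  have hup := third_le' hW1 hW2 hc0 h0 hc hL hZ hm hv
  have hneg1 : ∀ x, HasDerivAt (fun x => W (-x)) (-W1 (-x)) x := by
    intro x
    have := (hW1 (-x)).comp x (hasDerivAt_neg x)
    rw [mul_neg, mul_one] at this
    exact this
  have hneg2 : ∀ x, HasDerivAt (fun x => -W1 (-x)) (W2 (-x)) x := by
    intro x
    have := ((hW2 (-x)).comp x (hasDerivAt_neg x)).neg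
    rw [mul_neg, mul_one, neg_neg] at this
    exact this
  have hdn := third_le' (W := fun x => W (-x)) (W1 := fun x => -W1 (-x)) (W2 := fun x => W2 (-x))
    (Z := Z) (m := -m) (v := v) hneg1 hneg2 hc0 (fun x => h0 _) hc (fun x y => by
      have := hL (-x) (-y)
      rwa [show -x - -y = -(x - y) by ring, abs_neg] at this)
    (by rw [hZ]; exact (integral_neg_eq_self (fun x => exp (-W x)) volume).symm)
    (by
      rw [hm, ← integral_neg_eq_self (fun x => x * exp (-W x)) volume, ← neg_div, ← integral_neg]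
      congr 1
      refine integral_congr_ae (Eventually.of_forall fun x => ?_)
      simp)
    (by
      rw [hv, ← integral_neg_eq_self (fun x => (x - m) ^ 2 * exp (-W x)) volume]
      congr 1
      refine integral_congr_ae (Eventually.of_forall fun x => ?_)
      simp only
      ring)
  have e : ∫ x, (x - -m) ^ 3 * exp (-W (-x)) = - ∫ x, (x - m) ^ 3 * exp (-W x) := by
    rw [← integral_neg_eq_self (fun x => (x - m) ^ 3 * exp (-W x)) volume, ← integral_neg]
    refine integral_congr_ae (Eventually.of_forall fun x => ?_)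
    simp only
    ring
  rw [e, neg_div] at hdn
  rw [abs_le]
  constructor
  · linarith
  · exact hup

/-- The simpler form. -/
theorem third_le_two {W W1 W2 : ℝ → ℝ} {c0 c : ℝ} (hW1 : ∀ x, HasDerivAt W (W1 x) x)
    (hW2 : ∀ x, HasDerivAt W1 (W2 x) x) (hc0 : 0 < c0) (h0 : ∀ x, c0 ≤ W2 x) (hc : 0 < c)
    (hL : ∀ x y, |(√(W2 x))⁻¹ - (√(W2 y))⁻¹| ≤ c * |x - y|) {Z m v : ℝ}
    (hZ : Z = ∫ x, exp (-W x)) (hm : m = (∫ x, x * exp (-W x)) / Z)
    (hv : v = (∫ x, (x - m) ^ 2 * exp (-W x)) / Z) :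
    |(∫ x, (x - m) ^ 3 * exp (-W x)) / Z| ≤ 2 * c * √v ^ 3 := by
  refine (third_le hW1 hW2 hc0 h0 hc hL hZ hm hv).trans ?_
  have h1 : c / √(1 + c ^ 2) ≤ c := by
    apply div_le_self hc.le
    rw [Real.one_le_sqrt]
    nlinarith
  have h2 : 0 ≤ √v ^ 3 := by positivity
  nlinarith

/-- The differential form of self-concordance implies the Lipschitz form. -/
theorem lip_of_sc {W2 W3 : ℝ → ℝ} {c0 c : ℝ} (hW3 : ∀ x, HasDerivAt W2 (W3 x) x) (hc0 : 0 < c0)
    (h0 : ∀ x, c0 ≤ W2 x) (hsc : ∀ x, |W3 x| ≤ 2 * c * √(W2 x) ^ 3) (x y : ℝ) :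
    |(√(W2 x))⁻¹ - (√(W2 y))⁻¹| ≤ c * |x - y| := by
  have hpos : ∀ x, 0 < W2 x := fun x => hc0.trans_le (h0 x)
  have hd : ∀ x, HasDerivAt (fun x => (√(W2 x))⁻¹) (-(W3 x / (2 * √(W2 x))) / √(W2 x) ^ 2) x := by
    intro x
    exact ((hW3 x).sqrt (hpos x).ne').inv (Real.sqrt_pos.2 (hpos x)).ne'
  have hb : ∀ x, ‖-(W3 x / (2 * √(W2 x))) / √(W2 x) ^ 2‖ ≤ c := by
    intro x
    have hs := Real.sqrt_pos.2 (hpos x)
    rw [Real.norm_eq_abs, abs_div, abs_neg, abs_div, abs_of_pos (by positivity : 0 < 2 * √(W2 x)),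
      abs_of_pos (by positivity : 0 < √(W2 x) ^ 2), div_div, div_le_iff₀ (by positivity)]
    refine (hsc x).trans (le_of_eq ?_)
    ring
  have := convex_univ.norm_image_sub_le_of_norm_hasDerivWithin_le
    (f := fun x => (√(W2 x))⁻¹) (s := univ) (x := y) (y := x)
    (fun z _ => (hd z).hasDerivWithinAt) (fun z _ => hb z) (mem_univ _) (mem_univ _)
  simpa [Real.norm_eq_abs] using this

/-- Third central moment under the differential form of self-concordance. -/
theorem third_le_sc {W W1 W2 W3 : ℝ → ℝ} {c0 c : ℝ} (hW1 : ∀ x, HasDerivAt W (W1 x) x)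
    (hW2 : ∀ x, HasDerivAt W1 (W2 x) x) (hW3 : ∀ x, HasDerivAt W2 (W3 x) x) (hc0 : 0 < c0)
    (h0 : ∀ x, c0 ≤ W2 x) (hc : 0 < c) (hsc : ∀ x, |W3 x| ≤ 2 * c * √(W2 x) ^ 3) {Z m v : ℝ}
    (hZ : Z = ∫ x, exp (-W x)) (hm : m = (∫ x, x * exp (-W x)) / Z)
    (hv : v = (∫ x, (x - m) ^ 2 * exp (-W x)) / Z) :
    |(∫ x, (x - m) ^ 3 * exp (-W x)) / Z| ≤ 2 * c * √v ^ 3 :=
  third_le_two hW1 hW2 hc0 h0 hc (lip_of_sc hW3 hc0 h0 hsc) hZ hm hv

end Vale.Agent.P227.M.SC1
end

section

/-! P254/FV1, L8: from the cube to `ℝ^(d+1)`. -/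

open MeasureTheory Set Filter Topology
open scoped NNReal Pointwise

namespace Vale.Agent.P254.FV1

open Unc

variable {n d : ℕ}

/-- The inclusion of the cube with the coordinates `0` and `1` exchanged. -/
private def inc01 (x : X (n + 2)) : Fin (n + 2) → ℝ :=
  fun k => ((x (Equiv.swap 0 1 k) : unitInterval) : ℝ)

private lemma inc01_eq : (inc01 : X (n + 2) → Fin (n + 2) → ℝ) =
    inc ∘ (MeasurableEquiv.arrowCongr' (Equiv.swap (0 : Fin (n + 2)) 1)
      (MeasurableEquiv.refl unitInterval)) := by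
  funext x k
  simp [inc01, inc, MeasurableEquiv.arrowCongr', Equiv.arrowCongr', Equiv.arrowCongr]

private lemma mp01 : MeasurePreserving (inc01 : X (n + 2) → Fin (n + 2) → ℝ) volume
    (volume.restrict (Icc 0 1)) := by
  rw [inc01_eq]
  exact (measurePreserving_inc (n + 2)).comp
    (volume_preserving_arrowCongr' _ _ (MeasurePreserving.id _))

private lemma me01 : MeasurableEmbedding (inc01 : X (n + 2) → Fin (n + 2) → ℝ) := by
  rw [inc01_eq]
  exact measurableEmbedding_inc.comp (MeasurableEquiv.measurableEmbedding _)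

private lemma cont01 : Continuous (inc01 : X (n + 2) → Fin (n + 2) → ℝ) := by
  unfold inc01
  fun_prop

private lemma inc01_zero (x : X (n + 2)) : inc01 x 0 = ((x 1 : unitInterval) : ℝ) := by
  simp [inc01]

private lemma inc01_one (x : X (n + 2)) : inc01 x 1 = ((x 0 : unitInterval) : ℝ) := by
  simp [inc01]

private lemma inc01_succ (x : X (n + 2)) (k : Fin n) :
    inc01 x k.succ.succ = ((x k.succ.succ : unitInterval) : ℝ) := by
  have h1 : k.succ.succ ≠ 0 := Fin.succ_ne_zero _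
  have h2 : k.succ.succ ≠ 1 := by
    rw [← Fin.succ_zero_eq_one]
    exact fun h => Fin.succ_ne_zero _ (Fin.succ_injective _ h)
  simp [inc01, Equiv.swap_apply_of_ne_of_ne h1 h2]

/-- The case of the unit cube. -/
private lemma unitCase (h : FUNC n) (K : Set (Fin (n + 2) → ℝ)) (hK : IsCompact K)
    (hc : Convex ℝ K) (hne : K.Nonempty) (hsub : K ⊆ Icc 0 1)
    (hlow : ∀ x ∈ K, ∀ y : Fin (n + 2) → ℝ, y 0 = x 0 →
      (∀ k : Fin (n + 1), 0 ≤ y k.succ ∧ y k.succ ≤ x k.succ) → y ∈ K)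
    (T : ℝ) (hT : T * (volume K).toReal = ∫ x in K, x 0) :
    ∏ k : Fin (n + 1), (2 * ∫ x in K, x k.succ) ≤
      (volume K).toReal ^ (n + 1) * (volume (sl K T)).toReal := by
  have hvK : volume K ≠ ⊤ := hK.measure_ne_top
  rcases eq_or_ne (volume K) 0 with h0 | h0
  · have : ∀ k : Fin (n + 1), ∫ x in K, x k.succ = 0 := fun k =>
      setIntegral_measure_zero _ h0
    simp [this, h0]
  have hpos : 0 < (volume K).toReal := ENNReal.toReal_pos h0 hvK
  have hint0 : IntegrableOn (fun x : Fin (n + 2) → ℝ => x 0) K :=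
    (continuous_apply 0).continuousOn.integrableOn_compact hK
  have hT0 : 0 ≤ T := by
    have : 0 ≤ ∫ x in K, x 0 :=
      setIntegral_nonneg hK.measurableSet fun x hx => (hsub hx).1 0
    rw [← hT] at this
    exact nonneg_of_mul_nonneg_left this hpos
  have hT1 : T ≤ 1 := by
    have : ∫ x in K, x 0 ≤ ∫ x in K, (1 : ℝ) := by
      refine setIntegral_mono_on hint0 (by simp [hvK.lt_top]) hK.measurableSet fun x hx => (hsub hx).2 0
    rw [← hT] at this
    simp only [integral_const, smul_eq_mul, mul_one, measureReal_def,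
      Measure.restrict_apply_univ] at this
    exact le_of_mul_le_mul_right (by linarith) hpos
  have hmp := mp01 (n := n)
  have hr : (volume.restrict (Icc (0 : Fin (n + 2) → ℝ) 1)).restrict K = volume.restrict K :=
    Measure.restrict_restrict_of_subset hsub
  have hint : ∀ f : (Fin (n + 2) → ℝ) → ℝ, ∫ x in (inc01 : X (n + 2) → Fin (n + 2) → ℝ) ⁻¹' K,
      f (inc01 x) = ∫ x in K, f x := by
    intro f
    have := hmp.setIntegral_preimage_emb me01 f K
    rw [hr] at this
    exact this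
  have hvol : volume ((inc01 : X (n + 2) → Fin (n + 2) → ℝ) ⁻¹' K) = volume K := by
    rw [hmp.measure_preimage_emb me01, Measure.restrict_apply' measurableSet_Icc,
      inter_eq_left.2 hsub]
  have i0 : ∫ x in (inc01 : X (n + 2) → Fin (n + 2) → ℝ) ⁻¹' K, ((x 0 : unitInterval) : ℝ) =
      ∫ x in K, x 1 := by
    rw [← hint (fun x => x 1)]
    simp only [inc01_one]
  have i1 : ∫ x in (inc01 : X (n + 2) → Fin (n + 2) → ℝ) ⁻¹' K, ((x 1 : unitInterval) : ℝ) =
      ∫ x in K, x 0 := by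
    rw [← hint (fun x => x 0)]
    simp only [inc01_zero]
  have i2 : ∀ k : Fin n, ∫ x in (inc01 : X (n + 2) → Fin (n + 2) → ℝ) ⁻¹' K,
      ((x k.succ.succ : unitInterval) : ℝ) = ∫ x in K, x k.succ.succ := by
    intro k
    rw [← hint (fun x => x k.succ.succ)]
    simp only [inc01_succ]
  have hsec : volume {q : X (n + 1) | (Fin.cons (q 0) (Fin.cons (⟨T, hT0, hT1⟩ : unitInterval)
      (Fin.tail q)) : X (n + 2)) ∈ (inc01 : X (n + 2) → Fin (n + 2) → ℝ) ⁻¹' K} =
      volume (sl K T) := by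
    have e : {q : X (n + 1) | (Fin.cons (q 0) (Fin.cons (⟨T, hT0, hT1⟩ : unitInterval)
        (Fin.tail q)) : X (n + 2)) ∈ (inc01 : X (n + 2) → Fin (n + 2) → ℝ) ⁻¹' K} =
        inc ⁻¹' (sl K T) := by
      ext q
      simp only [mem_preimage, sl]
      change _ ∈ K ↔ _ ∈ K
      have : inc01 (Fin.cons (q 0) (Fin.cons (⟨T, hT0, hT1⟩ : unitInterval)
        (Fin.tail q)) : X (n + 2)) = (Fin.cons T (inc q) : Fin (n + 2) → ℝ) := by
        funext k
        refine Fin.cases ?_ (fun k => ?_) k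
        · rw [inc01_zero]
          rw [← Fin.succ_zero_eq_one]
          simp only [Fin.cons_succ, Fin.cons_zero]
        · refine Fin.cases ?_ (fun k => ?_) k
          · rw [Fin.succ_zero_eq_one, inc01_one, ← Fin.succ_zero_eq_one]
            simp only [Fin.cons_succ, Fin.cons_zero, inc]
          · rw [inc01_succ]
            simp only [Fin.cons_succ, inc, Fin.tail]
      rw [this]
    rw [e, (measurePreserving_inc (n + 1)).measure_preimage_emb measurableEmbedding_inc,
      Measure.restrict_apply' measurableSet_Icc, inter_eq_left.2]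
    intro y hy
    have := hsub hy
    constructor
    · intro k
      have := this.1 k.succ
      simpa using this
    · intro k
      have := this.2 k.succ
      simpa using this
  have := h ((inc01 : X (n + 2) → Fin (n + 2) → ℝ) ⁻¹' K) (hK.isClosed.preimage cont01) ?_ ?_ ?_
    ⟨T, hT0, hT1⟩ ?_
  · rw [hsec, hvol, i0] at this
    simp only [i2] at this
    rw [Fin.prod_univ_succ]
    exact this
  · obtain ⟨x, hx⟩ := hne
    refine ⟨fun k => ⟨x (Equiv.swap 0 1 k), (hsub hx).1 _, (hsub hx).2 _⟩, ?_⟩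
    have : inc01 (fun k => (⟨x (Equiv.swap 0 1 k), (hsub hx).1 _, (hsub hx).2 _⟩ : unitInterval)) =
        x := by
      funext k
      simp [inc01]
    rw [mem_preimage, this]
    exact hx
  · intro x hx y hyx h1
    refine hlow _ hx _ ?_ fun k => ?_
    · rw [inc01_zero, inc01_zero, h1]
    · exact ⟨(y _).2.1, hyx _⟩
  · intro x hx y hy
    have := hc hx hy (by norm_num : (0 : ℝ) ≤ 1 / 2) (by norm_num : (0 : ℝ) ≤ 1 / 2) (by norm_num)
    have e : inc01 (mid x y) = (1 / 2 : ℝ) • inc01 x + (1 / 2 : ℝ) • inc01 y := by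
      funext k
      simp only [inc01, mid, mid1, Pi.add_apply, Pi.smul_apply, smul_eq_mul]
      ring
    simpa only [mem_preimage, e] using this
  · rw [i1, hvol]
    exact hT

/-- The inequality. -/
private def PP (K : Set (Fin (d + 1) → ℝ)) : Prop :=
  ∀ T : ℝ, T * (volume K).toReal = ∫ x in K, x 0 →
    ∏ k : Fin d, (2 * ∫ x in K, x k.succ) ≤ (volume K).toReal ^ d * (volume (sl K T)).toReal

/-- Scaling. -/
private lemma scaleCase {K : Set (Fin (d + 1) → ℝ)} {R : ℝ} (hR : 0 < R)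
    (h : PP (R⁻¹ • K)) : PP K := by
  intro T hT
  have hR0 : R ≠ 0 := hR.ne'
  have hK' : R • (R⁻¹ • K) = K := smul_inv_smul₀ hR0 K
  have hint : ∀ k : Fin (d + 1), ∫ x in K, x k = R ^ (d + 2) * ∫ x in R⁻¹ • K, x k := by
    intro k
    have := Measure.setIntegral_comp_smul (μ := (volume : Measure (Fin (d + 1) → ℝ)))
      (fun x : Fin (d + 1) → ℝ => x k) (R⁻¹ • K) hR0
    rw [hK'] at this
    simp only [Pi.smul_apply, smul_eq_mul, Module.finrank_fintype_fun_eq_card,
      Fintype.card_fin, integral_const_mul] at this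
    rw [abs_of_pos (by positivity)] at this
    have hRn : R ^ (d + 1) ≠ 0 := pow_ne_zero _ hR0
    rw [pow_succ, mul_assoc, this, mul_inv_cancel_left₀ hRn]
  have hvol : (volume K).toReal = R ^ (d + 1) * (volume (R⁻¹ • K)).toReal := by
    conv_lhs => rw [← hK']
    rw [Measure.addHaar_smul, ENNReal.toReal_mul, ENNReal.toReal_ofReal (abs_nonneg _),
      abs_of_pos (by positivity)]
    simp
  have hsl : (volume (sl K T)).toReal = R ^ d * (volume (sl (R⁻¹ • K) (R⁻¹ * T))).toReal := by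
    have e : sl K T = R • sl (R⁻¹ • K) (R⁻¹ * T) := by
      ext y
      rw [mem_smul_set_iff_inv_smul_mem₀ hR0]
      change (Fin.cons T y : Fin (d + 1) → ℝ) ∈ K ↔
        (Fin.cons (R⁻¹ * T) (R⁻¹ • y) : Fin (d + 1) → ℝ) ∈ R⁻¹ • K
      rw [mem_inv_smul_set_iff₀ hR0]
      have : R • (Fin.cons (R⁻¹ * T) (R⁻¹ • y) : Fin (d + 1) → ℝ) = Fin.cons T y := by
        funext k
        refine Fin.cases ?_ (fun k => ?_) k
        · simp [mul_inv_cancel_left₀ hR0]
        · simp [mul_inv_cancel_left₀ hR0]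
      rw [this]
    rw [e, Measure.addHaar_smul, ENNReal.toReal_mul, ENNReal.toReal_ofReal (abs_nonneg _),
      abs_of_pos (by positivity)]
    simp
  have := h (R⁻¹ * T) ?_
  · rw [hsl, hvol]
    simp only [hint]
    calc ∏ k : Fin d, (2 * (R ^ (d + 2) * ∫ x in R⁻¹ • K, x k.succ))
        = (R ^ (d + 2)) ^ d * ∏ k : Fin d, (2 * ∫ x in R⁻¹ • K, x k.succ) := by
          rw [show (fun k : Fin d => 2 * (R ^ (d + 2) * ∫ x in R⁻¹ • K, x k.succ)) =
            fun k => R ^ (d + 2) * (2 * ∫ x in R⁻¹ • K, x k.succ) from funext fun k => by ring,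
            Finset.prod_mul_distrib]
          simp
      _ ≤ (R ^ (d + 2)) ^ d * ((volume (R⁻¹ • K)).toReal ^ d *
            (volume (sl (R⁻¹ • K) (R⁻¹ * T))).toReal) := by gcongr
      _ = (R ^ (d + 1) * (volume (R⁻¹ • K)).toReal) ^ d *
            (R ^ d * (volume (sl (R⁻¹ • K) (R⁻¹ * T))).toReal) := by ring
  · rw [hint, hvol] at hT
    have h1 : R ^ (d + 2) ≠ 0 := pow_ne_zero _ hR0
    apply mul_left_cancel₀ h1
    rw [← hT, pow_succ R (d + 1)]
    generalize (volume (R⁻¹ • K)).toReal = v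
    field_simp

/-- Translation. -/
private lemma transCase {K : Set (Fin (d + 1) → ℝ)} (hK : IsCompact K) (a : ℝ)
    (h : PP ((fun x : Fin (d + 1) → ℝ => x + Pi.single 0 (-a)) ⁻¹' K)) : PP K := by
  intro T hT
  set K1 : Set (Fin (d + 1) → ℝ) := (fun x : Fin (d + 1) → ℝ => x + Pi.single 0 (-a)) ⁻¹' K
    with hK1
  have hvol : volume K1 = volume K := measure_preimage_add_right _ _ _
  have hint : ∀ f : (Fin (d + 1) → ℝ) → ℝ, ∫ x in K1, f (x + Pi.single 0 (-a)) = ∫ x in K, f x :=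
    fun f => (measurePreserving_add_right volume
      (Pi.single 0 (-a) : Fin (d + 1) → ℝ)).setIntegral_preimage_emb
      (measurableEmbedding_addRight _) f K
  have i2 : ∀ k : Fin d, ∫ x in K, x k.succ = ∫ x in K1, x k.succ := by
    intro k
    rw [← hint (fun x => x k.succ)]
    simp
  have hK1c : IsCompact K1 := by
    have : K1 = (Homeomorph.addRight (Pi.single 0 (-a) : Fin (d + 1) → ℝ)) ⁻¹' K := rfl
    rw [this, Homeomorph.isCompact_preimage]
    exact hK
  have i0 : ∫ x in K, x 0 = (∫ x in K1, x 0) - a * (volume K).toReal := by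
    rw [← hint (fun x => x 0)]
    simp only [Pi.add_apply, Pi.single_eq_same]
    rw [integral_add]
    · simp only [integral_const, smul_eq_mul, measureReal_def, Measure.restrict_apply_univ, hvol]
      ring
    · exact (continuous_apply 0).continuousOn.integrableOn_compact hK1c
    · exact integrableOn_const (by rw [hvol]; exact hK.measure_ne_top)
  have hsl : sl K1 (T + a) = sl K T := by
    ext y
    change (Fin.cons (T + a) y : Fin (d + 1) → ℝ) + Pi.single 0 (-a) ∈ K ↔
      (Fin.cons T y : Fin (d + 1) → ℝ) ∈ K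
    have : (Fin.cons (T + a) y : Fin (d + 1) → ℝ) + Pi.single 0 (-a) = Fin.cons T y := by
      funext k
      refine Fin.cases ?_ (fun k => ?_) k
      · simp
      · simp
    rw [this]
  have := h (T + a) ?_
  · rw [hsl, hvol] at this
    simp only [i2]
    exact this
  · rw [hvol, add_mul, hT, i0]
    ring

/-- L8 -/
theorem funcr_of_func (n : ℕ) (h : FUNC n) : FUNCR (n + 1) := by
  intro K hK hc hne hpos hlow T hT
  obtain ⟨C, hC⟩ := hK.isBounded.exists_norm_le
  set R : ℝ := max C 1 with hRdef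
  have hR : 0 < R := lt_max_of_lt_right one_pos
  have hR2 : 0 < 2 * R := by positivity
  have hKR : ∀ x ∈ K, ∀ k, |x k| ≤ R := fun x hx k =>
    (norm_le_pi_norm x k).trans ((hC x hx).trans (le_max_left _ _))
  suffices PP K from this T hT
  refine transCase hK R (scaleCase hR2 ?_)
  set K1 : Set (Fin (n + 2) → ℝ) := (fun x : Fin (n + 2) → ℝ => x + Pi.single 0 (-R)) ⁻¹' K
    with hK1
  have hmem : ∀ y, y ∈ (2 * R)⁻¹ • K1 ↔ (2 * R) • y + Pi.single 0 (-R) ∈ K := fun y => by
    rw [mem_inv_smul_set_iff₀ hR2.ne']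
    rfl
  have hK1c : IsCompact K1 := by
    have : K1 = (Homeomorph.addRight (Pi.single 0 (-R) : Fin (n + 2) → ℝ)) ⁻¹' K := rfl
    rw [this, Homeomorph.isCompact_preimage]
    exact hK
  have hK1v : Convex ℝ K1 := hc.translate_preimage_left _
  have hK1n : K1.Nonempty := by
    obtain ⟨x, hx⟩ := hne
    refine ⟨x - Pi.single 0 (-R), ?_⟩
    simpa [hK1] using hx
  intro T' hT'
  refine unitCase h ((2 * R)⁻¹ • K1) (hK1c.smul _) (hK1v.smul _) hK1n.smul_set ?_ ?_ T' hT'
  · intro y hy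
    rw [hmem] at hy
    have h0 := hKR _ hy 0
    have hs : ∀ k : Fin (n + 1), 0 ≤ 2 * R * y k.succ ∧ 2 * R * y k.succ ≤ R := fun k => by
      have h1 := hpos _ hy k
      have h2 := (le_abs_self _).trans (hKR _ hy k.succ)
      simp only [Pi.add_apply, Pi.smul_apply, smul_eq_mul, ne_eq, Fin.succ_ne_zero,
        not_false_eq_true, Pi.single_eq_of_ne, add_zero] at h1 h2
      exact ⟨h1, h2⟩
    simp only [Pi.add_apply, Pi.smul_apply, smul_eq_mul, Pi.single_eq_same] at h0
    rw [abs_le] at h0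
    constructor
    · intro k
      refine Fin.cases ?_ (fun k => ?_) k
      · exact nonneg_of_mul_nonneg_right (show 0 ≤ 2 * R * y 0 by linarith) hR2
      · exact nonneg_of_mul_nonneg_right (hs k).1 hR2
    · intro k
      refine Fin.cases ?_ (fun k => ?_) k
      · exact le_of_mul_le_mul_left (show 2 * R * y 0 ≤ 2 * R * 1 by linarith) hR2
      · exact le_of_mul_le_mul_left
          (show 2 * R * y k.succ ≤ 2 * R * 1 by linarith [(hs k).2]) hR2
  · intro x hx y h0 hk
    rw [hmem] at hx ⊢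
    refine hlow _ hx _ ?_ fun k => ?_
    · simp [h0]
    · simp only [Pi.add_apply, Pi.smul_apply, smul_eq_mul, ne_eq, Fin.succ_ne_zero,
        not_false_eq_true, Pi.single_eq_of_ne, add_zero]
      exact ⟨mul_nonneg hR2.le (hk k).1, mul_le_mul_of_nonneg_left (hk k).2 hR2.le⟩

end Vale.Agent.P254.FV1
end
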