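import Mathlib

set_option linter.all false

section

/-! # P227/M: definitions for the proof of log-Brunn-Minkowski by the moment map (x-space form).

`E n = EuclideanSpace ℝ (Fin n)`. `V` = potential, `ψ` = Legendre transform of the moment map potential,
`τ = (D²ψ)⁻¹`, `L f = tr (τ D²f) - ⟨x, ∇f⟩`. -/

open MeasureTheory
open scoped Topology

namespace Vale.Agent.P227.M

abbrev E (n : ℕ) := EuclideanSpace ℝ (Fin n)

/-- `i`-th basis vector -/
noncomputable def ei {n : ℕ} (i : Fin n) : E n := EuclideanSpace.single i (1 : ℝ)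

/-- `i`-th partial derivative -/
noncomputable def pd {n : ℕ} (i : Fin n) (f : E n → ℝ) (x : E n) : ℝ := fderiv ℝ f x (ei i)

/-- Hessian matrix `D²f`, entry `i j` is `∂_i ∂_j f` -/
noncomputable def hess {n : ℕ} (f : E n → ℝ) (x : E n) : Matrix (Fin n) (Fin n) ℝ :=
  fun i j => pd i (pd j f) x

/-- quadratic form of a matrix -/
noncomputable def qf {n : ℕ} (A : Matrix (Fin n) (Fin n) ℝ) (v : E n) : ℝ := ∑ i, ∑ j, A i j * v i * v j

/-- regular potential: smooth, `c ≤ D²V ≤ C`, all derivatives of order `≥ 2` bounded (not nec. even) -/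
structure Reg {n : ℕ} (V : E n → ℝ) (c C : ℝ) : Prop where
  c_pos : 0 < c
  smooth : ContDiff ℝ (⊤ : ℕ∞) V
  lower : ∀ x v, c * ‖v‖ ^ 2 ≤ qf (hess V x) v
  upper : ∀ x v, qf (hess V x) v ≤ C * ‖v‖ ^ 2
  bdd : ∀ k : ℕ, 2 ≤ k → ∃ B : ℝ, ∀ x, ‖iteratedFDeriv ℝ k V x‖ ≤ B

/-- nice potential: regular and even -/
structure Nice {n : ℕ} (V : E n → ℝ) (c C : ℝ) : Prop extends Reg V c C where
  even : ∀ x, V (-x) = V x

/-- the convex summands `V_j`: smooth, even, `0 ≤ D²V`, all derivatives of order `≥ 2` bounded -/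
structure Piece {n : ℕ} (V : E n → ℝ) : Prop where
  smooth : ContDiff ℝ (⊤ : ℕ∞) V
  even : ∀ x, V (-x) = V x
  psd : ∀ x v, 0 ≤ qf (hess V x) v
  bdd : ∀ k : ℕ, 2 ≤ k → ∃ B : ℝ, ∀ x, ‖iteratedFDeriv ℝ k V x‖ ≤ B

/-- `ψ` is (the Legendre transform of) a `C^{2,1}` moment map potential of `e^{-V}` -/
structure MM {n : ℕ} (ψ V : E n → ℝ) (c C M : ℝ) : Prop where
  c_pos : 0 < c
  C2 : ContDiff ℝ 2 ψ
  even : ∀ x, ψ (-x) = ψ x
  lower : ∀ x v, c * ‖v‖ ^ 2 ≤ qf (hess ψ x) v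
  upper : ∀ x v, qf (hess ψ x) v ≤ C * ‖v‖ ^ 2
  lip : ∀ i j x y, |hess ψ x i j - hess ψ y i j| ≤ M * ‖x - y‖
  ma : ∀ x, V x = (∑ i, x i * pd i ψ x) - ψ x - Real.log (hess ψ x).det

/-- `τ = (D²ψ)⁻¹` -/
noncomputable def tau {n : ℕ} (ψ : E n → ℝ) (x : E n) : Matrix (Fin n) (Fin n) ℝ := (hess ψ x)⁻¹

/-- `L f = tr (τ D²f) - ⟨x, ∇f⟩` -/
noncomputable def Lop {n : ℕ} (ψ f : E n → ℝ) (x : E n) : ℝ :=
  (∑ i, ∑ j, tau ψ x i j * hess f x i j) - ∑ i, x i * pd i f x

/-- expectation with respect to `e^{-V} dx / ∫ e^{-V}` -/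
noncomputable def Ex {n : ℕ} (V f : E n → ℝ) : ℝ :=
  (∫ x, f x * Real.exp (-V x)) / (∫ x, Real.exp (-V x))

/-- test functions -/
def Test {n : ℕ} (f : E n → ℝ) : Prop := ContDiff ℝ (⊤ : ℕ∞) f ∧ HasCompactSupport f

/-- log-Laplace transform -/
noncomputable def logLap {n : ℕ} (W : E n → ℝ) (y : E n) : ℝ :=
  Real.log (∫ x, Real.exp (inner ℝ x y - W x))

/-- `W` is `κ`-self-concordant (on lines) -/
def SelfConc {n : ℕ} (κ : ℝ) (W : E n → ℝ) : Prop :=
  ∀ x v : E n, |iteratedDeriv 3 (fun t : ℝ => W (x + t • v)) 0| ≤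
    2 * κ * (iteratedDeriv 2 (fun t : ℝ => W (x + t • v)) 0) ^ ((3 : ℝ) / 2)

end Vale.Agent.P227.M
end

section

/-! # P227/M: the interface statements between the blocks.

SC (self-concordance) + LK (level k) + LIM (k → ∞)  ⟹ `StmtMM`
ID ⟹ `StmtStein`, `StmtIBP`, `StmtDiv`, `StmtKey`
LIN ⟹ `StmtLin`
LOC : `StmtStein → StmtIBP → StmtDiv → StmtKey → StmtLin → StmtMM → StmtLocal`
END : `StmtLocal →` Q1 (helper459's `End/Soft.lean`, `log_bm_of_soft`). -/

open MeasureTheory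
open scoped Topology

namespace Vale.Agent.P227.M

/-- block SC : log-Laplace transforms do not increase the self-concordance constant -/
def StmtSC : Prop := ∀ (n : ℕ) (W : E n → ℝ) (c C κ : ℝ), Reg W c C → 0 ≤ κ → κ ≤ 1 →
  SelfConc κ W → SelfConc κ (logLap W)

/-- blocks LK + LIM : existence of the `C^{2,1}` moment map potential (in `x`-space) -/
def StmtMM : Prop := ∀ (n : ℕ) (V : E n → ℝ) (c C : ℝ), Nice V c C → ∃ (ψ : E n → ℝ) (M : ℝ), MM ψ V c C M

/-- `s = τ ∇u` -/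
noncomputable def fld {n : ℕ} (ψ u : E n → ℝ) (b : Fin n) (x : E n) : ℝ := ∑ c, tau ψ x b c * pd c u x

/-- Stein : `E tr (D²W τ) = E ⟨∇W, x⟩` -/
def StmtStein : Prop := ∀ (n : ℕ) (ψ V : E n → ℝ) (c C M : ℝ), Nice V c C → MM ψ V c C M →
  ∀ W : E n → ℝ, Piece W →
    Ex V (fun x => (hess W x * tau ψ x).trace) = Ex V (fun x => ∑ i, x i * pd i W x)

/-- integration by parts : `E (-L u) f = E ⟨∇f, s⟩`, `f` smooth -/
def StmtIBP : Prop := ∀ (n : ℕ) (ψ V : E n → ℝ) (c C M : ℝ), Nice V c C → MM ψ V c C M →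
  ∀ u f : E n → ℝ, Test u → ContDiff ℝ (⊤ : ℕ∞) f →
    Ex V (fun x => -(Lop ψ u x) * f x) = Ex V (fun x => ∑ b, pd b f x * fld ψ u b x)

/-- `E ⟨∇W, τ ∇(LF+F)⟩ = - E tr (D²W τ D²F τ)` -/
def StmtDiv : Prop := ∀ (n : ℕ) (ψ V : E n → ℝ) (c C M : ℝ), Nice V c C → MM ψ V c C M →
  ∀ F W : E n → ℝ, Test F → ContDiff ℝ (⊤ : ℕ∞) W →
    Ex V (fun x => ∑ b, pd b W x * fld ψ (fun z => Lop ψ F z + F z) b x) =
      - Ex V (fun x => (hess W x * tau ψ x * hess F x * tau ψ x).trace)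

/-- the key inequality (638's identity + Bochner), `h = LF + F + u` :
`E tr (H τNτNτ) + E ⟨Hs,s⟩ ≤ E (Lu)² + 2 E ⟨∇h, τ L∇F⟩` -/
def StmtKey : Prop := ∀ (n : ℕ) (ψ V : E n → ℝ) (c C M : ℝ), Nice V c C → MM ψ V c C M →
  ∀ F u : E n → ℝ, Test F → Test u →
    Ex V (fun x => (hess V x * tau ψ x * hess F x * tau ψ x * hess F x * tau ψ x).trace)
      + Ex V (fun x => ∑ a, ∑ b, hess V x a b * fld ψ u a x * fld ψ u b x)
      ≤ Ex V (fun x => (Lop ψ u x) ^ 2)
        + 2 * Ex V (fun x => ∑ b, fld ψ (fun z => Lop ψ F z + F z + u z) b x * Lop ψ (pd b F) x)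

/-- block LIN : approximate solution of `-Lu = r`, `-(L+1)F = u` by test functions -/
def StmtLin : Prop := ∀ (n : ℕ) (ψ V : E n → ℝ) (c C M : ℝ), Nice V c C → MM ψ V c C M →
  ∀ r : E n → ℝ, Continuous r → (∀ x, r (-x) = r x) → (∃ B, ∀ x, |r x| ≤ B * (1 + ‖x‖ ^ 2)) → Ex V r = 0 →
  ∀ ε > 0, ∃ B : ℝ, ∀ δ > 0, ∃ F u : E n → ℝ, Test F ∧ Test u ∧
    Ex V (fun x => (Lop ψ u x + r x) ^ 2) ≤ ε ∧
    Ex V (fun x => ∑ b, (pd b (fun z => Lop ψ F z + F z + u z) x) ^ 2) ≤ δ ∧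
    Ex V (fun x => ∑ b, (Lop ψ (pd b F) x) ^ 2) ≤ B

/-- block LOC : the local (functional) log-Brunn-Minkowski inequality -/
def StmtLocal : Prop := ∀ (n : ℕ) (J : ℕ) (W : Fin J → E n → ℝ) (ρ : Fin J → ℝ) (c C : ℝ),
  (∀ j, Piece (W j)) → Nice (fun x => ∑ j, W j x) c C →
    Ex (fun x => ∑ j, W j x) (fun x => (∑ j, ρ j * ∑ i, x i * pd i (W j) x) ^ 2)
      - (Ex (fun x => ∑ j, W j x) (fun x => ∑ j, ρ j * ∑ i, x i * pd i (W j) x)) ^ 2
      ≤ ∑ j, ρ j ^ 2 * Ex (fun x => ∑ j, W j x)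
          (fun x => (∑ i, x i * pd i (W j) x) + qf (hess (W j) x) x)

end Vale.Agent.P227.M
end

section

/-! # P227, block LIM, part 2: `C^{2,1}` functions with pinched Hessian -/

open MeasureTheory Set Metric Filter Topology
open scoped ENNReal NNReal

namespace Vale.Agent.P227.M.Lim

variable {E : Type*} [NormedAddCommGroup E] [InnerProductSpace ℝ E] [FiniteDimensional ℝ E]

/-- a function with explicit gradient and Hessian, pinched between `a` and `b`, the Hessian `M`-Lipschitz -/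
structure C21 (a b M : ℝ) (φ : E → ℝ) (G : E → E) (H : E → E →L[ℝ] E) : Prop where
  grad : ∀ y, HasGradientAt φ (G y) y
  hess : ∀ y, HasFDerivAt G (H y) y
  lower : ∀ y v, a * ‖v‖ ^ 2 ≤ inner ℝ (H y v) v
  upper : ∀ y v, inner ℝ (H y v) v ≤ b * ‖v‖ ^ 2
  lip : ∀ y y', ‖H y - H y'‖ ≤ M * ‖y - y'‖
  even : ∀ y, φ (-y) = φ y

namespace C21

variable {a b M : ℝ} {φ : E → ℝ} {G : E → E} {H : E → E →L[ℝ] E}

theorem symm (h : C21 a b M φ G H) (y v w : E) : inner ℝ (H y v) w = inner ℝ (H y w) v := by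
  have h1 : ∀ z, HasFDerivAt φ (innerSL ℝ (G z)) z := fun z => (h.grad z).hasFDerivAt
  have h2 : HasFDerivAt (fun z => innerSL ℝ (G z)) ((innerSL ℝ : E →L[ℝ] E →L[ℝ] ℝ).comp (H y)) y :=
    (innerSL ℝ : E →L[ℝ] E →L[ℝ] ℝ).hasFDerivAt.comp y (h.hess y)
  have h3 := second_derivative_symmetric (𝕜 := ℝ) (f := φ) (fun z => h1 z) h2 v w
  simpa using h3

theorem norm_le (h : C21 a b M φ G H) (ha : 0 ≤ a) (hb : 0 ≤ b) (y : E) : ‖H y‖ ≤ b := by
  refine ContinuousLinearMap.opNorm_le_bound _ hb fun v => ?_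
  have hpos : ∀ w, 0 ≤ inner ℝ (H y w) w := fun w => le_trans (by positivity) (h.lower y w)
  -- Cauchy-Schwarz for the form
  have hcs : (inner ℝ (H y v) (H y v) : ℝ) ^ 2 ≤ inner ℝ (H y v) v * inner ℝ (H y (H y v)) (H y v) := by
    set w := H y v with hw
    have hq : ∀ t : ℝ, 0 ≤ inner ℝ (H y v) v + 2 * t * inner ℝ (H y v) w + t ^ 2 * inner ℝ (H y w) w := by
      intro t
      have h1 := hpos (v + t • w)
      have h2 : inner ℝ (H y (v + t • w)) (v + t • w) =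
          inner ℝ (H y v) v + 2 * t * inner ℝ (H y v) w + t ^ 2 * inner ℝ (H y w) w := by
        simp only [map_add, map_smul, inner_add_left, inner_add_right, real_inner_smul_left, real_inner_smul_right]
        rw [h.symm y w v]
        ring
      linarith
    have hd := discrim_le_zero (a := inner ℝ (H y w) w) (b := 2 * inner ℝ (H y v) w) (c := inner ℝ (H y v) v)
      (fun t => by have := hq t; nlinarith [this])
    unfold discrim at hd
    have : (inner ℝ (H y v) w : ℝ) = inner ℝ w w := by rw [hw]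
    nlinarith
  have h1 : (inner ℝ (H y v) (H y v) : ℝ) = ‖H y v‖ ^ 2 := real_inner_self_eq_norm_sq _
  have h2 := h.upper y v
  have h3 := h.upper y (H y v)
  rw [h1] at hcs
  have h4 : (‖H y v‖ ^ 2) ^ 2 ≤ (b * ‖v‖ ^ 2) * (b * ‖H y v‖ ^ 2) :=
    hcs.trans (mul_le_mul h2 h3 (hpos _) (by positivity))
  rcases eq_or_lt_of_le (norm_nonneg (H y v)) with h5 | h5
  · rw [← h5]; positivity
  · have h6 : ‖H y v‖ ^ 2 ≤ (b * ‖v‖) ^ 2 := by
      have h7 : 0 < ‖H y v‖ ^ 2 := by positivity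
      have h8 : ‖H y v‖ ^ 2 * ‖H y v‖ ^ 2 ≤ (b * ‖v‖) ^ 2 * ‖H y v‖ ^ 2 := by nlinarith
      exact le_of_mul_le_mul_right h8 h7
    exact (pow_le_pow_iff_left₀ (norm_nonneg _) (by positivity) two_ne_zero).1 h6

theorem G_lip (h : C21 a b M φ G H) (ha : 0 ≤ a) (hb : 0 ≤ b) (y y' : E) : ‖G y - G y'‖ ≤ b * ‖y - y'‖ :=
  Convex.norm_image_sub_le_of_norm_hasFDerivWithin_le (s := Set.univ) (f := G) (f' := H)
    (fun z _ => (h.hess z).hasFDerivWithinAt) (fun z _ => h.norm_le ha hb z) convex_univ (mem_univ _) (mem_univ _)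

theorem G_neg (h : C21 a b M φ G H) (y : E) : G (-y) = - G y := by
  have h1 : HasFDerivAt φ (innerSL ℝ (G y)) y := (h.grad y).hasFDerivAt
  have h2 : HasFDerivAt (fun z => φ (-z)) ((innerSL ℝ (G (-y))).comp (-(ContinuousLinearMap.id ℝ E))) y := by
    have h3 : HasFDerivAt φ (innerSL ℝ (G (-y))) (-y) := (h.grad (-y)).hasFDerivAt
    have h4 : HasFDerivAt (fun z : E => -z) (-(ContinuousLinearMap.id ℝ E)) y := (hasFDerivAt_id y).neg
    exact h3.comp y h4
  have h5 : (fun z => φ (-z)) = φ := funext h.even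
  rw [h5] at h2
  have h6 := h1.unique h2
  refine ext_inner_right ℝ fun v => ?_
  have h7 := DFunLike.congr_fun h6 v
  simp at h7
  rw [inner_neg_left]
  linarith

theorem G_zero (h : C21 a b M φ G H) : G 0 = 0 := by
  have h1 := h.G_neg 0
  rw [neg_zero] at h1
  have h2 : (2 : ℝ) • G 0 = 0 := by
    rw [two_smul]
    nth_rewrite 2 [h1]
    exact add_neg_cancel _
  exact (smul_eq_zero.1 h2).resolve_left two_ne_zero

theorem G_norm_le (h : C21 a b M φ G H) (ha : 0 ≤ a) (hb : 0 ≤ b) (y : E) : ‖G y‖ ≤ b * ‖y‖ := by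
  have := h.G_lip ha hb y 0
  rwa [h.G_zero, sub_zero, sub_zero] at this

theorem mono (h : C21 a b M φ G H) (y v : E) : a * ‖v‖ ^ 2 ≤ inner ℝ (G (y + v) - G y) v := by
  have hd : ∀ t ∈ Set.Icc (0 : ℝ) 1, HasDerivAt (fun t : ℝ => (inner ℝ (G (y + t • v)) v : ℝ)) (inner ℝ (H (y + t • v) v) v) t := by
    intro t _
    have h1 : HasDerivAt (fun t : ℝ => y + t • v) v t := by
      simpa using ((hasDerivAt_id t).smul_const v).const_add y
    have h2 : HasDerivAt (fun t : ℝ => G (y + t • v)) (H (y + t • v) v) t := (h.hess (y + t • v)).comp_hasDerivAt t h1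
    simpa using h2.inner ℝ (hasDerivAt_const t v)
  obtain ⟨c, -, hc2⟩ := exists_hasDerivAt_eq_slope (fun t : ℝ => (inner ℝ (G (y + t • v)) v : ℝ))
    (fun t => inner ℝ (H (y + t • v) v) v) (zero_lt_one) (fun t ht => (hd t ht).continuousAt.continuousWithinAt)
    (fun t ht => hd t (Ioo_subset_Icc_self ht))
  have h3 := h.lower (y + c • v) v
  rw [hc2] at h3
  simp only [one_smul, zero_smul, add_zero, sub_zero, div_one] at h3
  rw [inner_sub_left]
  exact h3

theorem mono_upper (h : C21 a b M φ G H) (y v : E) : inner ℝ (G (y + v) - G y) v ≤ b * ‖v‖ ^ 2 := by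
  have hd : ∀ t ∈ Set.Icc (0 : ℝ) 1, HasDerivAt (fun t : ℝ => (inner ℝ (G (y + t • v)) v : ℝ)) (inner ℝ (H (y + t • v) v) v) t := by
    intro t _
    have h1 : HasDerivAt (fun t : ℝ => y + t • v) v t := by
      simpa using ((hasDerivAt_id t).smul_const v).const_add y
    have h2 : HasDerivAt (fun t : ℝ => G (y + t • v)) (H (y + t • v) v) t := (h.hess (y + t • v)).comp_hasDerivAt t h1
    simpa using h2.inner ℝ (hasDerivAt_const t v)
  obtain ⟨c, -, hc2⟩ := exists_hasDerivAt_eq_slope (fun t : ℝ => (inner ℝ (G (y + t • v)) v : ℝ))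
    (fun t => inner ℝ (H (y + t • v) v) v) (zero_lt_one) (fun t ht => (hd t ht).continuousAt.continuousWithinAt)
    (fun t ht => hd t (Ioo_subset_Icc_self ht))
  have h3 := h.upper (y + c • v) v
  rw [hc2] at h3
  simp only [one_smul, zero_smul, add_zero, sub_zero, div_one] at h3
  rw [inner_sub_left]
  exact h3

theorem phi_mvt (h : C21 a b M φ G H) (y v : E) : ∃ c ∈ Set.Ioo (0 : ℝ) 1, φ (y + v) - φ y = inner ℝ (G (y + c • v)) v := by
  have hd : ∀ t ∈ Set.Icc (0 : ℝ) 1, HasDerivAt (fun t : ℝ => φ (y + t • v)) (inner ℝ (G (y + t • v)) v) t := by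
    intro t _
    have h1 : HasDerivAt (fun t : ℝ => y + t • v) v t := by
      simpa using ((hasDerivAt_id t).smul_const v).const_add y
    have h2 := (h.grad (y + t • v)).hasFDerivAt.comp_hasDerivAt t h1
    simpa [Function.comp_def] using h2
  obtain ⟨c, hc1, hc2⟩ := exists_hasDerivAt_eq_slope (fun t : ℝ => φ (y + t • v))
    (fun t => inner ℝ (G (y + t • v)) v) (zero_lt_one) (fun t ht => (hd t ht).continuousAt.continuousWithinAt)
    (fun t ht => hd t (Ioo_subset_Icc_self ht))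
  refine ⟨c, hc1, ?_⟩
  rw [hc2]
  simp

theorem phi_lower (h : C21 a b M φ G H) (ha : 0 ≤ a) (y : E) : φ 0 + a / 2 * ‖y‖ ^ 2 ≤ φ y := by
  have hd : ∀ t ∈ Set.Icc (0 : ℝ) 1, HasDerivAt (fun t : ℝ => φ (t • y) - a / 2 * ‖y‖ ^ 2 * t ^ 2)
      (inner ℝ (G (t • y)) y - a * ‖y‖ ^ 2 * t) t := by
    intro t _
    have h1 : HasDerivAt (fun t : ℝ => t • y) y t := by
      simpa using ((hasDerivAt_id t).smul_const y)
    have h2 := (h.grad (t • y)).hasFDerivAt.comp_hasDerivAt t h1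
    have h3 : HasDerivAt (fun t : ℝ => a / 2 * ‖y‖ ^ 2 * t ^ 2) (a * ‖y‖ ^ 2 * t) t := by
      refine ((hasDerivAt_pow 2 t).const_mul (a / 2 * ‖y‖ ^ 2)).congr_deriv ?_
      norm_num
      ring
    have h4 : HasDerivAt (fun t : ℝ => φ (t • y)) (inner ℝ (G (t • y)) y) t := by simpa [Function.comp_def] using h2
    exact h4.sub h3
  obtain ⟨c, hc1, hc2⟩ := exists_hasDerivAt_eq_slope (fun t : ℝ => φ (t • y) - a / 2 * ‖y‖ ^ 2 * t ^ 2)
    (fun t => inner ℝ (G (t • y)) y - a * ‖y‖ ^ 2 * t) (zero_lt_one) (fun t ht => (hd t ht).continuousAt.continuousWithinAt)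
    (fun t ht => hd t (Ioo_subset_Icc_self ht))
  have h3 := h.mono 0 (c • y)
  rw [h.G_zero, zero_add, sub_zero, norm_smul, real_inner_smul_right, mul_pow, Real.norm_eq_abs, sq_abs] at h3
  have h4 : a * ‖y‖ ^ 2 * c ≤ inner ℝ (G (c • y)) y := by
    have hc : 0 < c := hc1.1
    have : c * (a * ‖y‖ ^ 2 * c) ≤ c * inner ℝ (G (c • y)) y := by nlinarith
    exact le_of_mul_le_mul_left this hc
  simp only [one_smul, zero_smul, one_pow, mul_one] at hc2
  have : (0 : ℝ) ≤ φ y - a / 2 * ‖y‖ ^ 2 - (φ 0 - a / 2 * ‖y‖ ^ 2 * 0 ^ 2) := by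
    have h5 : (0 : ℝ) ≤ inner ℝ (G (c • y)) y - a * ‖y‖ ^ 2 * c := by linarith
    rw [hc2] at h5
    simpa using h5
  simp at this
  linarith

theorem phi_upper (h : C21 a b M φ G H) (hb : 0 ≤ b) (y : E) : φ y ≤ φ 0 + b * ‖y‖ ^ 2 := by
  obtain ⟨c, hc1, hc2⟩ := h.phi_mvt 0 y
  have h3 := h.mono_upper 0 (c • y)
  rw [h.G_zero, zero_add, sub_zero, norm_smul, real_inner_smul_right, mul_pow, Real.norm_eq_abs, sq_abs] at h3
  rw [zero_add, zero_add] at hc2
  have hc : 0 < c := hc1.1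
  have h4 : inner ℝ (G (c • y)) y ≤ b * ‖y‖ ^ 2 * c := by
    have : c * inner ℝ (G (c • y)) y ≤ c * (b * ‖y‖ ^ 2 * c) := by nlinarith
    exact le_of_mul_le_mul_left this hc
  have h5 : b * ‖y‖ ^ 2 * c ≤ b * ‖y‖ ^ 2 := by
    have : 0 ≤ b * ‖y‖ ^ 2 := by positivity
    nlinarith [hc1.2]
  linarith

/-- quantitative first order Taylor for the gradient -/
theorem G_taylor (h : C21 a b M φ G H) (y v : E) : ‖G (y + v) - G y - H y v‖ ≤ M * ‖v‖ * ‖v‖ := by
  have h1 := Convex.norm_image_sub_le_of_norm_hasFDerivWithin_le (s := segment ℝ y (y + v)) (f := fun z => G z - H y z)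
    (f' := fun z => H z - H y) (C := M * ‖v‖) (x := y) (y := y + v)
    (fun z _ => ((h.hess z).sub (H y).hasFDerivAt).hasFDerivWithinAt)
    (fun z hz => (h.lip z y).trans ?_) (convex_segment _ _) (left_mem_segment _ _ _) (right_mem_segment _ _ _)
  · have h2 : G (y + v) - H y (y + v) - (G y - H y y) = G (y + v) - G y - H y v := by
      rw [map_add]; abel
    rw [h2, add_sub_cancel_left] at h1
    exact h1
  · have h0 : 0 ≤ M * ‖v‖ := by
      have := h.lip (y + v) y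
      rw [add_sub_cancel_left] at this
      exact (norm_nonneg _).trans this
    rw [segment_eq_image'] at hz
    obtain ⟨t, ht, rfl⟩ := hz
    simp only [add_sub_cancel_left]
    rw [norm_smul, Real.norm_eq_abs, abs_of_nonneg ht.1]
    nlinarith [ht.2]

theorem phi_taylor (h : C21 a b M φ G H) (ha : 0 ≤ a) (hb : 0 ≤ b) (y v : E) : |φ (y + v) - φ y - inner ℝ (G y) v| ≤ b * ‖v‖ * ‖v‖ := by
  obtain ⟨c, hc1, hc2⟩ := h.phi_mvt y v
  rw [hc2, ← inner_sub_left]
  refine (abs_real_inner_le_norm _ _).trans (mul_le_mul_of_nonneg_right ?_ (norm_nonneg _))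
  refine (h.G_lip ha hb _ _).trans (mul_le_mul_of_nonneg_left ?_ hb)
  rw [add_sub_cancel_left, norm_smul, Real.norm_eq_abs, abs_of_pos hc1.1]
  nlinarith [norm_nonneg v, hc1.2]

theorem injective (h : C21 a b M φ G H) (ha : 0 < a) : Function.Injective G := by
  intro y y' hyy
  have h1 := h.mono y' (y - y')
  rw [add_sub_cancel, hyy, sub_self, inner_zero_left] at h1
  have h2 : ‖y - y'‖ ^ 2 ≤ 0 := by
    by_contra hcon
    push Not at hcon
    nlinarith
  have h3 : ‖y - y'‖ = 0 := by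
    have := le_antisymm h2 (sq_nonneg _)
    exact pow_eq_zero_iff two_ne_zero |>.1 this
  exact sub_eq_zero.1 (norm_eq_zero.1 h3)

theorem continuous_phi (h : C21 a b M φ G H) : Continuous φ :=
  continuous_iff_continuousAt.2 fun y => (h.grad y).hasFDerivAt.continuousAt

theorem continuous_G (h : C21 a b M φ G H) : Continuous G :=
  continuous_iff_continuousAt.2 fun y => (h.hess y).continuousAt

theorem continuous_H (h : C21 a b M φ G H) : Continuous H := by
  rw [Metric.continuous_iff]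
  intro y ε hε
  refine ⟨ε / (|M| + 1), by positivity, fun z hz => ?_⟩
  rw [dist_eq_norm] at hz ⊢
  have h1 := h.lip z y
  have h2 : M * ‖z - y‖ ≤ (|M| + 1) * ‖z - y‖ := mul_le_mul_of_nonneg_right (by linarith [le_abs_self M]) (norm_nonneg _)
  have h3 : (|M| + 1) * ‖z - y‖ < (|M| + 1) * (ε / (|M| + 1)) := mul_lt_mul_of_pos_left hz (by positivity)
  have h4 : (|M| + 1) * (ε / (|M| + 1)) = ε := by field_simp
  linarith

theorem surjective (h : C21 a b M φ G H) (ha : 0 < a) : Function.Surjective G := by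
  intro x
  have : ProperSpace E := FiniteDimensional.proper ℝ E
  have hcont : Continuous (fun y => φ y - inner ℝ x y) := h.continuous_phi.sub (by fun_prop)
  have hlim : Tendsto (fun y => φ y - inner ℝ x y) (cocompact E) atTop := by
    have h1 : ∀ y : E, φ 0 - ‖x‖ ^ 2 / a + a / 4 * ‖y‖ ^ 2 ≤ φ y - inner ℝ x y := by
      intro y
      have h2 := h.phi_lower ha.le y
      have h3 := real_inner_le_norm x y
      have h4 : ‖x‖ * ‖y‖ ≤ ‖x‖ ^ 2 / a + a / 4 * ‖y‖ ^ 2 := by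
        have : 0 ≤ (‖x‖ - a / 2 * ‖y‖) ^ 2 / a := by positivity
        have h5 : (‖x‖ - a / 2 * ‖y‖) ^ 2 / a = ‖x‖ ^ 2 / a - ‖x‖ * ‖y‖ + a / 4 * ‖y‖ ^ 2 := by
          field_simp
          ring
        linarith
      linarith
    refine tendsto_atTop_mono h1 ?_
    have h6 : Tendsto (fun y : E => ‖y‖) (cocompact E) atTop := tendsto_norm_cocompact_atTop
    have h7 : Tendsto (fun y : E => a / 4 * ‖y‖ ^ 2) (cocompact E) atTop :=
      ((tendsto_pow_atTop two_ne_zero).comp h6).const_mul_atTop (by positivity)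
    exact tendsto_atTop_add_const_left _ _ h7
  obtain ⟨y, hy⟩ := hcont.exists_forall_le hlim
  refine ⟨y, ?_⟩
  have hmin : IsLocalMin (fun y => φ y - inner ℝ x y) y := Filter.Eventually.of_forall hy
  have hder : HasFDerivAt (fun y => φ y - inner ℝ x y) (innerSL ℝ (G y) - innerSL ℝ x) y :=
    (h.grad y).hasFDerivAt.sub (innerSL ℝ x).hasFDerivAt
  have h0 := hmin.hasFDerivAt_eq_zero hder
  refine ext_inner_right ℝ fun v => ?_
  have := DFunLike.congr_fun h0 v
  simp at this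
  linarith

end C21

end Vale.Agent.P227.M.Lim
end

section

/-! # P227/M, block MM: exact interfaces of the composition `StmtSC → LK → LIM → DUAL → StmtMM`. -/

open MeasureTheory Filter
open scoped Topology

namespace Vale.Agent.P227.M.MM

open Lim

/-- `φ_k[c](y) = (1/k) log ∫ exp (k ⟨x,y⟩ - k c x) dx` -/
noncomputable def phiK {n : ℕ} (k : ℝ) (c : E n → ℝ) (y : E n) : ℝ :=
  (1 / k) * logLap (fun x => k * c x) (k • y)

/-- `Q_k[c](x) = log ∫ exp (k ⟨x,y⟩ - (k+1) φ_k[c] y) dy` -/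
noncomputable def QK {n : ℕ} (k : ℝ) (c : E n → ℝ) (x : E n) : ℝ :=
  logLap (fun y => (k + 1) * phiK k c y) (k • x)

/-- the level-`k` map, normalised at `0` -/
noncomputable def TK {n : ℕ} (k : ℝ) (V c : E n → ℝ) (x : E n) : ℝ :=
  (V x + QK k c x) / k - (V 0 + QK k c 0) / k

/-- the invariant class at level `k` -/
structure Cls {n : ℕ} (k c₀ C₀ m : ℝ) (c : E n → ℝ) : Prop where
  nice : Nice c (c₀ * (k + 1) / k) (C₀ * (k + 1) / k)
  sc : SelfConc m c
  zero : c 0 = 0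

/-- iterates of the level-`k` map, started at a quadratic -/
noncomputable def itK {n : ℕ} (k c₀ : ℝ) (V : E n → ℝ) : ℕ → E n → ℝ
  | 0 => fun x => c₀ * (k + 1) / k / 2 * ‖x‖ ^ 2
  | i + 1 => TK k V (itK k c₀ V i)

/-- (owner: helper570) the class is invariant, for `k` large; `m` depends on `V` only -/
def StmtInv : Prop := ∀ (n : ℕ), 0 < n → ∀ (V : E n → ℝ) (c₀ C₀ : ℝ), Nice V c₀ C₀ →
  ∃ m K₀ : ℝ, 0 ≤ m ∧ 1 ≤ K₀ ∧ ∀ k : ℝ, K₀ ≤ k →
    (∀ c : E n → ℝ, Cls k c₀ C₀ m c → Cls k c₀ C₀ m (TK k V c)) ∧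
    (∀ c : E n → ℝ, Cls k c₀ C₀ m c →
      Nice (phiK k c) (k / ((k + 1) * C₀)) (k / ((k + 1) * c₀)) ∧ SelfConc m (phiK k c))

/-- the quadratic start is in the class -/
def StmtStart : Prop := ∀ (n : ℕ), 0 < n → ∀ (k c₀ C₀ m : ℝ), 0 < k → 0 < c₀ → c₀ ≤ C₀ → 0 ≤ m →
  Cls k c₀ C₀ m (fun x : E n => c₀ * (k + 1) / k / 2 * ‖x‖ ^ 2)

/-- (owner: helper549) descent: along the iterates the level-`k` law gets its `x`-marginal right,
and `x` is close to `∇φ_k(y)` in the mean. `gradient` is the one of `phiK`. -/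
def StmtDesc : Prop := ∀ (n : ℕ), 0 < n → ∀ (V : E n → ℝ) (c₀ C₀ m k : ℝ), Nice V c₀ C₀ → 0 ≤ m → 1 ≤ k →
  (∀ i, Cls k c₀ C₀ m (itK k c₀ V i)) →
  (∀ i, Nice (phiK k (itK k c₀ V i)) (k / ((k + 1) * C₀)) (k / ((k + 1) * c₀))) →
  ∀ ε > 0, ∃ i : ℕ, ∀ F : E n → ℝ, LipschitzWith 1 F → (∀ x, |F x| ≤ 1) →
    |(∫ y, F (gradient (phiK k (itK k c₀ V i)) y) * Real.exp (-phiK k (itK k c₀ V i) y)) /
        (∫ y, Real.exp (-phiK k (itK k c₀ V i) y))
      - (∫ x, F x * Real.exp (-V x)) / (∫ x, Real.exp (-V x))| ≤ Real.sqrt (n / (c₀ * k)) + ε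

/-- (owner: helper257) lines → tensors: a nice self-concordant function is `C21` -/
def StmtToC21 : Prop := ∀ (n : ℕ), 0 < n → ∀ (φ : E n → ℝ) (a b m : ℝ), Nice φ a b → 0 ≤ m → SelfConc m φ →
  ∃ H : E n → E n →L[ℝ] E n, C21 a b (18 * m * b ^ ((3 : ℝ) / 2)) φ (gradient φ) H

/-- output of LK -/
def StmtLK : Prop := ∀ (n : ℕ), 0 < n → ∀ (V : E n → ℝ) (c₀ C₀ : ℝ), Nice V c₀ C₀ → ∃ M : ℝ, ∀ ε > 0, ε < 1 →
  ∃ (φ : E n → ℝ) (G : E n → E n) (H : E n → E n →L[ℝ] E n),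
    C21 ((1 - ε) * C₀⁻¹) c₀⁻¹ M φ G H ∧
    (∫ y, Real.exp (-φ y)) = (∫ x, Real.exp (-V x)) ∧
    ∀ F : E n → ℝ, LipschitzWith 1 F → (∀ x, |F x| ≤ 1) →
      |(∫ y, F (G y) * Real.exp (-φ y)) - ∫ x, F x * Real.exp (-V x)| ≤ ε

/-- output of LIM: the `C^{2,1}` moment map in `y`-space -/
def StmtLIM : Prop := ∀ (n : ℕ), 0 < n → ∀ (V : E n → ℝ) (c₀ C₀ : ℝ), Nice V c₀ C₀ →
  ∃ (M : ℝ) (φ : E n → ℝ) (G : E n → E n) (H : E n → E n →L[ℝ] E n),
    C21 C₀⁻¹ c₀⁻¹ M φ G H ∧ ∀ y, Real.exp (-φ y) = Real.exp (-V (G y)) * |(H y).det|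

/-- output of DUAL (owner: helper997), gradient form in `x`-space -/
def StmtDual : Prop := ∀ (n : ℕ), 0 < n → ∀ (V : E n → ℝ) (c₀ C₀ M : ℝ), 0 < c₀ → 0 < C₀ → ∀ (φ : E n → ℝ) (G : E n → E n)
  (H : E n → E n →L[ℝ] E n), C21 C₀⁻¹ c₀⁻¹ M φ G H →
  (∀ y, Real.exp (-φ y) = Real.exp (-V (G y)) * |(H y).det|) →
  ∃ (M' : ℝ) (ψ : E n → ℝ) (h : E n → E n) (S : E n → E n →L[ℝ] E n), C21 c₀ C₀ M' ψ h S ∧
    ∀ x, V x = inner ℝ x (h x) - ψ x - Real.log (S x).det

/-- (owner: helper878) gradient form → `MM` -/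
def StmtToMM : Prop := ∀ (n : ℕ), 0 < n → ∀ (V ψ : E n → ℝ) (h : E n → E n) (S : E n → E n →L[ℝ] E n) (c₀ C₀ M : ℝ),
  0 < c₀ → C21 c₀ C₀ M ψ h S → (∀ x, V x = inner ℝ x (h x) - ψ x - Real.log (S x).det) →
  ∃ M', MM ψ V c₀ C₀ M'

/-- for `n > 0` a nice potential has `c ≤ C` -/
theorem nice_le {n : ℕ} (hn : 0 < n) {V : E n → ℝ} {c C : ℝ} (h : Reg V c C) : c ≤ C := by
  have h1 := h.lower 0 (ei ⟨0, hn⟩)
  have h2 := h.upper 0 (ei ⟨0, hn⟩)
  have h3 : ‖(ei ⟨0, hn⟩ : E n)‖ = 1 := by simp [ei]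
  rw [h3] at h1 h2
  linarith

theorem mm_zero {V : E 0 → ℝ} {c C : ℝ} (h : Nice V c C) : MM (fun x => -V x) V c C 0 := by
  have hz : ∀ v : E 0, ‖v‖ = 0 := fun v => by rw [Subsingleton.elim v 0, norm_zero]
  refine ⟨h.c_pos, ?_, fun x => by rw [h.even], fun x v => ?_, fun x v => ?_, fun i => i.elim0, fun x => ?_⟩
  · exact_mod_cast contDiff_infty.1 h.smooth.neg 2
  · simp [qf, hz]
  · simp [qf, hz]
  · simp

theorem stmtMM_of (h1 : StmtLIM) (h2 : StmtDual) (h3 : StmtToMM) : StmtMM := by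
  intro n V c C hV
  rcases Nat.eq_zero_or_pos n with rfl | hn
  · exact ⟨_, _, mm_zero hV⟩
  · obtain ⟨M, φ, G, H, hC, hma⟩ := h1 n hn V c C hV
    have hc : 0 < c := hV.c_pos
    have hC0 : 0 < C := hc.trans_le (nice_le hn hV.toReg)
    obtain ⟨M', ψ, h, S, hψ, hS⟩ := h2 n hn V c C M hc hC0 φ G H hC hma
    obtain ⟨M'', hM⟩ := h3 n hn V ψ h S c C M' hc hψ hS
    exact ⟨ψ, M'', hM⟩

end Vale.Agent.P227.M.MM
end

section

/-! # P254/MC: the moment map for centred (not necessarily even) regular potentials: definitions.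

`MMc` = `P227.M.MM` without the field `even` (same field names, same order). -/

open MeasureTheory
open scoped Topology

namespace Vale.Agent.P254.MC

open Vale.Agent.P227.M

/-- the measure `e^{-V}` is centred -/
def Centred {n : ℕ} (V : E n → ℝ) : Prop := ∀ i, ∫ x, x i * Real.exp (-V x) = 0

/-- `ψ` is (the Legendre transform of) a `C^{2,1}` moment map potential of `e^{-V}` -/
structure MMc {n : ℕ} (ψ V : E n → ℝ) (c C M : ℝ) : Prop where
  c_pos : 0 < c
  C2 : ContDiff ℝ 2 ψ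
  lower : ∀ x v, c * ‖v‖ ^ 2 ≤ qf (hess ψ x) v
  upper : ∀ x v, qf (hess ψ x) v ≤ C * ‖v‖ ^ 2
  lip : ∀ i j x y, |hess ψ x i j - hess ψ y i j| ≤ M * ‖x - y‖
  ma : ∀ x, V x = (∑ i, x i * pd i ψ x) - ψ x - Real.log (hess ψ x).det

/-- existence of the moment map potential, no evenness -/
def StmtMMc : Prop := ∀ (n : ℕ) (V : E n → ℝ) (c C : ℝ), Reg V c C → Centred V →
  ∃ (ψ : E n → ℝ) (M : ℝ), MMc ψ V c C M

/-- a function with explicit gradient and Hessian, pinched between `a` and `b`, the Hessian `M`-Lipschitz,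
critical point at `0` (`Lim.C21` with `even` replaced by `zero`) -/
structure C21c {E : Type*} [NormedAddCommGroup E] [InnerProductSpace ℝ E] [FiniteDimensional ℝ E]
    (a b M : ℝ) (φ : E → ℝ) (G : E → E) (H : E → E →L[ℝ] E) : Prop where
  grad : ∀ y, HasGradientAt φ (G y) y
  hess : ∀ y, HasFDerivAt G (H y) y
  lower : ∀ y v, a * ‖v‖ ^ 2 ≤ inner ℝ (H y v) v
  upper : ∀ y v, inner ℝ (H y v) v ≤ b * ‖v‖ ^ 2
  lip : ∀ y y', ‖H y - H y'‖ ≤ M * ‖y - y'‖
  zero : G 0 = 0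

/-- output of the left half (level `k`) -/
def StmtLKc : Prop := ∀ (n : ℕ), 0 < n → ∀ (V : E n → ℝ) (c₀ C₀ : ℝ), Reg V c₀ C₀ → Centred V →
  ∃ M : ℝ, ∀ ε > 0, ε < 1 →
  ∃ (φ : E n → ℝ) (G : E n → E n) (H : E n → E n →L[ℝ] E n),
    C21c ((1 - ε) * C₀⁻¹) c₀⁻¹ M φ G H ∧
    (∫ y, Real.exp (-φ y)) = (∫ x, Real.exp (-V x)) ∧
    ∀ F : E n → ℝ, LipschitzWith 1 F → (∀ x, |F x| ≤ 1) →
      |(∫ y, F (G y) * Real.exp (-φ y)) - ∫ x, F x * Real.exp (-V x)| ≤ ε

/-- the normalised level-`k` map: value and gradient at `0` vanish -/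
noncomputable def TKc {n : ℕ} (k : ℝ) (V c : E n → ℝ) (x : E n) : ℝ :=
  MM.TK k V c x - fderiv ℝ (MM.TK k V c) 0 x

/-- the invariant class at level `k`, no evenness -/
structure Clsc {n : ℕ} (k c₀ C₀ m : ℝ) (c : E n → ℝ) : Prop where
  reg : Reg c (c₀ * (k + 1) / k) (C₀ * (k + 1) / k)
  sc : SelfConc m c
  zero : c 0 = 0
  grad : fderiv ℝ c 0 = 0

/-- iterates of the level-`k` map, started at a quadratic -/
noncomputable def itKc {n : ℕ} (k c₀ : ℝ) (V : E n → ℝ) : ℕ → E n → ℝ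
  | 0 => fun x => c₀ * (k + 1) / k / 2 * ‖x‖ ^ 2
  | i + 1 => TKc k V (itKc k c₀ V i)

/-- invariance of the class (owner helper980 or 724) -/
def StmtInvc : Prop := ∀ (n : ℕ), 0 < n → ∀ (V : E n → ℝ) (c₀ C₀ : ℝ), Reg V c₀ C₀ →
  ∃ m K₀ : ℝ, 0 ≤ m ∧ 1 ≤ K₀ ∧ ∀ k : ℝ, K₀ ≤ k →
    (∀ c : E n → ℝ, Clsc k c₀ C₀ m c → Clsc k c₀ C₀ m (TKc k V c)) ∧
    (∀ c : E n → ℝ, Clsc k c₀ C₀ m c →
      Reg (MM.phiK k c) (k / ((k + 1) * C₀)) (k / ((k + 1) * c₀)) ∧ SelfConc m (MM.phiK k c))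

/-- the quadratic start is in the class -/
def StmtStartc : Prop := ∀ (n : ℕ), 0 < n → ∀ (k c₀ C₀ m : ℝ), 0 < k → 0 < c₀ → c₀ ≤ C₀ → 0 ≤ m →
  Clsc k c₀ C₀ m (fun x : E n => c₀ * (k + 1) / k / 2 * ‖x‖ ^ 2)

/-- descent -/
def StmtDescc : Prop := ∀ (n : ℕ), 0 < n → ∀ (V : E n → ℝ) (c₀ C₀ m k : ℝ), Reg V c₀ C₀ → Centred V → 0 ≤ m → 1 ≤ k →
  (∀ i, Clsc k c₀ C₀ m (itKc k c₀ V i)) →
  (∀ i, Reg (MM.phiK k (itKc k c₀ V i)) (k / ((k + 1) * C₀)) (k / ((k + 1) * c₀))) →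
  ∀ ε > 0, ∃ i : ℕ, ∀ F : E n → ℝ, LipschitzWith 1 F → (∀ x, |F x| ≤ 1) →
    |(∫ y, F (gradient (MM.phiK k (itKc k c₀ V i)) y) * Real.exp (-MM.phiK k (itKc k c₀ V i) y)) /
        (∫ y, Real.exp (-MM.phiK k (itKc k c₀ V i) y))
      - (∫ x, F x * Real.exp (-V x)) / (∫ x, Real.exp (-V x))| ≤ Real.sqrt (n / (c₀ * k)) + ε

end Vale.Agent.P254.MC
end

section

/-! # P227/M, block ID: almost everywhere calculus for `τ = (D²ψ)⁻¹`, `ψ ∈ C^{2,1}` (helper497)

`D²ψ` and `τ` are Lipschitz, hence differentiable a.e. (Rademacher). At such points: symmetry of the third derivatives,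
the derivative of `τ`, the derivative of the Monge-Ampere equation, the divergence identity and the total symmetry of `τ ∂τ`. -/

set_option linter.all false

open MeasureTheory Filter
open scoped Topology

namespace Vale.Agent.P227.M

variable {n : ℕ}

theorem rad_fderiv (f : E n → ℝ) (x v : E n) : fderiv ℝ f x v = ∑ i, v i * pd i f x := by
  have hv : v = ∑ i, v i • (ei i : E n) := by
    ext j
    simp [ei, Pi.single_apply]
  conv_lhs => rw [hv]
  rw [map_sum]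
  refine Finset.sum_congr rfl fun i _ => ?_
  rw [map_smul, smul_eq_mul]
  rfl

theorem rpd_add {i : Fin n} {f g : E n → ℝ} {x : E n} (hf : DifferentiableAt ℝ f x) (hg : DifferentiableAt ℝ g x) :
    pd i (fun y => f y + g y) x = pd i f x + pd i g x := by
  unfold pd
  rw [fderiv_fun_add hf hg]
  rfl

theorem rpd_sub {i : Fin n} {f g : E n → ℝ} {x : E n} (hf : DifferentiableAt ℝ f x) (hg : DifferentiableAt ℝ g x) :
    pd i (fun y => f y - g y) x = pd i f x - pd i g x := by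
  unfold pd
  rw [fderiv_fun_sub hf hg]
  rfl

theorem rpd_mul {i : Fin n} {f g : E n → ℝ} {x : E n} (hf : DifferentiableAt ℝ f x) (hg : DifferentiableAt ℝ g x) :
    pd i (fun y => f y * g y) x = pd i f x * g x + f x * pd i g x := by
  unfold pd
  rw [fderiv_fun_mul hf hg]
  simp only [ContinuousLinearMap.add_apply, ContinuousLinearMap.smul_apply, smul_eq_mul]
  ring

theorem rpd_sum {ι : Type*} {s : Finset ι} {i : Fin n} {f : ι → E n → ℝ} {x : E n}
    (hf : ∀ a ∈ s, DifferentiableAt ℝ (f a) x) :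
    pd i (fun y => ∑ a ∈ s, f a y) x = ∑ a ∈ s, pd i (f a) x := by
  unfold pd
  rw [fderiv_fun_sum hf]
  simp only [ContinuousLinearMap.sum_apply]

theorem rpd_const (i : Fin n) (c : ℝ) (x : E n) : pd i (fun _ => c) x = 0 := by
  unfold pd
  simp

theorem rpd_coord (i j : Fin n) (x : E n) : pd i (fun y : E n => y j) x = if j = i then 1 else 0 := by
  unfold pd
  have h : (fun y : E n => y j) = (EuclideanSpace.proj j : E n →L[ℝ] ℝ) := rfl
  rw [h, ContinuousLinearMap.fderiv]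
  simp [ei]

theorem rad_diff_coord (j : Fin n) (x : E n) : DifferentiableAt ℝ (fun y : E n => y j) x := by
  have h : (fun y : E n => y j) = (EuclideanSpace.proj j : E n →L[ℝ] ℝ) := rfl
  rw [h]
  exact (EuclideanSpace.proj j : E n →L[ℝ] ℝ).differentiableAt

/-- partial derivatives of a `C²` function are `C¹` -/
theorem rad_pd_c1 {ψ : E n → ℝ} (h : ContDiff ℝ 2 ψ) (j : Fin n) : ContDiff ℝ 1 (pd j ψ) := by
  have h1 : ContDiff ℝ 1 (fderiv ℝ ψ) := h.fderiv_right (m := 1) (by norm_num)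
  exact h1.clm_apply contDiff_const

theorem rad_pd_diff {ψ : E n → ℝ} (h : ContDiff ℝ 2 ψ) (j : Fin n) (x : E n) : DifferentiableAt ℝ (pd j ψ) x :=
  (rad_pd_c1 h j).differentiable (by norm_num) x

theorem rad_hess_fderiv {ψ : E n → ℝ} (h : ContDiff ℝ 2 ψ) (x : E n) (i j : Fin n) :
    hess ψ x i j = fderiv ℝ (fderiv ℝ ψ) x (ei i) (ei j) := by
  have h1 : ContDiff ℝ 1 (fderiv ℝ ψ) := h.fderiv_right (m := 1) (by norm_num)
  have h2 : HasFDerivAt (fderiv ℝ ψ) (fderiv ℝ (fderiv ℝ ψ) x) x := (h1.differentiable (by norm_num) x).hasFDerivAt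
  show fderiv ℝ (fun y => fderiv ℝ ψ y (ei j)) x (ei i) = _
  have h3 := (h2.clm_apply (hasFDerivAt_const (ei j : E n) x)).fderiv
  rw [h3]
  simp

theorem rad_hess_symm {ψ : E n → ℝ} (h : ContDiff ℝ 2 ψ) (x : E n) (i j : Fin n) :
    hess ψ x i j = hess ψ x j i := by
  rw [rad_hess_fderiv h, rad_hess_fderiv h]
  have h1 : ContDiff ℝ 1 (fderiv ℝ ψ) := h.fderiv_right (m := 1) (by norm_num)
  exact second_derivative_symmetric (f := ψ) (f' := fderiv ℝ ψ) (f'' := fderiv ℝ (fderiv ℝ ψ) x)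
    (fun y => (h.differentiable (by norm_num) y).hasFDerivAt)
    ((h1.differentiable (by norm_num) x).hasFDerivAt) (ei i) (ei j)

theorem rad_hess_cont {ψ : E n → ℝ} (h : ContDiff ℝ 2 ψ) (i j : Fin n) : Continuous fun x => hess ψ x i j := by
  have h1 : ContDiff ℝ 1 (pd j ψ) := rad_pd_c1 h j
  exact (h1.continuous_fderiv (by norm_num)).clm_apply continuous_const

/-- symmetry of the third derivatives at points where `D²ψ` is differentiable -/
theorem rad_third {ψ : E n → ℝ} (h : ContDiff ℝ 2 ψ) {x : E n}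
    (hd : ∀ i j, DifferentiableAt ℝ (fun y => hess ψ y i j) x) (k i j : Fin n) :
    pd k (fun y => hess ψ y i j) x = pd i (fun y => hess ψ y k j) x := by
  have hg : ContDiff ℝ 1 (pd j ψ) := rad_pd_c1 h j
  have e : fderiv ℝ (pd j ψ) = fun y => ∑ i, hess ψ y i j • (EuclideanSpace.proj i : E n →L[ℝ] ℝ) := by
    funext y
    ext v
    rw [rad_fderiv]
    simp only [ContinuousLinearMap.sum_apply, ContinuousLinearMap.smul_apply, smul_eq_mul]
    refine Finset.sum_congr rfl fun i _ => ?_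
    rw [mul_comm]
    rfl
  have hdd : DifferentiableAt ℝ (fderiv ℝ (pd j ψ)) x := by
    rw [e]
    exact DifferentiableAt.fun_sum fun i _ => (hd i j).smul_const _
  have hs := second_derivative_symmetric_of_eventually (f := pd j ψ) (f' := fderiv ℝ (pd j ψ))
    (f'' := fderiv ℝ (fderiv ℝ (pd j ψ)) x)
    (Eventually.of_forall fun y => (hg.differentiable (by norm_num) y).hasFDerivAt) hdd.hasFDerivAt (ei k) (ei i)
  have h3 : ∀ a b : Fin n, pd a (fun y => hess ψ y b j) x = fderiv ℝ (fderiv ℝ (pd j ψ)) x (ei a) (ei b) := by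
    intro a b
    show fderiv ℝ (fun y => fderiv ℝ (pd j ψ) y (ei b)) x (ei a) = _
    have h4 := (hdd.hasFDerivAt.clm_apply (hasFDerivAt_const (ei b : E n) x)).fderiv
    rw [h4]
    simp
  rw [h3, h3, hs]

/-- derivative of the determinant -/
theorem rad_det {A : E n → Matrix (Fin n) (Fin n) ℝ} {x : E n}
    (h : ∀ i j, DifferentiableAt ℝ (fun y => A y i j) x) (k : Fin n) :
    DifferentiableAt ℝ (fun y => (A y).det) x ∧
    pd k (fun y => (A y).det) x = ∑ i, ∑ j, (A x).adjugate j i * pd k (fun y => A y i j) x := by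
  let D : ContinuousMultilinearMap ℝ (fun _ : Fin n => Fin n → ℝ) ℝ :=
    { toMultilinearMap := (Matrix.detRowAlternating (n := Fin n) (R := ℝ)).toMultilinearMap
      cont := by
        show Continuous fun M : Fin n → Fin n → ℝ => Matrix.det M
        exact Continuous.matrix_det continuous_id }
  let A' : E n → Fin n → Fin n → ℝ := fun y i j => A y i j
  let L : E n →L[ℝ] (Fin n → Fin n → ℝ) :=
    ContinuousLinearMap.pi fun i => ContinuousLinearMap.pi fun j => fderiv ℝ (fun y => A y i j) x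
  have hA : HasFDerivAt A' L x := by
    rw [hasFDerivAt_pi]
    intro i
    rw [hasFDerivAt_pi]
    intro j
    exact (h i j).hasFDerivAt
  have hD : HasFDerivAt (fun y => (A y).det) ((D.linearDeriv (A' x)).comp L) x :=
    (D.hasFDerivAt (A' x)).comp x hA
  refine ⟨hD.differentiableAt, ?_⟩
  unfold pd
  rw [hD.fderiv]
  have h0 : ((D.linearDeriv (A' x)).comp L) (ei k) = ∑ i, D (Function.update (A' x) i (L (ei k) i)) :=
    ContinuousMultilinearMap.linearDeriv_apply D (A' x) (L (ei k))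
  rw [h0]
  refine Finset.sum_congr rfl fun i _ => ?_
  have h1 : D (Function.update (A' x) i (L (ei k) i)) =
      (Matrix.cramer (A x).transpose) (fun j => fderiv ℝ (fun y => A y i j) x (ei k)) i := by
    rw [Matrix.cramer_transpose_apply]
    rfl
  rw [h1, Matrix.cramer_eq_adjugate_mulVec, ← Matrix.adjugate_transpose]
  rfl

section MMs

variable {ψ V : E n → ℝ} {c C M : ℝ}

theorem rad_qf (A : Matrix (Fin n) (Fin n) ℝ) (v : E n) : qf A v = ∑ i, v i * (A.mulVec v) i := by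
  unfold qf
  refine Finset.sum_congr rfl fun i _ => ?_
  rw [Matrix.mulVec, dotProduct, Finset.mul_sum]
  exact Finset.sum_congr rfl fun j _ => by ring

/-- a coercive matrix is invertible -/
theorem rad_det_ne {A : Matrix (Fin n) (Fin n) ℝ} {c : ℝ} (hc : 0 < c) (hA : ∀ v : E n, c * ‖v‖ ^ 2 ≤ qf A v) :
    A.det ≠ 0 := by
  intro h0
  obtain ⟨v, hv, hv0⟩ := Matrix.exists_mulVec_eq_zero_iff.2 h0
  have h := hA (WithLp.toLp 2 v)
  rw [rad_qf] at h
  have h1 : (A.mulVec (WithLp.toLp 2 v : E n)) = 0 := hv0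
  rw [h1] at h
  simp only [Pi.zero_apply, mul_zero, Finset.sum_const_zero] at h
  have h2 : (WithLp.toLp 2 v : E n) = 0 := by
    have : ‖(WithLp.toLp 2 v : E n)‖ ^ 2 ≤ 0 := by nlinarith
    have h3 : ‖(WithLp.toLp 2 v : E n)‖ = 0 := by nlinarith [norm_nonneg (WithLp.toLp 2 v : E n)]
    exact norm_eq_zero.1 h3
  apply hv
  funext i
  have := congrArg (fun w : E n => w i) h2
  simpa using this

theorem rad_norm_sq (v : E n) : ‖v‖ ^ 2 = ∑ i, v i ^ 2 := by
  rw [EuclideanSpace.norm_sq_eq]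
  simp

theorem rad_abs_le (v : E n) (i : Fin n) : |v i| ≤ ‖v‖ := by
  have h := PiLp.norm_apply_le v i
  simpa using h

/-- entries of the inverse of a coercive symmetric matrix -/
theorem rad_inv_le {A : Matrix (Fin n) (Fin n) ℝ} {c : ℝ} (hc : 0 < c) (hA : ∀ v : E n, c * ‖v‖ ^ 2 ≤ qf A v)
    (i j : Fin n) : |A⁻¹ i j| ≤ 1 / c := by
  have hdet : IsUnit A.det := isUnit_iff_ne_zero.2 (rad_det_ne hc hA)
  set w : E n := WithLp.toLp 2 (fun k => A⁻¹ k j) with hw
  have h1 : (A.mulVec w) = fun k => if k = j then 1 else 0 := by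
    funext k
    have h2 := congrFun (congrFun (Matrix.mul_nonsing_inv A hdet) k) j
    rw [Matrix.mul_apply, Matrix.one_apply] at h2
    exact h2
  have h3 := hA w
  rw [rad_qf, h1] at h3
  simp only [mul_ite, mul_one, mul_zero, Finset.sum_ite_eq', Finset.mem_univ, if_true] at h3
  have h4 : w j ≤ ‖w‖ := (le_abs_self _).trans (rad_abs_le w j)
  have h5 : c * ‖w‖ ^ 2 ≤ ‖w‖ := h3.trans h4
  have h6 : ‖w‖ ≤ 1 / c := by
    rw [le_div_iff₀ hc]
    by_cases h0 : ‖w‖ = 0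
    · rw [h0, zero_mul]
      exact zero_le_one
    · have hp : 0 < ‖w‖ := lt_of_le_of_ne (norm_nonneg _) (Ne.symm h0)
      nlinarith
  exact (rad_abs_le w i).trans h6

theorem rad_tau_mul (h : MM ψ V c C M) (x : E n) : tau ψ x * hess ψ x = 1 :=
  Matrix.nonsing_inv_mul _ (isUnit_iff_ne_zero.2 (rad_det_ne h.c_pos (h.lower x)))

theorem rad_mul_tau (h : MM ψ V c C M) (x : E n) : hess ψ x * tau ψ x = 1 :=
  Matrix.mul_nonsing_inv _ (isUnit_iff_ne_zero.2 (rad_det_ne h.c_pos (h.lower x)))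

theorem rad_tau_le (h : MM ψ V c C M) (x : E n) (i j : Fin n) : |tau ψ x i j| ≤ 1 / c :=
  rad_inv_le h.c_pos (h.lower x) i j

theorem rad_tau_symm (h : MM ψ V c C M) (x : E n) (i j : Fin n) : tau ψ x i j = tau ψ x j i := by
  have h1 : (hess ψ x).transpose = hess ψ x := by
    ext a b
    exact rad_hess_symm h.C2 x b a
  have h2 : (tau ψ x).transpose = tau ψ x := by
    unfold tau
    rw [Matrix.transpose_nonsing_inv, h1]
  exact congrFun (congrFun h2 j) i

theorem rad_tau_sub (h : MM ψ V c C M) (x y : E n) :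
    tau ψ x - tau ψ y = tau ψ x * (hess ψ y - hess ψ x) * tau ψ y := by
  rw [Matrix.mul_sub, rad_tau_mul h, Matrix.sub_mul, Matrix.mul_assoc, rad_mul_tau h, Matrix.mul_one, Matrix.one_mul]

/-- `τ` is Lipschitz -/
theorem rad_tau_lip (h : MM ψ V c C M) (x y : E n) (i j : Fin n) :
    |tau ψ x i j - tau ψ y i j| ≤ ((n : ℝ) * n * (1 / c) * |M| * (1 / c)) * ‖x - y‖ := by
  have h1 : tau ψ x i j - tau ψ y i j =
      ∑ l, ∑ k, tau ψ x i k * (hess ψ y k l - hess ψ x k l) * tau ψ y l j := by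
    have h2 := congrFun (congrFun (rad_tau_sub h x y) i) j
    rw [Matrix.mul_apply] at h2
    have h3 : ∀ l, (tau ψ x * (hess ψ y - hess ψ x)) i l = ∑ k, tau ψ x i k * (hess ψ y k l - hess ψ x k l) :=
      fun l => by rw [Matrix.mul_apply]; rfl
    simp only [h3, Finset.sum_mul] at h2
    exact h2
  rw [h1]
  have hc : 0 ≤ 1 / c := by have := h.c_pos; positivity
  have h4 : ∀ l k, |tau ψ x i k * (hess ψ y k l - hess ψ x k l) * tau ψ y l j| ≤
      (1 / c) * (|M| * ‖x - y‖) * (1 / c) := by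
    intro l k
    rw [abs_mul, abs_mul]
    have h5 : |hess ψ y k l - hess ψ x k l| ≤ |M| * ‖x - y‖ := by
      refine (h.lip k l y x).trans ?_
      rw [norm_sub_rev y x]
      exact mul_le_mul_of_nonneg_right (le_abs_self M) (norm_nonneg _)
    exact mul_le_mul (mul_le_mul (rad_tau_le h x i k) h5 (abs_nonneg _) hc) (rad_tau_le h y l j) (abs_nonneg _)
      (by positivity)
  refine (Finset.abs_sum_le_sum_abs _ _).trans ?_
  refine (Finset.sum_le_sum fun l _ => (Finset.abs_sum_le_sum_abs _ _).trans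
    (Finset.sum_le_sum fun k _ => h4 l k)).trans ?_
  simp only [Finset.sum_const, Finset.card_univ, Fintype.card_fin, nsmul_eq_mul]
  apply le_of_eq
  ring

/-- the good set: `D²ψ` and `τ` are differentiable -/
def Good (ψ : E n → ℝ) (x : E n) : Prop :=
  (∀ i j, DifferentiableAt ℝ (fun y => hess ψ y i j) x) ∧ ∀ i j, DifferentiableAt ℝ (fun y => tau ψ y i j) x

theorem rad_lipw {f : E n → ℝ} {K : ℝ} (h : ∀ x y, |f x - f y| ≤ K * ‖x - y‖) : LipschitzWith (Real.toNNReal K) f := by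
  refine LipschitzWith.of_dist_le_mul fun x y => ?_
  rw [Real.dist_eq, dist_eq_norm]
  exact (h x y).trans (mul_le_mul_of_nonneg_right (Real.le_coe_toNNReal K) (norm_nonneg _))

theorem rad_good (h : MM ψ V c C M) : ∀ᵐ x : E n, Good ψ x := by
  have h1 : ∀ᵐ x : E n, ∀ i j, DifferentiableAt ℝ (fun y => hess ψ y i j) x := by
    rw [ae_all_iff]
    intro i
    rw [ae_all_iff]
    intro j
    exact (rad_lipw (h.lip i j)).ae_differentiableAt
  have h2 : ∀ᵐ x : E n, ∀ i j, DifferentiableAt ℝ (fun y => tau ψ y i j) x := by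
    rw [ae_all_iff]
    intro i
    rw [ae_all_iff]
    intro j
    exact (rad_lipw fun x y => rad_tau_lip h x y i j).ae_differentiableAt
  filter_upwards [h1, h2] with x a b
  exact ⟨a, b⟩

/-- third derivatives -/
noncomputable def D3 (ψ : E n → ℝ) (x : E n) (k i j : Fin n) : ℝ := pd k (fun y => hess ψ y i j) x

theorem D3_symm (h : MM ψ V c C M) {x : E n} (hx : Good ψ x) (k i j : Fin n) : D3 ψ x k i j = D3 ψ x i k j :=
  rad_third h.C2 hx.1 k i j

theorem D3_symm' (h : MM ψ V c C M) (x : E n) (k i j : Fin n) : D3 ψ x k i j = D3 ψ x k j i := by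
  unfold D3
  congr 1
  funext y
  exact rad_hess_symm h.C2 y i j

/-- derivative of `τ` -/
theorem rad_dtau (h : MM ψ V c C M) {x : E n} (hx : Good ψ x) (k i j : Fin n) :
    pd k (fun y => tau ψ y i j) x = - ∑ a, ∑ b, tau ψ x i a * D3 ψ x k a b * tau ψ x b j := by
  have h1 : ∀ b, ∑ a, (pd k (fun y => tau ψ y i a) x * hess ψ x a b + tau ψ x i a * D3 ψ x k a b) = 0 := by
    intro b
    have e : (fun y => ∑ a, tau ψ y i a * hess ψ y a b) = fun _ => (1 : Matrix (Fin n) (Fin n) ℝ) i b := by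
      funext y
      have := congrFun (congrFun (rad_tau_mul h y) i) b
      rw [Matrix.mul_apply] at this
      exact this
    have h2 : pd k (fun y => ∑ a, tau ψ y i a * hess ψ y a b) x = 0 := by rw [e, rpd_const]
    rw [rpd_sum fun a _ => (hx.2 i a).fun_mul (hx.1 a b)] at h2
    rw [← h2]
    exact Finset.sum_congr rfl fun a _ => (rpd_mul (hx.2 i a) (hx.1 a b)).symm
  have h3 : ∑ b, (∑ a, (pd k (fun y => tau ψ y i a) x * hess ψ x a b + tau ψ x i a * D3 ψ x k a b)) * tau ψ x b j = 0 :=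
    Finset.sum_eq_zero fun b _ => by rw [h1 b, zero_mul]
  have h4 : ∑ b, (∑ a, pd k (fun y => tau ψ y i a) x * hess ψ x a b) * tau ψ x b j = pd k (fun y => tau ψ y i j) x := by
    simp only [Finset.sum_mul]
    rw [Finset.sum_comm]
    have h5 : ∀ a, ∑ b, pd k (fun y => tau ψ y i a) x * hess ψ x a b * tau ψ x b j =
        pd k (fun y => tau ψ y i a) x * if a = j then 1 else 0 := by
      intro a
      have := congrFun (congrFun (rad_mul_tau h x) a) j
      rw [Matrix.mul_apply, Matrix.one_apply] at this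
      rw [← this, Finset.mul_sum]
      exact Finset.sum_congr rfl fun b _ => by ring
    rw [Finset.sum_congr rfl fun a _ => h5 a]
    simp
  have h6 : ∑ b, (∑ a, tau ψ x i a * D3 ψ x k a b) * tau ψ x b j =
      ∑ a, ∑ b, tau ψ x i a * D3 ψ x k a b * tau ψ x b j := by
    simp only [Finset.sum_mul]
    rw [Finset.sum_comm]
  simp only [Finset.sum_add_distrib, add_mul] at h3
  rw [h4, h6] at h3
  linarith

/-- derivative of the Monge-Ampere equation -/
theorem rad_dV (h : MM ψ V c C M) {x : E n} (hx : Good ψ x) (b : Fin n) :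
    pd b V x = (∑ i, x i * hess ψ x b i) - ∑ i, ∑ j, tau ψ x j i * D3 ψ x b i j := by
  have hV : V = fun y => ((∑ i, y i * pd i ψ y) - ψ y) - Real.log (hess ψ y).det := funext h.ma
  obtain ⟨hd1, hd2⟩ := rad_det hx.1 b
  have hne : (hess ψ x).det ≠ 0 := rad_det_ne h.c_pos (h.lower x)
  have hs : ∀ i ∈ (Finset.univ : Finset (Fin n)), DifferentiableAt ℝ (fun y : E n => y i * pd i ψ y) x := fun i _ =>
    (rad_diff_coord i x).mul (rad_pd_diff h.C2 i x)
  have hψ : DifferentiableAt ℝ ψ x := h.C2.differentiable (by norm_num) x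
  have hlog : DifferentiableAt ℝ (fun y => Real.log (hess ψ y).det) x := hd1.log hne
  have e1 : pd b (fun y => Real.log (hess ψ y).det) x = ∑ i, ∑ j, tau ψ x j i * D3 ψ x b i j := by
    have e2 : pd b (fun y => Real.log (hess ψ y).det) x = ((hess ψ x).det)⁻¹ * pd b (fun y => (hess ψ y).det) x := by
      unfold pd
      rw [fderiv.log hd1 hne]
      simp
    rw [e2, hd2, Finset.mul_sum]
    refine Finset.sum_congr rfl fun i _ => ?_
    rw [Finset.mul_sum]
    refine Finset.sum_congr rfl fun j _ => ?_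
    have e3 : tau ψ x j i = ((hess ψ x).det)⁻¹ * (hess ψ x).adjugate j i := by
      unfold tau
      rw [Matrix.inv_def, Matrix.smul_apply, smul_eq_mul, Ring.inverse_eq_inv']
    rw [e3, mul_assoc]
    rfl
  conv_lhs => rw [hV]
  rw [rpd_sub ((DifferentiableAt.fun_sum hs).fun_sub hψ) hlog, rpd_sub (DifferentiableAt.fun_sum hs) hψ, rpd_sum hs, e1]
  have e4 : ∀ i, pd b (fun y : E n => y i * pd i ψ y) x = (if i = b then 1 else 0) * pd i ψ x + x i * hess ψ x b i := by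
    intro i
    rw [rpd_mul (rad_diff_coord i x) (rad_pd_diff h.C2 i x), rpd_coord]
    rfl
  rw [Finset.sum_congr rfl fun i _ => e4 i, Finset.sum_add_distrib]
  simp

/-- the divergence identity: `-div_μ τ = x` -/
theorem rad_div (h : MM ψ V c C M) {x : E n} (hx : Good ψ x) (k : Fin n) :
    ∑ b, (pd b (fun y => tau ψ y b k) x - tau ψ x b k * pd b V x) = - x k := by
  have h1 : ∀ b, pd b (fun y => tau ψ y b k) x - tau ψ x b k * pd b V x =
      - (∑ a, ∑ d, tau ψ x b a * D3 ψ x b a d * tau ψ x d k) - (∑ i, x i * (tau ψ x k b * hess ψ x b i))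
        + ∑ i, ∑ j, tau ψ x j i * D3 ψ x b i j * tau ψ x b k := by
    intro b
    rw [rad_dtau h hx, rad_dV h hx, mul_sub]
    have e1 : tau ψ x b k * ∑ i, x i * hess ψ x b i = ∑ i, x i * (tau ψ x k b * hess ψ x b i) := by
      rw [Finset.mul_sum]
      exact Finset.sum_congr rfl fun i _ => by rw [rad_tau_symm h x k b]; ring
    have e2 : tau ψ x b k * ∑ i, ∑ j, tau ψ x j i * D3 ψ x b i j =
        ∑ i, ∑ j, tau ψ x j i * D3 ψ x b i j * tau ψ x b k := by
      rw [Finset.mul_sum]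
      refine Finset.sum_congr rfl fun i _ => ?_
      rw [Finset.mul_sum]
      exact Finset.sum_congr rfl fun j _ => by ring
    rw [e1, e2]
    ring
  rw [Finset.sum_congr rfl fun b _ => h1 b, Finset.sum_add_distrib, Finset.sum_sub_distrib, Finset.sum_neg_distrib]
  have h2 : ∑ b, ∑ a, ∑ d, tau ψ x b a * D3 ψ x b a d * tau ψ x d k =
      ∑ b, ∑ i, ∑ j, tau ψ x j i * D3 ψ x b i j * tau ψ x b k := by
    -- rename: `d` is the outer index on the right
    have h3 : ∀ b a d, tau ψ x b a * D3 ψ x b a d * tau ψ x d k = tau ψ x b a * D3 ψ x d a b * tau ψ x d k := by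
      intro b a d
      have : D3 ψ x b a d = D3 ψ x d a b := by
        rw [D3_symm' h x b a d, D3_symm h hx b d a, D3_symm' h x d b a]
      rw [this]
    calc ∑ b, ∑ a, ∑ d, tau ψ x b a * D3 ψ x b a d * tau ψ x d k
        = ∑ b, ∑ a, ∑ d, tau ψ x b a * D3 ψ x d a b * tau ψ x d k :=
          Finset.sum_congr rfl fun b _ => Finset.sum_congr rfl fun a _ => Finset.sum_congr rfl fun d _ => h3 b a d
      _ = ∑ a, ∑ b, ∑ d, tau ψ x b a * D3 ψ x d a b * tau ψ x d k := Finset.sum_comm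
      _ = ∑ a, ∑ d, ∑ b, tau ψ x b a * D3 ψ x d a b * tau ψ x d k :=
          Finset.sum_congr rfl fun a _ => Finset.sum_comm
      _ = ∑ d, ∑ a, ∑ b, tau ψ x b a * D3 ψ x d a b * tau ψ x d k := Finset.sum_comm
  have h5 : ∑ b, ∑ i, x i * (tau ψ x k b * hess ψ x b i) = x k := by
    rw [Finset.sum_comm]
    have h6 : ∀ i, ∑ b, x i * (tau ψ x k b * hess ψ x b i) = x i * if k = i then 1 else 0 := by
      intro i
      have := congrFun (congrFun (rad_tau_mul h x) k) i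
      rw [Matrix.mul_apply, Matrix.one_apply] at this
      rw [← this, Finset.mul_sum]
    rw [Finset.sum_congr rfl fun i _ => h6 i]
    simp
  rw [h2, h5]
  ring

/-- `∑_e τ_{ae} ∂_e τ_{bd}` is symmetric in `a, b` (and in `b, d`) -/
theorem rad_T (h : MM ψ V c C M) {x : E n} (hx : Good ψ x) (a b d : Fin n) :
    ∑ e, tau ψ x a e * pd e (fun y => tau ψ y b d) x = ∑ e, tau ψ x b e * pd e (fun y => tau ψ y a d) x := by
  have h1 : ∀ a b, ∑ e, tau ψ x a e * pd e (fun y => tau ψ y b d) x =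
      - ∑ e, ∑ k, ∑ l, tau ψ x a e * tau ψ x b k * D3 ψ x e k l * tau ψ x l d := by
    intro a b
    rw [← Finset.sum_neg_distrib]
    refine Finset.sum_congr rfl fun e _ => ?_
    rw [rad_dtau h hx, mul_neg, Finset.mul_sum]
    congr 1
    refine Finset.sum_congr rfl fun k _ => ?_
    rw [Finset.mul_sum]
    exact Finset.sum_congr rfl fun l _ => by ring
  rw [h1, h1, neg_inj, Finset.sum_comm]
  refine Finset.sum_congr rfl fun e _ => Finset.sum_congr rfl fun k _ => Finset.sum_congr rfl fun l _ => ?_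
  rw [D3_symm h hx k e l]
  ring

theorem rad_T' (h : MM ψ V c C M) {x : E n} (a b d : Fin n) :
    ∑ e, tau ψ x a e * pd e (fun y => tau ψ y b d) x = ∑ e, tau ψ x a e * pd e (fun y => tau ψ y d b) x := by
  refine Finset.sum_congr rfl fun e _ => ?_
  congr 1
  unfold pd
  congr 2
  funext y
  exact rad_tau_symm h y b d

end MMs

end Vale.Agent.P227.M
end

section

/-! # P227/M: basic facts about the definitions (part 1: derivatives, growth, integrability, `Ex`). -/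

open MeasureTheory
open scoped Topology

namespace Vale.Agent.P227.M

variable {n : ℕ}

/-! ## Derivatives -/

theorem norm_ei (i : Fin n) : ‖(ei i : E n)‖ = 1 := by simp [ei]

theorem ei_apply (i j : Fin n) : (ei i : E n) j = if j = i then 1 else 0 := by
  simp [ei]

theorem sum_smul_ei (v : E n) : ∑ i, v i • (ei i : E n) = v := by
  ext j
  simp [ei_apply]

theorem fderiv_eq_sum (f : E n → ℝ) (x v : E n) : fderiv ℝ f x v = ∑ i, v i * pd i f x := by
  conv_lhs => rw [← sum_smul_ei v]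
  rw [map_sum]
  simp [pd]

theorem abs_coord_le (x : E n) (i : Fin n) : |x i| ≤ ‖x‖ := by
  have h := EuclideanSpace.norm_eq x
  have h1 : |x i| ^ 2 ≤ ∑ j, ‖x j‖ ^ 2 := by
    have := Finset.single_le_sum (f := fun j => ‖x j‖ ^ 2) (fun j _ => sq_nonneg _) (Finset.mem_univ i)
    simpa using this
  rw [h]
  exact Real.le_sqrt_of_sq_le h1

theorem norm_sq_eq_sum (x : E n) : ‖x‖ ^ 2 = ∑ i, x i ^ 2 := by
  rw [EuclideanSpace.norm_sq_eq]
  simp

theorem contDiff_pd {f : E n → ℝ} {k m : WithTop ℕ∞} (hf : ContDiff ℝ m f) (hk : k + 1 ≤ m)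
    (i : Fin n) : ContDiff ℝ k (pd i f) := by
  have h := hf.fderiv_right (m := k) hk
  exact h.clm_apply contDiff_const

theorem contDiff_pd_top {f : E n → ℝ} (hf : ContDiff ℝ (⊤ : ℕ∞) f) (i : Fin n) :
    ContDiff ℝ (⊤ : ℕ∞) (pd i f) := contDiff_pd hf (by simp) i

theorem hess_eq {f : E n → ℝ} (hf : ContDiff ℝ 2 f) (x : E n) (i j : Fin n) :
    hess f x i j = (fderiv ℝ (fderiv ℝ f) x (ei i)) (ei j) := by
  have h1 : DifferentiableAt ℝ (fderiv ℝ f) x :=
    ((hf.fderiv_right (m := 1) (by norm_num)).differentiable (by norm_num)) x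
  unfold hess pd
  rw [fderiv_clm_apply h1 (differentiableAt_const _)]
  simp

theorem hess_symm {f : E n → ℝ} (hf : ContDiff ℝ 2 f) (x : E n) (i j : Fin n) :
    hess f x i j = hess f x j i := by
  rw [hess_eq hf, hess_eq hf]
  have h : IsSymmSndFDerivAt ℝ f x := hf.contDiffAt.isSymmSndFDerivAt (by simp)
  exact h.eq (ei i) (ei j)

theorem hess_isSymm {f : E n → ℝ} (hf : ContDiff ℝ 2 f) (x : E n) : (hess f x).IsSymm := by
  ext i j
  exact hess_symm hf x j i

theorem continuous_hess {f : E n → ℝ} (hf : ContDiff ℝ 2 f) (i j : Fin n) :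
    Continuous (fun x => hess f x i j) := by
  have h1 : ContDiff ℝ 1 (pd j f) := contDiff_pd hf (by norm_num) j
  have h2 : ContDiff ℝ 0 (pd i (pd j f)) := contDiff_pd h1 (by norm_num) i
  exact h2.continuous

theorem contDiff_hess_top {f : E n → ℝ} (hf : ContDiff ℝ (⊤ : ℕ∞) f) (i j : Fin n) :
    ContDiff ℝ (⊤ : ℕ∞) (fun x => hess f x i j) :=
  contDiff_pd_top (contDiff_pd_top hf j) i

theorem hess_eq_iter {f : E n → ℝ} (hf : ContDiff ℝ 2 f) (x : E n) (i j : Fin n) :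
    hess f x i j = iteratedFDeriv ℝ 2 f x ![ei i, ei j] := by
  rw [hess_eq hf, iteratedFDeriv_two_apply]
  simp

theorem abs_hess_le {f : E n → ℝ} (hf : ContDiff ℝ 2 f) {B : ℝ}
    (hB : ∀ x, ‖iteratedFDeriv ℝ 2 f x‖ ≤ B) (x : E n) (i j : Fin n) : |hess f x i j| ≤ B := by
  rw [hess_eq_iter hf]
  have h := (iteratedFDeriv ℝ 2 f x).le_opNorm ![ei i, ei j]
  rw [Fin.prod_univ_two] at h
  simp only [Matrix.cons_val_zero, Matrix.cons_val_one, norm_ei, mul_one] at h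
  rw [← Real.norm_eq_abs]
  exact h.trans (hB x)

theorem qf_hess_eq {f : E n → ℝ} (hf : ContDiff ℝ 2 f) (x v : E n) :
    qf (hess f x) v = (fderiv ℝ (fderiv ℝ f) x v) v := by
  conv_rhs => rw [← sum_smul_ei v]
  unfold qf
  simp only [map_sum, map_smul, sum_apply, smul_apply,
    smul_eq_mul, hess_eq hf, Finset.mul_sum]
  rw [Finset.sum_comm]
  refine Finset.sum_congr rfl fun i _ => Finset.sum_congr rfl fun j _ => ?_
  ring

theorem norm_fderiv_fderiv_le {f : E n → ℝ} {B : ℝ}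
    (hB : ∀ x, ‖iteratedFDeriv ℝ 2 f x‖ ≤ B) (x : E n) : ‖fderiv ℝ (fderiv ℝ f) x‖ ≤ B := by
  have h := norm_iteratedFDeriv_fderiv (𝕜 := ℝ) (f := f) (n := 1) (x := x)
  have h2 := norm_iteratedFDeriv_fderiv (𝕜 := ℝ) (f := fderiv ℝ f) (n := 0) (x := x)
  rw [norm_iteratedFDeriv_zero] at h2
  rw [h2, h]
  exact hB x

theorem norm_fderiv_le {f : E n → ℝ} (hf : ContDiff ℝ 2 f) {B : ℝ}
    (hB : ∀ x, ‖iteratedFDeriv ℝ 2 f x‖ ≤ B) (x : E n) :
    ‖fderiv ℝ f x‖ ≤ ‖fderiv ℝ f 0‖ + B * ‖x‖ := by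
  have h1 : Differentiable ℝ (fderiv ℝ f) :=
    (hf.fderiv_right (m := 1) (by norm_num)).differentiable (by norm_num)
  have h2 := (convex_univ : Convex ℝ (Set.univ : Set (E n))).norm_image_sub_le_of_norm_fderiv_le
    (f := fderiv ℝ f) (C := B) (x := 0) (y := x) (fun z _ => h1 z)
    (fun z _ => norm_fderiv_fderiv_le hB z) (Set.mem_univ _) (Set.mem_univ _)
  rw [sub_zero] at h2
  calc ‖fderiv ℝ f x‖ = ‖fderiv ℝ f 0 + (fderiv ℝ f x - fderiv ℝ f 0)‖ := by rw [add_sub_cancel]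
    _ ≤ ‖fderiv ℝ f 0‖ + ‖fderiv ℝ f x - fderiv ℝ f 0‖ := norm_add_le _ _
    _ ≤ _ := by gcongr

theorem abs_pd_le_norm (f : E n → ℝ) (x : E n) (i : Fin n) : |pd i f x| ≤ ‖fderiv ℝ f x‖ := by
  have h := (fderiv ℝ f x).le_opNorm (ei i)
  rw [norm_ei, mul_one] at h
  exact h

/-- a regular quadratic lower bound -/
theorem lower_quad {f : E n → ℝ} (hf : ContDiff ℝ 2 f) {c : ℝ}
    (hc : ∀ x v, c * ‖v‖ ^ 2 ≤ qf (hess f x) v) (x : E n) :
    f 0 + fderiv ℝ f 0 x + c / 2 * ‖x‖ ^ 2 ≤ f x := by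
  have hd : Differentiable ℝ f := hf.differentiable (by norm_num)
  have h1 : Differentiable ℝ (fderiv ℝ f) :=
    (hf.fderiv_right (m := 1) (by norm_num)).differentiable (by norm_num)
  have hline : ∀ t : ℝ, HasDerivAt (fun t : ℝ => t • x) x t := fun t => by
    simpa using (hasDerivAt_id t).smul_const x
  have hg : ∀ t : ℝ, HasDerivAt (fun t : ℝ => f (t • x)) (fderiv ℝ f (t • x) x) t := fun t =>
    (hd (t • x)).hasFDerivAt.comp_hasDerivAt t (hline t)
  have hg2 : ∀ t : ℝ, HasDerivAt (fun t : ℝ => fderiv ℝ f (t • x) x)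
      ((fderiv ℝ (fderiv ℝ f) (t • x) x) x) t := fun t => by
    have h := (h1 (t • x)).hasFDerivAt.comp_hasDerivAt t (hline t)
    have h' := h.clm_apply (hasDerivAt_const t x)
    simpa using h'
  have hm : MonotoneOn (fun t : ℝ => fderiv ℝ f (t • x) x - c * t * ‖x‖ ^ 2) (Set.Ici 0) := by
    refine monotoneOn_of_deriv_nonneg (convex_Ici 0) ?_ ?_ ?_
    · exact fun t _ => (((hg2 t).sub (((hasDerivAt_id t).const_mul c).mul_const
        (‖x‖ ^ 2))).continuousAt).continuousWithinAt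
    · exact fun t _ => (((hg2 t).sub (((hasDerivAt_id t).const_mul c).mul_const
        (‖x‖ ^ 2))).differentiableAt).differentiableWithinAt
    · intro t _
      have h := ((hg2 t).sub (((hasDerivAt_id t).const_mul c).mul_const (‖x‖ ^ 2))).deriv
      have h' : deriv (fun t : ℝ => fderiv ℝ f (t • x) x - c * t * ‖x‖ ^ 2) t
          = (fderiv ℝ (fderiv ℝ f) (t • x) x) x - c * 1 * ‖x‖ ^ 2 := h
      rw [h', ← qf_hess_eq hf]
      have := hc (t • x) x
      linarith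
  have hm2 : MonotoneOn (fun t : ℝ => f (t • x) - t * fderiv ℝ f 0 x - c / 2 * t ^ 2 * ‖x‖ ^ 2)
      (Set.Ici 0) := by
    have hder : ∀ t : ℝ, HasDerivAt
        (fun t : ℝ => f (t • x) - t * fderiv ℝ f 0 x - c / 2 * t ^ 2 * ‖x‖ ^ 2)
        (fderiv ℝ f (t • x) x - fderiv ℝ f 0 x - c * t * ‖x‖ ^ 2) t := fun t => by
      have h := ((hg t).sub ((hasDerivAt_id t).mul_const (fderiv ℝ f 0 x))).sub
        ((((hasDerivAt_id t).pow 2).const_mul (c / 2)).mul_const (‖x‖ ^ 2))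
      refine h.congr_deriv ?_
      simp only [id_eq, Nat.cast_ofNat, one_mul, mul_one, Nat.add_one_sub_one, pow_one]
      ring
    refine monotoneOn_of_deriv_nonneg (convex_Ici 0)
      (fun t _ => (hder t).continuousAt.continuousWithinAt)
      (fun t _ => (hder t).differentiableAt.differentiableWithinAt) ?_
    intro t ht
    rw [interior_Ici] at ht
    rw [(hder t).deriv]
    have h := hm (Set.mem_Ici.2 le_rfl) (Set.mem_Ici.2 (le_of_lt ht)) (le_of_lt ht)
    simp only [zero_smul, mul_zero, zero_mul, sub_zero] at h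
    linarith
  have h := hm2 (Set.mem_Ici.2 le_rfl) (Set.mem_Ici.2 zero_le_one) zero_le_one
  simp only [zero_smul, zero_mul, one_smul, one_mul, one_pow, mul_one] at h
  norm_num at h
  linarith

/-! ## Functions of polynomial growth -/

/-- continuous functions of polynomial growth -/
def Gr (f : E n → ℝ) : Prop := Continuous f ∧ ∃ (B : ℝ) (k : ℕ), 0 ≤ B ∧ ∀ x, |f x| ≤ B * (1 + ‖x‖) ^ k

theorem one_le_one_add_norm (x : E n) : (1 : ℝ) ≤ 1 + ‖x‖ := by linarith [norm_nonneg x]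

theorem Gr.cont {f : E n → ℝ} (hf : Gr f) : Continuous f := hf.1

theorem Gr.of_bound {f : E n → ℝ} (hf : Continuous f) {B : ℝ} (hB : ∀ x, |f x| ≤ B) : Gr f := by
  refine ⟨hf, |B|, 0, abs_nonneg _, fun x => ?_⟩
  simpa using (hB x).trans (le_abs_self B)

theorem Gr.const (c : ℝ) : Gr (fun _ : E n => c) := Gr.of_bound continuous_const fun _ => le_rfl

theorem Gr.coord (i : Fin n) : Gr (fun x : E n => x i) := by
  refine ⟨by fun_prop, 1, 1, zero_le_one, fun x => ?_⟩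
  have := abs_coord_le x i
  rw [pow_one, one_mul]
  linarith

theorem Gr.norm : Gr (fun x : E n => ‖x‖) := by
  refine ⟨continuous_norm, 1, 1, zero_le_one, fun x => ?_⟩
  rw [abs_norm, pow_one, one_mul]
  linarith

theorem Gr.add {f g : E n → ℝ} (hf : Gr f) (hg : Gr g) : Gr (fun x => f x + g x) := by
  obtain ⟨hfc, B, k, hB, hb⟩ := hf
  obtain ⟨hgc, D, l, hD, hd⟩ := hg
  refine ⟨hfc.add hgc, B + D, k + l, add_nonneg hB hD, fun x => ?_⟩
  have h1 := one_le_one_add_norm x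
  have hk : (1 + ‖x‖) ^ k ≤ (1 + ‖x‖) ^ (k + l) := pow_le_pow_right₀ h1 (Nat.le_add_right _ _)
  have hl : (1 + ‖x‖) ^ l ≤ (1 + ‖x‖) ^ (k + l) := pow_le_pow_right₀ h1 (Nat.le_add_left _ _)
  calc |f x + g x| ≤ |f x| + |g x| := abs_add_le _ _
    _ ≤ B * (1 + ‖x‖) ^ k + D * (1 + ‖x‖) ^ l := add_le_add (hb x) (hd x)
    _ ≤ B * (1 + ‖x‖) ^ (k + l) + D * (1 + ‖x‖) ^ (k + l) := by gcongr
    _ = _ := by ring

theorem Gr.mul {f g : E n → ℝ} (hf : Gr f) (hg : Gr g) : Gr (fun x => f x * g x) := by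
  obtain ⟨hfc, B, k, hB, hb⟩ := hf
  obtain ⟨hgc, D, l, hD, hd⟩ := hg
  refine ⟨hfc.mul hgc, B * D, k + l, mul_nonneg hB hD, fun x => ?_⟩
  rw [abs_mul, pow_add]
  calc |f x| * |g x| ≤ (B * (1 + ‖x‖) ^ k) * (D * (1 + ‖x‖) ^ l) :=
        mul_le_mul (hb x) (hd x) (abs_nonneg _) (mul_nonneg hB (pow_nonneg (by positivity) _))
    _ = _ := by ring

theorem Gr.neg {f : E n → ℝ} (hf : Gr f) : Gr (fun x => -f x) := by
  obtain ⟨hfc, B, k, hB, hb⟩ := hf
  exact ⟨hfc.neg, B, k, hB, fun x => by rw [abs_neg]; exact hb x⟩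

theorem Gr.sub {f g : E n → ℝ} (hf : Gr f) (hg : Gr g) : Gr (fun x => f x - g x) := by
  have h := hf.add hg.neg
  simpa [sub_eq_add_neg] using h

theorem Gr.const_mul {f : E n → ℝ} (hf : Gr f) (c : ℝ) : Gr (fun x => c * f x) :=
  (Gr.const c).mul hf

theorem Gr.pow {f : E n → ℝ} (hf : Gr f) (k : ℕ) : Gr (fun x => f x ^ k) := by
  induction k with
  | zero => simpa using Gr.const (n := n) 1
  | succ k ih =>
    have h := ih.mul hf
    simpa [pow_succ] using h

theorem Gr.abs {f : E n → ℝ} (hf : Gr f) : Gr (fun x => |f x|) := by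
  obtain ⟨hfc, B, k, hB, hb⟩ := hf
  exact ⟨hfc.abs, B, k, hB, fun x => by rw [abs_abs]; exact hb x⟩

theorem Gr.sum {ι : Type*} (s : Finset ι) {f : ι → E n → ℝ} (hf : ∀ i ∈ s, Gr (f i)) :
    Gr (fun x => ∑ i ∈ s, f i x) := by
  classical
  induction s using Finset.induction_on with
  | empty => simpa using Gr.const (n := n) 0
  | insert a s ha ih =>
    have h := (hf a (Finset.mem_insert_self a s)).add
      (ih fun i hi => hf i (Finset.mem_insert_of_mem hi))
    simpa [Finset.sum_insert ha] using h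

theorem Gr.of_test {f : E n → ℝ} (hf : Continuous f) (hs : HasCompactSupport f) : Gr f := by
  obtain ⟨B, hB⟩ := hf.bounded_above_of_compact_support hs
  exact Gr.of_bound hf hB

/-! ## Integrability against `exp (-V)` -/

theorem integrable_gauss {a : ℝ} (ha : 0 < a) :
    Integrable (fun x : E n => Real.exp (-a * ‖x‖ ^ 2)) := by
  have h := GaussianFourier.integrable_cexp_neg_mul_sq_norm_add (V := E n) (b := (a : ℂ))
    (by simpa using ha) 0 0
  have h2 := h.norm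
  refine h2.congr (Filter.Eventually.of_forall fun x => ?_)
  simp only [Complex.norm_exp]
  congr 1
  simp
  left
  norm_cast

theorem growth_le_exp {a : ℝ} (ha : 0 < a) (k : ℕ) :
    ∃ C : ℝ, 0 < C ∧ ∀ r : ℝ, 0 ≤ r → (1 + r) ^ k ≤ C * Real.exp (a * r ^ 2) := by
  refine ⟨k.factorial * Real.exp (1 + 1 / (4 * a)), by positivity, fun r hr => ?_⟩
  have h1 : (1 + r) ^ k / k.factorial ≤ Real.exp (1 + r) :=
    Real.pow_div_factorial_le_exp (1 + r) (by linarith) k
  have h2 : (1 + r) ^ k ≤ k.factorial * Real.exp (1 + r) := by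
    rw [div_le_iff₀ (by positivity)] at h1
    linarith
  have h3 : 1 + r ≤ 1 + 1 / (4 * a) + a * r ^ 2 := by
    have h4 : 0 ≤ a * (r - 1 / (2 * a)) ^ 2 := by positivity
    have h5 : a * (r - 1 / (2 * a)) ^ 2 = a * r ^ 2 - r + 1 / (4 * a) := by
      field_simp
      ring
    linarith
  calc (1 + r) ^ k ≤ k.factorial * Real.exp (1 + r) := h2
    _ ≤ k.factorial * Real.exp (1 + 1 / (4 * a) + a * r ^ 2) := by gcongr
    _ = _ := by rw [Real.exp_add]; ring

namespace Reg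

variable {V : E n → ℝ} {c C : ℝ}

theorem C2 (h : Reg V c C) : ContDiff ℝ 2 V := h.smooth.of_le (by norm_cast)

theorem cont (h : Reg V c C) : Continuous V := h.smooth.continuous

theorem quad_lower (h : Reg V c C) : ∃ A : ℝ, ∀ x, c / 4 * ‖x‖ ^ 2 - A ≤ V x := by
  refine ⟨-V 0 + ‖fderiv ℝ V 0‖ ^ 2 / c, fun x => ?_⟩
  have h1 := lower_quad h.C2 h.lower x
  have h2 : -(‖fderiv ℝ V 0‖ * ‖x‖) ≤ fderiv ℝ V 0 x := by
    have := (fderiv ℝ V 0).le_opNorm x
    rw [Real.norm_eq_abs] at this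
    linarith [neg_abs_le (fderiv ℝ V 0 x)]
  have hc := h.c_pos
  have h3 : ‖fderiv ℝ V 0‖ * ‖x‖ ≤ c / 4 * ‖x‖ ^ 2 + ‖fderiv ℝ V 0‖ ^ 2 / c := by
    have h4 : 0 ≤ (c / 2 * ‖x‖ - ‖fderiv ℝ V 0‖) ^ 2 / c := by positivity
    have h5 : (c / 2 * ‖x‖ - ‖fderiv ℝ V 0‖) ^ 2 / c
        = c / 4 * ‖x‖ ^ 2 - ‖fderiv ℝ V 0‖ * ‖x‖ + ‖fderiv ℝ V 0‖ ^ 2 / c := by
      field_simp
      ring
    linarith
  nlinarith

theorem integrable_gr (h : Reg V c C) {f : E n → ℝ} (hf : Gr f) :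
    Integrable (fun x => f x * Real.exp (-V x)) := by
  obtain ⟨hfc, B, k, hB, hb⟩ := hf
  obtain ⟨A, hA⟩ := h.quad_lower
  have hc := h.c_pos
  obtain ⟨D, hD, hd⟩ := growth_le_exp (a := c / 8) (by positivity) k
  have hi := (integrable_gauss (n := n) (a := c / 8) (by positivity)).const_mul
    (B * D * Real.exp A)
  refine hi.mono' ?_ (Filter.Eventually.of_forall fun x => ?_)
  · exact (hfc.mul (Real.continuous_exp.comp h.cont.neg)).aestronglyMeasurable
  · rw [norm_mul, Real.norm_eq_abs, Real.norm_eq_abs, Real.abs_exp]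
    have h1 := hb x
    have h2 := hd ‖x‖ (norm_nonneg x)
    have h3 : Real.exp (-V x) ≤ Real.exp A * Real.exp (-(c / 4) * ‖x‖ ^ 2) := by
      rw [← Real.exp_add]
      exact Real.exp_le_exp.2 (by have := hA x; linarith)
    calc |f x| * Real.exp (-V x)
        ≤ (B * (D * Real.exp (c / 8 * ‖x‖ ^ 2))) *
          (Real.exp A * Real.exp (-(c / 4) * ‖x‖ ^ 2)) :=
          mul_le_mul (h1.trans (mul_le_mul_of_nonneg_left h2 hB)) h3 (Real.exp_pos _).le
            (by positivity)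
      _ = B * D * Real.exp A * (Real.exp (c / 8 * ‖x‖ ^ 2) * Real.exp (-(c / 4) * ‖x‖ ^ 2)) := by
          ring
      _ = B * D * Real.exp A * Real.exp (-(c / 8) * ‖x‖ ^ 2) := by
          rw [← Real.exp_add]
          congr 2
          ring

theorem integrable_exp (h : Reg V c C) : Integrable (fun x => Real.exp (-V x)) := by
  simpa using h.integrable_gr (Gr.const 1)

theorem Z_pos (h : Reg V c C) : 0 < ∫ x, Real.exp (-V x) := by
  rw [integral_pos_iff_support_of_nonneg (fun x => (Real.exp_pos _).le) h.integrable_exp]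
  have : Function.support (fun x => Real.exp (-V x)) = Set.univ := by
    ext x
    simp [Real.exp_ne_zero]
  rw [this]
  exact isOpen_univ.measure_pos volume ⟨0, trivial⟩

theorem abs_hess (h : Reg V c C) : ∃ B, ∀ x i j, |hess V x i j| ≤ B := by
  obtain ⟨B, hB⟩ := h.bdd 2 le_rfl
  exact ⟨B, fun x i j => abs_hess_le h.C2 hB x i j⟩

end Reg

/-- functions with bounded second derivative have gradients of polynomial growth -/
theorem gr_pd_of_bdd {f : E n → ℝ} (hf : ContDiff ℝ 2 f) {B : ℝ}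
    (hB : ∀ x, ‖iteratedFDeriv ℝ 2 f x‖ ≤ B) (i : Fin n) : Gr (pd i f) := by
  have hB0 : 0 ≤ B := (norm_nonneg _).trans (hB 0)
  refine ⟨(contDiff_pd (k := 1) hf (by norm_num) i).continuous,
    ‖fderiv ℝ f 0‖ + B, 1, by positivity, fun x => ?_⟩
  have h1 := abs_pd_le_norm f x i
  have h2 := norm_fderiv_le hf hB x
  have h3 := norm_nonneg x
  have h4 := norm_nonneg (fderiv ℝ f 0)
  rw [pow_one]
  nlinarith

theorem gr_hess_of_bdd {f : E n → ℝ} (hf : ContDiff ℝ 2 f) {B : ℝ}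
    (hB : ∀ x, ‖iteratedFDeriv ℝ 2 f x‖ ≤ B) (i j : Fin n) : Gr (fun x => hess f x i j) :=
  Gr.of_bound (continuous_hess hf i j) fun x => abs_hess_le hf hB x i j

theorem gr_of_bdd {f : E n → ℝ} (hf : ContDiff ℝ 2 f) {B : ℝ}
    (hB : ∀ x, ‖iteratedFDeriv ℝ 2 f x‖ ≤ B) : Gr f := by
  have hB0 : 0 ≤ B := (norm_nonneg _).trans (hB 0)
  have hd : Differentiable ℝ f := hf.differentiable (by norm_num)
  refine ⟨hf.continuous, |f 0| + (‖fderiv ℝ f 0‖ + B), 2, by positivity, fun x => ?_⟩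
  have h2 := (convex_closedBall (0 : E n) ‖x‖).norm_image_sub_le_of_norm_fderiv_le
    (f := f) (C := ‖fderiv ℝ f 0‖ + B * ‖x‖) (x := 0) (y := x) (fun z _ => hd z)
    (fun z hz => by
      have := norm_fderiv_le hf hB z
      have hz' : ‖z‖ ≤ ‖x‖ := by simpa using hz
      nlinarith) (by simp) (by simp)
  rw [sub_zero, Real.norm_eq_abs] at h2
  have h3 : |f x| ≤ |f 0| + |f x - f 0| := by
    calc |f x| = |f 0 + (f x - f 0)| := by rw [add_sub_cancel]
      _ ≤ _ := abs_add_le _ _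
  have h4 := norm_nonneg x
  have h5 := norm_nonneg (fderiv ℝ f 0)
  have h6 := abs_nonneg (f 0)
  nlinarith [mul_nonneg h5 h4, mul_nonneg hB0 h4, mul_nonneg h6 h4, mul_nonneg h6 (mul_nonneg h4 h4),
    mul_nonneg h5 (mul_nonneg h4 h4), mul_nonneg hB0 (mul_nonneg h4 h4)]

theorem Reg.gr_pd {V : E n → ℝ} {c C : ℝ} (h : Reg V c C) (i : Fin n) : Gr (pd i V) := by
  obtain ⟨B, hB⟩ := h.bdd 2 le_rfl
  exact gr_pd_of_bdd h.C2 hB i

theorem Reg.gr_hess {V : E n → ℝ} {c C : ℝ} (h : Reg V c C) (i j : Fin n) :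
    Gr (fun x => hess V x i j) := by
  obtain ⟨B, hB⟩ := h.bdd 2 le_rfl
  exact gr_hess_of_bdd h.C2 hB i j

theorem Reg.gr {V : E n → ℝ} {c C : ℝ} (h : Reg V c C) : Gr V := by
  obtain ⟨B, hB⟩ := h.bdd 2 le_rfl
  exact gr_of_bdd h.C2 hB

theorem Piece.C2 {W : E n → ℝ} (h : Piece W) : ContDiff ℝ 2 W :=
  h.smooth.of_le (by norm_cast)

theorem Piece.gr_pd {W : E n → ℝ} (h : Piece W) (i : Fin n) : Gr (pd i W) := by
  obtain ⟨B, hB⟩ := h.bdd 2 le_rfl
  exact gr_pd_of_bdd h.C2 hB i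

theorem Piece.gr_hess {W : E n → ℝ} (h : Piece W) (i j : Fin n) : Gr (fun x => hess W x i j) := by
  obtain ⟨B, hB⟩ := h.bdd 2 le_rfl
  exact gr_hess_of_bdd h.C2 hB i j

theorem Piece.gr {W : E n → ℝ} (h : Piece W) : Gr W := by
  obtain ⟨B, hB⟩ := h.bdd 2 le_rfl
  exact gr_of_bdd h.C2 hB

end Vale.Agent.P227.M
end

section

/-! From third derivatives along lines to the Lipschitz bound of the Hessian. -/

open Set

namespace Vale.Agent.P227.M.SC.Pol

variable {E : Type*} [NormedAddCommGroup E] [NormedSpace ℝ E]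

/-- polarisation of a symmetric trilinear form -/
theorem polar_id (T : E →L[ℝ] E →L[ℝ] E →L[ℝ] ℝ) (h12 : ∀ u v w, T u v w = T v u w)
    (h23 : ∀ u v w, T u v w = T u w v) (u v w : E) :
    24 * T u v w = T (u + v + w) (u + v + w) (u + v + w) -
      T (u + v - w) (u + v - w) (u + v - w) - T (u - v + w) (u - v + w) (u - v + w) -
      T (-u + v + w) (-u + v + w) (-u + v + w) := by
  have a1 := h12 v u u
  have a2 := h23 u v u
  have b1 := h12 u v v
  have b2 := h23 v u v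
  have c1 := h12 w u u
  have c2 := h23 u w u
  have d1 := h12 u w w
  have d2 := h23 w u w
  have e1 := h12 w v v
  have e2 := h23 v w v
  have f1 := h12 v w w
  have f2 := h23 w v w
  have g1 := h12 v u w
  have g2 := h23 u v w
  have g3 := h12 u w v
  have g4 := h23 w u v
  have g5 := h12 w v u
  have g6 := h23 v w u
  simp only [map_add, map_sub, map_neg, _root_.add_apply,
    _root_.sub_apply, _root_.neg_apply]
  linarith

theorem polar_bound {T : E →L[ℝ] E →L[ℝ] E →L[ℝ] ℝ} (h12 : ∀ u v w, T u v w = T v u w)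
    (h23 : ∀ u v w, T u v w = T u w v) {K : ℝ} (hT : ∀ v, |T v v v| ≤ K * ‖v‖ ^ 3)
    (u v w : E) : |T u v w| ≤ 9 / 2 * K * ‖u‖ * ‖v‖ * ‖w‖ := by
  have key : ∀ u v w : E, ‖u‖ = 1 → ‖v‖ = 1 → ‖w‖ = 1 → |T u v w| ≤ 9 / 2 * K := by
    intro u v w hu hv hw
    have hK : 0 ≤ K := by
      have := hT u
      rw [hu] at this
      have h0 := abs_nonneg (T u u u)
      linarith
    have hb : ∀ z : E, ‖z‖ ≤ 3 → |T z z z| ≤ K * 27 := by
      intro z hz
      refine (hT z).trans ?_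
      have : ‖z‖ ^ 3 ≤ 3 ^ 3 := pow_le_pow_left₀ (norm_nonneg z) hz 3
      nlinarith
    have n1 : ‖u + v + w‖ ≤ 3 := by
      refine (norm_add₃_le).trans ?_
      rw [hu, hv, hw]; norm_num
    have n2 : ‖u + v - w‖ ≤ 3 := by
      have := norm_add₃_le (a := u) (b := v) (c := -w)
      rw [← sub_eq_add_neg, norm_neg, hu, hv, hw] at this
      linarith
    have n3 : ‖u - v + w‖ ≤ 3 := by
      have := norm_add₃_le (a := u) (b := -v) (c := w)
      rw [← sub_eq_add_neg, norm_neg, hu, hv, hw] at this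
      linarith
    have n4 : ‖-u + v + w‖ ≤ 3 := by
      have := norm_add₃_le (a := -u) (b := v) (c := w)
      rw [norm_neg, hu, hv, hw] at this
      linarith
    have e := polar_id T h12 h23 u v w
    have h1 := abs_le.1 (hb _ n1)
    have h2 := abs_le.1 (hb _ n2)
    have h3 := abs_le.1 (hb _ n3)
    have h4 := abs_le.1 (hb _ n4)
    rw [abs_le]
    constructor <;> linarith [h1.1, h1.2, h2.1, h2.2, h3.1, h3.2, h4.1, h4.2]
  rcases eq_or_ne u 0 with rfl | hu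
  · simp
  rcases eq_or_ne v 0 with rfl | hv
  · simp
  rcases eq_or_ne w 0 with rfl | hw
  · simp
  have hu' := norm_pos_iff.2 hu
  have hv' := norm_pos_iff.2 hv
  have hw' := norm_pos_iff.2 hw
  have nrm : ∀ z : E, z ≠ 0 → ‖(‖z‖⁻¹ : ℝ) • z‖ = 1 := by
    intro z hz
    rw [norm_smul, norm_inv, norm_norm, inv_mul_cancel₀ (norm_ne_zero_iff.2 hz)]
  have h := key _ _ _ (nrm u hu) (nrm v hv) (nrm w hw)
  simp only [map_smul, _root_.smul_apply, smul_eq_mul] at h
  rw [abs_mul, abs_mul, abs_mul, abs_inv, abs_inv, abs_inv, abs_norm, abs_norm, abs_norm] at h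
  have h2 : |T u v w| = ‖u‖ * ‖v‖ * ‖w‖ * (‖u‖⁻¹ * (‖v‖⁻¹ * (‖w‖⁻¹ * |T u v w|))) := by
    field_simp
  have h3 : (‖u‖⁻¹ * (‖v‖⁻¹ * (‖w‖⁻¹ * |T u v w|))) ≤ 9 / 2 * K := by
    linarith [h, mul_comm (‖u‖⁻¹) (‖v‖⁻¹ * (‖w‖⁻¹ * |T u v w|)),
      show ‖w‖⁻¹ * (‖v‖⁻¹ * (‖u‖⁻¹ * |T u v w|)) = ‖u‖⁻¹ * (‖v‖⁻¹ * (‖w‖⁻¹ * |T u v w|)) by ring]
  rw [h2]
  calc ‖u‖ * ‖v‖ * ‖w‖ * (‖u‖⁻¹ * (‖v‖⁻¹ * (‖w‖⁻¹ * |T u v w|)))
      ≤ ‖u‖ * ‖v‖ * ‖w‖ * (9 / 2 * K) := by
        apply mul_le_mul_of_nonneg_left h3; positivity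
    _ = 9 / 2 * K * ‖u‖ * ‖v‖ * ‖w‖ := by ring

/-! ### derivatives along lines -/

theorem line_hasDerivAt (x v : E) (t : ℝ) : HasDerivAt (fun t : ℝ => x + t • v) v t := by
  simpa using ((hasDerivAt_id t).smul_const v).const_add x

theorem line1 {F : Type*} [NormedAddCommGroup F] [NormedSpace ℝ F] {c : E → F}
    (hc : Differentiable ℝ c) (x v : E) (t : ℝ) :
    HasDerivAt (fun t : ℝ => c (x + t • v)) (fderiv ℝ c (x + t • v) v) t :=
  (hc (x + t • v)).hasFDerivAt.comp_hasDerivAt t (line_hasDerivAt x v t)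

theorem eval1 {F : Type*} [NormedAddCommGroup F] [NormedSpace ℝ F] {G : ℝ → E →L[ℝ] F}
    {G' : E →L[ℝ] F} {t : ℝ} (h : HasDerivAt G G' t) (v : E) :
    HasDerivAt (fun s => G s v) (G' v) t := by
  have h1 := h.clm_apply (hasDerivAt_const t v)
  rwa [map_zero, add_zero] at h1

theorem evalF1 {F : Type*} [NormedAddCommGroup F] [NormedSpace ℝ F] {G : E → E →L[ℝ] F}
    {G' : E →L[ℝ] E →L[ℝ] F} {x : E} (h : HasFDerivAt G G' x) (v : E) :
    HasFDerivAt (fun s => G s v) (G'.flip v) x := by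
  have h1 := h.clm_apply (hasFDerivAt_const v x)
  refine h1.congr_fderiv ?_
  ext z
  simp

theorem line2 {c : E → ℝ} (hc : Differentiable ℝ (fderiv ℝ c)) (x v : E) (t : ℝ) :
    HasDerivAt (fun t : ℝ => fderiv ℝ c (x + t • v) v)
      (fderiv ℝ (fderiv ℝ c) (x + t • v) v v) t :=
  eval1 (line1 hc x v t) v

theorem line3 {c : E → ℝ} (hc : Differentiable ℝ (fderiv ℝ (fderiv ℝ c))) (x v : E) (t : ℝ) :
    HasDerivAt (fun t : ℝ => fderiv ℝ (fderiv ℝ c) (x + t • v) v v)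
      (fderiv ℝ (fderiv ℝ (fderiv ℝ c)) (x + t • v) v v v) t := by
  have h1 := line1 (c := fderiv ℝ (fderiv ℝ c)) hc x v t
  have h2 := eval1 h1 v
  exact eval1 h2 v

variable {c : E → ℝ}

theorem cd1 (hc : ContDiff ℝ 3 c) : Differentiable ℝ c := hc.differentiable (by norm_num)

theorem cd2 (hc : ContDiff ℝ 3 c) : ContDiff ℝ 2 (fderiv ℝ c) :=
  hc.fderiv_right (m := 2) (by norm_num)

theorem cd3 (hc : ContDiff ℝ 3 c) : ContDiff ℝ 1 (fderiv ℝ (fderiv ℝ c)) :=
  (cd2 hc).fderiv_right (m := 1) (by norm_num)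

theorem iter1 (hc : ContDiff ℝ 3 c) (x v : E) :
    iteratedDeriv 1 (fun t : ℝ => c (x + t • v)) = fun t => fderiv ℝ c (x + t • v) v := by
  rw [iteratedDeriv_one]
  funext t
  exact (line1 (cd1 hc) x v t).deriv

theorem iter2 (hc : ContDiff ℝ 3 c) (x v : E) :
    iteratedDeriv 2 (fun t : ℝ => c (x + t • v)) =
      fun t => fderiv ℝ (fderiv ℝ c) (x + t • v) v v := by
  rw [iteratedDeriv_succ, iter1 hc]
  funext t
  exact (line2 ((cd2 hc).differentiable (by norm_num)) x v t).deriv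

theorem iter3 (hc : ContDiff ℝ 3 c) (x v : E) :
    iteratedDeriv 3 (fun t : ℝ => c (x + t • v)) =
      fun t => fderiv ℝ (fderiv ℝ (fderiv ℝ c)) (x + t • v) v v v := by
  rw [iteratedDeriv_succ, iter2 hc]
  funext t
  exact (line3 ((cd3 hc).differentiable (by norm_num)) x v t).deriv

/-! ### symmetry -/

theorem hess_symm (hc : ContDiff ℝ 3 c) (x u v : E) :
    fderiv ℝ (fderiv ℝ c) x u v = fderiv ℝ (fderiv ℝ c) x v u :=
  (hc.contDiffAt.isSymmSndFDerivAt (by simp; norm_num)).eq u v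

theorem d3_symm12 (hc : ContDiff ℝ 3 c) (x u v w : E) :
    fderiv ℝ (fderiv ℝ (fderiv ℝ c)) x u v w = fderiv ℝ (fderiv ℝ (fderiv ℝ c)) x v u w := by
  have h := ((cd2 hc).contDiffAt (x := x)).isSymmSndFDerivAt (by simp)
  rw [h.eq u v]

theorem d3_symm23 (hc : ContDiff ℝ 3 c) (x u v w : E) :
    fderiv ℝ (fderiv ℝ (fderiv ℝ c)) x u v w = fderiv ℝ (fderiv ℝ (fderiv ℝ c)) x u w v := by
  have hd : DifferentiableAt ℝ (fderiv ℝ (fderiv ℝ c)) x :=
    (cd3 hc).differentiable (by norm_num) x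
  have h1 := evalF1 (evalF1 hd.hasFDerivAt v) w
  have h2 := evalF1 (evalF1 hd.hasFDerivAt w) v
  have h3 : (fun y => fderiv ℝ (fderiv ℝ c) y v w) = fun y => fderiv ℝ (fderiv ℝ c) y w v :=
    funext fun y => hess_symm hc y v w
  rw [h3] at h1
  exact DFunLike.congr_fun (h1.unique h2) u

/-- Third derivatives along lines bounded by `K` bound the whole third derivative. -/
theorem d3_bound (hc : ContDiff ℝ 3 c) {K : ℝ}
    (h : ∀ x v, |iteratedDeriv 3 (fun t : ℝ => c (x + t • v)) 0| ≤ K * ‖v‖ ^ 3) (x u v w : E) :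
    |fderiv ℝ (fderiv ℝ (fderiv ℝ c)) x u v w| ≤ 9 / 2 * K * ‖u‖ * ‖v‖ * ‖w‖ := by
  refine polar_bound (d3_symm12 hc x) (d3_symm23 hc x) (fun v => ?_) u v w
  have := h x v
  rw [iter3 hc] at this
  simpa using this

theorem lip_of_apply {F : Type*} [NormedAddCommGroup F] [NormedSpace ℝ F] {g : E → F}
    (hg : Differentiable ℝ g) {C : ℝ} (hC : 0 ≤ C) (h : ∀ x u, ‖fderiv ℝ g x u‖ ≤ C * ‖u‖) :
    LipschitzWith (Real.toNNReal C) g := by
  refine lipschitzWith_of_nnnorm_fderiv_le hg fun x => ?_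
  rw [← NNReal.coe_le_coe, coe_nnnorm, Real.coe_toNNReal _ hC]
  exact ContinuousLinearMap.opNorm_le_bound _ hC fun u => h x u

theorem d3_apply_norm (hc : ContDiff ℝ 3 c) {K : ℝ} (hK : 0 ≤ K)
    (h : ∀ x v, |iteratedDeriv 3 (fun t : ℝ => c (x + t • v)) 0| ≤ K * ‖v‖ ^ 3) (x u : E) :
    ‖fderiv ℝ (fderiv ℝ (fderiv ℝ c)) x u‖ ≤ 9 / 2 * K * ‖u‖ := by
  refine ContinuousLinearMap.opNorm_le_bound _ (by positivity) fun v => ?_
  refine ContinuousLinearMap.opNorm_le_bound _ (by positivity) fun w => ?_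
  rw [Real.norm_eq_abs]
  exact d3_bound hc h x u v w

/-- The Hessian is Lipschitz. -/
theorem hess_lipschitz (hc : ContDiff ℝ 3 c) {K : ℝ} (hK : 0 ≤ K)
    (h : ∀ x v, |iteratedDeriv 3 (fun t : ℝ => c (x + t • v)) 0| ≤ K * ‖v‖ ^ 3) :
    LipschitzWith (Real.toNNReal (9 / 2 * K)) (fderiv ℝ (fderiv ℝ c)) := by
  exact lip_of_apply ((cd3 hc).differentiable (by norm_num)) (by positivity)
    (d3_apply_norm hc hK h)

/-- Self-concordance on lines plus an upper bound of the Hessian: the Hessian is Lipschitz. -/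
theorem hess_lipschitz_of_sc (hc : ContDiff ℝ 3 c) {m B : ℝ} (hm : 0 ≤ m) (hB : 0 ≤ B)
    (hub : ∀ x v, iteratedDeriv 2 (fun t : ℝ => c (x + t • v)) 0 ≤ B * ‖v‖ ^ 2)
    (hlb : ∀ x v, 0 ≤ iteratedDeriv 2 (fun t : ℝ => c (x + t • v)) 0)
    (hsc : ∀ x v, (iteratedDeriv 3 (fun t : ℝ => c (x + t • v)) 0) ^ 2 ≤
      4 * m ^ 2 * (iteratedDeriv 2 (fun t : ℝ => c (x + t • v)) 0) ^ 3) :
    LipschitzWith (Real.toNNReal (9 / 2 * (2 * m * (B * Real.sqrt B))))
      (fderiv ℝ (fderiv ℝ c)) := by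
  refine hess_lipschitz hc (by positivity) fun x v => ?_
  have h1 := hsc x v
  have h2 : (iteratedDeriv 2 (fun t : ℝ => c (x + t • v)) 0) ^ 3 ≤ (B * ‖v‖ ^ 2) ^ 3 :=
    pow_le_pow_left₀ (hlb x v) (hub x v) 3
  have h3 : (iteratedDeriv 3 (fun t : ℝ => c (x + t • v)) 0) ^ 2 ≤
      (2 * m * (B * Real.sqrt B) * ‖v‖ ^ 3) ^ 2 := by
    refine h1.trans ?_
    have e : (2 * m * (B * Real.sqrt B) * ‖v‖ ^ 3) ^ 2 = 4 * m ^ 2 * (B * ‖v‖ ^ 2) ^ 3 := by
      have : Real.sqrt B ^ 2 = B := Real.sq_sqrt hB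
      calc (2 * m * (B * Real.sqrt B) * ‖v‖ ^ 3) ^ 2
          = 4 * m ^ 2 * B ^ 2 * Real.sqrt B ^ 2 * ‖v‖ ^ 6 := by ring
        _ = 4 * m ^ 2 * (B * ‖v‖ ^ 2) ^ 3 := by rw [this]; ring
    rw [e]
    exact mul_le_mul_of_nonneg_left h2 (by positivity)
  exact abs_le_of_sq_le_sq h3 (by positivity)

end Vale.Agent.P227.M.SC.Pol
end

section

/-! # Derivatives along lines, scalings and sums for `Reg`, `Nice`, `SelfConc`. -/

open MeasureTheory
open scoped ContDiff

namespace Vale.Agent.P227.M.LK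

variable {n : ℕ}

/-- line derivatives are diagonal values of the iterated derivative -/
theorem iteratedDeriv_line {W : E n → ℝ} (hW : ContDiff ℝ (⊤ : ℕ∞) W) (i : ℕ) (x v : E n) (s : ℝ) :
    iteratedDeriv i (fun t : ℝ => W (x + t • v)) s = iteratedFDeriv ℝ i W (x + s • v) (fun _ => v) := by
  have h1 : (fun t : ℝ => W (x + t • v)) =
      (fun z => W (x + z)) ∘ (ContinuousLinearMap.toSpanSingleton ℝ v) := by
    funext t; simp [ContinuousLinearMap.toSpanSingleton_apply]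
  have h2 : ContDiff ℝ (⊤ : ℕ∞) (fun z => W (x + z)) := hW.comp (contDiff_const.add contDiff_id)
  have hi : (i : WithTop ℕ∞) ≤ (⊤ : ℕ∞) := by exact_mod_cast le_top
  rw [iteratedDeriv_eq_iteratedFDeriv, h1,
    ContinuousLinearMap.iteratedFDeriv_comp_right _ h2 s hi,
    ContinuousMultilinearMap.compContinuousLinearMap_apply]
  have h3 := iteratedFDeriv_comp_add_left (𝕜 := ℝ) (f := W) i x
    ((ContinuousLinearMap.toSpanSingleton ℝ v) s)
  rw [h3]
  simp [ContinuousLinearMap.toSpanSingleton_apply]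

theorem iteratedDeriv_line_zero {W : E n → ℝ} (hW : ContDiff ℝ (⊤ : ℕ∞) W) (i : ℕ) (x v : E n) :
    iteratedDeriv i (fun t : ℝ => W (x + t • v)) 0 = iteratedFDeriv ℝ i W x (fun _ => v) := by
  rw [iteratedDeriv_line hW]; simp

theorem sum_ei (v : E n) : ∑ i, v i • (ei i : E n) = v := by
  ext j
  simp [ei, Pi.single_apply]

/-- the quadratic form of the Hessian matrix is the second derivative -/
theorem qf_hess {W : E n → ℝ} (hW : ContDiff ℝ 2 W) (x v : E n) :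
    qf (hess W x) v = fderiv ℝ (fderiv ℝ W) x v v := by
  have hd : Differentiable ℝ (fderiv ℝ W) :=
    (hW.fderiv_right (m := 1) (by norm_num)).differentiable (by norm_num)
  have h1 : ∀ i j : Fin n, hess W x i j = fderiv ℝ (fderiv ℝ W) x (ei i) (ei j) := by
    intro i j
    unfold hess pd
    rw [fderiv_clm_apply (hd x) (differentiableAt_const _)]
    simp
  unfold qf
  conv_rhs => rw [← sum_ei v]
  simp only [map_sum, map_smul, sum_apply, smul_apply,
    smul_eq_mul, Finset.mul_sum]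
  simp only [h1]
  rw [Finset.sum_comm]
  refine Finset.sum_congr rfl fun i _ => Finset.sum_congr rfl fun j _ => ?_
  ring

theorem iteratedDeriv_two_line {W : E n → ℝ} (hW : ContDiff ℝ (⊤ : ℕ∞) W) (x v : E n) :
    iteratedDeriv 2 (fun t : ℝ => W (x + t • v)) 0 = qf (hess W x) v := by
  rw [iteratedDeriv_line_zero hW, qf_hess (by exact_mod_cast contDiff_infty.1 hW 2), iteratedFDeriv_two_apply]

theorem rpow_three_half {x : ℝ} (hx : 0 ≤ x) : x ^ ((3 : ℝ) / 2) = √x ^ 3 := by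
  rw [Real.sqrt_eq_rpow, ← Real.rpow_natCast, ← Real.rpow_mul hx]
  norm_num

/-- `SelfConc` through the iterated derivatives -/
theorem selfConc_iff {W : E n → ℝ} (hW : ContDiff ℝ (⊤ : ℕ∞) W) (h0 : ∀ x v, 0 ≤ qf (hess W x) v) (κ : ℝ) :
    SelfConc κ W ↔ ∀ x v : E n, |iteratedFDeriv ℝ 3 W x (fun _ => v)| ≤ 2 * κ * √(qf (hess W x) v) ^ 3 := by
  unfold SelfConc
  refine forall_congr' fun x => forall_congr' fun v => ?_
  rw [iteratedDeriv_line_zero hW, iteratedDeriv_two_line hW, rpow_three_half (h0 x v)]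

/-! ### Scaling -/

theorem iteratedFDeriv_scale {W : E n → ℝ} (hW : ContDiff ℝ (⊤ : ℕ∞) W) (α β : ℝ) (i : ℕ) (y : E n)
    (m : Fin i → E n) :
    iteratedFDeriv ℝ i (fun y => α * W (β • y)) y m = α * β ^ i * iteratedFDeriv ℝ i W (β • y) m := by
  have hi : (i : WithTop ℕ∞) ≤ (⊤ : ℕ∞) := by exact_mod_cast le_top
  have h1 : (fun y : E n => α * W (β • y)) = α • (W ∘ (β • ContinuousLinearMap.id ℝ (E n))) := by
    funext y; simp
  have h2 : ContDiff ℝ (⊤ : ℕ∞) (W ∘ (β • ContinuousLinearMap.id ℝ (E n))) :=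
    hW.comp (ContinuousLinearMap.contDiff _)
  rw [h1, iteratedFDeriv_const_smul_apply (h2.of_le hi).contDiffAt,
    ContinuousLinearMap.iteratedFDeriv_comp_right _ hW y hi]
  simp only [smul_apply, ContinuousMultilinearMap.compContinuousLinearMap_apply,
    ContinuousLinearMap.id_apply, smul_eq_mul]
  rw [ContinuousMultilinearMap.map_smul_univ]
  simp [mul_assoc]

theorem contDiff_scale {W : E n → ℝ} (hW : ContDiff ℝ (⊤ : ℕ∞) W) (α β : ℝ) :
    ContDiff ℝ (⊤ : ℕ∞) (fun y : E n => α * W (β • y)) := by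
  exact contDiff_const.mul (hW.comp (contDiff_const_smul β))

theorem qf_scale {W : E n → ℝ} (hW : ContDiff ℝ (⊤ : ℕ∞) W) (α β : ℝ) (y v : E n) :
    qf (hess (fun y => α * W (β • y)) y) v = α * β ^ 2 * qf (hess W (β • y)) v := by
  rw [← iteratedDeriv_two_line (contDiff_scale hW α β), iteratedDeriv_line_zero (contDiff_scale hW α β),
    iteratedFDeriv_scale hW, ← iteratedDeriv_two_line hW, iteratedDeriv_line_zero hW]

theorem Reg.scale {W : E n → ℝ} {c C : ℝ} (h : Reg W c C) {α β : ℝ} (hα : 0 < α) (hβ : β ≠ 0) :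
    Reg (fun y => α * W (β • y)) (α * β ^ 2 * c) (α * β ^ 2 * C) where
  c_pos := by have := h.c_pos; positivity
  smooth := contDiff_scale h.smooth α β
  lower x v := by
    rw [qf_scale h.smooth, mul_assoc (α * β ^ 2)]
    exact mul_le_mul_of_nonneg_left (h.lower _ _) (by positivity)
  upper x v := by
    rw [qf_scale h.smooth, mul_assoc (α * β ^ 2)]
    exact mul_le_mul_of_nonneg_left (h.upper _ _) (by positivity)
  bdd k hk := by
    obtain ⟨B, hB⟩ := h.bdd k hk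
    refine ⟨|α * β ^ k| * |B|, fun x => ?_⟩
    refine ContinuousMultilinearMap.opNorm_le_bound (by positivity) fun m => ?_
    rw [iteratedFDeriv_scale h.smooth, norm_mul, Real.norm_eq_abs, mul_assoc]
    refine mul_le_mul_of_nonneg_left ?_ (abs_nonneg _)
    refine (ContinuousMultilinearMap.le_opNorm _ _).trans ?_
    exact mul_le_mul_of_nonneg_right ((hB _).trans (le_abs_self B)) (by positivity)

theorem qf_nonneg_of_reg {W : E n → ℝ} {c C : ℝ} (h : Reg W c C) (x v : E n) : 0 ≤ qf (hess W x) v :=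
  le_trans (by have := h.c_pos; positivity) (h.lower x v)

theorem SelfConc.scale {W : E n → ℝ} {c C κ : ℝ} (h : Reg W c C) (hs : SelfConc κ W)
    {α β : ℝ} (hα : 0 < α) (hβ : β ≠ 0) :
    SelfConc (κ / √α) (fun y => α * W (β • y)) := by
  have hR := Reg.scale h hα hβ
  rw [selfConc_iff hR.smooth (qf_nonneg_of_reg hR)]
  rw [selfConc_iff h.smooth (qf_nonneg_of_reg h)] at hs
  intro x v
  rw [iteratedFDeriv_scale h.smooth, qf_scale h.smooth, abs_mul]
  have h1 := hs (β • x) v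
  have h2 : √(α * β ^ 2 * qf (hess W (β • x)) v) = √α * |β| * √(qf (hess W (β • x)) v) := by
    rw [Real.sqrt_mul (by positivity), Real.sqrt_mul hα.le, Real.sqrt_sq_eq_abs]
  rw [h2]
  have h3 : 0 < √α := Real.sqrt_pos.2 hα
  have h4 : √α ^ 2 = α := Real.sq_sqrt hα.le
  have h5 : 2 * (κ / √α) * (√α * |β| * √(qf (hess W (β • x)) v)) ^ 3
      = |α * β ^ 3| * (2 * κ * √(qf (hess W (β • x)) v) ^ 3) := by
    rw [abs_mul, abs_of_pos hα, abs_pow]
    have h6 : √α ^ 3 / √α = α := by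
      rw [pow_succ, h4]; field_simp
    calc _ = 2 * κ * (√α ^ 3 / √α) * |β| ^ 3 * √(qf (hess W (β • x)) v) ^ 3 := by ring
      _ = _ := by rw [h6]; ring
  rw [h5]
  exact mul_le_mul_of_nonneg_left h1 (abs_nonneg _)

end Vale.Agent.P227.M.LK
end

section

/-! # P227/M/MM: quadratic potentials are nice and self-concordant; `StmtStart`. -/

open MeasureTheory
open scoped Topology

namespace Vale.Agent.P227.M.MM.Start102

variable {n : ℕ}

theorem hasFDerivAt_quad (a : ℝ) (x : E n) :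
    HasFDerivAt (fun x : E n => a / 2 * ‖x‖ ^ 2) (a • innerSL ℝ x) x := by
  have h := ((hasStrictFDerivAt_norm_sq x).hasFDerivAt).const_mul (a / 2)
  refine h.congr_fderiv ?_
  ext v
  simp
  ring

theorem fderiv_quad (a : ℝ) :
    fderiv ℝ (fun x : E n => a / 2 * ‖x‖ ^ 2) = fun x => (a • innerSL ℝ : E n →L[ℝ] E n →L[ℝ] ℝ) x := by
  funext x
  rw [(hasFDerivAt_quad a x).fderiv]
  rfl

theorem contDiff_quad (a : ℝ) : ContDiff ℝ (⊤ : ℕ∞) (fun x : E n => a / 2 * ‖x‖ ^ 2) :=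
  contDiff_const.mul (contDiff_norm_sq ℝ)

theorem pd_quad (a : ℝ) (j : Fin n) :
    pd j (fun x : E n => a / 2 * ‖x‖ ^ 2) = fun x => a * x j := by
  funext x
  rw [pd, (hasFDerivAt_quad a x).fderiv]
  simp [ei, PiLp.inner_apply]

theorem hess_quad (a : ℝ) (x : E n) :
    hess (fun x : E n => a / 2 * ‖x‖ ^ 2) x = a • (1 : Matrix (Fin n) (Fin n) ℝ) := by
  ext i j
  rw [hess, pd_quad]
  have h : HasFDerivAt (fun x : E n => a * x j) (a • (EuclideanSpace.proj j : E n →L[ℝ] ℝ)) x :=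
    ((EuclideanSpace.proj j : E n →L[ℝ] ℝ).hasFDerivAt).const_mul a
  rw [pd, h.fderiv]
  by_cases hij : i = j
  · subst hij
    simp [ei]
  · simp [ei, hij, Ne.symm hij]

theorem qf_quad (a : ℝ) (x v : E n) :
    qf (hess (fun x : E n => a / 2 * ‖x‖ ^ 2) x) v = a * ‖v‖ ^ 2 := by
  rw [hess_quad, qf, EuclideanSpace.norm_sq_eq, Finset.mul_sum]
  refine Finset.sum_congr rfl fun i _ => ?_
  rw [Finset.sum_eq_single i]
  · simp
    ring
  · intro j _ hj
    simp [Matrix.one_apply_ne (Ne.symm hj)]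
  · simp

theorem bdd_quad (a : ℝ) (k : ℕ) (hk : 2 ≤ k) :
    ∃ B : ℝ, ∀ x, ‖iteratedFDeriv ℝ k (fun x : E n => a / 2 * ‖x‖ ^ 2) x‖ ≤ B := by
  obtain ⟨j, rfl⟩ := Nat.exists_eq_add_of_le' hk
  have h1 : ∀ x, ‖iteratedFDeriv ℝ (j + 2) (fun x : E n => a / 2 * ‖x‖ ^ 2) x‖
      = ‖iteratedFDeriv ℝ j (fun _ : E n => (a • innerSL ℝ : E n →L[ℝ] E n →L[ℝ] ℝ)) x‖ := by
    intro x
    rw [← norm_iteratedFDeriv_fderiv, fderiv_quad, ← norm_iteratedFDeriv_fderiv]
    congr 2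
    funext y
    exact (a • innerSL ℝ : E n →L[ℝ] E n →L[ℝ] ℝ).fderiv
  rcases Nat.eq_zero_or_pos j with rfl | hj
  · refine ⟨‖(a • innerSL ℝ : E n →L[ℝ] E n →L[ℝ] ℝ)‖, fun x => ?_⟩
    rw [h1, norm_iteratedFDeriv_zero]
  · refine ⟨0, fun x => ?_⟩
    rw [h1, iteratedFDeriv_const_of_ne hj.ne']
    simp

theorem nice_quad {a b : ℝ} (ha : 0 < a) (hab : a ≤ b) :
    Nice (fun x : E n => a / 2 * ‖x‖ ^ 2) a b where
  c_pos := ha
  smooth := contDiff_quad a
  lower := fun x v => (qf_quad a x v).ge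
  upper := fun x v => by
    rw [qf_quad]
    exact mul_le_mul_of_nonneg_right hab (sq_nonneg _)
  bdd := bdd_quad a
  even := fun x => by simp

theorem line_quad (a : ℝ) (x v : E n) :
    (fun t : ℝ => a / 2 * ‖x + t • v‖ ^ 2)
      = fun t => a / 2 * ‖x‖ ^ 2 + (a * inner ℝ x v) * t + (a / 2 * ‖v‖ ^ 2) * t ^ 2 := by
  funext t
  rw [norm_add_sq_real, inner_smul_right, norm_smul, mul_pow, Real.norm_eq_abs, sq_abs]
  ring

theorem deriv1_quad (a : ℝ) (x v : E n) :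
    deriv (fun t : ℝ => a / 2 * ‖x + t • v‖ ^ 2)
      = fun t => a * inner ℝ x v + (a * ‖v‖ ^ 2) * t := by
  rw [line_quad]
  funext t
  have h1 : HasDerivAt (fun t : ℝ => a / 2 * ‖x‖ ^ 2 + (a * inner ℝ x v) * t
      + (a / 2 * ‖v‖ ^ 2) * t ^ 2) (0 + (a * inner ℝ x v) * 1 + (a / 2 * ‖v‖ ^ 2) * (2 * t ^ 1 * 1)) t := by
    refine (((hasDerivAt_const t _).add ((hasDerivAt_id t).const_mul _)).add
      (((hasDerivAt_id t).pow 2).const_mul _)).congr_deriv ?_
    simp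
  rw [h1.deriv]
  ring

theorem deriv2_quad (a : ℝ) (x v : E n) :
    deriv (deriv (fun t : ℝ => a / 2 * ‖x + t • v‖ ^ 2)) = fun _ => a * ‖v‖ ^ 2 := by
  rw [deriv1_quad]
  funext t
  have h1 : HasDerivAt (fun t : ℝ => a * inner ℝ x v + (a * ‖v‖ ^ 2) * t)
      (0 + (a * ‖v‖ ^ 2) * 1) t :=
    (hasDerivAt_const t _).add ((hasDerivAt_id t).const_mul _)
  rw [h1.deriv]
  ring

theorem iter3_quad (a : ℝ) (x v : E n) :
    iteratedDeriv 3 (fun t : ℝ => a / 2 * ‖x + t • v‖ ^ 2) = fun _ => 0 := by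
  rw [show (3 : ℕ) = 2 + 1 from rfl, iteratedDeriv_succ, show (2 : ℕ) = 1 + 1 from rfl,
    iteratedDeriv_succ, iteratedDeriv_one, deriv2_quad]
  funext t
  simp

theorem iter2_quad (a : ℝ) (x v : E n) :
    iteratedDeriv 2 (fun t : ℝ => a / 2 * ‖x + t • v‖ ^ 2) = fun _ => a * ‖v‖ ^ 2 := by
  rw [show (2 : ℕ) = 1 + 1 from rfl, iteratedDeriv_succ, iteratedDeriv_one, deriv2_quad]

theorem selfConc_quad {a m : ℝ} (ha : 0 ≤ a) (hm : 0 ≤ m) :
    SelfConc m (fun x : E n => a / 2 * ‖x‖ ^ 2) := by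
  intro x v
  rw [iter3_quad, iter2_quad]
  simp only [abs_zero]
  positivity

theorem stmtStart : StmtStart := by
  intro n _ k c₀ C₀ m hk hc hcC hm
  have ha : 0 < c₀ * (k + 1) / k := by positivity
  refine ⟨nice_quad ha ?_, selfConc_quad ha.le hm, by simp⟩
  gcongr

end Vale.Agent.P227.M.MM.Start102
end

section

/-! # P227/M/SC2: target of the flow part of block SC (helper204, on 981's recommendation).

`heat W P x = - log ∫ exp (-W (x + P z) - ‖z‖² / 2) dz` (unnormalised Gaussian average, covariance `P Pᵀ`;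
`√s` is inside `P`). `StmtHeat` + the one-dimensional third moment lemma give `StmtSC` (`SC2/MargN.lean`). -/

open MeasureTheory

namespace Vale.Agent.P227.M

/-- unnormalised Gaussian average of `e^{-W}` in the directions of `range P` -/
noncomputable def heat {n : ℕ} (W : E n → ℝ) (P : E n →L[ℝ] E n) (x : E n) : ℝ :=
  -Real.log (∫ z : E n, Real.exp (-W (x + P z) - ‖z‖ ^ 2 / 2))

/-- the flow keeps the self-concordance constant -/
def StmtHeat : Prop := ∀ (n : ℕ) (W : E n → ℝ) (c C κ : ℝ), Reg W c C → 0 ≤ κ → κ ≤ 1 →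
  SelfConc κ W → ∀ P : E n →L[ℝ] E n, SelfConc κ (heat W P)

end Vale.Agent.P227.M
end

section

/-! # P227/M/SC2: `heat U P` is three times differentiable along lines (helper204). -/

open MeasureTheory Filter Topology

namespace Vale.Agent.P227.M.HL

variable {n : ℕ}

/-- line derivative of order `i` -/
noncomputable def g (U : E n → ℝ) (v : E n) (i : ℕ) (x : E n) : ℝ :=
  iteratedFDeriv ℝ i U x (fun _ => v)

theorem hasDerivAt_g {U : E n → ℝ} (hU : ContDiff ℝ (⊤ : ℕ∞) U) (v : E n) (i : ℕ) (x : E n) (s : ℝ) :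
    HasDerivAt (fun t : ℝ => g U v i (x + t • v)) (g U v (i + 1) (x + s • v)) s := by
  have h1 : (fun t : ℝ => g U v i (x + t • v)) = iteratedDeriv i (fun t : ℝ => U (x + t • v)) := by
    funext t; rw [LK.iteratedDeriv_line hU]; rfl
  have hl : ContDiff ℝ (⊤ : ℕ∞) (fun t : ℝ => U (x + t • v)) :=
    hU.comp (contDiff_const.add (contDiff_id.smul contDiff_const))
  have h2 : Differentiable ℝ (iteratedDeriv i (fun t : ℝ => U (x + t • v))) :=
    hl.differentiable_iteratedDeriv i (by exact_mod_cast (WithTop.coe_lt_top i))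
  rw [h1]
  have h3 := (h2 s).hasDerivAt
  rwa [← iteratedDeriv_succ, LK.iteratedDeriv_line hU] at h3

theorem g_zero (U : E n → ℝ) (v : E n) : g U v 0 = U := by
  funext x; simp [g]

theorem cont_g {U : E n → ℝ} (hU : ContDiff ℝ (⊤ : ℕ∞) U) (v : E n) (i : ℕ) : Continuous (g U v i) := by
  have h1 : Continuous (iteratedFDeriv ℝ i U) :=
    hU.continuous_iteratedFDeriv (by exact_mod_cast le_top)
  exact (ContinuousMultilinearMap.apply ℝ (fun _ : Fin i => E n) ℝ (fun _ => v)).continuous.comp h1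

theorem gr_g {U : E n → ℝ} {c C : ℝ} (h : Reg U c C) (v : E n) (i : ℕ) (hi : 1 ≤ i) :
    Gr (g U v i) := by
  rcases Nat.lt_or_ge i 2 with h2 | h2
  · have hi1 : i = 1 := by omega
    subst hi1
    obtain ⟨B, hB⟩ := h.bdd 2 le_rfl
    have hB0 : 0 ≤ B := (norm_nonneg _).trans (hB 0)
    refine ⟨cont_g h.smooth v 1, (‖fderiv ℝ U 0‖ + B) * ‖v‖, 1, by positivity, fun x => ?_⟩
    have h3 := norm_fderiv_le h.C2 hB x
    have h4 : |g U v 1 x| ≤ ‖fderiv ℝ U x‖ * ‖v‖ := by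
      unfold g
      rw [iteratedFDeriv_one_apply]
      exact (fderiv ℝ U x).le_opNorm v
    have h5 := norm_nonneg x
    have h6 := norm_nonneg (fderiv ℝ U 0)
    have h7 : ‖fderiv ℝ U x‖ ≤ (‖fderiv ℝ U 0‖ + B) * (1 + ‖x‖) := by nlinarith
    calc |g U v 1 x| ≤ ‖fderiv ℝ U x‖ * ‖v‖ := h4
      _ ≤ ((‖fderiv ℝ U 0‖ + B) * (1 + ‖x‖)) * ‖v‖ := by gcongr
      _ = _ := by ring
  · obtain ⟨B, hB⟩ := h.bdd i h2
    refine Gr.of_bound (cont_g h.smooth v i) (B := B * ‖v‖ ^ i) fun x => ?_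
    have h3 := (iteratedFDeriv ℝ i U x).le_opNorm (fun _ => v)
    simp only [Finset.prod_const, Finset.card_univ, Fintype.card_fin] at h3
    exact h3.trans (mul_le_mul_of_nonneg_right (hB x) (by positivity))

/-- the four weights -/
noncomputable def q (U : E n → ℝ) (v : E n) : ℕ → E n → ℝ
  | 0 => fun _ => 1
  | 1 => fun x => -(g U v 1 x)
  | 2 => fun x => (g U v 1 x) ^ 2 - g U v 2 x
  | 3 => fun x => -(g U v 1 x) ^ 3 + 3 * (g U v 1 x * g U v 2 x) - g U v 3 x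
  | _ => fun _ => 0

theorem q_zero (U : E n → ℝ) (v x : E n) : q U v 0 x = 1 := rfl
theorem q_one (U : E n → ℝ) (v x : E n) : q U v 1 x = -(g U v 1 x) := rfl
theorem q_two (U : E n → ℝ) (v x : E n) : q U v 2 x = (g U v 1 x) ^ 2 - g U v 2 x := rfl
theorem q_three (U : E n → ℝ) (v x : E n) :
    q U v 3 x = -(g U v 1 x) ^ 3 + 3 * (g U v 1 x * g U v 2 x) - g U v 3 x := rfl

theorem gr_q {U : E n → ℝ} {c C : ℝ} (h : Reg U c C) (v : E n) (i : ℕ) : Gr (q U v i) := by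
  have h1 := gr_g h v 1 le_rfl
  have h2 := gr_g h v 2 (by norm_num)
  have h3 := gr_g h v 3 (by norm_num)
  match i with
  | 0 => exact Gr.const 1
  | 1 => exact h1.neg
  | 2 => exact (h1.pow 2).sub h2
  | 3 => exact (((h1.pow 3).neg).add ((h1.mul h2).const_mul 3)).sub h3
  | (k + 4) => exact Gr.const 0

/-- the weighted function -/
noncomputable def f (U : E n → ℝ) (v : E n) (i : ℕ) (x : E n) : ℝ := q U v i x * Real.exp (-U x)

theorem hasDerivAt_f {U : E n → ℝ} (hU : ContDiff ℝ (⊤ : ℕ∞) U) (v : E n) (i : ℕ) (hi : i < 3)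
    (x : E n) (s : ℝ) :
    HasDerivAt (fun t : ℝ => f U v i (x + t • v)) (f U v (i + 1) (x + s • v)) s := by
  have d0 := hasDerivAt_g hU v 0 x s
  rw [g_zero] at d0
  have d1 := hasDerivAt_g hU v 1 x s
  have d2 := hasDerivAt_g hU v 2 x s
  simp only [zero_add, Nat.reduceAdd] at d0 d1 d2
  have de : HasDerivAt (fun t : ℝ => Real.exp (-U (x + t • v)))
      (Real.exp (-U (x + s • v)) * (-(g U v 1 (x + s • v)))) s := d0.neg.exp
  interval_cases i
  · refine HasDerivAt.congr_deriv (f := fun t : ℝ => f U v 0 (x + t • v)) ?_ (?_ :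
      Real.exp (-U (x + s • v)) * (-(g U v 1 (x + s • v))) = _)
    · simpa only [f, q_zero, one_mul] using de
    · simp only [f, zero_add, q_one]; ring
  · have h1 := (d1.neg).mul de
    refine HasDerivAt.congr_deriv (f := fun t : ℝ => f U v 1 (x + t • v)) h1 ?_
    simp only [f, Nat.reduceAdd, q_two, Pi.neg_apply]; ring
  · have h1 := ((d1.pow 2).sub d2).mul de
    refine HasDerivAt.congr_deriv (f := fun t : ℝ => f U v 2 (x + t • v)) h1 ?_
    simp only [f, Nat.reduceAdd, q_three]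
    norm_num
    ring

theorem cont_f {U : E n → ℝ} {c C : ℝ} (h : Reg U c C) (v : E n) (i : ℕ) : Continuous (f U v i) :=
  (gr_q h v i).cont.mul (Real.continuous_exp.comp h.cont.neg)

theorem bdd_mul_exp {U : E n → ℝ} {c C : ℝ} (h : Reg U c C) {p : E n → ℝ} (hp : Gr p) :
    ∃ K : ℝ, 0 ≤ K ∧ ∀ x, |p x * Real.exp (-U x)| ≤ K := by
  obtain ⟨-, B, k, hB, hb⟩ := hp
  obtain ⟨A, hA⟩ := h.quad_lower
  have hc := h.c_pos
  obtain ⟨D, hD, hd⟩ := growth_le_exp (a := c / 4) (by positivity) k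
  refine ⟨B * D * Real.exp A, by positivity, fun x => ?_⟩
  rw [abs_mul, Real.abs_exp]
  have h3 : Real.exp (-U x) ≤ Real.exp A * Real.exp (-(c / 4) * ‖x‖ ^ 2) := by
    rw [← Real.exp_add]
    exact Real.exp_le_exp.2 (by have := hA x; linarith)
  calc |p x| * Real.exp (-U x)
      ≤ (B * (D * Real.exp (c / 4 * ‖x‖ ^ 2))) * (Real.exp A * Real.exp (-(c / 4) * ‖x‖ ^ 2)) :=
        mul_le_mul ((hb x).trans (mul_le_mul_of_nonneg_left (hd ‖x‖ (norm_nonneg x)) hB)) h3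
          (Real.exp_pos _).le (by positivity)
    _ = B * D * Real.exp A * (Real.exp (c / 4 * ‖x‖ ^ 2) * Real.exp (-(c / 4) * ‖x‖ ^ 2)) := by ring
    _ = B * D * Real.exp A := by
        rw [← Real.exp_add, show c / 4 * ‖x‖ ^ 2 + -(c / 4) * ‖x‖ ^ 2 = 0 by ring, Real.exp_zero,
          mul_one]

/-- Gaussian weight -/
theorem integrable_gw : Integrable (fun z : E n => Real.exp (-‖z‖ ^ 2 / 2)) := by
  have := integrable_gauss (n := n) (a := 1 / 2) (by norm_num)
  refine this.congr (Eventually.of_forall fun z => ?_)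
  simp only
  congr 1
  ring

/-- smoothed functions -/
noncomputable def H (U : E n → ℝ) (v : E n) (P : E n →L[ℝ] E n) (i : ℕ) (x : E n) : ℝ :=
  ∫ z : E n, f U v i (x + P z) * Real.exp (-‖z‖ ^ 2 / 2)

theorem integrable_H {U : E n → ℝ} {c C : ℝ} (h : Reg U c C) (v : E n) (P : E n →L[ℝ] E n) (i : ℕ)
    (x : E n) : Integrable (fun z : E n => f U v i (x + P z) * Real.exp (-‖z‖ ^ 2 / 2)) := by
  obtain ⟨K, hK, hb⟩ := bdd_mul_exp h (gr_q h v i)
  have hc := cont_f h v i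
  refine (integrable_gw.const_mul K).mono' ?_ (Eventually.of_forall fun z => ?_)
  · have : Continuous (fun z : E n => f U v i (x + P z) * Real.exp (-‖z‖ ^ 2 / 2)) := by fun_prop
    exact this.aestronglyMeasurable
  · rw [norm_mul, Real.norm_eq_abs, Real.norm_eq_abs, Real.abs_exp]
    exact mul_le_mul_of_nonneg_right (hb _) (Real.exp_pos _).le

theorem hasDerivAt_H {U : E n → ℝ} {c C : ℝ} (h : Reg U c C) (v : E n) (P : E n →L[ℝ] E n) (i : ℕ)
    (hi : i < 3) (x : E n) (s : ℝ) :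
    HasDerivAt (fun t : ℝ => H U v P i (x + t • v)) (H U v P (i + 1) (x + s • v)) s := by
  obtain ⟨K, hK, hb⟩ := bdd_mul_exp h (gr_q h v (i + 1))
  have hcc := cont_f h v i
  have key := hasDerivAt_integral_of_dominated_loc_of_deriv_le (μ := (volume : Measure (E n)))
    (F := fun (t : ℝ) (z : E n) => f U v i (x + t • v + P z) * Real.exp (-‖z‖ ^ 2 / 2))
    (F' := fun (t : ℝ) (z : E n) => f U v (i + 1) (x + t • v + P z) * Real.exp (-‖z‖ ^ 2 / 2))
    (x₀ := s) (s := Set.univ) (bound := fun z => K * Real.exp (-‖z‖ ^ 2 / 2)) Filter.univ_mem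
    (Eventually.of_forall fun t => (integrable_H h v P i (x + t • v)).aestronglyMeasurable)
    (integrable_H h v P i (x + s • v))
    (integrable_H h v P (i + 1) (x + s • v)).aestronglyMeasurable
    (Eventually.of_forall fun z t _ => by
      rw [norm_mul, Real.norm_eq_abs, Real.norm_eq_abs, Real.abs_exp]
      exact mul_le_mul_of_nonneg_right (hb _) (Real.exp_pos _).le)
    (integrable_gw.const_mul K)
    (Eventually.of_forall fun z t _ => by
      have h1 := (hasDerivAt_f h.smooth v i hi (x + P z) t).mul_const (Real.exp (-‖z‖ ^ 2 / 2))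
      have e : ∀ t : ℝ, x + P z + t • v = x + t • v + P z := fun t => by abel
      simpa only [e] using h1)
  exact key.2

theorem H_zero_pos {U : E n → ℝ} {c C : ℝ} (h : Reg U c C) (v : E n) (P : E n →L[ℝ] E n) (x : E n) :
    0 < H U v P 0 x := by
  have hi := integrable_H h v P 0 x
  unfold H
  rw [integral_pos_iff_support_of_nonneg (fun z => by
    simp only [f, q_zero, one_mul]; positivity) hi]
  have : Function.support (fun z : E n => f U v 0 (x + P z) * Real.exp (-‖z‖ ^ 2 / 2)) = Set.univ := by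
    ext z
    simp [f, q_zero, Real.exp_ne_zero]
  rw [this]
  exact isOpen_univ.measure_pos volume ⟨0, trivial⟩

theorem exp_neg_heat (U : E n → ℝ) (v : E n) (P : E n →L[ℝ] E n) (x : E n) :
    (∫ z : E n, Real.exp (-U (x + P z) - ‖z‖ ^ 2 / 2)) = H U v P 0 x := by
  unfold H
  refine integral_congr_ae (Eventually.of_forall fun z => ?_)
  simp only [f, q_zero, one_mul]
  rw [← Real.exp_add]
  congr 1
  ring

theorem heat_eq (U : E n → ℝ) (v : E n) (P : E n →L[ℝ] E n) (x : E n) :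
    heat U P x = -Real.log (H U v P 0 x) := by
  rw [heat, exp_neg_heat U v P x]

/-- normalised -/
noncomputable def r (U : E n → ℝ) (v : E n) (P : E n →L[ℝ] E n) (i : ℕ) (x : E n) : ℝ :=
  H U v P i x / H U v P 0 x

theorem hasDerivAt_r {U : E n → ℝ} {c C : ℝ} (h : Reg U c C) (v : E n) (P : E n →L[ℝ] E n) (i : ℕ)
    (hi : i < 3) (x : E n) (s : ℝ) :
    HasDerivAt (fun t : ℝ => r U v P i (x + t • v))
      (r U v P (i + 1) (x + s • v) - r U v P i (x + s • v) * r U v P 1 (x + s • v)) s := by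
  have h0 := (H_zero_pos h v P (x + s • v)).ne'
  have := (hasDerivAt_H h v P i hi x s).div (hasDerivAt_H h v P 0 (by norm_num) x s) h0
  refine HasDerivAt.congr_deriv (f := fun t : ℝ => r U v P i (x + t • v)) this ?_
  unfold r
  simp only [zero_add]
  field_simp

/-- first, second, third line derivative of `heat` -/
noncomputable def w1 (U : E n → ℝ) (v : E n) (P : E n →L[ℝ] E n) (x : E n) : ℝ := -r U v P 1 x

noncomputable def w2 (U : E n → ℝ) (v : E n) (P : E n →L[ℝ] E n) (x : E n) : ℝ :=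
  -r U v P 2 x + r U v P 1 x ^ 2

noncomputable def w3 (U : E n → ℝ) (v : E n) (P : E n →L[ℝ] E n) (x : E n) : ℝ :=
  -r U v P 3 x + 3 * (r U v P 1 x * r U v P 2 x) - 2 * r U v P 1 x ^ 3

theorem hasDerivAt_heat {U : E n → ℝ} {c C : ℝ} (h : Reg U c C) (v : E n) (P : E n →L[ℝ] E n)
    (x : E n) (s : ℝ) :
    HasDerivAt (fun t : ℝ => heat U P (x + t • v)) (w1 U v P (x + s • v)) s := by
  have h1 := ((hasDerivAt_H h v P 0 (by norm_num) x s).log (H_zero_pos h v P (x + s • v)).ne').neg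
  simp only [heat_eq U v P]
  exact h1

theorem hasDerivAt_w1 {U : E n → ℝ} {c C : ℝ} (h : Reg U c C) (v : E n) (P : E n →L[ℝ] E n)
    (x : E n) (s : ℝ) :
    HasDerivAt (fun t : ℝ => w1 U v P (x + t • v)) (w2 U v P (x + s • v)) s := by
  refine HasDerivAt.congr_deriv (f := fun t : ℝ => w1 U v P (x + t • v))
    (hasDerivAt_r h v P 1 (by norm_num) x s).neg ?_
  unfold w2
  ring

theorem hasDerivAt_w2 {U : E n → ℝ} {c C : ℝ} (h : Reg U c C) (v : E n) (P : E n →L[ℝ] E n)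
    (x : E n) (s : ℝ) :
    HasDerivAt (fun t : ℝ => w2 U v P (x + t • v)) (w3 U v P (x + s • v)) s := by
  refine HasDerivAt.congr_deriv (f := fun t : ℝ => w2 U v P (x + t • v))
    ((hasDerivAt_r h v P 2 (by norm_num) x s).neg.add
      ((hasDerivAt_r h v P 1 (by norm_num) x s).pow 2)) ?_
  unfold w3
  simp only [Nat.reduceAdd, Nat.add_one_sub_one, Nat.cast_ofNat, pow_one]
  ring

theorem iteratedDeriv_two_heat {U : E n → ℝ} {c C : ℝ} (h : Reg U c C) (v : E n) (P : E n →L[ℝ] E n)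
    (x : E n) : iteratedDeriv 2 (fun t : ℝ => heat U P (x + t • v)) 0 = w2 U v P x := by
  rw [iteratedDeriv_succ', show deriv (fun t : ℝ => heat U P (x + t • v)) =
    fun t : ℝ => w1 U v P (x + t • v) from funext fun t => (hasDerivAt_heat h v P x t).deriv,
    iteratedDeriv_one, (hasDerivAt_w1 h v P x 0).deriv]
  simp

theorem iteratedDeriv_three_heat {U : E n → ℝ} {c C : ℝ} (h : Reg U c C) (v : E n)
    (P : E n →L[ℝ] E n) (x : E n) :
    iteratedDeriv 3 (fun t : ℝ => heat U P (x + t • v)) 0 = w3 U v P x := by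
  rw [iteratedDeriv_succ', show deriv (fun t : ℝ => heat U P (x + t • v)) =
    fun t : ℝ => w1 U v P (x + t • v) from funext fun t => (hasDerivAt_heat h v P x t).deriv,
    iteratedDeriv_succ', show deriv (fun t : ℝ => w1 U v P (x + t • v)) =
    fun t : ℝ => w2 U v P (x + t • v) from funext fun t => (hasDerivAt_w1 h v P x t).deriv,
    iteratedDeriv_one, (hasDerivAt_w2 h v P x 0).deriv]
  simp

end Vale.Agent.P227.M.HL
end
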