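import Mathlib
import Vale.Agent.P254.Defs

set_option linter.all false

section

/-!
P254, analytic frame.  Abstract interface (helper245).

`TiltData n` : what the maximum principle uses about ONE nice measure `ν` on `ℝⁿ` and its tilts
`μ_{B,c} ∝ exp(⟨c,x⟩ - ⟨x,Bx⟩/2) dν`, `B` positive semidefinite, `c ∈ ℝⁿ`.
-/

namespace Vale.Agent.P254.L

open Matrix Set Filter Topology Asymptotics

abbrev Vec (n : ℕ) := Fin n → ℝ
abbrev Mat (n : ℕ) := Matrix (Fin n) (Fin n) ℝ
/-- 3-tensors -/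
abbrev Ten (n : ℕ) := Fin n → Fin n → Fin n → ℝ

variable {n : ℕ}

/-- contraction of a 3-tensor with a vector in the first slot -/
def sl (T : Ten n) (e : Vec n) : Mat n := Matrix.of fun i j => ∑ a, e a * T a i j

/-- fully symmetric 3-tensor -/
def TSymm (T : Ten n) : Prop := (∀ i j k, T i j k = T j i k) ∧ (∀ i j k, T i j k = T i k j)

/-- `⟨T, P₁⊗P₂⊗P₃ T'⟩` -/
def N3 (P₁ P₂ P₃ : Mat n) (T T' : Ten n) : ℝ :=
  ∑ a, ∑ b, ∑ c, ∑ a', ∑ b', ∑ c', P₁ a a' * P₂ b b' * P₃ c c' * T a b c * T' a' b' c'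

/-- `⟨T, P⊗P⊗P T'⟩` -/
def NN (P : Mat n) (T T' : Ten n) : ℝ := N3 P P P T T'

/-- cumulant data of the tilts of one nice measure -/
structure TiltData (n : ℕ) where
  /-- convexity constant -/
  m : ℝ
  M : ℝ
  hm : 0 < m
  hM : m ≤ M
  /-- mean -/
  mu : Mat n → Vec n → Vec n
  /-- covariance, and the 3rd, 4th, 5th cumulants -/
  A : Mat n → Vec n → Mat n
  T : Mat n → Vec n → Ten n
  K : Mat n → Vec n → Fin n → Fin n → Fin n → Fin n → ℝ
  R : Mat n → Vec n → Fin n → Fin n → Fin n → Fin n → Fin n → ℝ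
  A_symm : ∀ B c i j, A B c i j = A B c j i
  T_symm : ∀ B c, TSymm (T B c)
  K_symm1 : ∀ B c i j k l, K B c i j k l = K B c j i k l
  K_symm2 : ∀ B c i j k l, K B c i j k l = K B c i k j l
  K_symm3 : ∀ B c i j k l, K B c i j k l = K B c i j l k
  /-- derivatives in `c` -/
  dA : ∀ B : Mat n, B.PosSemidef → ∀ (c e : Vec n) i j (t : ℝ),
    HasDerivAt (fun t : ℝ => A B (c + t • e) i j) (∑ k, e k * T B (c + t • e) i j k) t
  dT : ∀ B : Mat n, B.PosSemidef → ∀ (c e : Vec n) i j k (t : ℝ),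
    HasDerivAt (fun t : ℝ => T B (c + t • e) i j k) (∑ l, e l * K B (c + t • e) i j k l) t
  dK : ∀ B : Mat n, B.PosSemidef → ∀ (c e : Vec n) i j k l (t : ℝ),
    HasDerivAt (fun t : ℝ => K B (c + t • e) i j k l) (∑ r, e r * R B (c + t • e) i j k l r) t
  /-- one-sided derivative along `(Q, Q mu)` -/
  fA : ∀ B : Mat n, B.PosSemidef → ∀ (c : Vec n) (Q : Mat n), Q.PosSemidef → ∀ i j,
    HasDerivWithinAt (fun t : ℝ => A (B + t • Q) (c + t • (Q *ᵥ mu B c)) i j)
      (-(A B c * Q * A B c) i j - 1 / 2 * ∑ k, ∑ l, Q k l * K B c i j k l) (Ici 0) 0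
  fT : ∀ B : Mat n, B.PosSemidef → ∀ (c : Vec n) (Q : Mat n), Q.PosSemidef → ∀ i j k,
    HasDerivWithinAt (fun t : ℝ => T (B + t • Q) (c + t • (Q *ᵥ mu B c)) i j k)
      (-(∑ l, ((A B c * Q) i l * T B c l j k + (A B c * Q) j l * T B c i l k
        + (A B c * Q) k l * T B c i j l)) - 1 / 2 * ∑ l, ∑ r, Q l r * R B c i j k l r) (Ici 0) 0
  /-- joint continuity -/
  cA : ∀ i j, ContinuousOn (fun p : Mat n × Vec n => A p.1 p.2 i j) ({B | B.PosSemidef} ×ˢ univ)
  cT : ∀ i j k, ContinuousOn (fun p : Mat n × Vec n => T p.1 p.2 i j k)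
    ({B | B.PosSemidef} ×ˢ univ)
  /-- two-sided bounds of the covariance matrix -/
  posA : ∀ B : Mat n, B.PosSemidef → ∀ c, (A B c).PosDef
  lo : ∀ B : Mat n, B.PosSemidef → ∀ c, ((B + M • (1 : Mat n)) - (A B c)⁻¹).PosSemidef
  up : ∀ B : Mat n, B.PosSemidef → ∀ c, ((A B c)⁻¹ - (B + m • (1 : Mat n))).PosSemidef
  /-- uniform bound of the third cumulant -/
  CT : ℝ
  hCT : 0 ≤ CT
  bT : ∀ B : Mat n, B.PosSemidef → ∀ b : ℝ, 0 ≤ b → (B - b • (1 : Mat n)).PosSemidef →
    ∀ c, ∀ P : Mat n, P.PosSemidef →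
      NN P (T B c) (T B c) ≤ CT / (b + M) ^ 3 * (A B c * P).trace ^ 3
  /-- the third cumulant tends to zero as `|c| → ∞`, `B` bounded -/
  vT : ∀ b η : ℝ, 0 < η → ∃ ρ : ℝ, ∀ B : Mat n, B.PosSemidef → (b • (1 : Mat n) - B).PosSemidef →
    ∀ c : Vec n, ρ ≤ ‖c‖ → ∀ P : Mat n, P.PosSemidef →
      NN P (T B c) (T B c) ≤ η * (A B c * P).trace ^ 3

/-- entropy data (used only in the last step) -/
structure EntData (D : TiltData n) where
  Ent : Mat n → Vec n → ℝ
  g : Mat n → Vec n → Vec n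
  Xi : Mat n → Vec n → Mat n
  /-- second order Taylor expansion in `c` -/
  dE : ∀ B : Mat n, B.PosSemidef → ∀ c e : Vec n,
    (fun t : ℝ => Ent B (c + t • e) - Ent B c - t * (∑ i, g B c i * e i)
      - t ^ 2 / 2 * ∑ i, ∑ j, Xi B c i j * e i * e j) =o[𝓝 0] fun t : ℝ => t ^ 2
  fE : ∀ B : Mat n, B.PosSemidef → ∀ (c : Vec n) (Q : Mat n), Q.PosSemidef →
    HasDerivWithinAt (fun t : ℝ => Ent (B + t • Q) (c + t • (Q *ᵥ D.mu B c)))
      (-(1 / 2) * ((Q * D.A B c).trace + ∑ i, ∑ j, Q i j * Xi B c i j)) (Ici 0) 0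
  cE : ContinuousOn (fun p : Mat n × Vec n => Ent p.1 p.2) ({B | B.PosSemidef} ×ˢ univ)
  /-- `h(X) ≥ ½ log det (2πe G)`, `G = (B+M)⁻¹` -/
  lowE : ∀ B : Mat n, B.PosSemidef → ∀ c,
    (n : ℝ) / 2 * Real.log (2 * Real.pi * Real.exp 1)
      - 1 / 2 * Real.log (B + D.M • (1 : Mat n)).det ≤ Ent B c
  /-- `A → G` as `|c| → ∞`, `B` bounded -/
  vA : ∀ b η : ℝ, 0 < η → ∃ ρ : ℝ, ∀ B : Mat n, B.PosSemidef →
    (b • (1 : Mat n) - B).PosSemidef → ∀ c : Vec n, ρ ≤ ‖c‖ →
      Real.log (D.A B c).det ≤ - Real.log (B + D.M • (1 : Mat n)).det + η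

end Vale.Agent.P254.L
end

section

/-!
P254: the finite dimensional (ALG) interface (helper245).

1-D profile `p = k^{1/3}` on `(0,1)` (`k` = squared skewness of the half line truncated Gaussian as a
function of its variance `b`), `h b = b * p b = s^{2/3}`.

General position: `S(A,B) = A p(BA)`.  The inequality `(P)` for the data `(A,B,T)`:
   `∀ P ≥ 0, ⟨T, P⊗P⊗P T⟩ ≤ tr ((S P)^3)`.
Normal frame: `S = 1`, `A = diag (b i / h (b i)) = diag (1 / p (b i))`, `B = diag (h (b i))`.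
-/

namespace Vale.Agent.P254.L

open Matrix Set Filter Topology

variable {n : ℕ}

/-- one-variable profile with its first two derivatives on `(0,1)` -/
structure Profile where
  p : ℝ → ℝ
  p1 : ℝ → ℝ
  p2 : ℝ → ℝ
  pos : ∀ x ∈ Ioo (0 : ℝ) 1, 0 < p x
  d1 : ∀ x ∈ Ioo (0 : ℝ) 1, HasDerivAt p (p1 x) x
  d2 : ∀ x ∈ Ioo (0 : ℝ) 1, HasDerivAt p1 (p2 x) x
  c2 : ContinuousOn p2 (Ioo 0 1)

namespace Profile

variable (F : Profile)

/-- `h b = b p b` -/
def h (x : ℝ) : ℝ := x * F.p x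
def h1 (x : ℝ) : ℝ := F.p x + x * F.p1 x
def h2 (x : ℝ) : ℝ := 2 * F.p1 x + x * F.p2 x

end Profile

/-- first divided difference `f[x,y]` of a function with derivative `f1` -/
noncomputable def dd1 (f f1 : ℝ → ℝ) (x y : ℝ) : ℝ :=
  if x = y then f1 x else (f x - f y) / (x - y)

/-- second divided difference `f[x,y,z]` of a function with derivatives `f1`, `f2` -/
noncomputable def dd2 (f f1 f2 : ℝ → ℝ) (x y z : ℝ) : ℝ :=
  if x = z then (if x = y then f2 x / 2 else (f1 x - dd1 f f1 x y) / (x - y))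
  else (dd1 f f1 x y - dd1 f f1 y z) / (x - z)

section frame

variable (F : Profile) (b : Vec n) (T : Ten n)

/-- `D_A S [T_a]` in the normal frame -/
noncomputable def Sd (a : Fin n) : Mat n :=
  Matrix.of fun i j => dd1 F.h F.h1 (b i) (b j) * T a i j

/-- second order part of `S` in the directions `a, a'` -/
noncomputable def Gam (a a' : Fin n) : Mat n :=
  Matrix.of fun i j => ∑ k, F.h (b k) * dd2 F.h F.h1 F.h2 (b i) (b k) (b j) * T a i k * T a' k j

/-- derivative of `S` along `A' = - A Q A`, `B' = Q` in the normal frame: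
`Q_ij f[b_i,b_j] / (p_i p_j)`, `f x = (1 - x) p x` -/
noncomputable def Sflow (Q : Mat n) : Mat n :=
  Matrix.of fun i j =>
    Q i j * dd1 (fun x => (1 - x) * F.p x) (fun x => - F.p x + (1 - x) * F.p1 x) (b i) (b j)
      / (F.p (b i) * F.p (b j))

/-- a 4-tensor is fully symmetric -/
def KSymm (K : Fin n → Ten n) : Prop :=
  (∀ i j k l, K i j k l = K j i k l) ∧ (∀ i j k l, K i j k l = K i k j l) ∧
    (∀ i j k l, K i j k l = K i j l k)

/-- exact contact in the normal frame -/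
structure Contact (P : Mat n) (K : Fin n → Ten n) : Prop where
  hb : ∀ i, b i ∈ Ioo (0 : ℝ) 1
  hT : TSymm T
  hK : KSymm K
  hP : P.PosSemidef
  hP0 : P ≠ 0
  /-- the inequality `(P)` holds for `T` -/
  le : ∀ P' : Mat n, P'.PosSemidef → NN P' T T ≤ (P' * P' * P').trace
  /-- with equality at `P` -/
  eq : NN P T T = (P * P * P).trace
  /-- stationarity in `c` -/
  stat : ∀ a, 2 * NN P (K a) T = 3 * (Sd F b T a * (P * P * P)).trace

/-- `(AQ)·T` : contraction of the first slot, `A = diag (1 / p (b i))` -/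
noncomputable def AQT (Q : Mat n) : Ten n := fun i j k => ∑ l, 1 / F.p (b i) * Q i l * T l j k

/-- the drift of `⟨T,P³T⟩ - tr (SP)³` at a contact, control `Q`, coupling `X` -/
noncomputable def drift (P : Mat n) (K : Fin n → Ten n) (Q : Mat n) (X : Fin n → Mat n) : ℝ :=
  - 6 * NN P (AQT F b T Q) T
  + ∑ a, ∑ a', Q a a' * (NN P (K a) (K a') + 6 * N3 (X a) P P (K a') T
      + 3 * N3 (X a) (X a') P T T)
  - (3 * (Sflow F b Q * (P * P * P)).trace
    + ∑ a, ∑ a', Q a a' * (3 * (Gam F b T a a' * (P * P * P)).trace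
      + 3 * (Sd F b T a * P * Sd F b T a' * (P * P)).trace
      + 3 * (X a * (Sd F b T a' * (P * P) + P * Sd F b T a' * P + P * P * Sd F b T a')).trace
      + 3 * (X a * X a' * P).trace))

/-- the drift inequality with control `Q` between `η A⁻¹` and `C₀ A⁻¹`, `A⁻¹ = diag (p (b i))` -/
def ALG (η C₀ : ℝ) : Prop :=
  ∀ (n : ℕ) (b : Vec n) (T : Ten n) (P : Mat n) (K : Fin n → Ten n), Contact F b T P K →
    ∃ (Q : Mat n) (X : Fin n → Mat n),
      (Q - η • Matrix.diagonal fun i => F.p (b i)).PosSemidef ∧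
      ((C₀ • Matrix.diagonal fun i => F.p (b i)) - Q).PosSemidef ∧
      (∀ a, (X a).IsSymm ∧ ∃ C : ℝ, (C • P - X a).PosSemidef ∧ (C • P + X a).PosSemidef) ∧
      0 ≤ drift F b T P K Q X

/-- the drift inequality with the standard control `Q = A⁻¹` -/
def ALGstd : Prop :=
  ∀ (n : ℕ) (b : Vec n) (T : Ten n) (P : Mat n) (K : Fin n → Ten n), Contact F b T P K →
    ∃ (X : Fin n → Mat n),
      (∀ a, (X a).IsSymm ∧ ∃ C : ℝ, (C • P - X a).PosSemidef ∧ (C • P + X a).PosSemidef) ∧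
      0 ≤ drift F b T P K (Matrix.diagonal fun i => F.p (b i)) X

theorem ALGstd.alg (h : ALGstd F) : ALG F 1 1 := by
  intro n b T P K hc
  obtain ⟨X, hX, hd⟩ := h n b T P K hc
  refine ⟨_, X, ?_, ?_, hX, hd⟩
  · rw [one_smul, sub_self]; exact Matrix.PosSemidef.zero
  · rw [one_smul, sub_self]; exact Matrix.PosSemidef.zero

end frame

end Vale.Agent.P254.L
end

section

/-!
P254: interface for the last step (Z): the minimum principle for
`Ent - ½ log det A - n - ∑ w (β_i)`.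
-/

namespace Vale.Agent.P254.L

open Matrix Set Filter Topology

/-- the one-variable facts about `w` used in the last step; `p ^ 3 = k` -/
structure WProfile (F : Profile) where
  w : ℝ → ℝ
  w1 : ℝ → ℝ
  w2 : ℝ → ℝ
  d1 : ∀ x ∈ Ioo (0 : ℝ) 1, HasDerivAt w (w1 x) x
  d2 : ∀ x ∈ Ioo (0 : ℝ) 1, HasDerivAt w1 (w2 x) x
  c2 : ContinuousOn w2 (Ioo 0 1)
  /-- `w' (1 - b) = c k`, `c = 1/4 - b² w''/2` -/
  ode : ∀ x ∈ Ioo (0 : ℝ) 1, w1 x * (1 - x) = (1 / 4 - x ^ 2 * w2 x / 2) * F.p x ^ 3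
  /-- lower bound of `c` -/
  cmin : ℝ
  cmin_pos : 0 < cmin
  c_ge : ∀ x ∈ Ioo (0 : ℝ) 1, cmin ≤ 1 / 4 - x ^ 2 * w2 x / 2
  /-- `c (1 - b) ≤ C` -/
  cmax : ℝ
  c_le : ∀ x ∈ Ioo (0 : ℝ) 1, (1 / 4 - x ^ 2 * w2 x / 2) * (1 - x) ≤ cmax
  w1_pos : ∀ x ∈ Ioo (0 : ℝ) 1, 0 < w1 x
  w1max : ℝ
  w1_le : ∀ x ∈ Ioo (0 : ℝ) 1, w1 x ≤ w1max
  w_nonneg : ∀ x ∈ Ioo (0 : ℝ) 1, 0 ≤ w x
  /-- `w ≤ w(1) = ½ log (2π) - ½ = ½ log (2πe) - 1` -/
  w_le : ∀ x ∈ Ioo (0 : ℝ) 1, w x ≤ 1 / 2 * Real.log (2 * Real.pi * Real.exp 1) - 1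
  /-- `c_ij ≤ √(c_i c_j)` -/
  cij : ∀ x ∈ Ioo (0 : ℝ) 1, ∀ y ∈ Ioo (0 : ℝ) 1,
    (1 / 4 - x * y * dd1 w1 w2 x y / 2)
      ≤ Real.sqrt (1 / 4 - x ^ 2 * w2 x / 2) * Real.sqrt (1 / 4 - y ^ 2 * w2 y / 2)

variable {n : ℕ}

/-- the array of a 3-tensor in the frame given by the rows of `L` -/
def frT (L : Mat n) (T : Ten n) : Ten n := fun i j k =>
  ∑ a, ∑ b, ∑ c, L i a * L j b * L k c * T a b c

/-- The inequality `(P)` for `(A, B, T)`, in frames: whenever `L A Lᵀ = diag a`,
`B = Lᵀ diag b' L`, i.e. `S(A,B) = L⁻¹ diag (a_i p(a_i b'_i)) L⁻ᵀ`: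
`⟨T, P⊗P⊗P T⟩ ≤ tr ((S P)^3)` for all `P ≥ 0`. -/
def PIneq (F : Profile) (A B : Mat n) (T : Ten n) : Prop :=
  ∀ (L : Mat n) (a b' : Vec n), IsUnit L → L * A * Lᵀ = Matrix.diagonal a →
    B = Lᵀ * Matrix.diagonal b' * L → ∀ P : Mat n, P.PosSemidef →
      NN P (frT L T) (frT L T) ≤
        (((Matrix.diagonal fun i => a i * F.p (a i * b' i)) * P) ^ 3).trace

/-- target of block (X) -/
def StX (F : Profile) : Prop :=
  ∀ (n : ℕ) (D : TiltData n) (B : Mat n), B.PosDef → ∀ c : Vec n, PIneq F (D.A B c) B (D.T B c)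

/-- target of block (Z): `D(μ_{B,c}) ≥ 0` -/
def StZ : Prop :=
  ∀ (n : ℕ) (D : TiltData n) (E : EntData D) (B : Mat n), B.PosDef → ∀ c : Vec n,
    (n : ℝ) + 1 / 2 * Real.log (D.A B c).det ≤ E.Ent B c

end Vale.Agent.P254.L
end

section

/-!
P254, frame block (b) (helper829): action of matrices on 3-tensors and the form `NN`.
-/

open Matrix

namespace Vale.Agent.P254.Fr

open L (Mat Ten NN N3 frT)
open scoped Kronecker

variable {n : ℕ}

/-- a 3-tensor as a vector -/
def vec3 (T : Ten n) : Fin n × Fin n × Fin n → ℝ := fun p => T p.1 p.2.1 p.2.2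

/-- third Kronecker power -/
noncomputable def K3 (P : Mat n) : Matrix (Fin n × Fin n × Fin n) (Fin n × Fin n × Fin n) ℝ :=
  P ⊗ₖ (P ⊗ₖ P)

theorem NN_eq (P : Mat n) (T T' : Ten n) : NN P T T' = vec3 T ⬝ᵥ K3 P *ᵥ vec3 T' := by
  unfold NN N3 dotProduct mulVec dotProduct K3 vec3
  simp only [Fintype.sum_prod_type, Matrix.kroneckerMap_apply, Finset.mul_sum]
  refine Finset.sum_congr rfl fun a _ => Finset.sum_congr rfl fun b _ =>
    Finset.sum_congr rfl fun c _ => Finset.sum_congr rfl fun a' _ =>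
    Finset.sum_congr rfl fun b' _ => Finset.sum_congr rfl fun c' _ => ?_
  ring

theorem vec3_frT (L : Mat n) (T : Ten n) : vec3 (frT L T) = K3 L *ᵥ vec3 T := by
  funext p
  unfold frT mulVec dotProduct K3 vec3
  simp only [Fintype.sum_prod_type, Matrix.kroneckerMap_apply]
  refine Finset.sum_congr rfl fun a _ => Finset.sum_congr rfl fun b _ =>
    Finset.sum_congr rfl fun c _ => ?_
  ring

theorem K3_mul (P Q : Mat n) : K3 P * K3 Q = K3 (P * Q) := by
  unfold K3
  rw [← Matrix.mul_kronecker_mul, ← Matrix.mul_kronecker_mul]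

theorem K3_transpose (P : Mat n) : (K3 P)ᵀ = K3 Pᵀ := by
  unfold K3
  rw [Matrix.kroneckerMap_transpose, Matrix.kroneckerMap_transpose]

/-- change of frame in the form `NN` -/
theorem NN_frT (P L : Mat n) (T T' : Ten n) :
    NN P (frT L T) (frT L T') = NN (Lᵀ * P * L) T T' := by
  rw [NN_eq, NN_eq, vec3_frT, vec3_frT, ← K3_mul, ← K3_mul, ← K3_transpose,
    Matrix.mulVec_mulVec, Matrix.mul_assoc, ← Matrix.mulVec_mulVec (vec3 T') (K3 L)ᵀ,
    dotProduct_mulVec (vec3 T), Matrix.vecMul_transpose]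

theorem abs_le_trace {Q : Mat n} (hQ : Q.PosSemidef) (i j : Fin n) : |Q i j| ≤ Q.trace := by
  have hsym : Q j i = Q i j := by
    have := congrFun (congrFun hQ.1 i) j
    simpa [conjTranspose_apply] using this
  have hd : ∀ k, 0 ≤ Q k k := fun k => hQ.diag_nonneg
  have hdt : ∀ k, Q k k ≤ Q.trace := fun k =>
    Finset.single_le_sum (f := fun k => Q k k) (fun k _ => hd k) (Finset.mem_univ k)
  have h2 : ∀ s : ℝ, 0 ≤ Q i i + 2 * s * Q i j + s ^ 2 * Q j j := by
    intro s
    have := hQ.dotProduct_mulVec_nonneg (Pi.single i 1 + Pi.single j s)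
    simp only [star_trivial, mulVec_add, add_dotProduct, dotProduct_add, mulVec_single,
      single_dotProduct] at this
    simp only [MulOpposite.op_one, one_smul, col_apply, Pi.smul_apply, MulOpposite.smul_eq_mul_unop,
      MulOpposite.unop_op, one_mul] at this
    rw [hsym] at this
    nlinarith
  have h3 := h2 1
  have h4 := h2 (-1)
  have h5 := hdt i
  have h6 := hdt j
  rw [abs_le]
  constructor <;> linarith

theorem NN_le {Q : Mat n} (hQ : Q.PosSemidef) {T : Ten n} {b : ℝ} (hb : 0 ≤ b)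
    (hT : ∀ i j k, |T i j k| ≤ b) : NN Q T T ≤ (n : ℝ) ^ 6 * b ^ 2 * Q.trace ^ 3 := by
  have h0 : 0 ≤ Q.trace := hQ.trace_nonneg
  have h1 : (n : ℝ) ^ 6 * b ^ 2 * Q.trace ^ 3
      = ∑ _a : Fin n, ∑ _b : Fin n, ∑ _c : Fin n, ∑ _a' : Fin n, ∑ _b' : Fin n, ∑ _c' : Fin n,
        (b ^ 2 * Q.trace ^ 3) := by
    simp only [Finset.sum_const, Finset.card_univ, Fintype.card_fin, nsmul_eq_mul]
    ring
  rw [h1]
  unfold NN N3
  refine Finset.sum_le_sum fun a _ => Finset.sum_le_sum fun b' _ =>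
    Finset.sum_le_sum fun c _ => Finset.sum_le_sum fun a' _ =>
    Finset.sum_le_sum fun b'' _ => Finset.sum_le_sum fun c' _ => ?_
  refine (le_abs_self _).trans ?_
  rw [abs_mul, abs_mul, abs_mul, abs_mul]
  calc |Q a a'| * |Q b' b''| * |Q c c'| * |T a b' c| * |T a' b'' c'|
      ≤ Q.trace * Q.trace * Q.trace * b * b := by
        have e1 := abs_le_trace hQ a a'
        have e2 := abs_le_trace hQ b' b''
        have e3 := abs_le_trace hQ c c'
        have e4 := hT a b' c
        have e5 := hT a' b'' c'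
        gcongr
    _ = b ^ 2 * Q.trace ^ 3 := by ring

section trace

open scoped MatrixOrder

theorem trace_mul_nonneg {X Y : Mat n} (hX : X.PosSemidef) (hY : Y.PosSemidef) :
    0 ≤ (X * Y).trace := by
  obtain ⟨R, hR⟩ := CStarAlgebra.nonneg_iff_eq_star_mul_self.mp hY.nonneg
  rw [Matrix.star_eq_conjTranspose] at hR
  rw [hR, ← Matrix.mul_assoc, Matrix.trace_mul_comm, ← Matrix.mul_assoc]
  exact (hX.mul_mul_conjTranspose_same R).trace_nonneg

end trace

end Vale.Agent.P254.Fr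
end

section

/-!
P254: first and second order one-sided/two-sided Taylor jets of real functions at `0` along a
filter `l ≤ 𝓝 0` (helper245).
-/

namespace Vale.Agent.P254.L

open Filter Topology Asymptotics Set

/-- `f t = a + b t + o(t)` along `l` -/
def J1 (l : Filter ℝ) (f : ℝ → ℝ) (a b : ℝ) : Prop :=
  (fun t => f t - (a + b * t)) =o[l] fun t => t

/-- `f t = a + b t + c t^2 + o(t^2)` along `l` -/
def J2 (l : Filter ℝ) (f : ℝ → ℝ) (a b c : ℝ) : Prop :=
  (fun t => f t - (a + b * t + c * t ^ 2)) =o[l] fun t => t ^ 2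

variable {l : Filter ℝ} {f g : ℝ → ℝ} {a b c a' b' c' : ℝ}

theorem J1.congr (h : J1 l f a b) (hfg : f =ᶠ[l] g) (ha : a = a') (hb : b = b') :
    J1 l g a' b' := by
  subst ha hb
  exact IsLittleO.congr' h (hfg.mono fun t ht => by simp only [ht]) (EventuallyEq.refl _ _)

theorem J2.congr (h : J2 l f a b c) (hfg : f =ᶠ[l] g) (ha : a = a') (hb : b = b')
    (hc : c = c') : J2 l g a' b' c' := by
  subst ha hb hc
  exact IsLittleO.congr' h (hfg.mono fun t ht => by simp only [ht]) (EventuallyEq.refl _ _)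

theorem J2.congr_coef (h : J2 l f a b c) (ha : a = a') (hb : b = b')
    (hc : c = c') : J2 l f a' b' c' := h.congr (EventuallyEq.refl _ _) ha hb hc

theorem J1.congr_coef (h : J1 l f a b) (ha : a = a') (hb : b = b') : J1 l f a' b' :=
  h.congr (EventuallyEq.refl _ _) ha hb

theorem J1.mono {l' : Filter ℝ} (h : J1 l f a b) (hl : l' ≤ l) : J1 l' f a b :=
  IsLittleO.mono h hl

theorem J2.mono {l' : Filter ℝ} (h : J2 l f a b c) (hl : l' ≤ l) : J2 l' f a b c :=
  IsLittleO.mono h hl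

theorem J1.const (k : ℝ) : J1 l (fun _ => k) k 0 := by
  simp [J1]

theorem J2.const (k : ℝ) : J2 l (fun _ => k) k 0 0 := by
  simp [J2]

theorem J1.id : J1 l (fun t => t) 0 1 := by
  simp [J1]

theorem J2.id : J2 l (fun t => t) 0 1 0 := by
  simp [J2]

theorem J1.add (hf : J1 l f a b) (hg : J1 l g a' b') :
    J1 l (fun t => f t + g t) (a + a') (b + b') := by
  refine (IsLittleO.add hf hg).congr_left fun t => ?_
  ring

theorem J2.add (hf : J2 l f a b c) (hg : J2 l g a' b' c') :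
    J2 l (fun t => f t + g t) (a + a') (b + b') (c + c') := by
  refine (IsLittleO.add hf hg).congr_left fun t => ?_
  ring

theorem J1.const_mul (hf : J1 l f a b) (k : ℝ) : J1 l (fun t => k * f t) (k * a) (k * b) := by
  refine (IsLittleO.const_mul_left hf k).congr_left fun t => ?_
  ring

theorem J2.const_mul (hf : J2 l f a b c) (k : ℝ) :
    J2 l (fun t => k * f t) (k * a) (k * b) (k * c) := by
  refine (IsLittleO.const_mul_left hf k).congr_left fun t => ?_
  ring

theorem J1.mul_const (hf : J1 l f a b) (k : ℝ) : J1 l (fun t => f t * k) (a * k) (b * k) := by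
  refine (hf.const_mul k).congr (Eventually.of_forall fun t => ?_) ?_ ?_ <;> ring

theorem J2.mul_const (hf : J2 l f a b c) (k : ℝ) :
    J2 l (fun t => f t * k) (a * k) (b * k) (c * k) := by
  refine (hf.const_mul k).congr (Eventually.of_forall fun t => ?_) ?_ ?_ ?_ <;> ring

theorem J1.neg (hf : J1 l f a b) : J1 l (fun t => - f t) (-a) (-b) := by
  refine (hf.const_mul (-1)).congr (Eventually.of_forall fun t => ?_) ?_ ?_ <;> ring

theorem J2.neg (hf : J2 l f a b c) : J2 l (fun t => - f t) (-a) (-b) (-c) := by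
  refine (hf.const_mul (-1)).congr (Eventually.of_forall fun t => ?_) ?_ ?_ ?_ <;> ring

theorem J1.sub (hf : J1 l f a b) (hg : J1 l g a' b') :
    J1 l (fun t => f t - g t) (a - a') (b - b') := by
  refine (hf.add hg.neg).congr (Eventually.of_forall fun t => ?_) ?_ ?_ <;> ring

theorem J2.sub (hf : J2 l f a b c) (hg : J2 l g a' b' c') :
    J2 l (fun t => f t - g t) (a - a') (b - b') (c - c') := by
  refine (hf.add hg.neg).congr (Eventually.of_forall fun t => ?_) ?_ ?_ ?_ <;> ring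

theorem J1.sum {ι : Type*} (s : Finset ι) {f : ι → ℝ → ℝ} {a b : ι → ℝ}
    (h : ∀ i ∈ s, J1 l (f i) (a i) (b i)) :
    J1 l (fun t => ∑ i ∈ s, f i t) (∑ i ∈ s, a i) (∑ i ∈ s, b i) := by
  have := IsLittleO.sum (s := s) h
  refine this.congr_left fun t => ?_
  simp [Finset.sum_sub_distrib, Finset.sum_add_distrib, Finset.sum_mul]

theorem J2.sum {ι : Type*} (s : Finset ι) {f : ι → ℝ → ℝ} {a b c : ι → ℝ}
    (h : ∀ i ∈ s, J2 l (f i) (a i) (b i) (c i)) :
    J2 l (fun t => ∑ i ∈ s, f i t) (∑ i ∈ s, a i) (∑ i ∈ s, b i) (∑ i ∈ s, c i) := by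
  have := IsLittleO.sum (s := s) h
  refine this.congr_left fun t => ?_
  simp [Finset.sum_sub_distrib, Finset.sum_add_distrib, Finset.sum_mul]

theorem sq_isLittleO (hl : l ≤ 𝓝 0) : (fun t : ℝ => t ^ 2) =o[l] fun t => t := by
  have h : (fun t : ℝ => t ^ 2) =o[𝓝 0] fun t => t := by
    simpa using (isLittleO_pow_id (𝕜 := ℝ) (n := 2) one_lt_two)
  exact h.mono hl

theorem tendsto_id' (hl : l ≤ 𝓝 0) : Tendsto (fun t : ℝ => t) l (𝓝 0) := hl

theorem id_isBigO_one (hl : l ≤ 𝓝 0) : (fun t : ℝ => t) =O[l] fun _ => (1 : ℝ) :=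
  (tendsto_id' hl).isBigO_one ℝ

theorem J2.toJ1 (hl : l ≤ 𝓝 0) (hf : J2 l f a b c) : J1 l f a b := by
  have h1 : (fun t => f t - (a + b * t + c * t ^ 2)) =o[l] fun t => t :=
    hf.trans_isBigO (sq_isLittleO hl).isBigO
  have h2 : (fun t : ℝ => c * t ^ 2) =o[l] fun t => t := (sq_isLittleO hl).const_mul_left c
  refine (h1.add h2).congr_left fun t => ?_
  ring

theorem J1.sub_isBigO (hf : J1 l f a b) : (fun t => f t - a) =O[l] fun t => t := by
  have h1 : (fun t : ℝ => b * t) =O[l] fun t => t := (isBigO_refl _ _).const_mul_left b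
  refine (hf.isBigO.add h1).congr_left fun t => ?_
  ring

theorem J1.tendsto (hl : l ≤ 𝓝 0) (hf : J1 l f a b) : Tendsto f l (𝓝 a) := by
  have h := (hf.sub_isBigO).trans_tendsto (tendsto_id' hl)
  have := h.add_const a
  simpa using this

theorem J2.tendsto (hl : l ≤ 𝓝 0) (hf : J2 l f a b c) : Tendsto f l (𝓝 a) :=
  (hf.toJ1 hl).tendsto hl

theorem J1.isBigO_one (hl : l ≤ 𝓝 0) (hf : J1 l f a b) : f =O[l] fun _ => (1 : ℝ) :=
  (hf.tendsto hl).isBigO_one ℝ

theorem J1.mul (hl : l ≤ 𝓝 0) (hf : J1 l f a b) (hg : J1 l g a' b') :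
    J1 l (fun t => f t * g t) (a * a') (a * b' + b * a') := by
  -- f g - (..) = (f - pf) g + pf (g - pg) + b b' t^2
  have h1 : (fun t => (f t - (a + b * t)) * g t) =o[l] fun t => t := by
    simpa using hf.mul_isBigO (hg.isBigO_one hl)
  have h2 : (fun t => (a + b * t) * (g t - (a' + b' * t))) =o[l] fun t => t := by
    have hb : (fun t : ℝ => a + b * t) =O[l] fun _ => (1 : ℝ) :=
      ((J1.const a).add (J1.id.const_mul b)).isBigO_one hl
    simpa using hb.mul_isLittleO hg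
  have h3 : (fun t : ℝ => b * b' * t ^ 2) =o[l] fun t => t :=
    (sq_isLittleO hl).const_mul_left _
  refine ((h1.add h2).add h3).congr_left fun t => ?_
  ring

theorem J2.mul (hl : l ≤ 𝓝 0) (hf : J2 l f a b c) (hg : J2 l g a' b' c') :
    J2 l (fun t => f t * g t) (a * a') (a * b' + b * a') (a * c' + b * b' + c * a') := by
  have h1 : (fun t => (f t - (a + b * t + c * t ^ 2)) * g t) =o[l] fun t => t ^ 2 := by
    simpa using hf.mul_isBigO ((hg.toJ1 hl).isBigO_one hl)
  have h2 : (fun t => (a + b * t + c * t ^ 2) * (g t - (a' + b' * t + c' * t ^ 2)))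
      =o[l] fun t => t ^ 2 := by
    have hb : (fun t : ℝ => a + b * t + c * t ^ 2) =O[l] fun _ => (1 : ℝ) := by
      have : Tendsto (fun t : ℝ => a + b * t + c * t ^ 2) (𝓝 0)
          (𝓝 (a + b * 0 + c * 0 ^ 2)) := by
        apply Continuous.tendsto
        fun_prop
      exact (this.mono_left hl).isBigO_one ℝ
    simpa using hb.mul_isLittleO hg
  have h3 : (fun t : ℝ => (b * c' + c * b' + c * c' * t) * t * t ^ 2) =o[l] fun t => t ^ 2 := by
    have h4 : (fun t : ℝ => (b * c' + c * b' + c * c' * t) * t) =o[l] fun _ => (1 : ℝ) := by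
      rw [isLittleO_one_iff]
      have : Tendsto (fun t : ℝ => (b * c' + c * b' + c * c' * t) * t) (𝓝 0)
          (𝓝 ((b * c' + c * b' + c * c' * 0) * 0)) := by
        apply Continuous.tendsto
        fun_prop
      simpa using this.mono_left hl
    simpa using h4.mul_isBigO (isBigO_refl (fun t : ℝ => t ^ 2) l)
  refine ((h1.add h2).add h3).congr_left fun t => ?_
  ring

/-- two continuous derivatives are not needed: Taylor-Young -/
theorem J2.of_hasDerivAt {f' : ℝ → ℝ} {f2 : ℝ} (h1 : ∀ᶠ t in 𝓝 (0 : ℝ), HasDerivAt f (f' t) t)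
    (h2 : HasDerivAt f' f2 0) : J2 (𝓝 0) f (f 0) (f' 0) (f2 / 2) := by
  unfold J2
  rw [isLittleO_iff]
  intro ε hε
  have h3 := (hasDerivAt_iff_isLittleO.1 h2)
  rw [isLittleO_iff] at h3
  have h4 := h3 hε
  obtain ⟨δ, hδ, h5⟩ := Metric.eventually_nhds_iff.1 (h1.and h4)
  rw [Metric.eventually_nhds_iff]
  refine ⟨δ, hδ, fun t ht => ?_⟩
  -- mean value inequality for φ s = f s - (f 0 + f' 0 s + f2/2 s^2)
  have key : ‖(f t - (f 0 + f' 0 * t + f2 / 2 * t ^ 2)) - (f 0 - (f 0 + f' 0 * 0 + f2 / 2 * 0 ^ 2))‖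
      ≤ (ε * |t|) * ‖t - 0‖ := by
    refine Convex.norm_image_sub_le_of_norm_hasDerivWithin_le
      (f := fun s => f s - (f 0 + f' 0 * s + f2 / 2 * s ^ 2))
      (f' := fun s => f' s - (f' 0 + f2 * s)) (s := uIcc 0 t) ?_ ?_ (convex_uIcc 0 t)
      left_mem_uIcc right_mem_uIcc
    · intro s hs
      have hs' : |s| ≤ |t| := by
        rcases abs_cases t with ⟨h, h'⟩ | ⟨h, h'⟩ <;>
        rcases (mem_uIcc.1 hs) with ⟨h6, h7⟩ | ⟨h6, h7⟩ <;>
        rw [abs_le] <;> constructor <;> linarith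
      have hs'' : dist s 0 < δ := by
        rw [Real.dist_0_eq_abs] at ht ⊢; linarith
      have h8 := (h5 hs'').1
      have h9 : HasDerivAt (fun s => f 0 + f' 0 * s + f2 / 2 * s ^ 2) (f' 0 + f2 * s) s := by
        have := (((hasDerivAt_id s).const_mul (f' 0)).const_add (f 0)).add
          (((hasDerivAt_id s).pow 2).const_mul (f2 / 2))
        refine (this.congr_deriv ?_)
        simp only [_root_.id, Nat.cast_ofNat]
        ring
      exact (h8.sub h9).hasDerivWithinAt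
    · intro s hs
      have hs' : |s| ≤ |t| := by
        rcases abs_cases t with ⟨h, h'⟩ | ⟨h, h'⟩ <;>
        rcases (mem_uIcc.1 hs) with ⟨h6, h7⟩ | ⟨h6, h7⟩ <;>
        rw [abs_le] <;> constructor <;> linarith
      have hs'' : dist s 0 < δ := by
        rw [Real.dist_0_eq_abs] at ht ⊢; linarith
      have h8 := (h5 hs'').2
      simp only [sub_zero, smul_eq_mul] at h8
      have e : f' s - (f' 0 + f2 * s) = f' s - f' 0 - s * f2 := by ring
      rw [e]
      refine h8.trans ?_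
      rw [Real.norm_eq_abs]
      exact mul_le_mul_of_nonneg_left hs' hε.le
  have e1 : (f t - (f 0 + f' 0 * t + f2 / 2 * t ^ 2)) - (f 0 - (f 0 + f' 0 * 0 + f2 / 2 * 0 ^ 2))
      = f t - (f 0 + f' 0 * t + f2 / 2 * t ^ 2) := by ring
  rw [e1] at key
  refine key.trans ?_
  rw [sub_zero, Real.norm_eq_abs, Real.norm_eq_abs, mul_assoc, abs_mul_abs_self, abs_pow,
    sq_abs, sq]

theorem J1.of_hasDerivAt {f1 : ℝ} (h : HasDerivAt f f1 0) : J1 (𝓝 0) f (f 0) f1 := by
  have := hasDerivAt_iff_isLittleO.1 h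
  refine (this.congr_left fun t => ?_).congr_right fun t => ?_
  · simp only [sub_zero, smul_eq_mul]; ring
  · simp

theorem J1.of_hasDerivWithinAt {f1 : ℝ} {s : Set ℝ} (h : HasDerivWithinAt f f1 s 0) :
    J1 (𝓝[s] 0) f (f 0) f1 := by
  have := hasDerivWithinAt_iff_isLittleO.1 h
  refine (this.congr_left fun t => ?_).congr_right fun t => ?_
  · simp only [sub_zero, smul_eq_mul]; ring
  · simp

/-- composition with a twice differentiable function -/
theorem J2.comp (hl : l ≤ 𝓝 0) {φ φ1 : ℝ → ℝ} {φ2 : ℝ} (hf : J2 l f a b c)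
    (h1 : ∀ᶠ x in 𝓝 a, HasDerivAt φ (φ1 x) x) (h2 : HasDerivAt φ1 φ2 a) :
    J2 l (fun t => φ (f t)) (φ a) (φ1 a * b) (φ1 a * c + φ2 / 2 * b ^ 2) := by
  -- Taylor of φ at a
  have hT : J2 (𝓝 0) (fun s => φ (a + s)) (φ (a + 0)) (φ1 (a + 0)) (φ2 / 2) := by
    refine J2.of_hasDerivAt (f' := fun s => φ1 (a + s)) ?_ ?_
    · have : Tendsto (fun s : ℝ => a + s) (𝓝 0) (𝓝 a) := by
        have h : Continuous fun s : ℝ => a + s := by fun_prop
        have := h.tendsto 0
        simpa using this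
      filter_upwards [this.eventually h1] with s hs
      exact HasDerivAt.comp_const_add a s hs
    · have : HasDerivAt φ1 φ2 (a + 0) := by simpa using h2
      exact HasDerivAt.comp_const_add a 0 this
  simp only [add_zero] at hT
  have hd : (fun t => f t - a) =O[l] fun t => t := (hf.toJ1 hl).sub_isBigO
  have htd : Tendsto (fun t => f t - a) l (𝓝 0) := by
    have := (hf.tendsto hl).sub_const a
    simpa using this
  have h3 := (IsLittleO.comp_tendsto hT htd)
  have h4 : (fun t => φ (a + (f t - a)) - (φ a + φ1 a * (f t - a) + φ2 / 2 * (f t - a) ^ 2))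
      =o[l] fun t => t ^ 2 := by
    refine IsLittleO.trans_isBigO h3 ?_
    exact hd.pow 2
  have h5 : J2 l (fun t => φ a + φ1 a * (f t - a) + φ2 / 2 * ((f t - a) * (f t - a)))
      (φ a) (φ1 a * b) (φ1 a * c + φ2 / 2 * b ^ 2) := by
    have h6 : J2 l (fun t => f t - a) 0 b c := (hf.sub (J2.const a)).congr_coef (by ring)
      (by ring) (by ring)
    refine ((((J2.const (φ a)).add (h6.const_mul (φ1 a))).add
      (((h6.mul hl h6)).const_mul (φ2 / 2)))).congr_coef ?_ ?_ ?_ <;> ring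
  unfold J2 at h5 ⊢
  refine (h4.add h5).congr_left fun t => ?_
  have : a + (f t - a) = f t := by ring
  rw [this]
  ring

theorem J1.comp (hl : l ≤ 𝓝 0) {φ : ℝ → ℝ} {φ1 : ℝ} (hf : J1 l f a b)
    (h1 : HasDerivAt φ φ1 a) : J1 l (fun t => φ (f t)) (φ a) (φ1 * b) := by
  have hd : (fun t => f t - a) =O[l] fun t => t := hf.sub_isBigO
  have h3 := (hasDerivAt_iff_isLittleO.1 h1).comp_tendsto (hf.tendsto hl)
  have h4 : (fun t => φ (f t) - φ a - (f t - a) * φ1) =o[l] fun t => t := by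
    refine IsLittleO.trans_isBigO h3 hd
  have h5 : (fun t => φ1 * (f t - (a + b * t))) =o[l] fun t => t := hf.const_mul_left φ1
  refine (h4.add h5).congr_left fun t => ?_
  ring

/-- second order test, two-sided: a function with jet `(a,b,c)` and `f ≤ a` near `0` -/
theorem J2.le_test (h : J2 (𝓝 0) f a b c) (hle : ∀ᶠ t in 𝓝 (0 : ℝ), f t ≤ a) : b = 0 ∧ c ≤ 0 := by
  have hb : b = 0 := by
    have h1 := h.toJ1 le_rfl
    -- f has derivative b at 0 and local max (f 0 = a)
    by_contra hb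
    rw [J1, isLittleO_iff] at h1
    have h2 := h1 (c := |b| / 2) (by positivity)
    obtain ⟨δ, hδ, h3⟩ := Metric.eventually_nhds_iff.1 (h2.and hle)
    have hs : dist ((δ / 2) * SignType.sign b : ℝ) 0 < δ := by
      rw [Real.dist_0_eq_abs, abs_mul]
      have : |((SignType.sign b : SignType) : ℝ)| ≤ 1 := by
        rcases lt_trichotomy b 0 with h | h | h
        · simp [sign_neg h]
        · exact absurd h hb
        · simp [sign_pos h]
      have h4 : |δ / 2| = δ / 2 := abs_of_pos (by linarith)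
      rw [h4]
      nlinarith
    obtain ⟨h5, h6⟩ := h3 hs
    rw [Real.norm_eq_abs, Real.norm_eq_abs] at h5
    rcases lt_or_gt_of_ne hb with h | h
    · simp only [sign_neg h, SignType.coe_neg, SignType.coe_one] at h5 h6
      rw [abs_of_neg h] at h5
      have h7 : |δ / 2 * (-1 : ℝ)| = δ / 2 := by
        rw [abs_mul, abs_neg, abs_one, mul_one, abs_of_pos (by linarith)]
      rw [h7] at h5
      have := (abs_le.1 h5).1
      nlinarith
    · simp only [sign_pos h, SignType.coe_one] at h5 h6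
      rw [abs_of_pos h] at h5
      have h7 : |δ / 2 * (1 : ℝ)| = δ / 2 := by
        rw [mul_one, abs_of_pos (by linarith)]
      rw [h7] at h5
      have := (abs_le.1 h5).1
      nlinarith
  refine ⟨hb, ?_⟩
  subst hb
  by_contra hc
  push Not at hc
  rw [J2, isLittleO_iff] at h
  have h2 := h (c := c / 2) (by positivity)
  obtain ⟨δ, hδ, h3⟩ := Metric.eventually_nhds_iff.1 (h2.and hle)
  have hs : dist (δ / 2 : ℝ) 0 < δ := by
    rw [Real.dist_0_eq_abs, abs_of_pos (by linarith)]; linarith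
  obtain ⟨h5, h6⟩ := h3 hs
  rw [Real.norm_eq_abs, Real.norm_eq_abs, abs_of_pos (show (0:ℝ) < (δ / 2) ^ 2 by positivity)]
    at h5
  have := (abs_le.1 h5).1
  have h8 : (0 : ℝ) < (δ / 2) ^ 2 := by positivity
  nlinarith

/-- first order one-sided test -/
theorem J1.le_test (h : J1 (𝓝[≥] 0) f a b) (hle : ∀ᶠ t in 𝓝[≥] (0 : ℝ), f t ≤ a) : b ≤ 0 := by
  by_contra hb
  push Not at hb
  rw [J1, isLittleO_iff] at h
  have h2 := h (c := b / 2) (by positivity)
  have h3 := h2.and hle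
  rw [eventually_nhdsWithin_iff, Metric.eventually_nhds_iff] at h3
  obtain ⟨δ, hδ, h3⟩ := h3
  have hs : dist (δ / 2 : ℝ) 0 < δ := by
    rw [Real.dist_0_eq_abs, abs_of_pos (by linarith)]; linarith
  obtain ⟨h5, h6⟩ := h3 hs (by simp only [mem_Ici]; linarith)
  rw [Real.norm_eq_abs, Real.norm_eq_abs, abs_of_pos (show (0:ℝ) < (δ / 2) by positivity)] at h5
  have := (abs_le.1 h5).1
  nlinarith

end Vale.Agent.P254.L
end

section

/-!
P254: spectral functions of a pair `(A, B)`, `A` positive definite, `B` symmetric (helper245).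

`Fr A B L β` : `L A Lᵀ = 1`, `B = Lᵀ diag β L`.
`Phi f A B = ∑ f (β i)`,  `Sf f A B = A f(BA) = (LA)ᵀ diag (f ∘ β) (LA)`.
-/

namespace Vale.Agent.P254.L

open Matrix Polynomial Filter Topology Asymptotics Set

variable {n : ℕ}

/-- a normal frame of the pair `(A, B)` -/
structure Fr (A B : Mat n) (L : Mat n) (β : Vec n) : Prop where
  hA : L * A * Lᵀ = 1
  hB : B = Lᵀ * Matrix.diagonal β * L

theorem spec_symm {A : Mat n} (hH : A.IsHermitian) :
    ∃ (U : Mat n) (lam : Vec n), Uᵀ * U = 1 ∧ U * Uᵀ = 1 ∧ A = U * Matrix.diagonal lam * Uᵀ ∧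
      lam = hH.eigenvalues := by
  obtain ⟨U, hU⟩ : ∃ U : Mat n, U = hH.eigenvectorUnitary.val := ⟨_, rfl⟩
  have h1 : Uᵀ * U = 1 := by
    rw [hU]
    have := Unitary.coe_star_mul_self hH.eigenvectorUnitary
    simpa [Matrix.star_eq_conjTranspose, Matrix.conjTranspose_eq_transpose_of_trivial] using this
  have h2 : U * Uᵀ = 1 := by
    rw [hU]
    have := Unitary.coe_mul_star_self hH.eigenvectorUnitary
    simpa [Matrix.star_eq_conjTranspose, Matrix.conjTranspose_eq_transpose_of_trivial] using this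
  have h3 : A = U * Matrix.diagonal hH.eigenvalues * Uᵀ := by
    rw [hU]
    have := hH.spectral_theorem
    rw [Unitary.conjStarAlgAut_apply] at this
    simpa [Matrix.star_eq_conjTranspose, Matrix.conjTranspose_eq_transpose_of_trivial] using this
  exact ⟨U, _, h1, h2, h3, rfl⟩

theorem exists_Fr {A B : Mat n} (hA : A.PosDef) (hB : B.IsHermitian) :
    ∃ (L : Mat n) (β : Vec n), Fr A B L β := by
  obtain ⟨U, lam, h1, h2, h3, h4⟩ := spec_symm hA.isHermitian
  have hlam : ∀ i, 0 < lam i := fun i => by rw [h4]; exact hA.eigenvalues_pos i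
  obtain ⟨d, hd0, hd2⟩ : ∃ d : Vec n, (∀ i, d i ≠ 0) ∧ ∀ i, d i * d i = lam i :=
    ⟨fun i => Real.sqrt (lam i), fun i => (Real.sqrt_pos.2 (hlam i)).ne',
      fun i => Real.mul_self_sqrt (hlam i).le⟩
  obtain ⟨L0, hL0⟩ : ∃ L0 : Mat n, L0 = Matrix.diagonal (fun i => (d i)⁻¹) * Uᵀ := ⟨_, rfl⟩
  obtain ⟨L1, hL1⟩ : ∃ L1 : Mat n, L1 = U * Matrix.diagonal d := ⟨_, rfl⟩
  have e1 : L0 * L1 = 1 := by
    rw [hL0, hL1]
    calc Matrix.diagonal (fun i => (d i)⁻¹) * Uᵀ * (U * Matrix.diagonal d)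
        = Matrix.diagonal (fun i => (d i)⁻¹) * (Uᵀ * U) * Matrix.diagonal d := by
          simp only [Matrix.mul_assoc]
      _ = 1 := by
          rw [h1, Matrix.mul_one, Matrix.diagonal_mul_diagonal, ← Matrix.diagonal_one]
          congr 1; ext i; exact inv_mul_cancel₀ (hd0 i)
  have e2 : A = L1 * L1ᵀ := by
    rw [h3, hL1, Matrix.transpose_mul, Matrix.diagonal_transpose]
    calc U * Matrix.diagonal lam * Uᵀ
        = U * (Matrix.diagonal d * Matrix.diagonal d) * Uᵀ := by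
          rw [Matrix.diagonal_mul_diagonal]; simp only [hd2]
      _ = U * Matrix.diagonal d * (Matrix.diagonal d * Uᵀ) := by simp only [Matrix.mul_assoc]
  have e3 : L0 * A * L0ᵀ = 1 := by
    rw [e2]
    calc L0 * (L1 * L1ᵀ) * L0ᵀ = (L0 * L1) * (L0 * L1)ᵀ := by
          rw [Matrix.transpose_mul]; simp only [Matrix.mul_assoc]
      _ = 1 := by rw [e1]; simp
  -- symmetric matrix `L1ᵀ B L1`
  have hBT : Bᵀ = B := by
    have := hB.eq
    rwa [Matrix.conjTranspose_eq_transpose_of_trivial] at this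
  have hS : (L1ᵀ * B * L1).IsHermitian := by
    rw [Matrix.IsHermitian, Matrix.conjTranspose_eq_transpose_of_trivial, Matrix.transpose_mul,
      Matrix.transpose_mul, Matrix.transpose_transpose, hBT, Matrix.mul_assoc]
  obtain ⟨V, β, k1, k2, k3, -⟩ := spec_symm hS
  have e1' : L1 * L0 = 1 := mul_eq_one_comm.1 e1
  refine ⟨Vᵀ * L0, β, ?_, ?_⟩
  · calc Vᵀ * L0 * A * (Vᵀ * L0)ᵀ = Vᵀ * (L0 * A * L0ᵀ) * V := by
          rw [Matrix.transpose_mul, Matrix.transpose_transpose]; simp only [Matrix.mul_assoc]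
      _ = 1 := by rw [e3, Matrix.mul_one, k1]
  · calc B = (L1 * L0)ᵀ * B * (L1 * L0) := by rw [e1']; simp
      _ = L0ᵀ * (L1ᵀ * B * L1) * L0 := by
          rw [Matrix.transpose_mul]; simp only [Matrix.mul_assoc]
      _ = (Vᵀ * L0)ᵀ * Matrix.diagonal β * (Vᵀ * L0) := by
          rw [k3, Matrix.transpose_mul, Matrix.transpose_transpose]; simp only [Matrix.mul_assoc]

namespace Fr

variable {A B L : Mat n} {β : Vec n}

theorem mul1 (h : Fr A B L β) : (L * A) * Lᵀ = 1 := h.hA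

theorem mul2 (h : Fr A B L β) : Lᵀ * (L * A) = 1 := mul_eq_one_comm.1 h.hA

theorem isUnit (h : Fr A B L β) : IsUnit L := by
  have : L * (A * Lᵀ) = 1 := by rw [← Matrix.mul_assoc]; exact h.hA
  exact IsUnit.of_mul_eq_one _ this

theorem BA (h : Fr A B L β) : B * A = Lᵀ * Matrix.diagonal β * (L * A) := by
  conv_lhs => rw [h.hB]
  simp only [Matrix.mul_assoc]

theorem aeval_BA (h : Fr A B L β) (q : ℝ[X]) :
    aeval (B * A) q = Lᵀ * Matrix.diagonal (fun i => q.eval (β i)) * (L * A) := by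
  induction q using Polynomial.induction_on with
  | C a =>
    rw [aeval_C]
    simp only [eval_C]
    have : (Matrix.diagonal fun _ : Fin n => a) = a • (1 : Mat n) := by
      rw [Matrix.smul_one_eq_diagonal]
    rw [this, Matrix.mul_smul, Matrix.mul_one, Matrix.smul_mul, h.mul2,
      Algebra.algebraMap_eq_smul_one]
  | add p q hp hq =>
    rw [map_add, hp, hq]
    have : (Matrix.diagonal fun i => (p + q).eval (β i))
        = (Matrix.diagonal fun i => p.eval (β i)) + Matrix.diagonal fun i => q.eval (β i) := by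
      rw [Matrix.diagonal_add]; simp only [eval_add]
    rw [this, Matrix.mul_add, Matrix.add_mul]
  | monomial m a ih =>
    have e : (C a * X ^ (m + 1) : ℝ[X]) = (C a * X ^ m) * X := by rw [pow_succ, mul_assoc]
    rw [e, map_mul, ih, aeval_X]
    conv_lhs => rw [h.BA]
    calc Lᵀ * Matrix.diagonal (fun i => eval (β i) (C a * X ^ m)) * (L * A) *
          (Lᵀ * Matrix.diagonal β * (L * A))
        = Lᵀ * Matrix.diagonal (fun i => eval (β i) (C a * X ^ m)) * ((L * A) * Lᵀ) *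
          Matrix.diagonal β * (L * A) := by simp only [Matrix.mul_assoc]
      _ = _ := by
          rw [h.mul1, Matrix.mul_one, Matrix.mul_assoc Lᵀ, Matrix.diagonal_mul_diagonal]
          simp only [eval_mul, eval_X]

theorem trace_aeval (h : Fr A B L β) (q : ℝ[X]) :
    (aeval (B * A) q).trace = ∑ i, q.eval (β i) := by
  rw [h.aeval_BA, Matrix.trace_mul_comm, ← Matrix.mul_assoc, h.mul1, Matrix.one_mul,
    Matrix.trace_diagonal]

theorem A_aeval (h : Fr A B L β) (hA : Aᵀ = A) (q : ℝ[X]) :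
    A * aeval (B * A) q = (L * A)ᵀ * Matrix.diagonal (fun i => q.eval (β i)) * (L * A) := by
  rw [h.aeval_BA, Matrix.transpose_mul, hA]
  simp only [Matrix.mul_assoc]

theorem gram (h : Fr A B L β) (hA : Aᵀ = A) : (L * A)ᵀ * (L * A) = A := by
  rw [Matrix.transpose_mul, hA, Matrix.mul_assoc, h.mul2, Matrix.mul_one]

end Fr

/-- `∑ f (β i)` -/
noncomputable def Phi (f : ℝ → ℝ) (A B : Mat n) : ℝ := by
  classical
  exact if h : ∃ L β, Fr A B L β then ∑ i, f (h.choose_spec.choose i) else 0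

/-- `A f(BA)` -/
noncomputable def Sf (f : ℝ → ℝ) (A B : Mat n) : Mat n := by
  classical
  exact if h : ∃ L β, Fr A B L β then
    (h.choose * A)ᵀ * Matrix.diagonal (fun i => f (h.choose_spec.choose i)) * (h.choose * A)
    else 0

theorem exists_interp (f : ℝ → ℝ) (s : Finset ℝ) : ∃ q : ℝ[X], ∀ x ∈ s, q.eval x = f x := by
  classical
  refine ⟨Lagrange.interpolate s (fun x => x) f, fun x hx => ?_⟩
  exact Lagrange.eval_interpolate_at_node _ (fun x _ y _ h => h) hx

theorem Fr.sum_eq {A B L L' : Mat n} {β β' : Vec n} (h : Fr A B L β) (h' : Fr A B L' β')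
    (f : ℝ → ℝ) : ∑ i, f (β i) = ∑ i, f (β' i) := by
  classical
  obtain ⟨q, hq⟩ := exists_interp f (Finset.univ.image β ∪ Finset.univ.image β')
  have h1 : ∀ i, q.eval (β i) = f (β i) := fun i => hq _ (by simp)
  have h2 : ∀ i, q.eval (β' i) = f (β' i) := fun i => hq _ (by simp)
  simp only [← h1, ← h2, ← h.trace_aeval, ← h'.trace_aeval]

theorem Phi_eq {A B L : Mat n} {β : Vec n} (h : Fr A B L β) (f : ℝ → ℝ) :
    Phi f A B = ∑ i, f (β i) := by
  classical
  have hex : ∃ L β, Fr A B L β := ⟨L, β, h⟩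
  unfold Phi
  rw [dif_pos hex]
  exact Fr.sum_eq hex.choose_spec.choose_spec h f

theorem Sf_eq {A B L : Mat n} {β : Vec n} (hA : Aᵀ = A) (h : Fr A B L β) (f : ℝ → ℝ) :
    Sf f A B = (L * A)ᵀ * Matrix.diagonal (fun i => f (β i)) * (L * A) := by
  classical
  have hex : ∃ L β, Fr A B L β := ⟨L, β, h⟩
  unfold Sf
  rw [dif_pos hex]
  have h' := hex.choose_spec.choose_spec
  set L' := hex.choose
  set β' := hex.choose_spec.choose
  obtain ⟨q, hq⟩ := exists_interp f (Finset.univ.image β ∪ Finset.univ.image β')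
  have h1 : ∀ i, q.eval (β i) = f (β i) := fun i => hq _ (by simp)
  have h2 : ∀ i, q.eval (β' i) = f (β' i) := fun i => hq _ (by simp)
  simp only [← h1, ← h2]
  rw [← h.A_aeval hA, ← h'.A_aeval hA]

/-! ### the nodal polynomial -/

/-- `∏_{λ ∈ s} (X - λ)` -/
noncomputable def nod (s : Finset ℝ) : ℝ[X] := ∏ x ∈ s, (X - C x)

theorem eval_nod (s : Finset ℝ) (x : ℝ) : (nod s).eval x = ∏ y ∈ s, (x - y) := by
  simp [nod, eval_prod]

theorem nod_nhds (s : Finset ℝ) (U : Set ℝ) (h : ∀ x ∈ s, U ∈ 𝓝 x) :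
    ∃ δ > 0, ∀ x, |(nod s).eval x| < δ → x ∈ U := by
  classical
  have h1 : ∀ y ∈ s, ∃ r > 0, r ≤ (1 : ℝ) ∧ ∀ x, |x - y| < r → x ∈ U := by
    intro y hy
    obtain ⟨r, hr, h2⟩ := Metric.mem_nhds_iff.1 (h y hy)
    refine ⟨min r 1, by positivity, min_le_right _ _, fun x hx => h2 ?_⟩
    rw [Metric.mem_ball, Real.dist_eq]
    exact lt_of_lt_of_le hx (min_le_left _ _)
  choose! r hr0 hr1 hrU using h1
  refine ⟨∏ y ∈ s, r y, Finset.prod_pos hr0, fun x hx => ?_⟩
  by_contra hU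
  have h2 : ∀ y ∈ s, r y ≤ |x - y| := by
    intro y hy
    by_contra h3
    push Not at h3
    exact hU (hrU y hy x h3)
  have h3 : ∏ y ∈ s, r y ≤ |(nod s).eval x| := by
    rw [eval_nod, Finset.abs_prod]
    exact Finset.prod_le_prod (fun y hy => (hr0 y hy).le) h2
  linarith

theorem nod_sq_isBigO (s : Finset ℝ) {y : ℝ} (hy : y ∈ s) :
    (fun x => (x - y) ^ 2) =O[𝓝 y] fun x => ((nod s).eval x) ^ 2 := by
  classical
  have e : ∀ x, (nod s).eval x = (x - y) * ∏ z ∈ s.erase y, (x - z) := by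
    intro x
    rw [eval_nod, ← Finset.mul_prod_erase s _ hy]
  have h0 : ∏ z ∈ s.erase y, (y - z) ≠ 0 := by
    rw [Finset.prod_ne_zero_iff]
    intro z hz
    have := Finset.ne_of_mem_erase hz
    exact sub_ne_zero.2 this.symm
  have hc : Tendsto (fun x => ∏ z ∈ s.erase y, (x - z)) (𝓝 y) (𝓝 (∏ z ∈ s.erase y, (y - z))) := by
    apply Continuous.tendsto
    fun_prop
  have h1 : (fun _ : ℝ => (1 : ℝ)) =O[𝓝 y] fun x => ∏ z ∈ s.erase y, (x - z) := by
    refine IsBigO.of_bound (2 / |∏ z ∈ s.erase y, (y - z)|) ?_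
    have hp : 0 < |∏ z ∈ s.erase y, (y - z)| := abs_pos.2 h0
    have h2 := hc.abs.eventually (lt_mem_nhds (show |∏ z ∈ s.erase y, (y - z)| / 2
      < |∏ z ∈ s.erase y, (y - z)| by linarith))
    filter_upwards [h2] with x hx
    rw [norm_one, Real.norm_eq_abs]
    rw [div_mul_eq_mul_div, le_div_iff₀ hp]
    linarith
  have h2 : (fun x => (x - y) * 1) =O[𝓝 y] fun x => (nod s).eval x := by
    simp_rw [e]
    exact (isBigO_refl _ _).mul h1
  simpa using h2.pow 2

theorem key_o (s : Finset ℝ) (ρ : ℝ → ℝ)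
    (h : ∀ y ∈ s, (fun x => ρ x) =o[𝓝 y] fun x => (x - y) ^ 2) {ε : ℝ} (hε : 0 < ε) :
    ∃ δ > 0, ∀ x, |(nod s).eval x| < δ → |ρ x| ≤ ε * ((nod s).eval x) ^ 2 := by
  refine nod_nhds s {x | |ρ x| ≤ ε * ((nod s).eval x) ^ 2} fun y hy => ?_
  have h1 := (h y hy).trans_isBigO (nod_sq_isBigO s hy)
  have h2 := (isLittleO_iff.1 h1) hε
  filter_upwards [h2] with x hx
  simpa [abs_of_nonneg (sq_nonneg ((nod s).eval x))] using hx

/-- each value of the nodal polynomial is controlled by a trace -/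
theorem Fr.nod_le {A B L : Mat n} {β : Vec n} (h : Fr A B L β) (s : Finset ℝ) :
    ∑ i, ((nod s).eval (β i)) ^ 2
      = (aeval (B * A) (nod s) * aeval (B * A) (nod s)).trace := by
  rw [← map_mul, h.trace_aeval]
  simp only [eval_mul, sq]

/-- the nodal polynomial annihilates `B A` -/
theorem Fr.nod_zero {A B L : Mat n} {β : Vec n} (h : Fr A B L β) {s : Finset ℝ}
    (hs : ∀ i, β i ∈ s) : aeval (B * A) (nod s) = 0 := by
  rw [h.aeval_BA]
  have : (Matrix.diagonal fun i => (nod s).eval (β i)) = 0 := by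
    rw [← Matrix.diagonal_zero]
    congr 1
    ext i
    rw [eval_nod]
    exact Finset.prod_eq_zero (hs i) (sub_self _)
  rw [this]; simp

end Vale.Agent.P254.L
end

section

/-!
P254: spectral functions are continuous and agree to second order with Hermite polynomials
(helper245).
-/

namespace Vale.Agent.P254.L

open Matrix Polynomial Filter Topology Asymptotics Set

variable {n : ℕ}

theorem Fr.ev_nod {α : Type*} {l : Filter α} {A B : α → Mat n} {A0 B0 L0 : Mat n} {β0 : Vec n}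
    (h0 : Fr A0 B0 L0 β0) (hA : Tendsto A l (𝓝 A0)) (hB : Tendsto B l (𝓝 B0)) {s : Finset ℝ}
    (hs : ∀ i, β0 i ∈ s) {δ : ℝ} (hδ : 0 < δ) :
    ∀ᶠ x in l, ∀ (L : Mat n) (β : Vec n), Fr (A x) (B x) L β →
      ∀ j, |(nod s).eval (β j)| < δ := by
  have hc : Tendsto (fun x => (aeval (B x * A x) (nod s) * aeval (B x * A x) (nod s)).trace) l
      (𝓝 ((aeval (B0 * A0) (nod s) * aeval (B0 * A0) (nod s)).trace)) := by
    have h1 : Tendsto (fun x => B x * A x) l (𝓝 (B0 * A0)) := hB.mul hA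
    have h2 : Tendsto (fun x => aeval (B x * A x) (nod s)) l (𝓝 (aeval (B0 * A0) (nod s))) :=
      ((Polynomial.continuous_aeval (nod s)).tendsto _).comp h1
    have h3 : Continuous fun M : Mat n => M.trace := continuous_id.matrix_trace
    exact (h3.tendsto _).comp (h2.mul h2)
  rw [h0.nod_zero hs, Matrix.mul_zero, Matrix.trace_zero] at hc
  have h4 := hc.eventually (gt_mem_nhds (show (0:ℝ) < δ ^ 2 by positivity))
  filter_upwards [h4] with x hx L β hF j
  rw [← hF.nod_le s] at hx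
  have h5 : ((nod s).eval (β j)) ^ 2 ≤ ∑ i, ((nod s).eval (β i)) ^ 2 :=
    Finset.single_le_sum (f := fun i => ((nod s).eval (β i)) ^ 2) (fun i _ => sq_nonneg _)
      (Finset.mem_univ j)
  exact abs_lt_of_sq_lt_sq (by linarith) hδ.le

theorem Phi_tendsto {α : Type*} {l : Filter α} {A B : α → Mat n} {A0 B0 L0 : Mat n} {β0 : Vec n}
    (h0 : Fr A0 B0 L0 β0) (hA : Tendsto A l (𝓝 A0)) (hB : Tendsto B l (𝓝 B0)) {f : ℝ → ℝ}
    (hf : ∀ i, ContinuousAt f (β0 i)) (hfr : ∀ᶠ x in l, ∃ L β, Fr (A x) (B x) L β) :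
    Tendsto (fun x => Phi f (A x) (B x)) l (𝓝 (Phi f A0 B0)) := by
  classical
  obtain ⟨q, hq⟩ := exists_interp f (Finset.univ.image β0)
  have hq' : ∀ i, q.eval (β0 i) = f (β0 i) := fun i => hq _ (by simp)
  have e0 : Phi f A0 B0 = (aeval (B0 * A0) q).trace := by
    rw [Phi_eq h0, h0.trace_aeval]; simp only [hq']
  have hc : Tendsto (fun x => (aeval (B x * A x) q).trace) l
      (𝓝 ((aeval (B0 * A0) q).trace)) := by
    have h1 : Tendsto (fun x => B x * A x) l (𝓝 (B0 * A0)) := hB.mul hA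
    have h2 : Tendsto (fun x => aeval (B x * A x) q) l (𝓝 (aeval (B0 * A0) q)) :=
      ((Polynomial.continuous_aeval q).tendsto _).comp h1
    have h3 : Continuous fun M : Mat n => M.trace := continuous_id.matrix_trace
    exact (h3.tendsto _).comp h2
  rw [e0, Metric.tendsto_nhds]
  intro ε hε
  have hε' : 0 < ε / (2 * (n + 1)) := by positivity
  obtain ⟨δ, hδ, hk⟩ := nod_nhds (Finset.univ.image β0) {x | |f x - q.eval x| < ε / (2 * (n + 1))}
    (by
      intro y hy
      obtain ⟨i, -, rfl⟩ := Finset.mem_image.1 hy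
      have h5 : ContinuousAt (fun x => |f x - q.eval x|) (β0 i) :=
        ((hf i).sub q.continuous.continuousAt).abs
      have h6 : |f (β0 i) - q.eval (β0 i)| < ε / (2 * (n + 1)) := by
        rw [hq', sub_self, abs_zero]; exact hε'
      exact h5.eventually (gt_mem_nhds h6))
  have h7 := h0.ev_nod hA hB (s := Finset.univ.image β0) (by simp) hδ
  have h8 := (Metric.tendsto_nhds.1 hc) (ε / 2) (by positivity)
  filter_upwards [h7, h8, hfr] with x h7 h8 h9
  obtain ⟨L, β, hF⟩ := h9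
  rw [Real.dist_eq] at h8 ⊢
  have h10 : |Phi f (A x) (B x) - (aeval (B x * A x) q).trace| ≤ ε / 2 := by
    rw [Phi_eq hF, hF.trace_aeval, ← Finset.sum_sub_distrib]
    refine (Finset.abs_sum_le_sum_abs _ _).trans ?_
    have : ∀ i ∈ Finset.univ, |f (β i) - q.eval (β i)| ≤ ε / (2 * (n + 1)) := fun i _ =>
      (hk _ (h7 L β hF i)).le
    refine (Finset.sum_le_sum this).trans ?_
    rw [Finset.sum_const, Finset.card_univ, Fintype.card_fin, nsmul_eq_mul]
    rw [← mul_div_assoc, div_le_div_iff₀ (by positivity) (by positivity)]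
    nlinarith
  have e : Phi f (A x) (B x) - (aeval (B0 * A0) q).trace
      = (Phi f (A x) (B x) - (aeval (B x * A x) q).trace)
        + ((aeval (B x * A x) q).trace - (aeval (B0 * A0) q).trace) := by ring
  rw [e]
  have := abs_add_le (Phi f (A x) (B x) - (aeval (B x * A x) q).trace)
    ((aeval (B x * A x) q).trace - (aeval (B0 * A0) q).trace)
  linarith

/-- entries of `Sf f - A q(BA)` -/
theorem Sf_sub_le {A B L : Mat n} {β : Vec n} (hA : Aᵀ = A) (h : Fr A B L β) (f : ℝ → ℝ)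
    (q : ℝ[X]) {η : ℝ} (hη : ∀ k, |f (β k) - q.eval (β k)| ≤ η) (i j : Fin n) :
    |Sf f A B i j - (A * aeval (B * A) q) i j| ≤ η * ((A i i + A j j) / 2) := by
  have hg := h.gram hA
  have hgi : ∀ i, ∑ k, (L * A) k i * (L * A) k i = A i i := by
    intro i
    have := congrFun (congrFun hg i) i
    rw [Matrix.mul_apply] at this
    simpa [Matrix.transpose_apply] using this
  rw [Sf_eq hA h, h.A_aeval hA]
  have e : ((L * A)ᵀ * Matrix.diagonal (fun i => f (β i)) * (L * A)) i j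
      - ((L * A)ᵀ * Matrix.diagonal (fun i => q.eval (β i)) * (L * A)) i j
      = ∑ k, (f (β k) - q.eval (β k)) * ((L * A) k i * (L * A) k j) := by
    rw [Matrix.mul_apply, Matrix.mul_apply, ← Finset.sum_sub_distrib]
    refine Finset.sum_congr rfl fun k _ => ?_
    rw [Matrix.mul_diagonal, Matrix.mul_diagonal, Matrix.transpose_apply]
    ring
  rw [e]
  refine (Finset.abs_sum_le_sum_abs _ _).trans ?_
  have h1 : ∀ k ∈ Finset.univ, |(f (β k) - q.eval (β k)) * ((L * A) k i * (L * A) k j)|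
      ≤ η * (((L * A) k i * (L * A) k i + (L * A) k j * (L * A) k j) / 2) := by
    intro k _
    rw [abs_mul]
    refine mul_le_mul (hη k) ?_ (abs_nonneg _) ((abs_nonneg _).trans (hη k))
    rw [abs_le]
    constructor <;> nlinarith [sq_nonneg ((L * A) k i + (L * A) k j),
      sq_nonneg ((L * A) k i - (L * A) k j)]
  refine (Finset.sum_le_sum h1).trans ?_
  rw [← Finset.mul_sum, ← Finset.sum_div, Finset.sum_add_distrib, hgi, hgi]

theorem Sf_tendsto {α : Type*} {l : Filter α} {A B : α → Mat n} {A0 B0 L0 : Mat n} {β0 : Vec n}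
    (h0 : Fr A0 B0 L0 β0) (hA0 : A0ᵀ = A0) (hA : Tendsto A l (𝓝 A0)) (hB : Tendsto B l (𝓝 B0))
    {f : ℝ → ℝ} (hf : ∀ i, ContinuousAt f (β0 i))
    (hfr : ∀ᶠ x in l, (A x)ᵀ = A x ∧ ∃ L β, Fr (A x) (B x) L β) :
    Tendsto (fun x => Sf f (A x) (B x)) l (𝓝 (Sf f A0 B0)) := by
  classical
  obtain ⟨q, hq⟩ := exists_interp f (Finset.univ.image β0)
  have hq' : ∀ i, q.eval (β0 i) = f (β0 i) := fun i => hq _ (by simp)
  have e0 : Sf f A0 B0 = A0 * aeval (B0 * A0) q := by
    rw [Sf_eq hA0 h0, h0.A_aeval hA0]; simp only [hq']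
  have hc : Tendsto (fun x => A x * aeval (B x * A x) q) l (𝓝 (A0 * aeval (B0 * A0) q)) := by
    have h1 : Tendsto (fun x => B x * A x) l (𝓝 (B0 * A0)) := hB.mul hA
    have h2 : Tendsto (fun x => aeval (B x * A x) q) l (𝓝 (aeval (B0 * A0) q)) :=
      ((Polynomial.continuous_aeval q).tendsto _).comp h1
    exact hA.mul h2
  rw [e0]
  refine tendsto_pi_nhds.2 fun i => tendsto_pi_nhds.2 fun j => ?_
  have hcij : Tendsto (fun x => (A x * aeval (B x * A x) q) i j) l
      (𝓝 ((A0 * aeval (B0 * A0) q) i j)) := tendsto_pi_nhds.1 (tendsto_pi_nhds.1 hc i) j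
  rw [Metric.tendsto_nhds]
  intro ε hε
  set κ : ℝ := |(A0 i i + A0 j j) / 2| + 1 with hκ
  have hκ0 : 0 < κ := by positivity
  have hε' : 0 < ε / (2 * κ) := by positivity
  obtain ⟨δ, hδ, hk⟩ := nod_nhds (Finset.univ.image β0) {x | |f x - q.eval x| < ε / (2 * κ)}
    (by
      intro y hy
      obtain ⟨i, -, rfl⟩ := Finset.mem_image.1 hy
      have h5 : ContinuousAt (fun x => |f x - q.eval x|) (β0 i) :=
        ((hf i).sub q.continuous.continuousAt).abs
      have h6 : |f (β0 i) - q.eval (β0 i)| < ε / (2 * κ) := by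
        rw [hq', sub_self, abs_zero]; exact hε'
      exact h5.eventually (gt_mem_nhds h6))
  have h7 := h0.ev_nod hA hB (s := Finset.univ.image β0) (by simp) hδ
  have h8 := (Metric.tendsto_nhds.1 hcij) (ε / 2) (by positivity)
  have hAi : ∀ i, Tendsto (fun x => A x i i) l (𝓝 (A0 i i)) := fun i =>
    tendsto_pi_nhds.1 (tendsto_pi_nhds.1 hA i) i
  have h11 : ∀ᶠ x in l, (A x i i + A x j j) / 2 < κ := by
    have := ((hAi i).add (hAi j)).div_const 2
    refine this.eventually (gt_mem_nhds ?_)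
    rw [hκ]
    have := le_abs_self ((A0 i i + A0 j j) / 2)
    linarith
  filter_upwards [h7, h8, hfr, h11] with x h7 h8 h9 h11
  obtain ⟨hsy, L, β, hF⟩ := h9
  rw [Real.dist_eq] at h8 ⊢
  have h10 : |Sf f (A x) (B x) i j - (A x * aeval (B x * A x) q) i j| ≤ ε / 2 := by
    refine (Sf_sub_le hsy hF f q (η := ε / (2 * κ))
      (fun k => (hk _ (h7 L β hF k)).le) i j).trans ?_
    calc ε / (2 * κ) * ((A x i i + A x j j) / 2) ≤ ε / (2 * κ) * κ :=
          mul_le_mul_of_nonneg_left h11.le hε'.le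
      _ = ε / 2 := by field_simp
  have e : Sf f (A x) (B x) i j - (A0 * aeval (B0 * A0) q) i j
      = (Sf f (A x) (B x) i j - (A x * aeval (B x * A x) q) i j)
        + ((A x * aeval (B x * A x) q) i j - (A0 * aeval (B0 * A0) q) i j) := by ring
  rw [e]
  have := abs_add_le (Sf f (A x) (B x) i j - (A x * aeval (B x * A x) q) i j)
    ((A x * aeval (B x * A x) q) i j - (A0 * aeval (B0 * A0) q) i j)
  linarith

/-! ### second order -/

/-- the remainder of a matching polynomial is `o((x-y)^2)` -/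
theorem rho_o {f f1 : ℝ → ℝ} {f2 y : ℝ} (h1 : ∀ᶠ x in 𝓝 y, HasDerivAt f (f1 x) x)
    (h2 : HasDerivAt f1 f2 y) {q : ℝ[X]} (e0 : q.eval y = f y)
    (e1 : q.derivative.eval y = f1 y) (e2 : q.derivative.derivative.eval y = f2) :
    (fun x => f x - q.eval x) =o[𝓝 y] fun x => (x - y) ^ 2 := by
  have hT : J2 (𝓝 0) (fun s => f (y + s) - q.eval (y + s)) (f (y + 0) - q.eval (y + 0))
      (f1 (y + 0) - q.derivative.eval (y + 0)) ((f2 - q.derivative.derivative.eval (y + 0)) / 2) := by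
    refine J2.of_hasDerivAt (f' := fun s => f1 (y + s) - q.derivative.eval (y + s)) ?_ ?_
    · have : Tendsto (fun s : ℝ => y + s) (𝓝 0) (𝓝 y) := by
        have h : Continuous fun s : ℝ => y + s := by fun_prop
        have := h.tendsto 0
        simpa using this
      filter_upwards [this.eventually h1] with s hs
      exact (HasDerivAt.comp_const_add y s hs).sub
        (HasDerivAt.comp_const_add y s (q.hasDerivAt (y + s)))
    · have h3 : HasDerivAt f1 f2 (y + 0) := by simpa using h2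
      exact (HasDerivAt.comp_const_add y 0 h3).sub
        (HasDerivAt.comp_const_add y 0 (q.derivative.hasDerivAt (y + 0)))
  simp only [add_zero, e0, e1, e2, sub_self, zero_div] at hT
  have hT' : (fun s => f (y + s) - q.eval (y + s)) =o[𝓝 0] fun s => s ^ 2 := by
    refine IsLittleO.congr_left hT fun s => ?_
    ring
  have h4 : Tendsto (fun x : ℝ => x - y) (𝓝 y) (𝓝 0) := by
    have h : Continuous fun x : ℝ => x - y := by fun_prop
    have := h.tendsto y
    simpa using this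
  have h5 := hT'.comp_tendsto h4
  refine IsLittleO.congr h5 (fun x => ?_) (fun x => ?_)
  · simp only [Function.comp]
    have : y + (x - y) = x := by ring
    rw [this]
  · simp only [Function.comp]

/-- Lipschitz dependence of polynomials of matrices, entrywise -/
theorem aeval_isBigO {l : Filter ℝ} (hl : l ≤ 𝓝 0) {M : ℝ → Mat n} {M0 : Mat n}
    (hM : ∀ i j, (fun t => M t i j - M0 i j) =O[l] fun t => t) (q : ℝ[X]) :
    ∀ i j, (fun t => aeval (M t) q i j - aeval M0 q i j) =O[l] fun t => t := by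
  have hb : ∀ i j, (fun t => M t i j) =O[l] fun _ => (1 : ℝ) := by
    intro i j
    have h1 : (fun t => M t i j - M0 i j) =O[l] fun _ => (1 : ℝ) :=
      (hM i j).trans (id_isBigO_one hl)
    have h2 : (fun _ : ℝ => M0 i j) =O[l] fun _ => (1 : ℝ) := isBigO_const_const _ one_ne_zero _
    refine (h1.add h2).congr_left fun t => ?_
    ring
  induction q using Polynomial.induction_on with
  | C a =>
    intro i j
    simp only [aeval_C, sub_self]
    exact isBigO_zero _ _
  | add p q hp hq =>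
    intro i j
    refine ((hp i j).add (hq i j)).congr_left fun t => ?_
    simp only [map_add, Matrix.add_apply]
    ring
  | monomial m a ih =>
    intro i j
    have e : (C a * X ^ (m + 1) : ℝ[X]) = (C a * X ^ m) * X := by rw [pow_succ, mul_assoc]
    simp only [e, map_mul, aeval_X] at ih ⊢
    obtain ⟨N, hN⟩ : ∃ N : ℝ → Mat n, N = fun t => aeval (M t) (C a : ℝ[X]) * aeval (M t) (X ^ m : ℝ[X]) :=
      ⟨_, rfl⟩
    obtain ⟨N0, hN0⟩ : ∃ N0 : Mat n, N0 = aeval M0 (C a : ℝ[X]) * aeval M0 (X ^ m : ℝ[X]) := ⟨_, rfl⟩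
    have hNt : ∀ t, aeval (M t) (C a : ℝ[X]) * aeval (M t) (X ^ m : ℝ[X]) = N t := fun t => by rw [hN]
    simp only [hNt, ← hN0] at ih ⊢
    have h3 : ∀ k, (fun t => N t i k * M t k j - N0 i k * M0 k j) =O[l] fun t => t := by
      intro k
      have h4 : (fun t => (N t i k - N0 i k) * M t k j) =O[l] fun t => t := by
        simpa using (ih i k).mul (hb k j)
      have h5 : (fun t => N0 i k * (M t k j - M0 k j)) =O[l] fun t => t :=
        (hM k j).const_mul_left _
      refine (h4.add h5).congr_left fun t => ?_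
      ring
    have h6 := IsBigO.sum (s := (Finset.univ : Finset (Fin n))) (fun k _ => h3 k)
    refine h6.congr_left fun t => ?_
    simp only [Matrix.mul_apply, Finset.sum_apply, Finset.sum_sub_distrib]

/-- the curve data used below -/
structure Curve (l : Filter ℝ) (A B : ℝ → Mat n) (A0 B0 : Mat n) : Prop where
  hl : l ≤ 𝓝 0
  symm0 : A0ᵀ = A0
  hA : ∀ i j, (fun t => A t i j - A0 i j) =O[l] fun t => t
  hB : ∀ i j, (fun t => B t i j - B0 i j) =O[l] fun t => t
  fr : ∀ᶠ t in l, (A t)ᵀ = A t ∧ ∃ L β, Fr (A t) (B t) L β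

namespace Curve

variable {l : Filter ℝ} {A B : ℝ → Mat n} {A0 B0 : Mat n}

theorem tendsto_of {M : ℝ → Mat n} {M0 : Mat n} (hl : l ≤ 𝓝 0)
    (hM : ∀ i j, (fun t => M t i j - M0 i j) =O[l] fun t => t) : Tendsto M l (𝓝 M0) := by
  refine tendsto_pi_nhds.2 fun i => tendsto_pi_nhds.2 fun j => ?_
  have h := (hM i j).trans_tendsto (tendsto_id' hl)
  have := h.add_const (M0 i j)
  simpa using this

theorem tendsto_A (h : Curve l A B A0 B0) : Tendsto A l (𝓝 A0) := tendsto_of h.hl h.hA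
theorem tendsto_B (h : Curve l A B A0 B0) : Tendsto B l (𝓝 B0) := tendsto_of h.hl h.hB

theorem hBA (h : Curve l A B A0 B0) :
    ∀ i j, (fun t => (B t * A t) i j - (B0 * A0) i j) =O[l] fun t => t := by
  intro i j
  have hb : ∀ i j, (fun t => A t i j) =O[l] fun _ => (1 : ℝ) := by
    intro i j
    have h1 : (fun t => A t i j - A0 i j) =O[l] fun _ => (1 : ℝ) :=
      (h.hA i j).trans (id_isBigO_one h.hl)
    have h2 : (fun _ : ℝ => A0 i j) =O[l] fun _ => (1 : ℝ) := isBigO_const_const _ one_ne_zero _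
    refine (h1.add h2).congr_left fun t => ?_
    ring
  have h3 : ∀ k, (fun t => B t i k * A t k j - B0 i k * A0 k j) =O[l] fun t => t := by
    intro k
    have h4 : (fun t => (B t i k - B0 i k) * A t k j) =O[l] fun t => t := by
      simpa using (h.hB i k).mul (hb k j)
    have h5 : (fun t => B0 i k * (A t k j - A0 k j)) =O[l] fun t => t :=
      (h.hA k j).const_mul_left _
    refine (h4.add h5).congr_left fun t => ?_
    ring
  have h6 := IsBigO.sum (s := (Finset.univ : Finset (Fin n))) (fun k _ => h3 k)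
  refine h6.congr_left fun t => ?_
  simp only [Matrix.mul_apply, Finset.sum_apply, Finset.sum_sub_distrib]

theorem nod_O (h : Curve l A B A0 B0) {L0 : Mat n} {β0 : Vec n} (h0 : Fr A0 B0 L0 β0)
    {s : Finset ℝ} (hs : ∀ i, β0 i ∈ s) :
    (fun t => (aeval (B t * A t) (nod s) * aeval (B t * A t) (nod s)).trace) =O[l]
      fun t => t ^ 2 := by
  have h1 := aeval_isBigO h.hl h.hBA (nod s)
  rw [h0.nod_zero hs] at h1
  simp only [Matrix.zero_apply, sub_zero] at h1
  have h2 : ∀ i, (fun t => ∑ k, aeval (B t * A t) (nod s) i k * aeval (B t * A t) (nod s) k i)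
      =O[l] fun t => t ^ 2 := by
    intro i
    have h5 : ∀ k, (fun t => aeval (B t * A t) (nod s) i k * aeval (B t * A t) (nod s) k i)
        =O[l] fun t => t ^ 2 := by
      intro k
      have := (h1 i k).mul (h1 k i)
      refine this.congr_right fun t => ?_
      ring
    have h6 := IsBigO.sum (s := (Finset.univ : Finset (Fin n))) (fun k _ => h5 k)
    refine h6.congr_left fun t => ?_
    simp only [Finset.sum_apply]
  have h3 := IsBigO.sum (s := (Finset.univ : Finset (Fin n))) (fun i _ => h2 i)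
  refine h3.congr_left fun t => ?_
  simp only [Matrix.trace, Matrix.diag_apply, Matrix.mul_apply, Finset.sum_apply]

/-- the spectral sum agrees to second order with the trace of a matching polynomial -/
theorem Phi_poly (h : Curve l A B A0 B0) {L0 : Mat n} {β0 : Vec n} (h0 : Fr A0 B0 L0 β0)
    {f : ℝ → ℝ} {q : ℝ[X]}
    (hρ : ∀ i, (fun x => f x - q.eval x) =o[𝓝 (β0 i)] fun x => (x - β0 i) ^ 2) :
    (fun t => Phi f (A t) (B t) - (aeval (B t * A t) q).trace) =o[l] fun t => t ^ 2 := by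
  classical
  set s := Finset.univ.image β0 with hs
  have hs' : ∀ i, β0 i ∈ s := fun i => by simp [hs]
  have hO := h.nod_O h0 hs'
  obtain ⟨K, hK⟩ := hO.bound
  rw [isLittleO_iff]
  intro ε hε
  set K' := |K| + 1 with hK'
  have hK0 : 0 < K' := by positivity
  obtain ⟨δ, hδ, hk⟩ := key_o s (fun x => f x - q.eval x) (by
    intro y hy
    obtain ⟨i, -, rfl⟩ := Finset.mem_image.1 hy
    exact hρ i) (show 0 < ε / K' by positivity)
  have h7 := h0.ev_nod h.tendsto_A h.tendsto_B hs' hδ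
  filter_upwards [h7, hK, h.fr] with t h7 hK hfr
  obtain ⟨-, L, β, hF⟩ := hfr
  rw [Phi_eq hF, hF.trace_aeval, ← Finset.sum_sub_distrib, Real.norm_eq_abs]
  refine (Finset.abs_sum_le_sum_abs _ _).trans ?_
  refine (Finset.sum_le_sum (fun i _ => hk _ (h7 L β hF i))).trans ?_
  rw [← Finset.mul_sum, hF.nod_le s]
  have h9 : (aeval (B t * A t) (nod s) * aeval (B t * A t) (nod s)).trace ≤ K' * ‖t ^ 2‖ := by
    refine (le_abs_self _).trans ?_
    rw [Real.norm_eq_abs] at hK
    refine hK.trans (mul_le_mul_of_nonneg_right ?_ (norm_nonneg _))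
    rw [hK']; have := le_abs_self K; linarith
  calc ε / K' * (aeval (B t * A t) (nod s) * aeval (B t * A t) (nod s)).trace
      ≤ ε / K' * (K' * ‖t ^ 2‖) := mul_le_mul_of_nonneg_left h9 (by positivity)
    _ = ε * ‖t ^ 2‖ := by field_simp

/-- the matrix `Sf f` agrees to second order with `A q(BA)` -/
theorem Sf_poly (h : Curve l A B A0 B0) {L0 : Mat n} {β0 : Vec n} (h0 : Fr A0 B0 L0 β0)
    {f : ℝ → ℝ} {q : ℝ[X]}
    (hρ : ∀ i, (fun x => f x - q.eval x) =o[𝓝 (β0 i)] fun x => (x - β0 i) ^ 2) (i j : Fin n) :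
    (fun t => Sf f (A t) (B t) i j - (A t * aeval (B t * A t) q) i j) =o[l] fun t => t ^ 2 := by
  classical
  set s := Finset.univ.image β0 with hs
  have hs' : ∀ i, β0 i ∈ s := fun i => by simp [hs]
  have hO := h.nod_O h0 hs'
  obtain ⟨K, hK⟩ := hO.bound
  rw [isLittleO_iff]
  intro ε hε
  set κ : ℝ := |(A0 i i + A0 j j) / 2| + 1 with hκ
  have hκ0 : 0 < κ := by positivity
  set K' := (|K| + 1) * κ with hK'
  have hK0 : 0 < K' := by positivity
  obtain ⟨δ, hδ, hk⟩ := key_o s (fun x => f x - q.eval x) (by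
    intro y hy
    obtain ⟨i, -, rfl⟩ := Finset.mem_image.1 hy
    exact hρ i) (show 0 < ε / K' by positivity)
  have h7 := h0.ev_nod h.tendsto_A h.tendsto_B hs' hδ
  have hAi : ∀ i, Tendsto (fun x => A x i i) l (𝓝 (A0 i i)) := fun i =>
    tendsto_pi_nhds.1 (tendsto_pi_nhds.1 h.tendsto_A i) i
  have h11 : ∀ᶠ x in l, (A x i i + A x j j) / 2 < κ := by
    have := ((hAi i).add (hAi j)).div_const 2
    refine this.eventually (gt_mem_nhds ?_)
    rw [hκ]
    have := le_abs_self ((A0 i i + A0 j j) / 2)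
    linarith
  filter_upwards [h7, hK, h.fr, h11] with t h7 hK hfr h11
  obtain ⟨hsy, L, β, hF⟩ := hfr
  have h9 : (aeval (B t * A t) (nod s) * aeval (B t * A t) (nod s)).trace
      ≤ (|K| + 1) * ‖t ^ 2‖ := by
    refine (le_abs_self _).trans ?_
    rw [Real.norm_eq_abs] at hK
    refine hK.trans (mul_le_mul_of_nonneg_right ?_ (norm_nonneg _))
    have := le_abs_self K; linarith
  have h10 : ∀ k, |f (β k) - q.eval (β k)| ≤ ε / K' * ((|K| + 1) * ‖t ^ 2‖) := by
    intro k
    refine (hk _ (h7 L β hF k)).trans (mul_le_mul_of_nonneg_left ?_ (by positivity))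
    refine le_trans ?_ h9
    rw [← hF.nod_le s]
    exact Finset.single_le_sum (f := fun i => ((nod s).eval (β i)) ^ 2) (fun i _ => sq_nonneg _)
      (Finset.mem_univ k)
  have h12 := Sf_sub_le hsy hF f q h10 i j
  rw [Real.norm_eq_abs]
  refine h12.trans ?_
  calc ε / K' * ((|K| + 1) * ‖t ^ 2‖) * ((A t i i + A t j j) / 2)
      ≤ ε / K' * ((|K| + 1) * ‖t ^ 2‖) * κ := by
        refine mul_le_mul_of_nonneg_left h11.le (by positivity)
    _ = ε * ‖t ^ 2‖ := by rw [hK']; field_simp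

end Curve

end Vale.Agent.P254.L
end

section

/-!
P254, block (Z): domain, boundary, existence of the minimum (helper640).
-/

namespace Vale.Agent.P254.L

open Matrix Filter Topology Set

variable {n : ℕ}

/-! ### positive semidefinite matrices -/

theorem psd_iff {M : Mat n} :
    M.PosSemidef ↔ Mᵀ = M ∧ ∀ x : Vec n, 0 ≤ x ⬝ᵥ (M *ᵥ x) := by
  rw [Matrix.posSemidef_iff_dotProduct_mulVec]
  simp [Matrix.IsHermitian, Matrix.conjTranspose_eq_transpose_of_trivial]

theorem isClosed_psd : IsClosed {M : Mat n | M.PosSemidef} := by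
  have e : {M : Mat n | M.PosSemidef}
      = {M : Mat n | Mᵀ = M} ∩ ⋂ x : Vec n, {M : Mat n | 0 ≤ x ⬝ᵥ (M *ᵥ x)} := by
    ext M
    simp only [mem_ofPred_eq, mem_inter_iff, mem_iInter, psd_iff]
  rw [e]
  refine IsClosed.inter ?_ (isClosed_iInter fun x => ?_)
  · exact isClosed_eq (continuous_id.matrix_transpose) continuous_id
  · refine isClosed_le continuous_const ?_
    exact Continuous.dotProduct continuous_const
      (Continuous.matrix_mulVec continuous_id continuous_const)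

theorem psd_entry {M : Mat n} (h : M.PosSemidef) (i j : Fin n) :
    |M i j| ≤ (M i i + M j j) / 2 := by
  obtain ⟨h1, h2⟩ := psd_iff.1 h
  have hs : M j i = M i j := congrFun (congrFun h1 i) j
  have key : ∀ s : ℝ, 0 ≤ M i i + s * M i j + s * M i j + s * s * M j j := by
    intro s
    have := h2 (Pi.single i 1 + s • Pi.single j 1)
    simp only [Matrix.mulVec_add, Matrix.mulVec_smul, dotProduct_add, add_dotProduct,
      smul_dotProduct, dotProduct_smul, Matrix.mulVec_single_one, Matrix.col_apply,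
      single_one_dotProduct, smul_eq_mul, hs] at this
    linarith
  rw [abs_le]
  constructor
  · have := key 1; linarith
  · have := key (-1); linarith

theorem psd_diag_le {M : Mat n} {R : ℝ} (h : (R • (1 : Mat n) - M).PosSemidef) (i : Fin n) :
    M i i ≤ R := by
  have := h.diag_nonneg (i := i)
  simp [Matrix.sub_apply, Matrix.smul_apply] at this
  linarith

/-- a bounded closed order interval of matrices is compact -/
theorem isCompact_box (R : ℝ) :
    IsCompact {M : Mat n | ∀ i j, M i j ∈ Icc (-R) R} := by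
  have h : IsCompact (Set.pi univ fun _ : Fin n => Set.pi univ fun _ : Fin n => Icc (-R) R) :=
    isCompact_univ_pi fun _ => isCompact_univ_pi fun _ => isCompact_Icc
  have e : {M : Mat n | ∀ i j, M i j ∈ Icc (-R) R}
      = (Set.pi univ fun _ : Fin n => Set.pi univ fun _ : Fin n => Icc (-R) R) := by
    ext M
    exact ⟨fun h i _ j _ => h i j, fun h i j => h i trivial j trivial⟩
  rw [e]
  exact h

/-! ### determinants -/

theorem Fr.det_B {A B L : Mat n} {β : Vec n} (h : Fr A B L β) :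
    B.det = L.det ^ 2 * ∏ i, β i := by
  conv_lhs => rw [h.hB]
  rw [Matrix.det_mul, Matrix.det_mul, Matrix.det_transpose, Matrix.det_diagonal]
  ring

theorem Fr.det_A {A B L : Mat n} {β : Vec n} (h : Fr A B L β) : L.det ^ 2 * A.det = 1 := by
  have := congrArg Matrix.det h.hA
  rw [Matrix.det_mul, Matrix.det_mul, Matrix.det_transpose, Matrix.det_one] at this
  linarith

theorem Fr.inv_A {A B L : Mat n} {β : Vec n} (h : Fr A B L β) : A⁻¹ = Lᵀ * L := by
  have h1 : Lᵀ * L * A = 1 := by rw [Matrix.mul_assoc]; exact h.mul2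
  exact Matrix.inv_eq_left_inv h1

/-- transport of positivity to the frame -/
theorem psd_conj_iff {L : Mat n} (hL : IsUnit L) {X : Mat n} :
    (Lᵀ * X * L).PosSemidef ↔ X.PosSemidef := by
  have := hL.posSemidef_star_left_conjugate_iff (x := X)
  rwa [Matrix.star_eq_conjTranspose, Matrix.conjTranspose_eq_transpose_of_trivial] at this

theorem posDef_conj_iff {L : Mat n} (hL : IsUnit L) {X : Mat n} :
    (Lᵀ * X * L).PosDef ↔ X.PosDef := by
  have := hL.posDef_star_left_conjugate_iff (x := X)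
  rwa [Matrix.star_eq_conjTranspose, Matrix.conjTranspose_eq_transpose_of_trivial] at this

theorem det_mono {C D : Mat n} (hC : C.PosDef) (hD : D.PosDef) (h : (C - D).PosSemidef) :
    D.det ≤ C.det := by
  obtain ⟨L, δ, hF⟩ := exists_Fr hC.inv hD.isHermitian
  have hCC : C = Lᵀ * L := by
    have := hF.inv_A
    rwa [Matrix.nonsing_inv_nonsing_inv _ ((Matrix.isUnit_iff_isUnit_det _).1 hC.isUnit)] at this
  have hD' : D = Lᵀ * Matrix.diagonal δ * L := hF.hB
  have h1 : (Lᵀ * (1 - Matrix.diagonal δ) * L).PosSemidef := by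
    have e : Lᵀ * (1 - Matrix.diagonal δ) * L = C - D := by
      rw [hD', hCC, Matrix.mul_sub, Matrix.sub_mul, Matrix.mul_one]
    rw [e]; exact h
  rw [psd_conj_iff hF.isUnit] at h1
  have h2 : ∀ i, δ i ≤ 1 := by
    intro i
    have := h1.diag_nonneg (i := i)
    simp at this
    linarith
  have h3 : ∀ i, 0 < δ i := by
    rw [hD', posDef_conj_iff hF.isUnit, Matrix.posDef_diagonal_iff] at hD
    exact hD
  rw [hF.det_B]
  have h4 : C.det = L.det ^ 2 := by
    rw [hCC, Matrix.det_mul, Matrix.det_transpose]; ring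
  rw [h4]
  have h5 : ∏ i, δ i ≤ 1 := Finset.prod_le_one (fun i _ => (h3 i).le) fun i _ => h2 i
  nlinarith [sq_nonneg L.det]

/-! ### the function to be minimised -/

/-- `w - ε √(1-x) + ½ log x` -/
noncomputable def ft {F : Profile} (W : WProfile F) (ε x : ℝ) : ℝ :=
  W.w x - ε * Real.sqrt (1 - x) + 1 / 2 * Real.log x

noncomputable def GG {F : Profile} {D : TiltData n} (E : EntData D) (W : WProfile F) (ε : ℝ)
    (B : Mat n) (c : Vec n) : ℝ :=
  E.Ent B c + 1 / 2 * Real.log B.det - n - Phi (ft W ε) (D.A B c) B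

section
variable {F : Profile} {D : TiltData n} (E : EntData D) (W : WProfile F) {ε : ℝ}

theorem Fr.beta_mem {B : Mat n} (hB : B.PosDef) (c : Vec n) {L : Mat n} {β : Vec n}
    (h : Fr (D.A B c) B L β) (i : Fin n) : β i ∈ Ioo (0 : ℝ) 1 := by
  constructor
  · have h1 := hB
    rw [h.hB, posDef_conj_iff h.isUnit, Matrix.posDef_diagonal_iff] at h1
    exact h1 i
  · have h1 := D.up B hB.posSemidef c
    have h2 : ((D.A B c)⁻¹ - B).PosDef := by
      have h3 : (D.m • (1 : Mat n)).PosDef := Matrix.PosDef.one.smul D.hm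
      have h4 := h3.add_posSemidef h1
      have e : D.m • (1 : Mat n) + ((D.A B c)⁻¹ - (B + D.m • (1 : Mat n)))
          = (D.A B c)⁻¹ - B := by abel
      rwa [e] at h4
    have e : (D.A B c)⁻¹ - B = Lᵀ * Matrix.diagonal (fun i => 1 - β i) * L := by
      have e1 : (Matrix.diagonal fun i => 1 - β i) = (1 : Mat n) - Matrix.diagonal β := by
        rw [← Matrix.diagonal_one, Matrix.diagonal_sub]
      rw [e1, Matrix.mul_sub, Matrix.sub_mul, Matrix.mul_one, ← h.inv_A, ← h.hB]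
    rw [e, posDef_conj_iff h.isUnit, Matrix.posDef_diagonal_iff] at h2
    have := h2 i
    linarith

theorem GG_eq {B : Mat n} (hB : B.PosDef) (c : Vec n) {L : Mat n} {β : Vec n}
    (h : Fr (D.A B c) B L β) :
    GG E W ε B c = E.Ent B c - 1 / 2 * Real.log (D.A B c).det - n - ∑ i, W.w (β i)
      + ε * ∑ i, Real.sqrt (1 - β i) := by
  have hβ : ∀ i, β i ∈ Ioo (0 : ℝ) 1 := h.beta_mem hB c
  unfold GG
  rw [Phi_eq h]
  unfold ft
  rw [Finset.sum_add_distrib, Finset.sum_sub_distrib, ← Finset.mul_sum, ← Finset.mul_sum]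
  have hAp : 0 < (D.A B c).det := (D.posA B hB.posSemidef c).det_pos
  have h1 : B.det * (D.A B c).det = ∏ i, β i := by
    have e1 := h.det_A
    rw [h.det_B]
    calc L.det ^ 2 * (∏ i, β i) * (D.A B c).det
        = (L.det ^ 2 * (D.A B c).det) * ∏ i, β i := by ring
      _ = _ := by rw [e1, one_mul]
  have h2 : Real.log B.det + Real.log (D.A B c).det = ∑ i, Real.log (β i) := by
    rw [← Real.log_mul hB.det_pos.ne' hAp.ne', h1, Real.log_prod]
    exact fun i _ => (hβ i).1.ne'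
  rw [← h2]
  ring

theorem GG_lower {B : Mat n} (hB : B.PosDef) (c : Vec n) (hε : 0 ≤ ε) :
    - (1 / 2 * Real.log (B + D.M • (1 : Mat n)).det) - 1 / 2 * Real.log (D.A B c).det
      ≤ GG E W ε B c := by
  obtain ⟨L, β, h⟩ := exists_Fr (D.posA B hB.posSemidef c) hB.isHermitian
  have hβ : ∀ i, β i ∈ Ioo (0 : ℝ) 1 := h.beta_mem hB c
  rw [GG_eq E W hB c h]
  have h1 := E.lowE B hB.posSemidef c
  have h2 : ∑ i, W.w (β i) ≤ ∑ _i : Fin n, (1 / 2 * Real.log (2 * Real.pi * Real.exp 1) - 1) :=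
    Finset.sum_le_sum fun i _ => W.w_le _ (hβ i)
  rw [Finset.sum_const, Finset.card_univ, Fintype.card_fin, nsmul_eq_mul] at h2
  have h3 : 0 ≤ ε * ∑ i, Real.sqrt (1 - β i) :=
    mul_nonneg hε (Finset.sum_nonneg fun i _ => Real.sqrt_nonneg _)
  linarith

theorem det_ratio {m M b : ℝ} (hm : 0 < m) (hM : m ≤ M) (hb : 0 ≤ b) {B : Mat n}
    (h : (B - b • (1 : Mat n)).PosSemidef) :
    (B + M • (1 : Mat n)).det ≤ ((b + M) / (b + m)) ^ n * (B + m • (1 : Mat n)).det := by
  have hB : B.PosSemidef := by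
    have := h.add (Matrix.PosSemidef.one.smul hb)
    rwa [sub_add_cancel] at this
  have hBm : (B + m • (1 : Mat n)).PosDef := by
    rw [add_comm]; exact (Matrix.PosDef.one.smul hm).add_posSemidef hB
  have hBM : (B + M • (1 : Mat n)).PosDef := by
    rw [add_comm]; exact (Matrix.PosDef.one.smul (hm.trans_le hM)).add_posSemidef hB
  have hbm : 0 < b + m := by linarith
  have hr : 0 < (b + M) / (b + m) := div_pos (by linarith) hbm
  have h1 := det_mono (hBm.smul hr) hBM (by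
    have e : ((b + M) / (b + m)) • (B + m • (1 : Mat n)) - (B + M • (1 : Mat n))
        = ((M - m) / (b + m)) • (B - b • (1 : Mat n)) := by
      ext i j
      simp only [Matrix.sub_apply, Matrix.smul_apply, Matrix.add_apply, smul_eq_mul]
      field_simp
      ring
    rw [e]
    exact h.smul (div_nonneg (by linarith) hbm.le))
  rwa [Matrix.det_smul, Fintype.card_fin] at h1

/-- the top boundary -/
theorem GG_top {B : Mat n} (hB : B.PosDef) (c : Vec n) (hε : 0 ≤ ε) {b : ℝ} (hb : 0 ≤ b)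
    (h : (B - b • (1 : Mat n)).PosSemidef) :
    - ((n : ℝ) / 2 * Real.log ((b + D.M) / (b + D.m))) ≤ GG E W ε B c := by
  refine le_trans ?_ (GG_lower E W hB c hε)
  have hm := D.hm
  have hM := D.hM
  have hBm : (B + D.m • (1 : Mat n)).PosDef := by
    rw [add_comm]; exact (Matrix.PosDef.one.smul hm).add_posSemidef hB.posSemidef
  have hBM : (B + D.M • (1 : Mat n)).PosDef := by
    rw [add_comm]; exact (Matrix.PosDef.one.smul (hm.trans_le hM)).add_posSemidef hB.posSemidef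
  have h1 := det_ratio hm hM hb h
  have hA := D.posA B hB.posSemidef c
  have h2 : (B + D.m • (1 : Mat n)).det ≤ ((D.A B c)⁻¹).det :=
    det_mono hA.inv hBm (D.up B hB.posSemidef c)
  rw [Matrix.det_nonsing_inv, Ring.inverse_eq_inv'] at h2
  have hr : 0 < (b + D.M) / (b + D.m) := div_pos (by linarith) (by linarith)
  have h3 : Real.log (B + D.M • (1 : Mat n)).det
      ≤ n * Real.log ((b + D.M) / (b + D.m)) + Real.log (B + D.m • (1 : Mat n)).det := by
    have := Real.log_le_log hBM.det_pos h1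
    rwa [Real.log_mul (pow_pos hr n).ne' hBm.det_pos.ne', Real.log_pow] at this
  have h4 : Real.log (B + D.m • (1 : Mat n)).det ≤ - Real.log (D.A B c).det := by
    have := Real.log_le_log hBm.det_pos h2
    rwa [Real.log_inv] at this
  linarith

/-- the boundary `|c| = ρ` -/
theorem GG_side (hε : 0 ≤ ε) (b : ℝ) {η : ℝ} (hη : 0 < η) :
    ∃ ρ : ℝ, ∀ B : Mat n, B.PosDef → (b • (1 : Mat n) - B).PosSemidef →
      ∀ c : Vec n, ρ ≤ ‖c‖ → -η ≤ GG E W ε B c := by
  obtain ⟨ρ, hρ⟩ := E.vA b (2 * η) (by positivity)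
  refine ⟨ρ, fun B hB hb c hc => ?_⟩
  have h1 := hρ B hB.posSemidef hb c hc
  have h2 := GG_lower E W hB c hε
  linarith

theorem GG_cont : ContinuousOn (fun p : Mat n × Vec n => GG E W ε p.1 p.2)
    ({B | B.PosDef} ×ˢ univ) := by
  have hsub : ({B : Mat n | B.PosDef} ×ˢ (univ : Set (Vec n)))
      ⊆ ({B | B.PosSemidef} ×ˢ univ) := by
    rintro ⟨B, c⟩ ⟨h, -⟩
    exact ⟨Matrix.PosDef.posSemidef h, trivial⟩
  unfold GG
  refine (((E.cE.mono hsub).add (continuousOn_const.mul ?_)).sub continuousOn_const).sub ?_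
  · refine ContinuousOn.log ?_ ?_
    · exact (continuous_fst.matrix_det).continuousOn
    · rintro ⟨B, c⟩ ⟨h, -⟩
      exact (Matrix.PosDef.det_pos h).ne'
  · rintro ⟨B, c⟩ ⟨h, -⟩
    have hB : B.PosDef := h
    obtain ⟨L, β, hF⟩ := exists_Fr (D.posA B hB.posSemidef c) hB.isHermitian
    have hβ : ∀ i, β i ∈ Ioo (0 : ℝ) 1 := hF.beta_mem hB c
    have hA : Tendsto (fun p : Mat n × Vec n => D.A p.1 p.2)
        (𝓝[({B | B.PosDef} ×ˢ univ)] (B, c)) (𝓝 (D.A B c)) := by
      refine tendsto_pi_nhds.2 fun i => tendsto_pi_nhds.2 fun j => ?_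
      exact ((D.cA i j).mono hsub) (B, c) ⟨h, trivial⟩
    have hBt : Tendsto (fun p : Mat n × Vec n => p.1)
        (𝓝[({B | B.PosDef} ×ˢ univ)] (B, c)) (𝓝 B) :=
      (continuous_fst.tendsto (B, c)).mono_left nhdsWithin_le_nhds
    refine Phi_tendsto hF hA hBt (f := ft W ε) (fun i => ?_) ?_
    · unfold ft
      have h1 := (W.d1 _ (hβ i)).continuousAt
      have h2 : ContinuousAt (fun x : ℝ => Real.sqrt (1 - x)) (β i) :=
        (continuous_const.sub continuous_id).sqrt.continuousAt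
      have h3 : ContinuousAt Real.log (β i) := Real.continuousAt_log (hβ i).1.ne'
      exact (h1.sub (continuousAt_const.mul h2)).add (continuousAt_const.mul h3)
    · filter_upwards [self_mem_nhdsWithin] with p hp
      have hp1 : p.1.PosDef := hp.1
      exact exists_Fr (D.posA p.1 hp1.posSemidef p.2) hp1.isHermitian

end

/-! ### the domain -/

/-- `0 ≤ s ≤ S`, `B0 + a s ≤ B ≤ B0 + M' (e^{Λ s} - 1)`, `|c| ≤ ρ` -/
def Dom (B0 : Mat n) (a M' Λ S ρ : ℝ) : Set (ℝ × Mat n × Vec n) :=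
  {p | p.1 ∈ Icc 0 S ∧ (p.2.1 - (B0 + (a * p.1) • (1 : Mat n))).PosSemidef ∧
    ((B0 + (M' * (Real.exp (Λ * p.1) - 1)) • (1 : Mat n)) - p.2.1).PosSemidef ∧ ‖p.2.2‖ ≤ ρ}

theorem psd_mono_smul {a b : ℝ} (h : a ≤ b) :
    ((b • (1 : Mat n)) - a • (1 : Mat n)).PosSemidef := by
  rw [← sub_smul]
  exact Matrix.PosSemidef.one.smul (sub_nonneg.2 h)

theorem exists_smul_ge (B : Mat n) (hB : Bᵀ = B) :
    ∃ R : ℝ, 0 ≤ R ∧ (R • (1 : Mat n) - B).PosSemidef := by
  have hH : B.IsHermitian := by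
    rw [Matrix.IsHermitian, Matrix.conjTranspose_eq_transpose_of_trivial]; exact hB
  obtain ⟨U, lam, h1, h2, h3, -⟩ := spec_symm hH
  refine ⟨∑ i, |lam i|, Finset.sum_nonneg fun i _ => abs_nonneg _, ?_⟩
  have e : (∑ i, |lam i|) • (1 : Mat n) - B
      = U * Matrix.diagonal (fun i => (∑ i, |lam i|) - lam i) * Uᵀ := by
    have e1 : (Matrix.diagonal fun i => (∑ i, |lam i|) - lam i)
        = (∑ i, |lam i|) • (1 : Mat n) - Matrix.diagonal lam := by
      rw [Matrix.smul_one_eq_diagonal, Matrix.diagonal_sub]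
    rw [e1, Matrix.mul_sub, Matrix.sub_mul, ← h3, Matrix.mul_smul, Matrix.mul_one,
      Matrix.smul_mul, h2]
  rw [e]
  have h4 : (Matrix.diagonal (fun i => (∑ i, |lam i|) - lam i) : Mat n).PosSemidef := by
    rw [Matrix.posSemidef_diagonal_iff]
    intro i
    have := Finset.single_le_sum (f := fun i => |lam i|) (fun i _ => abs_nonneg _)
      (Finset.mem_univ i)
    have h5 := le_abs_self (lam i)
    linarith
  have h5 := h4.mul_mul_conjTranspose_same U
  rwa [Matrix.conjTranspose_eq_transpose_of_trivial] at h5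

theorem Dom_B_mem {B0 : Mat n} (hB0 : B0.PosDef) {a M' Λ S ρ : ℝ} (ha : 0 ≤ a)
    {p : ℝ × Mat n × Vec n} (hp : p ∈ Dom B0 a M' Λ S ρ) : p.2.1.PosDef := by
  obtain ⟨h1, h2, -, -⟩ := hp
  have h3 := hB0.add_posSemidef (h2.add (Matrix.PosSemidef.one.smul (mul_nonneg ha h1.1)))
  have e : B0 + (p.2.1 - (B0 + (a * p.1) • (1 : Mat n)) + (a * p.1) • (1 : Mat n)) = p.2.1 := by
    abel
  rwa [e] at h3

theorem Dom_compact {B0 : Mat n} (hB0 : B0.PosDef) {a M' Λ S ρ : ℝ} (ha : 0 ≤ a)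
    (hM' : 0 ≤ M') (hΛ : 0 ≤ Λ) :
    ∃ R : ℝ, (∀ p ∈ Dom B0 a M' Λ S ρ, (R • (1 : Mat n) - p.2.1).PosSemidef) ∧
      IsCompact (Dom B0 a M' Λ S ρ) := by
  obtain ⟨R0, hR0, h0⟩ := exists_smul_ge B0 (psd_iff.1 hB0.posSemidef).1
  set R : ℝ := R0 + M' * (Real.exp (Λ * S) - 1) with hR
  have hup : ∀ p ∈ Dom B0 a M' Λ S ρ, (R • (1 : Mat n) - p.2.1).PosSemidef := by
    rintro p ⟨h1, -, h3, -⟩
    have h4 : M' * (Real.exp (Λ * p.1) - 1) ≤ M' * (Real.exp (Λ * S) - 1) := by
      refine mul_le_mul_of_nonneg_left ?_ hM'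
      have := Real.exp_le_exp.2 (mul_le_mul_of_nonneg_left h1.2 hΛ)
      linarith
    have h5 := (h0.add (psd_mono_smul h4)).add h3
    have e : R0 • (1 : Mat n) - B0 + ((M' * (Real.exp (Λ * S) - 1)) • (1 : Mat n)
        - (M' * (Real.exp (Λ * p.1) - 1)) • (1 : Mat n))
        + (B0 + (M' * (Real.exp (Λ * p.1) - 1)) • (1 : Mat n) - p.2.1)
        = R • (1 : Mat n) - p.2.1 := by
      rw [hR, add_smul]; abel
    rwa [e] at h5
  refine ⟨R, hup, ?_⟩
  have hK : IsCompact (Icc (0 : ℝ) S ×ˢ ({M : Mat n | ∀ i j, M i j ∈ Icc (-R) R} ×ˢ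
      Metric.closedBall (0 : Vec n) ρ)) :=
    isCompact_Icc.prod ((isCompact_box R).prod (isCompact_closedBall _ _))
  refine hK.of_isClosed_subset ?_ ?_
  · have c1 : Continuous fun p : ℝ × Mat n × Vec n => p.2.1 - (B0 + (a * p.1) • (1 : Mat n)) := by
      fun_prop
    have c2 : Continuous fun p : ℝ × Mat n × Vec n =>
        (B0 + (M' * (Real.exp (Λ * p.1) - 1)) • (1 : Mat n)) - p.2.1 := by
      fun_prop
    have i1 : IsClosed {p : ℝ × Mat n × Vec n | p.1 ∈ Icc 0 S} :=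
      isClosed_Icc.preimage continuous_fst
    have i2 := isClosed_psd.preimage c1
    have i3 := isClosed_psd.preimage c2
    have i4 : IsClosed {p : ℝ × Mat n × Vec n | ‖p.2.2‖ ≤ ρ} :=
      isClosed_le (by fun_prop) continuous_const
    have e : Dom B0 a M' Λ S ρ = {p : ℝ × Mat n × Vec n | p.1 ∈ Icc 0 S} ∩
        (((fun p : ℝ × Mat n × Vec n => p.2.1 - (B0 + (a * p.1) • (1 : Mat n))) ⁻¹'
          {M : Mat n | M.PosSemidef}) ∩
        (((fun p : ℝ × Mat n × Vec n =>
          (B0 + (M' * (Real.exp (Λ * p.1) - 1)) • (1 : Mat n)) - p.2.1) ⁻¹'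
          {M : Mat n | M.PosSemidef}) ∩ {p : ℝ × Mat n × Vec n | ‖p.2.2‖ ≤ ρ})) := rfl
    rw [e]
    exact i1.inter (i2.inter (i3.inter i4))
  · rintro p hp
    have h1 := hup p hp
    have h2 := Dom_B_mem hB0 ha hp
    obtain ⟨h3, -, -, h4⟩ := hp
    refine ⟨h3, ?_, ?_⟩
    · intro i j
      have h5 := psd_entry h2.posSemidef i j
      have h6 := psd_diag_le h1 i
      have h7 := psd_diag_le h1 j
      exact abs_le.1 (h5.trans (by linarith))
    · simpa using h4

theorem Dom_step {D : TiltData n} {B0 : Mat n} (hB0 : B0.PosDef) {q0 M' Λ S ρ : ℝ}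
    (hq0 : 0 ≤ q0) (hΛ : 0 ≤ Λ) (hM0 : 0 ≤ M')
    (hM' : (M' • (1 : Mat n) - (B0 + D.M • (1 : Mat n))).PosSemidef)
    {s : ℝ} {B : Mat n} {c : Vec n} (hp : (s, B, c) ∈ Dom B0 (q0 * D.m) M' Λ S ρ)
    {Q : Mat n} (h1 : (Q - q0 • (D.A B c)⁻¹).PosSemidef) (h2 : (Λ • (D.A B c)⁻¹ - Q).PosSemidef)
    {t : ℝ} (ht : 0 ≤ t) (hs : s + t ≤ S) {c' : Vec n} (hc' : ‖c'‖ ≤ ρ) :
    (s + t, B + t • Q, c') ∈ Dom B0 (q0 * D.m) M' Λ S ρ := by
  have hB : B.PosDef := Dom_B_mem hB0 (mul_nonneg hq0 D.hm.le) hp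
  obtain ⟨k1, k2, k3, k4⟩ := hp
  simp only at k1 k2 k3 k4
  refine ⟨⟨add_nonneg k1.1 ht, hs⟩, ?_, ?_, hc'⟩
  · -- lower bound
    have e1 := (D.up B hB.posSemidef c).smul hq0
    have e2 := ((h1.add e1).add (hB.posSemidef.smul hq0)).smul ht
    have e3 := k2.add e2
    refine cast (congrArg Matrix.PosSemidef ?_) e3
    ext i j
    simp only [Matrix.sub_apply, Matrix.smul_apply, Matrix.add_apply, smul_eq_mul]
    ring
  · have e1 := (D.lo B hB.posSemidef c).smul hΛ
    -- `Λ (B + M) ≤ Λ M' e^{Λ s}`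
    have e2 := (k3.add hM').smul hΛ
    have e3 := ((h2.add e1).add e2).smul ht
    have hx : Λ * t ≤ Real.exp (Λ * t) - 1 := by
      have := Real.add_one_le_exp (Λ * t)
      linarith
    have e4 : ((M' * Real.exp (Λ * s) * (Real.exp (Λ * t) - 1)) • (1 : Mat n)
        - (M' * Real.exp (Λ * s) * (Λ * t)) • (1 : Mat n)).PosSemidef :=
      psd_mono_smul (mul_le_mul_of_nonneg_left hx (by positivity))
    have e5 := (k3.add e3).add e4
    refine cast (congrArg Matrix.PosSemidef ?_) e5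
    have hexp : Real.exp (Λ * (s + t)) = Real.exp (Λ * s) * Real.exp (Λ * t) := by
      rw [← Real.exp_add]; ring_nf
    ext i j
    simp only [Matrix.sub_apply, Matrix.smul_apply, Matrix.add_apply, smul_eq_mul, hexp]
    ring

/-! ### the minimum -/

section
variable {F : Profile} {D : TiltData n} (E : EntData D) (W : WProfile F)

theorem log_ratio_small (n : ℕ) {m M : ℝ} (hm : 0 < m) {η : ℝ} (hη : 0 < η) :
    ∃ b : ℝ, 0 < b ∧ (n : ℝ) / 2 * Real.log ((b + M) / (b + m)) < η := by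
  have h1 : Tendsto (fun b : ℝ => (n : ℝ) / 2 * Real.log ((b + M) / (b + m))) atTop
      (𝓝 ((n : ℝ) / 2 * Real.log 1)) := by
    refine tendsto_const_nhds.mul ?_
    have h2 : Tendsto (fun b : ℝ => (b + M) / (b + m)) atTop (𝓝 1) := by
      have h3 : Tendsto (fun b : ℝ => 1 + (M - m) / (b + m)) atTop (𝓝 (1 + 0)) := by
        refine tendsto_const_nhds.add ?_
        exact Tendsto.div_atTop tendsto_const_nhds (tendsto_atTop_add_const_right _ _ tendsto_id)
      rw [add_zero] at h3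
      refine h3.congr' ?_
      filter_upwards [eventually_gt_atTop 0] with b hb
      have : b + m ≠ 0 := by positivity
      field_simp
      ring
    exact (Real.continuousAt_log one_ne_zero).tendsto.comp h2
  rw [Real.log_one, mul_zero] at h1
  have h2 := (h1.eventually (gt_mem_nhds hη)).and (eventually_gt_atTop 0)
  obtain ⟨b, hb1, hb2⟩ := h2.exists
  exact ⟨b, hb2, hb1⟩

/-- **Existence of a good minimum point.** -/
theorem exists_min {ε η q0 Λ : ℝ} (hε : 0 ≤ ε) (hη : 0 < η) (hq0 : 0 < q0) (hΛ : q0 ≤ Λ)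
    {B0 : Mat n} {c0 : Vec n} (hB0 : B0.PosDef) (h : GG E W ε B0 c0 < -η) :
    ∃ (B : Mat n) (c : Vec n), B.PosDef ∧ GG E W ε B c < -η ∧
      (∀ e : Vec n, ∀ᶠ t in 𝓝 (0 : ℝ), GG E W ε B c ≤ GG E W ε B (c + t • e)) ∧
      (∀ Q : Mat n, (Q - q0 • (D.A B c)⁻¹).PosSemidef → (Λ • (D.A B c)⁻¹ - Q).PosSemidef →
        ∀ᶠ t in 𝓝[≥] (0 : ℝ),
          GG E W ε B c ≤ GG E W ε (B + t • Q) (c + t • (Q *ᵥ D.mu B c))) := by
  have hm := D.hm
  have hMm := D.hM
  have hΛ0 : 0 < Λ := hq0.trans_le hΛ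
  obtain ⟨b, hb0, hb⟩ := log_ratio_small n (M := D.M) hm hη
  obtain ⟨M', hM0, hM'⟩ := exists_smul_ge (B0 + D.M • (1 : Mat n)) (by
    rw [Matrix.transpose_add, (psd_iff.1 hB0.posSemidef).1, Matrix.transpose_smul,
      Matrix.transpose_one])
  set a : ℝ := q0 * D.m with ha
  have ha0 : 0 < a := mul_pos hq0 hm
  set S : ℝ := b / a with hS
  have hS0 : 0 < S := div_pos hb0 ha0
  obtain ⟨R, hR, -⟩ := Dom_compact (ρ := 0) hB0 (a := a) (M' := M') (Λ := Λ) (S := S) ha0.le hM0
    hΛ0.le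
  obtain ⟨ρ1, hρ1⟩ := GG_side E W hε R hη
  set ρ : ℝ := max ρ1 (‖c0‖ + 1) with hρ
  obtain ⟨R', hR', hK⟩ := Dom_compact (ρ := ρ) hB0 (a := a) (M' := M') (Λ := Λ) (S := S) ha0.le hM0
    hΛ0.le
  have hne : ((0 : ℝ), B0, c0) ∈ Dom B0 a M' Λ S ρ := by
    refine ⟨⟨le_rfl, hS0.le⟩, ?_, ?_, ?_⟩
    · simpa using Matrix.PosSemidef.zero
    · simpa using Matrix.PosSemidef.zero
    · exact (by linarith : ‖c0‖ ≤ ‖c0‖ + 1).trans (le_max_right _ _)
  have hcont : ContinuousOn (fun p : ℝ × Mat n × Vec n => GG E W ε p.2.1 p.2.2)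
      (Dom B0 a M' Λ S ρ) := by
    refine (GG_cont E W (ε := ε)).comp continuous_snd.continuousOn ?_
    intro p hp
    exact ⟨Dom_B_mem hB0 ha0.le hp, trivial⟩
  obtain ⟨⟨s, B, c⟩, hmem, hmin⟩ := hK.exists_isMinOn ⟨_, hne⟩ hcont
  have hB : B.PosDef := Dom_B_mem hB0 ha0.le hmem
  have hmin' : ∀ p ∈ Dom B0 a M' Λ S ρ, GG E W ε B c ≤ GG E W ε p.2.1 p.2.2 := fun p hp =>
    hmin hp
  have hlt : GG E W ε B c < -η := (hmin' _ hne).trans_lt h
  have hs : s < S := by
    rcases hmem.1.2.lt_or_eq with h1 | h1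
    · exact h1
    · exfalso
      simp only at h1
      have h2 : (B - b • (1 : Mat n)).PosSemidef := by
        have h3 := hmem.2.1.add hB0.posSemidef
        refine cast (congrArg Matrix.PosSemidef ?_) h3
        simp only
        have : a * s = b := by rw [h1, hS]; field_simp
        rw [this]
        abel
      have h3 := GG_top E W hB c hε hb0.le h2
      linarith
  have hc : ‖c‖ < ρ := by
    rcases hmem.2.2.2.lt_or_eq with h1 | h1
    · exact h1
    · exfalso
      simp only at h1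
      have h2 : (R • (1 : Mat n) - B).PosSemidef := by
        refine hR (s, B, 0) ⟨hmem.1, hmem.2.1, hmem.2.2.1, ?_⟩
        simp
      have h3 := hρ1 B hB h2 c (by rw [h1]; exact le_max_left _ _)
      linarith
  refine ⟨B, c, hB, hlt, ?_, ?_⟩
  · intro e
    have h1 : Tendsto (fun t : ℝ => ‖c + t • e‖) (𝓝 0) (𝓝 ‖c + (0 : ℝ) • e‖) := by
      apply Continuous.tendsto
      fun_prop
    rw [zero_smul, add_zero] at h1
    filter_upwards [h1.eventually (gt_mem_nhds hc)] with t ht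
    exact hmin' (s, B, c + t • e) ⟨hmem.1, hmem.2.1, hmem.2.2.1, ht.le⟩
  · intro Q hQ1 hQ2
    have h1 : Tendsto (fun t : ℝ => ‖c + t • (Q *ᵥ D.mu B c)‖) (𝓝[≥] 0)
        (𝓝 ‖c + (0 : ℝ) • (Q *ᵥ D.mu B c)‖) := by
      refine Tendsto.mono_left ?_ nhdsWithin_le_nhds
      apply Continuous.tendsto
      fun_prop
    rw [zero_smul, add_zero] at h1
    have h2 : ∀ᶠ t in 𝓝[≥] (0 : ℝ), t < S - s :=
      nhdsWithin_le_nhds (gt_mem_nhds (by linarith))
    filter_upwards [h1.eventually (gt_mem_nhds hc), h2, self_mem_nhdsWithin] with t ht h2 h3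
    exact hmin' _ (Dom_step hB0 hq0.le hΛ0.le hM0 hM' hmem hQ1 hQ2 h3 (by linarith) ht.le)

/-- passage to the limit -/
theorem ent_of_GG {B : Mat n} (hB : B.PosDef) (c : Vec n)
    (h : ∀ ε : ℝ, 0 < ε → ∀ η : ℝ, 0 < η → -η ≤ GG E W ε B c) :
    (n : ℝ) + 1 / 2 * Real.log (D.A B c).det ≤ E.Ent B c := by
  obtain ⟨L, β, hF⟩ := exists_Fr (D.posA B hB.posSemidef c) hB.isHermitian
  have hβ : ∀ i, β i ∈ Ioo (0 : ℝ) 1 := hF.beta_mem hB c
  have hw : 0 ≤ ∑ i, W.w (β i) := Finset.sum_nonneg fun i _ => W.w_nonneg _ (hβ i)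
  have hs : ∑ i, Real.sqrt (1 - β i) ≤ n := by
    have : ∑ i, Real.sqrt (1 - β i) ≤ ∑ _i : Fin n, (1 : ℝ) := by
      refine Finset.sum_le_sum fun i _ => ?_
      rw [Real.sqrt_le_one]
      linarith [(hβ i).1]
    simpa using this
  refine le_of_forall_pos_le_add fun δ hδ => ?_
  have h1 := h (δ / (2 * (n + 1))) (by positivity) (δ / 2) (by positivity)
  rw [GG_eq E W hB c hF] at h1
  have h2 : δ / (2 * (n + 1)) * ∑ i, Real.sqrt (1 - β i) ≤ δ / 2 := by
    calc δ / (2 * (n + 1)) * ∑ i, Real.sqrt (1 - β i) ≤ δ / (2 * (n + 1)) * n :=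
          mul_le_mul_of_nonneg_left hs (by positivity)
      _ ≤ δ / (2 * (n + 1)) * (n + 1) := by
          refine mul_le_mul_of_nonneg_left (by linarith) (by positivity)
      _ = δ / 2 := by field_simp
  linarith

end

end Vale.Agent.P254.L
end

section

/-!
P254, block (S1) (helper526): second order jets of polynomial functions of matrices, in a frame
where the base point is diagonal, in terms of divided differences; Hermite interpolation.
-/

namespace Vale.Agent.P254.S526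

open Matrix Set Filter Topology Asymptotics Polynomial
open Vale.Agent.P254.L

variable {n : ℕ}

/-- first divided difference of a polynomial -/
noncomputable def pd1 (q : ℝ[X]) (x y : ℝ) : ℝ :=
  dd1 (fun t => q.eval t) (fun t => q.derivative.eval t) x y

/-- second divided difference of a polynomial -/
noncomputable def pd2 (q : ℝ[X]) (x y z : ℝ) : ℝ :=
  dd2 (fun t => q.eval t) (fun t => q.derivative.eval t)
    (fun t => q.derivative.derivative.eval t) x y z

theorem pd1_self (q : ℝ[X]) (x : ℝ) : pd1 q x x = q.derivative.eval x := by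
  simp [pd1, dd1]

theorem pd1_ne (q : ℝ[X]) {x y : ℝ} (h : x ≠ y) :
    pd1 q x y = (q.eval x - q.eval y) / (x - y) := by
  simp [pd1, dd1, h]

theorem pd1_symm (q : ℝ[X]) (x y : ℝ) : pd1 q x y = pd1 q y x := by
  by_cases h : x = y
  · subst h; rfl
  · rw [pd1_ne q h, pd1_ne q (Ne.symm h)]
    have h1 : x - y ≠ 0 := sub_ne_zero.2 h
    have h2 : y - x ≠ 0 := sub_ne_zero.2 (Ne.symm h)
    field_simp
    ring

theorem pd1_mul_sub (q : ℝ[X]) (x y : ℝ) : pd1 q x y * (x - y) = q.eval x - q.eval y := by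
  by_cases h : x = y
  · subst h; simp
  · rw [pd1_ne q h]
    have h1 : x - y ≠ 0 := sub_ne_zero.2 h
    field_simp

/-- `(X q)[x,y] = y q[x,y] + q(x)` -/
theorem pd1_mul_X (q : ℝ[X]) (x y : ℝ) : pd1 (q * X) x y = y * pd1 q x y + q.eval x := by
  by_cases h : x = y
  · subst h
    rw [pd1_self, pd1_self]
    simp [derivative_mul]
    ring
  · rw [pd1_ne _ h, pd1_ne _ h]
    have h1 : x - y ≠ 0 := sub_ne_zero.2 h
    simp only [eval_mul, eval_X]
    field_simp
    ring

/-- `(X q)[x,y] = x q[x,y] + q(y)` -/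
theorem pd1_mul_X' (q : ℝ[X]) (x y : ℝ) : pd1 (q * X) x y = x * pd1 q x y + q.eval y := by
  rw [pd1_mul_X]
  have := pd1_mul_sub q x y
  linarith

theorem pd2_self (q : ℝ[X]) (x : ℝ) : pd2 q x x x = q.derivative.derivative.eval x / 2 := by
  simp [pd2, dd2]

theorem pd2_eq_ne (q : ℝ[X]) {x y : ℝ} (h : x ≠ y) :
    pd2 q x y x = (q.derivative.eval x - pd1 q x y) / (x - y) := by
  simp [pd2, dd2, h, pd1]

theorem pd2_ne (q : ℝ[X]) {x z : ℝ} (y : ℝ) (h : x ≠ z) :
    pd2 q x y z = (pd1 q x y - pd1 q y z) / (x - z) := by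
  simp [pd2, dd2, h, pd1]

/-- `(X q)[x,z,y] = y q[x,z,y] + q[x,z]` -/
theorem pd2_mul_X (q : ℝ[X]) (x z y : ℝ) :
    pd2 (q * X) x z y = y * pd2 q x z y + pd1 q x z := by
  by_cases h : x = y
  · subst h
    by_cases h2 : x = z
    · subst h2
      rw [pd2_self, pd2_self, pd1_self]
      simp [derivative_mul]
      ring
    · rw [pd2_eq_ne _ h2, pd2_eq_ne _ h2, pd1_mul_X']
      have h1 : x - z ≠ 0 := sub_ne_zero.2 h2
      have h3 := pd1_mul_sub q x z
      have h4 : (q * X).derivative.eval x = x * q.derivative.eval x + q.eval x := by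
        simp [derivative_mul]; ring
      rw [h4]
      field_simp
      linarith
  · rw [pd2_ne _ _ h, pd2_ne _ _ h, pd1_mul_X' q x z, pd1_mul_X q z y]
    have h1 : x - y ≠ 0 := sub_ne_zero.2 h
    field_simp
    ring

/-- `(X q)[x,z,y] = x q[x,z,y] + q[z,y]` -/
theorem pd2_mul_X' (q : ℝ[X]) (x z y : ℝ) :
    pd2 (q * X) x z y = x * pd2 q x z y + pd1 q z y := by
  rw [pd2_mul_X]
  by_cases h : x = y
  · subst h; rw [pd1_symm q x z]
  · rw [pd2_ne _ _ h]
    have h1 : x - y ≠ 0 := sub_ne_zero.2 h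
    field_simp
    ring

theorem pd1_add (p q : ℝ[X]) (x y : ℝ) : pd1 (p + q) x y = pd1 p x y + pd1 q x y := by
  by_cases h : x = y
  · subst h; simp [pd1_self]
  · rw [pd1_ne _ h, pd1_ne _ h, pd1_ne _ h]
    simp only [eval_add]; ring

theorem pd2_add (p q : ℝ[X]) (x y z : ℝ) : pd2 (p + q) x y z = pd2 p x y z + pd2 q x y z := by
  by_cases h : x = z
  · subst h
    by_cases h2 : x = y
    · subst h2; simp [pd2_self]; ring
    · rw [pd2_eq_ne _ h2, pd2_eq_ne _ h2, pd2_eq_ne _ h2, pd1_add]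
      simp only [derivative_add, eval_add]; ring
  · rw [pd2_ne _ _ h, pd2_ne _ _ h, pd2_ne _ _ h, pd1_add, pd1_add]; ring

theorem pd1_C (a x y : ℝ) : pd1 (C a) x y = 0 := by
  by_cases h : x = y
  · subst h; simp [pd1_self]
  · rw [pd1_ne _ h]; simp

theorem pd2_C (a x y z : ℝ) : pd2 (C a) x y z = 0 := by
  by_cases h : x = z
  · subst h
    by_cases h2 : x = y
    · subst h2; simp [pd2_self]
    · rw [pd2_eq_ne _ h2, pd1_C]; simp
  · rw [pd2_ne _ _ h, pd1_C, pd1_C]; simp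

/-- `q[x,y,x] + q[y,x,y] = q'[x,y]` -/
theorem pd2_add_swap (q : ℝ[X]) (x y : ℝ) :
    pd2 q x y x + pd2 q y x y = pd1 q.derivative x y := by
  by_cases h : x = y
  · subst h; rw [pd2_self, pd1_self]; ring
  · rw [pd2_eq_ne _ h, pd2_eq_ne _ (Ne.symm h), pd1_ne q.derivative h, pd1_symm q y x]
    have h1 : x - y ≠ 0 := sub_ne_zero.2 h
    have h2 : (y - x) = -(x - y) := by ring
    rw [h2, div_neg]
    field_simp
    ring

section jets

variable {l : Filter ℝ} (hl : l ≤ 𝓝 0) {d : Vec n} {M : ℝ → Mat n} {Z Y : Mat n}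

include hl in
/-- (i): the second order jet of `q (M t)`, `M t = diag d + t Z + t² Y + o(t²)` -/
theorem poly_jet2 (q : ℝ[X])
    (hM : ∀ i j, J2 l (fun t => M t i j) (Matrix.diagonal d i j) (Z i j) (Y i j)) (i j : Fin n) :
    J2 l (fun t => (aeval (M t) q) i j) (Matrix.diagonal (fun i => q.eval (d i)) i j)
      (pd1 q (d i) (d j) * Z i j)
      (pd1 q (d i) (d j) * Y i j + ∑ k, pd2 q (d i) (d k) (d j) * Z i k * Z k j) := by
  revert i j
  induction q using Polynomial.induction_on with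
  | C a =>
    intro i j
    have e : (fun t => (aeval (M t) (C a)) i j) = fun _ => Matrix.diagonal (fun _ => a) i j := by
      funext t
      rw [aeval_C, Algebra.algebraMap_eq_smul_one, Matrix.smul_apply, Matrix.one_apply,
        Matrix.diagonal_apply]
      split_ifs <;> simp
    rw [e]
    refine (J2.const _).congr_coef ?_ ?_ ?_
    · simp
    · rw [pd1_C]; ring
    · rw [pd1_C]; simp [pd2_C]
  | add p q hp hq =>
    intro i j
    have e : (fun t => (aeval (M t) (p + q)) i j)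
        = fun t => (aeval (M t) p) i j + (aeval (M t) q) i j := by
      funext t; rw [map_add, Matrix.add_apply]
    rw [e]
    refine ((hp i j).add (hq i j)).congr_coef ?_ ?_ ?_
    · simp only [Matrix.diagonal_apply, eval_add]; split_ifs <;> simp
    · rw [pd1_add]; ring
    · simp only [pd1_add, pd2_add, add_mul, Finset.sum_add_distrib]; ring
  | monomial m a h =>
    intro i j
    set p : ℝ[X] := C a * X ^ m with hp
    have e0 : (C a * X ^ (m + 1) : ℝ[X]) = p * X := by rw [hp, pow_succ, mul_assoc]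
    rw [e0]
    have e : (fun t => (aeval (M t) (p * X)) i j)
        = fun t => ∑ k, (aeval (M t) p) i k * M t k j := by
      funext t; rw [map_mul, aeval_X, Matrix.mul_apply]
    rw [e]
    have hs := J2.sum Finset.univ (fun k _ => (h i k).mul hl (hM k j))
    refine hs.congr_coef ?_ ?_ ?_
    · rw [← Matrix.mul_apply, Matrix.diagonal_mul_diagonal]
      simp [Matrix.diagonal_apply]
    · rw [Finset.sum_add_distrib]
      have e1 : ∑ k, Matrix.diagonal (fun i => p.eval (d i)) i k * Z k j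
          = p.eval (d i) * Z i j := by
        rw [← Matrix.mul_apply, Matrix.diagonal_mul]
      have e2 : ∑ k, pd1 p (d i) (d k) * Z i k * Matrix.diagonal d k j
          = pd1 p (d i) (d j) * Z i j * d j := by
        have := Matrix.mul_diagonal d (Matrix.of fun i k => pd1 p (d i) (d k) * Z i k) i j
        rw [Matrix.mul_apply] at this
        simpa using this
      rw [e1, e2, pd1_mul_X]; ring
    · simp only [Finset.sum_add_distrib]
      have e1 : ∑ k, Matrix.diagonal (fun i => p.eval (d i)) i k * Y k j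
          = p.eval (d i) * Y i j := by
        rw [← Matrix.mul_apply, Matrix.diagonal_mul]
      have e2 : ∑ k, (pd1 p (d i) (d k) * Y i k
            + ∑ k', pd2 p (d i) (d k') (d k) * Z i k' * Z k' k) * Matrix.diagonal d k j
          = (pd1 p (d i) (d j) * Y i j
            + ∑ k', pd2 p (d i) (d k') (d j) * Z i k' * Z k' j) * d j := by
        have := Matrix.mul_diagonal d (Matrix.of fun i k => (pd1 p (d i) (d k) * Y i k
            + ∑ k', pd2 p (d i) (d k') (d k) * Z i k' * Z k' k)) i j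
        rw [Matrix.mul_apply] at this
        simpa using this
      rw [e1, e2, pd1_mul_X]
      have e3 : ∑ k, pd2 (p * X) (d i) (d k) (d j) * Z i k * Z k j
          = d j * (∑ k, pd2 p (d i) (d k) (d j) * Z i k * Z k j)
            + ∑ k, pd1 p (d i) (d k) * Z i k * Z k j := by
        rw [Finset.mul_sum, ← Finset.sum_add_distrib]
        refine Finset.sum_congr rfl fun k _ => ?_
        rw [pd2_mul_X]; ring
      rw [e3]; ring

include hl in
/-- (i), first order version -/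
theorem poly_jet1 (q : ℝ[X])
    (hM : ∀ i j, J1 l (fun t => M t i j) (Matrix.diagonal d i j) (Z i j)) (i j : Fin n) :
    J1 l (fun t => (aeval (M t) q) i j) (Matrix.diagonal (fun i => q.eval (d i)) i j)
      (pd1 q (d i) (d j) * Z i j) := by
  revert i j
  induction q using Polynomial.induction_on with
  | C a =>
    intro i j
    have e : (fun t => (aeval (M t) (C a)) i j) = fun _ => Matrix.diagonal (fun _ => a) i j := by
      funext t
      rw [aeval_C, Algebra.algebraMap_eq_smul_one, Matrix.smul_apply, Matrix.one_apply,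
        Matrix.diagonal_apply]
      split_ifs <;> simp
    rw [e]
    refine (J1.const _).congr_coef ?_ ?_
    · simp
    · rw [pd1_C]; ring
  | add p q hp hq =>
    intro i j
    have e : (fun t => (aeval (M t) (p + q)) i j)
        = fun t => (aeval (M t) p) i j + (aeval (M t) q) i j := by
      funext t; rw [map_add, Matrix.add_apply]
    rw [e]
    refine ((hp i j).add (hq i j)).congr_coef ?_ ?_
    · simp only [Matrix.diagonal_apply, eval_add]; split_ifs <;> simp
    · rw [pd1_add]; ring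
  | monomial m a h =>
    intro i j
    set p : ℝ[X] := C a * X ^ m with hp
    have e0 : (C a * X ^ (m + 1) : ℝ[X]) = p * X := by rw [hp, pow_succ, mul_assoc]
    rw [e0]
    have e : (fun t => (aeval (M t) (p * X)) i j)
        = fun t => ∑ k, (aeval (M t) p) i k * M t k j := by
      funext t; rw [map_mul, aeval_X, Matrix.mul_apply]
    rw [e]
    have hs := J1.sum Finset.univ (fun k _ => (h i k).mul hl (hM k j))
    refine hs.congr_coef ?_ ?_
    · rw [← Matrix.mul_apply, Matrix.diagonal_mul_diagonal]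
      simp [Matrix.diagonal_apply]
    · rw [Finset.sum_add_distrib]
      have e1 : ∑ k, Matrix.diagonal (fun i => p.eval (d i)) i k * Z k j
          = p.eval (d i) * Z i j := by
        rw [← Matrix.mul_apply, Matrix.diagonal_mul]
      have e2 : ∑ k, pd1 p (d i) (d k) * Z i k * Matrix.diagonal d k j
          = pd1 p (d i) (d j) * Z i j * d j := by
        have := Matrix.mul_diagonal d (Matrix.of fun i k => pd1 p (d i) (d k) * Z i k) i j
        rw [Matrix.mul_apply] at this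
        simpa using this
      rw [e1, e2, pd1_mul_X]; ring

include hl in
/-- (ii) trace version, second order -/
theorem poly_trace_jet2 (q : ℝ[X])
    (hM : ∀ i j, J2 l (fun t => M t i j) (Matrix.diagonal d i j) (Z i j) (Y i j)) :
    J2 l (fun t => (aeval (M t) q).trace) (∑ i, q.eval (d i))
      (∑ i, q.derivative.eval (d i) * Z i i)
      (∑ i, q.derivative.eval (d i) * Y i i
        + 1 / 2 * ∑ i, ∑ j, pd1 q.derivative (d i) (d j) * Z i j * Z j i) := by
  have h := J2.sum Finset.univ (fun i _ => poly_jet2 hl q hM i i)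
  refine (h.congr (Eventually.of_forall fun t => ?_) ?_ ?_ ?_)
  · simp [Matrix.trace]
  · simp
  · refine Finset.sum_congr rfl fun i _ => ?_
    rw [pd1_self]
  · rw [Finset.sum_add_distrib]
    congr 1
    · refine Finset.sum_congr rfl fun i _ => ?_
      rw [pd1_self]
    · have e : ∑ i, ∑ j, pd1 q.derivative (d i) (d j) * Z i j * Z j i
          = ∑ i, ∑ j, pd2 q (d i) (d j) (d i) * Z i j * Z j i
            + ∑ i, ∑ j, pd2 q (d j) (d i) (d j) * Z i j * Z j i := by
        rw [← Finset.sum_add_distrib]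
        refine Finset.sum_congr rfl fun i _ => ?_
        rw [← Finset.sum_add_distrib]
        refine Finset.sum_congr rfl fun j _ => ?_
        rw [← pd2_add_swap]; ring
      have e2 : ∑ i, ∑ j, pd2 q (d j) (d i) (d j) * Z i j * Z j i
          = ∑ i, ∑ j, pd2 q (d i) (d j) (d i) * Z i j * Z j i := by
        rw [Finset.sum_comm]
        refine Finset.sum_congr rfl fun i _ => ?_
        refine Finset.sum_congr rfl fun j _ => ?_
        ring
      rw [e, e2]; ring

include hl in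
/-- (ii) trace version, first order -/
theorem poly_trace_jet1 (q : ℝ[X])
    (hM : ∀ i j, J1 l (fun t => M t i j) (Matrix.diagonal d i j) (Z i j)) :
    J1 l (fun t => (aeval (M t) q).trace) (∑ i, q.eval (d i))
      (∑ i, q.derivative.eval (d i) * Z i i) := by
  have h := J1.sum Finset.univ (fun i _ => poly_jet1 hl q hM i i)
  refine (h.congr (Eventually.of_forall fun t => ?_) ?_ ?_)
  · simp [Matrix.trace]
  · simp
  · refine Finset.sum_congr rfl fun i _ => ?_
    rw [pd1_self]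

/-! ### the products `A q(BA)` -/

/-- (v): second order jet of `A q(BA)` in a frame where `A = diag a`, `B = diag b'`; `B` fixed -/
theorem SQ_jet2 (hl : l ≤ 𝓝 0) (q : ℝ[X]) {a b' : Vec n} {At : ℝ → Mat n} {X₁ X₂ : Mat n}
    (hA : ∀ i j, J2 l (fun t => At t i j) (Matrix.diagonal a i j) (X₁ i j) (X₂ i j))
    (i j : Fin n) :
    J2 l (fun t => (At t * aeval (Matrix.diagonal b' * At t) q) i j)
      (Matrix.diagonal (fun i => a i * q.eval (a i * b' i)) i j)
      (pd1 (q * X) (a i * b' i) (a j * b' j) * X₁ i j)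
      (pd1 (q * X) (a i * b' i) (a j * b' j) * X₂ i j
        + ∑ k, b' k * pd2 (q * X) (a i * b' i) (a k * b' k) (a j * b' j) * X₁ i k * X₁ k j) := by
  have hM : ∀ i j, J2 l (fun t => (Matrix.diagonal b' * At t) i j)
      (Matrix.diagonal (fun i => a i * b' i) i j)
      ((Matrix.of fun i j => b' i * X₁ i j) i j) ((Matrix.of fun i j => b' i * X₂ i j) i j) := by
    intro i j
    refine ((hA i j).const_mul (b' i)).congr (Eventually.of_forall fun t => ?_) ?_ ?_ ?_
    · exact (Matrix.diagonal_mul b' (At t) i j).symm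
    · simp only [Matrix.diagonal_apply]; split_ifs
      · ring
      · simp
    · simp
    · simp
  have hq := poly_jet2 hl q hM
  have hs := J2.sum Finset.univ (fun k _ => (hA i k).mul hl (hq k j))
  refine hs.congr (Eventually.of_forall fun t => ?_) ?_ ?_ ?_
  · simp only [Matrix.mul_apply]
  · rw [← Matrix.mul_apply, Matrix.diagonal_mul_diagonal]
  · rw [Finset.sum_add_distrib]
    have e1 : ∑ k, Matrix.diagonal a i k *
          (pd1 q (a k * b' k) (a j * b' j) * (Matrix.of fun i j => b' i * X₁ i j) k j)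
        = a i * (pd1 q (a i * b' i) (a j * b' j) * (b' i * X₁ i j)) := by
      have := Matrix.diagonal_mul a (Matrix.of fun k j =>
        pd1 q (a k * b' k) (a j * b' j) * (b' k * X₁ k j)) i j
      rw [Matrix.mul_apply] at this
      simpa using this
    have e2 : ∑ k, X₁ i k * Matrix.diagonal (fun i => q.eval (a i * b' i)) k j
        = X₁ i j * q.eval (a j * b' j) := by
      rw [← Matrix.mul_apply, Matrix.mul_diagonal]
    rw [e1, e2, pd1_mul_X']; ring
  · simp only [Finset.sum_add_distrib]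
    have e1 : ∑ k, Matrix.diagonal a i k *
          (pd1 q (a k * b' k) (a j * b' j) * (Matrix.of fun i j => b' i * X₂ i j) k j
            + ∑ k', pd2 q (a k * b' k) (a k' * b' k') (a j * b' j)
              * (Matrix.of fun i j => b' i * X₁ i j) k k'
              * (Matrix.of fun i j => b' i * X₁ i j) k' j)
        = a i * (pd1 q (a i * b' i) (a j * b' j) * (b' i * X₂ i j)
            + ∑ k', pd2 q (a i * b' i) (a k' * b' k') (a j * b' j)
              * (b' i * X₁ i k') * (b' k' * X₁ k' j)) := by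
      have := Matrix.diagonal_mul a (Matrix.of fun k j =>
        (pd1 q (a k * b' k) (a j * b' j) * (b' k * X₂ k j)
            + ∑ k', pd2 q (a k * b' k) (a k' * b' k') (a j * b' j)
              * (b' k * X₁ k k') * (b' k' * X₁ k' j))) i j
      rw [Matrix.mul_apply] at this
      simpa using this
    have e2 : ∑ k, X₂ i k * Matrix.diagonal (fun i => q.eval (a i * b' i)) k j
        = X₂ i j * q.eval (a j * b' j) := by
      rw [← Matrix.mul_apply, Matrix.mul_diagonal]
    have e3 : ∑ k, b' k * pd2 (q * X) (a i * b' i) (a k * b' k) (a j * b' j) * X₁ i k * X₁ k j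
        = a i * ∑ k', pd2 q (a i * b' i) (a k' * b' k') (a j * b' j)
              * (b' i * X₁ i k') * (b' k' * X₁ k' j)
          + ∑ k, X₁ i k * (pd1 q (a k * b' k) (a j * b' j)
              * (Matrix.of fun i j => b' i * X₁ i j) k j) := by
      rw [Finset.mul_sum, ← Finset.sum_add_distrib]
      refine Finset.sum_congr rfl fun k _ => ?_
      rw [pd2_mul_X', Matrix.of_apply]; ring
    rw [e1, e2, e3, pd1_mul_X']; ring

/-- (v), first order version with `B = diag b' + t Z + o(t)` -/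
theorem SQ_jet1 (hl : l ≤ 𝓝 0) (q : ℝ[X]) {a b' : Vec n} {At Bt : ℝ → Mat n} {X₁ Z₁ : Mat n}
    (hA : ∀ i j, J1 l (fun t => At t i j) (Matrix.diagonal a i j) (X₁ i j))
    (hB : ∀ i j, J1 l (fun t => Bt t i j) (Matrix.diagonal b' i j) (Z₁ i j))
    (i j : Fin n) :
    J1 l (fun t => (At t * aeval (Bt t * At t) q) i j)
      (Matrix.diagonal (fun i => a i * q.eval (a i * b' i)) i j)
      (pd1 (q * X) (a i * b' i) (a j * b' j) * X₁ i j
        + a i * a j * pd1 q (a i * b' i) (a j * b' j) * Z₁ i j) := by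
  have hM : ∀ i j, J1 l (fun t => (Bt t * At t) i j)
      (Matrix.diagonal (fun i => a i * b' i) i j)
      ((Matrix.of fun i j => b' i * X₁ i j + Z₁ i j * a j) i j) := by
    intro i j
    have hs := J1.sum Finset.univ (fun k _ => (hB i k).mul hl (hA k j))
    refine hs.congr (Eventually.of_forall fun t => ?_) ?_ ?_
    · simp only [Matrix.mul_apply]
    · rw [← Matrix.mul_apply, Matrix.diagonal_mul_diagonal]
      simp only [mul_comm]
    · rw [Finset.sum_add_distrib, ← Matrix.mul_apply, ← Matrix.mul_apply, Matrix.diagonal_mul,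
        Matrix.mul_diagonal, Matrix.of_apply]
  have hq := poly_jet1 hl q hM
  have hs := J1.sum Finset.univ (fun k _ => (hA i k).mul hl (hq k j))
  refine hs.congr (Eventually.of_forall fun t => ?_) ?_ ?_
  · simp only [Matrix.mul_apply]
  · rw [← Matrix.mul_apply, Matrix.diagonal_mul_diagonal]
  · rw [Finset.sum_add_distrib]
    have e1 : ∑ k, Matrix.diagonal a i k *
          (pd1 q (a k * b' k) (a j * b' j)
            * (Matrix.of fun i j => b' i * X₁ i j + Z₁ i j * a j) k j)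
        = a i * (pd1 q (a i * b' i) (a j * b' j) * (b' i * X₁ i j + Z₁ i j * a j)) := by
      have := Matrix.diagonal_mul a (Matrix.of fun k j =>
        pd1 q (a k * b' k) (a j * b' j) * (b' k * X₁ k j + Z₁ k j * a j)) i j
      rw [Matrix.mul_apply] at this
      simpa using this
    have e2 : ∑ k, X₁ i k * Matrix.diagonal (fun i => q.eval (a i * b' i)) k j
        = X₁ i j * q.eval (a j * b' j) := by
      rw [← Matrix.mul_apply, Matrix.mul_diagonal]
    rw [e1, e2, pd1_mul_X']; ring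

end jets

/-! ### Hermite interpolation -/

/-- (iii) Hermite interpolation of a 2-jet on a finite set of nodes -/
theorem exists_hermite (f f1 f2 : ℝ → ℝ) (s : Finset ℝ) :
    ∃ q : ℝ[X], ∀ x ∈ s, q.eval x = f x ∧ q.derivative.eval x = f1 x ∧
      q.derivative.derivative.eval x = f2 x := by
  induction s using Finset.induction_on with
  | empty => exact ⟨0, by simp⟩
  | insert a s ha ih =>
    obtain ⟨q, hq⟩ := ih
    set r : ℝ[X] := ∏ x ∈ s, (X - C x) with hr
    have hr0 : ∀ x ∈ s, r.eval x = 0 := by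
      intro x hx
      rw [hr, eval_prod]
      exact Finset.prod_eq_zero hx (by simp)
    have hra : r.eval a ≠ 0 := by
      rw [hr, eval_prod, Finset.prod_ne_zero_iff]
      intro x hx
      simp only [eval_sub, eval_X, eval_C]
      exact sub_ne_zero.2 fun h => ha (h ▸ hx)
    -- cubes
    set R : ℝ[X] := r ^ 3 with hR
    have hRa : R.eval a ≠ 0 := by rw [hR, eval_pow]; exact pow_ne_zero _ hra
    have hR0 : ∀ x ∈ s, R.eval x = 0 ∧ R.derivative.eval x = 0 ∧
        R.derivative.derivative.eval x = 0 := by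
      intro x hx
      have h0 := hr0 x hx
      refine ⟨?_, ?_, ?_⟩
      · rw [hR, eval_pow, h0]; simp
      · rw [hR, derivative_pow]; simp [h0]
      · rw [hR, derivative_pow, derivative_mul, derivative_mul, derivative_pow]; simp [h0]
    -- `α + β (X - a) + γ (X - a)^2`
    set α : ℝ := (f a - q.eval a) / R.eval a with hα
    set β : ℝ := (f1 a - q.derivative.eval a - R.derivative.eval a * α) / R.eval a with hβ
    set γ : ℝ := (f2 a - q.derivative.derivative.eval a - R.derivative.derivative.eval a * α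
      - 2 * R.derivative.eval a * β) / (2 * R.eval a) with hγ
    set g : ℝ[X] := C α + C β * (X - C a) + C γ * (X - C a) ^ 2 with hg
    have g0 : g.eval a = α := by simp [hg]
    have g1 : g.derivative.eval a = β := by simp [hg, derivative_pow]
    have g2 : g.derivative.derivative.eval a = 2 * γ := by
      simp [hg, derivative_pow]; ring
    refine ⟨q + R * g, ?_⟩
    intro x hx
    have d1 : (q + R * g).derivative = q.derivative + (R.derivative * g + R * g.derivative) := by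
      rw [derivative_add, derivative_mul]
    have d2 : (q + R * g).derivative.derivative = q.derivative.derivative
        + (R.derivative.derivative * g + R.derivative * g.derivative
          + (R.derivative * g.derivative + R * g.derivative.derivative)) := by
      rw [d1, derivative_add, derivative_add, derivative_mul, derivative_mul]
    rw [d2, d1]
    rcases Finset.mem_insert.1 hx with rfl | hxs
    · simp only [eval_add, eval_mul, g0, g1, g2]
      refine ⟨?_, ?_, ?_⟩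
      · rw [hα]; field_simp; ring
      · rw [hβ]; field_simp; ring
      · rw [hγ]; field_simp; ring
    · obtain ⟨h0, h1, h2⟩ := hR0 x hxs
      obtain ⟨k0, k1, k2⟩ := hq x hxs
      simp only [eval_add, eval_mul, h0, h1, h2, k0, k1, k2]
      simp

/-- (iv) matching divided differences at the nodes -/
theorem pd1_eq_dd1 {q : ℝ[X]} {f f1 : ℝ → ℝ} {x y : ℝ} (hx : q.eval x = f x)
    (hy : q.eval y = f y) (hx1 : q.derivative.eval x = f1 x) : pd1 q x y = dd1 f f1 x y := by
  unfold pd1 dd1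
  simp only [hx, hy, hx1]

theorem pd2_eq_dd2 {q : ℝ[X]} {f f1 f2 : ℝ → ℝ} {x y z : ℝ} (hx : q.eval x = f x)
    (hy : q.eval y = f y) (hz : q.eval z = f z) (hx1 : q.derivative.eval x = f1 x)
    (hy1 : q.derivative.eval y = f1 y) (hx2 : q.derivative.derivative.eval x = f2 x) :
    pd2 q x y z = dd2 f f1 f2 x y z := by
  unfold pd2 dd2 dd1
  simp only [hx, hy, hz, hx1, hy1, hx2]

/-- values of `X q` and its derivatives -/
theorem mulX_eval (q : ℝ[X]) (x : ℝ) : (q * X).eval x = x * q.eval x := by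
  rw [eval_mul, eval_X]; ring

theorem mulX_deriv (q : ℝ[X]) (x : ℝ) :
    (q * X).derivative.eval x = q.eval x + x * q.derivative.eval x := by
  simp [derivative_mul]; ring

theorem mulX_deriv2 (q : ℝ[X]) (x : ℝ) :
    (q * X).derivative.derivative.eval x
      = 2 * q.derivative.eval x + x * q.derivative.derivative.eval x := by
  simp [derivative_mul]; ring

/-- `q` interpolates the profile `p` (with two derivatives) on a set of nodes -/
def Interp (F : Profile) (q : ℝ[X]) (s : Set ℝ) : Prop :=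
  ∀ x ∈ s, q.eval x = F.p x ∧ q.derivative.eval x = F.p1 x ∧ q.derivative.derivative.eval x = F.p2 x

theorem exists_interp (F : Profile) {s : Set ℝ} (hs : s.Finite) : ∃ q : ℝ[X], Interp F q s := by
  obtain ⟨q, hq⟩ := exists_hermite F.p F.p1 F.p2 hs.toFinset
  exact ⟨q, fun x hx => hq x (hs.mem_toFinset.2 hx)⟩

theorem Interp.pd1_p {F : Profile} {q : ℝ[X]} {s : Set ℝ} (h : Interp F q s) {x y : ℝ}
    (hx : x ∈ s) (hy : y ∈ s) : pd1 q x y = dd1 F.p F.p1 x y :=
  pd1_eq_dd1 (h x hx).1 (h y hy).1 (h x hx).2.1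

theorem Interp.pd1_h {F : Profile} {q : ℝ[X]} {s : Set ℝ} (h : Interp F q s) {x y : ℝ}
    (hx : x ∈ s) (hy : y ∈ s) : pd1 (q * X) x y = dd1 F.h F.h1 x y := by
  refine pd1_eq_dd1 ?_ ?_ ?_
  · rw [mulX_eval, (h x hx).1]; rfl
  · rw [mulX_eval, (h y hy).1]; rfl
  · rw [mulX_deriv, (h x hx).1, (h x hx).2.1]; rfl

theorem Interp.pd2_h {F : Profile} {q : ℝ[X]} {s : Set ℝ} (h : Interp F q s) {x y z : ℝ}
    (hx : x ∈ s) (hy : y ∈ s) (hz : z ∈ s) : pd2 (q * X) x y z = dd2 F.h F.h1 F.h2 x y z := by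
  refine pd2_eq_dd2 ?_ ?_ ?_ ?_ ?_ ?_
  · rw [mulX_eval, (h x hx).1]; rfl
  · rw [mulX_eval, (h y hy).1]; rfl
  · rw [mulX_eval, (h z hz).1]; rfl
  · rw [mulX_deriv, (h x hx).1, (h x hx).2.1]; rfl
  · rw [mulX_deriv, (h y hy).1, (h y hy).2.1]; rfl
  · rw [mulX_deriv2, (h x hx).2.1, (h x hx).2.2]; rfl

end Vale.Agent.P254.S526
end

section

/-!
P254, block (Z), contact computation: jets of spectral sums in a frame (helper546).
-/

namespace Vale.Agent.P254.Z546

open Matrix Polynomial Filter Topology Asymptotics Set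
open Vale.Agent.P254.L Vale.Agent.P254.S526

variable {n : ℕ}

theorem aeval_comm_mul (U V : Mat n) (q : ℝ[X]) :
    aeval (U * V) q * U = U * aeval (V * U) q := by
  induction q using Polynomial.induction_on with
  | C a =>
    simp only [aeval_C, Algebra.algebraMap_eq_smul_one, Matrix.smul_mul, Matrix.one_mul,
      Matrix.mul_smul, Matrix.mul_one]
  | add p q hp hq => rw [map_add, map_add, Matrix.add_mul, Matrix.mul_add, hp, hq]
  | monomial m a ih =>
    have e : (C a * Polynomial.X ^ (m + 1) : ℝ[X])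
        = (C a * Polynomial.X ^ m) * Polynomial.X := by rw [pow_succ, mul_assoc]
    rw [e]
    generalize (C a * Polynomial.X ^ m : ℝ[X]) = p at ih ⊢
    rw [map_mul, map_mul, aeval_X, aeval_X]
    calc aeval (U * V) p * (U * V) * U
        = (aeval (U * V) p * U) * (V * U) := by
          simp only [Matrix.mul_assoc]
      _ = _ := by rw [ih]; simp only [Matrix.mul_assoc]

theorem trace_aeval_comm {U : Mat n} (V : Mat n) (hU : IsUnit U) (q : ℝ[X]) :
    (aeval (U * V) q).trace = (aeval (V * U) q).trace := by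
  obtain ⟨W, hW⟩ := hU.exists_right_inv
  have hW' : W * U = 1 := mul_eq_one_comm.1 hW
  calc (aeval (U * V) q).trace = (aeval (U * V) q * (U * W)).trace := by
        rw [hW, Matrix.mul_one]
    _ = ((aeval (U * V) q * U) * W).trace := by rw [Matrix.mul_assoc]
    _ = (U * aeval (V * U) q * W).trace := by rw [aeval_comm_mul]
    _ = (W * (U * aeval (V * U) q)).trace := Matrix.trace_mul_comm _ _
    _ = _ := by rw [← Matrix.mul_assoc, hW', Matrix.one_mul]

theorem J2_conj {l : Filter ℝ} {A : ℝ → Mat n} {A0 X Y : Mat n} (L : Mat n)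
    (hA : ∀ i j, J2 l (fun t => A t i j) (A0 i j) (X i j) (Y i j)) (i j : Fin n) :
    J2 l (fun t => (L * A t * Lᵀ) i j) ((L * A0 * Lᵀ) i j) ((L * X * Lᵀ) i j)
      ((L * Y * Lᵀ) i j) := by
  have h := J2.sum Finset.univ (fun k _ =>
    (J2.sum Finset.univ (fun p _ => (hA p k).const_mul (L i p))).mul_const (L j k))
  refine h.congr (Eventually.of_forall fun t => ?_) ?_ ?_ ?_ <;>
  simp only [Matrix.mul_apply, Matrix.transpose_apply]

theorem J1_conj {l : Filter ℝ} {A : ℝ → Mat n} {A0 X : Mat n} (L : Mat n)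
    (hA : ∀ i j, J1 l (fun t => A t i j) (A0 i j) (X i j)) (i j : Fin n) :
    J1 l (fun t => (L * A t * Lᵀ) i j) ((L * A0 * Lᵀ) i j) ((L * X * Lᵀ) i j) := by
  have h := J1.sum Finset.univ (fun k _ =>
    (J1.sum Finset.univ (fun p _ => (hA p k).const_mul (L i p))).mul_const (L j k))
  refine h.congr (Eventually.of_forall fun t => ?_) ?_ ?_ <;>
  simp only [Matrix.mul_apply, Matrix.transpose_apply]

theorem isUnit_transpose {L : Mat n} (h : IsUnit L) : IsUnit Lᵀ :=
  (Matrix.isUnit_transpose L).2 h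

/-- second order jet of `∑ f (β i)` along a curve of matrices `A t`, `B` fixed -/
theorem phi_jet2 {A : ℝ → Mat n} {A0 B L X Y : Mat n} {β : Vec n} (h0 : Fr A0 B L β)
    (hs : A0ᵀ = A0)
    (hA : ∀ i j, J2 (𝓝 0) (fun t => A t i j) (A0 i j) (X i j) (Y i j))
    (hfr : ∀ᶠ t in 𝓝 (0 : ℝ), (A t)ᵀ = A t ∧ ∃ L β, Fr (A t) B L β)
    {f f1 f2 : ℝ → ℝ} (h1 : ∀ i, ∀ᶠ x in 𝓝 (β i), HasDerivAt f (f1 x) x)
    (h2 : ∀ i, HasDerivAt f1 (f2 (β i)) (β i)) :
    J2 (𝓝 0) (fun t => Phi f (A t) B) (∑ i, f (β i))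
      (∑ i, f1 (β i) * (β i * (L * X * Lᵀ) i i))
      (∑ i, f1 (β i) * (β i * (L * Y * Lᵀ) i i)
        + 1 / 2 * ∑ i, ∑ j, dd1 f1 f2 (β i) (β j) * (β i * (L * X * Lᵀ) i j)
            * (β j * (L * X * Lᵀ) j i)) := by
  obtain ⟨q, hq⟩ := exists_hermite f f1 f2 (Finset.univ.image β)
  have hq' : ∀ i, q.eval (β i) = f (β i) ∧ q.derivative.eval (β i) = f1 (β i) ∧
      q.derivative.derivative.eval (β i) = f2 (β i) := fun i => hq _ (by simp)
  have hC : Curve (𝓝 0) A (fun _ => B) A0 B :=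
    { hl := le_rfl
      symm0 := hs
      hA := fun i j => ((hA i j).toJ1 le_rfl).sub_isBigO
      hB := fun i j => by simpa using isBigO_zero (fun t : ℝ => t) (𝓝 0)
      fr := hfr }
  have hP := hC.Phi_poly h0 (f := f) (q := q) fun i =>
    rho_o (h1 i) (h2 i) (hq' i).1 (hq' i).2.1 (hq' i).2.2
  have hU : IsUnit Lᵀ := isUnit_transpose h0.isUnit
  have e : ∀ t, (aeval (B * A t) q).trace
      = (aeval (Matrix.diagonal β * (L * A t * Lᵀ)) q).trace := by
    intro t
    have e1 : B * A t = Lᵀ * (Matrix.diagonal β * (L * A t)) := by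
      conv_lhs => rw [h0.hB]
      simp only [Matrix.mul_assoc]
    rw [e1, trace_aeval_comm _ hU]
    simp only [Matrix.mul_assoc]
  have hM : ∀ i j, J2 (𝓝 0) (fun t => (Matrix.diagonal β * (L * A t * Lᵀ)) i j)
      (Matrix.diagonal β i j) ((Matrix.of fun i j => β i * (L * X * Lᵀ) i j) i j)
      ((Matrix.of fun i j => β i * (L * Y * Lᵀ) i j) i j) := by
    intro i j
    refine ((J2_conj L hA i j).const_mul (β i)).congr (Eventually.of_forall fun t => ?_) ?_ ?_ ?_
    · exact (Matrix.diagonal_mul _ _ _ _).symm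
    · rw [h0.hA, Matrix.one_apply, Matrix.diagonal_apply]
      split_ifs <;> simp
    · rfl
    · rfl
  have hT := poly_trace_jet2 le_rfl q hM
  have hT' : J2 (𝓝 0) (fun t => (aeval (B * A t) q).trace) (∑ i, f (β i))
      (∑ i, f1 (β i) * (β i * (L * X * Lᵀ) i i))
      (∑ i, f1 (β i) * (β i * (L * Y * Lᵀ) i i)
        + 1 / 2 * ∑ i, ∑ j, dd1 f1 f2 (β i) (β j) * (β i * (L * X * Lᵀ) i j)
            * (β j * (L * X * Lᵀ) j i)) := by
    refine hT.congr (Eventually.of_forall fun t => (e t).symm) ?_ ?_ ?_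
    · exact Finset.sum_congr rfl fun i _ => (hq' i).1
    · exact Finset.sum_congr rfl fun i _ => by rw [(hq' i).2.1, Matrix.of_apply]
    · congr 1
      · exact Finset.sum_congr rfl fun i _ => by rw [(hq' i).2.1, Matrix.of_apply]
      · congr 1
        refine Finset.sum_congr rfl fun i _ => Finset.sum_congr rfl fun j _ => ?_
        rw [Matrix.of_apply, Matrix.of_apply,
          pd1_eq_dd1 (f := f1) (f1 := f2) (hq' i).2.1 (hq' j).2.1 (hq' i).2.2]
  refine (IsLittleO.add hP hT').congr_left fun t => ?_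
  simp only
  ring

/-- first order jet along `B + t Lᵀ diag r L` -/
theorem phi_jet1 {l : Filter ℝ} (hl : l ≤ 𝓝 0) {A : ℝ → Mat n} {A0 B L X : Mat n} {β r : Vec n}
    (h0 : Fr A0 B L β) (hs : A0ᵀ = A0)
    (hA : ∀ i j, J1 l (fun t => A t i j) (A0 i j) (X i j))
    (hfr : ∀ᶠ t in l, (A t)ᵀ = A t ∧
      ∃ L' β', Fr (A t) (B + t • (Lᵀ * Matrix.diagonal r * L)) L' β')
    {f f1 f2 : ℝ → ℝ} (h1 : ∀ i, ∀ᶠ x in 𝓝 (β i), HasDerivAt f (f1 x) x)
    (h2 : ∀ i, HasDerivAt f1 (f2 (β i)) (β i)) :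
    J1 l (fun t => Phi f (A t) (B + t • (Lᵀ * Matrix.diagonal r * L))) (∑ i, f (β i))
      (∑ i, f1 (β i) * (r i + β i * (L * X * Lᵀ) i i)) := by
  obtain ⟨q, hq⟩ := exists_hermite f f1 f2 (Finset.univ.image β)
  have hq' : ∀ i, q.eval (β i) = f (β i) ∧ q.derivative.eval (β i) = f1 (β i) ∧
      q.derivative.derivative.eval (β i) = f2 (β i) := fun i => hq _ (by simp)
  have hC : Curve l A (fun t => B + t • (Lᵀ * Matrix.diagonal r * L)) A0 B :=
    { hl := hl
      symm0 := hs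
      hA := fun i j => (hA i j).sub_isBigO
      hB := fun i j => by
        have h3 : (fun t : ℝ => (Lᵀ * Matrix.diagonal r * L) i j * t) =O[l] fun t => t :=
          (isBigO_refl _ _).const_mul_left _
        refine h3.congr_left fun t => ?_
        simp only [Matrix.add_apply, Matrix.smul_apply, smul_eq_mul]
        ring
      fr := hfr }
  have hP := hC.Phi_poly h0 (f := f) (q := q) fun i =>
    rho_o (h1 i) (h2 i) (hq' i).1 (hq' i).2.1 (hq' i).2.2
  have hP' : (fun t => Phi f (A t) (B + t • (Lᵀ * Matrix.diagonal r * L))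
      - (aeval ((B + t • (Lᵀ * Matrix.diagonal r * L)) * A t) q).trace) =o[l] fun t => t :=
    hP.trans_isBigO (sq_isLittleO hl).isBigO
  have hU : IsUnit Lᵀ := isUnit_transpose h0.isUnit
  have e : ∀ t : ℝ, (aeval ((B + t • (Lᵀ * Matrix.diagonal r * L)) * A t) q).trace
      = (aeval (Matrix.diagonal (fun i => β i + t * r i) * (L * A t * Lᵀ)) q).trace := by
    intro t
    have e2 : (Matrix.diagonal (fun i => β i + t * r i) : Mat n)
        = Matrix.diagonal β + t • Matrix.diagonal r := by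
      ext i j
      simp only [Matrix.diagonal_apply, Matrix.add_apply, Matrix.smul_apply, smul_eq_mul]
      split_ifs <;> simp
    have e1 : (B + t • (Lᵀ * Matrix.diagonal r * L)) * A t
        = Lᵀ * (Matrix.diagonal (fun i => β i + t * r i) * (L * A t)) := by
      conv_lhs => rw [h0.hB]
      rw [e2]
      simp only [Matrix.add_mul, Matrix.mul_add, Matrix.smul_mul, Matrix.mul_smul,
        Matrix.mul_assoc]
    rw [e1, trace_aeval_comm _ hU]
    simp only [Matrix.mul_assoc]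
  have hM : ∀ i j, J1 l (fun t => (Matrix.diagonal (fun i => β i + t * r i)
        * (L * A t * Lᵀ)) i j)
      (Matrix.diagonal β i j)
      ((Matrix.of fun i j => Matrix.diagonal r i j + β i * (L * X * Lᵀ) i j) i j) := by
    intro i j
    have h3 : J1 l (fun t => β i + t * r i) (β i) (r i) := by
      refine ((J1.const (β i)).add (J1.id.mul_const (r i))).congr_coef ?_ ?_ <;> ring
    refine (h3.mul hl (J1_conj L hA i j)).congr (Eventually.of_forall fun t => ?_) ?_ ?_
    · exact (Matrix.diagonal_mul (fun i => β i + t * r i) (L * A t * Lᵀ) i j).symm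
    · rw [h0.hA, Matrix.one_apply, Matrix.diagonal_apply]
      split_ifs <;> simp
    · rw [h0.hA, Matrix.one_apply, Matrix.of_apply, Matrix.diagonal_apply]
      split_ifs
      · simp; ring
      · simp
  have hT := poly_trace_jet1 hl q hM
  have hT' : J1 l (fun t : ℝ => (aeval ((B + t • (Lᵀ * Matrix.diagonal r * L)) * A t) q).trace)
      (∑ i, f (β i)) (∑ i, f1 (β i) * (r i + β i * (L * X * Lᵀ) i i)) := by
    refine hT.congr (Eventually.of_forall fun t => (e t).symm) ?_ ?_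
    · exact Finset.sum_congr rfl fun i _ => (hq' i).1
    · refine Finset.sum_congr rfl fun i _ => ?_
      rw [(hq' i).2.1, Matrix.of_apply, Matrix.diagonal_apply_eq]
  refine (IsLittleO.add hP' hT').congr_left fun t => ?_
  simp only
  ring

/-- `½ log det` along `B + t Lᵀ diag r L` -/
theorem logdet_jet1 {l : Filter ℝ} (hl : l ≤ 𝓝 0) {A0 B L : Mat n} {β r : Vec n}
    (h0 : Fr A0 B L β) (hβ : ∀ i, 0 < β i) :
    J1 l (fun t => Real.log (B + t • (Lᵀ * Matrix.diagonal r * L)).det)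
      (Real.log B.det) (∑ i, r i / β i) := by
  have hL : L.det ^ 2 ≠ 0 := by
    have := h0.det_A
    intro h
    rw [h, zero_mul] at this
    exact zero_ne_one this
  have e : ∀ t : ℝ, (B + t • (Lᵀ * Matrix.diagonal r * L)).det
      = L.det ^ 2 * ∏ i, (β i + t * r i) := by
    intro t
    have e2 : (Matrix.diagonal (fun i => β i + t * r i) : Mat n)
        = Matrix.diagonal β + t • Matrix.diagonal r := by
      ext i j
      simp only [Matrix.diagonal_apply, Matrix.add_apply, Matrix.smul_apply, smul_eq_mul]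
      split_ifs <;> simp
    have e1 : B + t • (Lᵀ * Matrix.diagonal r * L)
        = Lᵀ * Matrix.diagonal (fun i => β i + t * r i) * L := by
      conv_lhs => rw [h0.hB]
      rw [e2]
      simp only [Matrix.add_mul, Matrix.mul_add, Matrix.smul_mul, Matrix.mul_smul,
        Matrix.mul_assoc]
    rw [e1, Matrix.det_mul, Matrix.det_mul, Matrix.det_transpose, Matrix.det_diagonal]
    ring
  have hpos : ∀ᶠ t in l, ∀ i, 0 < β i + t * r i := by
    rw [eventually_all]
    intro i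
    have h1 : Tendsto (fun t : ℝ => β i + t * r i) l (𝓝 (β i + 0 * r i)) := by
      refine Tendsto.mono_left ?_ hl
      apply Continuous.tendsto
      fun_prop
    refine h1.eventually (lt_mem_nhds ?_)
    simpa using hβ i
  have hJ : J1 l (fun t => Real.log (L.det ^ 2) + ∑ i, Real.log (β i + t * r i))
      (Real.log (L.det ^ 2) + ∑ i, Real.log (β i)) (0 + ∑ i, (β i)⁻¹ * r i) := by
    refine (J1.const _).add (J1.sum Finset.univ fun i _ => ?_)
    have h3 : J1 l (fun t => β i + t * r i) (β i) (r i) := by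
      refine ((J1.const (β i)).add (J1.id.mul_const (r i))).congr_coef ?_ ?_ <;> ring
    exact h3.comp hl (Real.hasDerivAt_log (hβ i).ne')
  refine hJ.congr ?_ ?_ ?_
  · filter_upwards [hpos] with t ht
    rw [e t, Real.log_mul hL (Finset.prod_ne_zero_iff.2 fun i _ => (ht i).ne'), Real.log_prod]
    exact fun i _ => (ht i).ne'
  · rw [h0.det_B, Real.log_mul hL (Finset.prod_ne_zero_iff.2 fun i _ => (hβ i).ne'),
      Real.log_prod]
    exact fun i _ => (hβ i).ne'
  · rw [zero_add]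
    exact Finset.sum_congr rfl fun i _ => by rw [div_eq_inv_mul]

end Vale.Agent.P254.Z546
end

section

/-!
P254, static method: the Z-frame with a loss `δ` per dimension (copy of `L/ZBd`, `Z546` with a
function `w` that is only `≥ -δ`).
-/

namespace Vale.Agent.P254.St625

open Matrix Filter Topology Set Polynomial Asymptotics
open Vale.Agent.P254.L Vale.Agent.P254.S526

variable {n : ℕ}

/-- one-variable data of the static method; `k` = the static profile -/
structure WP (δ : ℝ) (k : ℝ → ℝ) where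
  w : ℝ → ℝ
  w1 : ℝ → ℝ
  w2 : ℝ → ℝ
  d1 : ∀ x ∈ Ioo (0 : ℝ) 1, HasDerivAt w (w1 x) x
  d2 : ∀ x ∈ Ioo (0 : ℝ) 1, HasDerivAt w1 (w2 x) x
  /-- `c k ≤ w' (1 - b)`, `c = 1/4 - b² w''/2` -/
  ode : ∀ x ∈ Ioo (0 : ℝ) 1, (1 / 4 - x ^ 2 * w2 x / 2) * k x ≤ w1 x * (1 - x)
  c_pos : ∀ x ∈ Ioo (0 : ℝ) 1, 0 < 1 / 4 - x ^ 2 * w2 x / 2
  w_ge : ∀ x ∈ Ioo (0 : ℝ) 1, -δ ≤ w x
  w_le : ∀ x ∈ Ioo (0 : ℝ) 1, w x ≤ 1 / 2 * Real.log (2 * Real.pi * Real.exp 1) - 1
  cij : ∀ x ∈ Ioo (0 : ℝ) 1, ∀ y ∈ Ioo (0 : ℝ) 1,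
    (1 / 4 - x * y * dd1 w1 w2 x y / 2)
      ≤ Real.sqrt (1 / 4 - x ^ 2 * w2 x / 2) * Real.sqrt (1 / 4 - y ^ 2 * w2 y / 2)

/-- the static inequality for `(A, B, T)`, in frames: `L A Lᵀ = 1`, `B = Lᵀ diag β L` -/
def StatIneq (k : ℝ → ℝ) (A B : Mat n) (T : Ten n) : Prop :=
  ∀ (L : Mat n) (β : Vec n), IsUnit L → L * A * Lᵀ = 1 → B = Lᵀ * Matrix.diagonal β * L →
    (∀ i, β i ∈ Ioo (0 : ℝ) 1) → ∀ r : Vec n, (∀ i, 0 < r i) →
      ∑ i, ∑ j, r i * r j * ∑ a, frT L T i j a ^ 2 ≤ ∑ i, r i ^ 2 * k (β i)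

/-! ### the function to be minimised -/

/-- `w - ε √(1-x) + ½ log x` -/
noncomputable def ft {δ : ℝ} {k : ℝ → ℝ} (W : WP δ k) (ε x : ℝ) : ℝ :=
  W.w x - ε * Real.sqrt (1 - x) + 1 / 2 * Real.log x

noncomputable def GG {δ : ℝ} {k : ℝ → ℝ} {D : TiltData n} (E : EntData D) (W : WP δ k) (ε : ℝ)
    (B : Mat n) (c : Vec n) : ℝ :=
  E.Ent B c + 1 / 2 * Real.log B.det - n - Phi (ft W ε) (D.A B c) B

section
variable {δ : ℝ} {k : ℝ → ℝ} {D : TiltData n} (E : EntData D) (W : WP δ k) {ε : ℝ}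

theorem GG_eq {B : Mat n} (hB : B.PosDef) (c : Vec n) {L : Mat n} {β : Vec n}
    (h : Fr (D.A B c) B L β) :
    GG E W ε B c = E.Ent B c - 1 / 2 * Real.log (D.A B c).det - n - ∑ i, W.w (β i)
      + ε * ∑ i, Real.sqrt (1 - β i) := by
  have hβ : ∀ i, β i ∈ Ioo (0 : ℝ) 1 := h.beta_mem hB c
  unfold GG
  rw [Phi_eq h]
  unfold ft
  rw [Finset.sum_add_distrib, Finset.sum_sub_distrib, ← Finset.mul_sum, ← Finset.mul_sum]
  have hAp : 0 < (D.A B c).det := (D.posA B hB.posSemidef c).det_pos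
  have h1 : B.det * (D.A B c).det = ∏ i, β i := by
    have e1 := h.det_A
    rw [h.det_B]
    calc L.det ^ 2 * (∏ i, β i) * (D.A B c).det
        = (L.det ^ 2 * (D.A B c).det) * ∏ i, β i := by ring
      _ = _ := by rw [e1, one_mul]
  have h2 : Real.log B.det + Real.log (D.A B c).det = ∑ i, Real.log (β i) := by
    rw [← Real.log_mul hB.det_pos.ne' hAp.ne', h1, Real.log_prod]
    exact fun i _ => (hβ i).1.ne'
  rw [← h2]
  ring

theorem GG_lower {B : Mat n} (hB : B.PosDef) (c : Vec n) (hε : 0 ≤ ε) :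
    - (1 / 2 * Real.log (B + D.M • (1 : Mat n)).det) - 1 / 2 * Real.log (D.A B c).det
      ≤ GG E W ε B c := by
  obtain ⟨L, β, h⟩ := exists_Fr (D.posA B hB.posSemidef c) hB.isHermitian
  have hβ : ∀ i, β i ∈ Ioo (0 : ℝ) 1 := h.beta_mem hB c
  rw [GG_eq E W hB c h]
  have h1 := E.lowE B hB.posSemidef c
  have h2 : ∑ i, W.w (β i) ≤ ∑ _i : Fin n, (1 / 2 * Real.log (2 * Real.pi * Real.exp 1) - 1) :=
    Finset.sum_le_sum fun i _ => W.w_le _ (hβ i)
  rw [Finset.sum_const, Finset.card_univ, Fintype.card_fin, nsmul_eq_mul] at h2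
  have h3 : 0 ≤ ε * ∑ i, Real.sqrt (1 - β i) :=
    mul_nonneg hε (Finset.sum_nonneg fun i _ => Real.sqrt_nonneg _)
  linarith

/-- the top boundary -/
theorem GG_top {B : Mat n} (hB : B.PosDef) (c : Vec n) (hε : 0 ≤ ε) {b : ℝ} (hb : 0 ≤ b)
    (h : (B - b • (1 : Mat n)).PosSemidef) :
    - ((n : ℝ) / 2 * Real.log ((b + D.M) / (b + D.m))) ≤ GG E W ε B c := by
  refine le_trans ?_ (GG_lower E W hB c hε)
  have hm := D.hm
  have hM := D.hM
  have hBm : (B + D.m • (1 : Mat n)).PosDef := by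
    rw [add_comm]; exact (Matrix.PosDef.one.smul hm).add_posSemidef hB.posSemidef
  have hBM : (B + D.M • (1 : Mat n)).PosDef := by
    rw [add_comm]; exact (Matrix.PosDef.one.smul (hm.trans_le hM)).add_posSemidef hB.posSemidef
  have h1 := det_ratio hm hM hb h
  have hA := D.posA B hB.posSemidef c
  have h2 : (B + D.m • (1 : Mat n)).det ≤ ((D.A B c)⁻¹).det :=
    det_mono hA.inv hBm (D.up B hB.posSemidef c)
  rw [Matrix.det_nonsing_inv, Ring.inverse_eq_inv'] at h2
  have hr : 0 < (b + D.M) / (b + D.m) := div_pos (by linarith) (by linarith)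
  have h3 : Real.log (B + D.M • (1 : Mat n)).det
      ≤ n * Real.log ((b + D.M) / (b + D.m)) + Real.log (B + D.m • (1 : Mat n)).det := by
    have := Real.log_le_log hBM.det_pos h1
    rwa [Real.log_mul (pow_pos hr n).ne' hBm.det_pos.ne', Real.log_pow] at this
  have h4 : Real.log (B + D.m • (1 : Mat n)).det ≤ - Real.log (D.A B c).det := by
    have := Real.log_le_log hBm.det_pos h2
    rwa [Real.log_inv] at this
  linarith

/-- the boundary `|c| = ρ` -/
theorem GG_side (hε : 0 ≤ ε) (b : ℝ) {η : ℝ} (hη : 0 < η) :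
    ∃ ρ : ℝ, ∀ B : Mat n, B.PosDef → (b • (1 : Mat n) - B).PosSemidef →
      ∀ c : Vec n, ρ ≤ ‖c‖ → -η ≤ GG E W ε B c := by
  obtain ⟨ρ, hρ⟩ := E.vA b (2 * η) (by positivity)
  refine ⟨ρ, fun B hB hb c hc => ?_⟩
  have h1 := hρ B hB.posSemidef hb c hc
  have h2 := GG_lower E W hB c hε
  linarith

theorem GG_cont : ContinuousOn (fun p : Mat n × Vec n => GG E W ε p.1 p.2)
    ({B | B.PosDef} ×ˢ univ) := by
  have hsub : ({B : Mat n | B.PosDef} ×ˢ (univ : Set (Vec n)))
      ⊆ ({B | B.PosSemidef} ×ˢ univ) := by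
    rintro ⟨B, c⟩ ⟨h, -⟩
    exact ⟨Matrix.PosDef.posSemidef h, trivial⟩
  unfold GG
  refine (((E.cE.mono hsub).add (continuousOn_const.mul ?_)).sub continuousOn_const).sub ?_
  · refine ContinuousOn.log ?_ ?_
    · exact (continuous_fst.matrix_det).continuousOn
    · rintro ⟨B, c⟩ ⟨h, -⟩
      exact (Matrix.PosDef.det_pos h).ne'
  · rintro ⟨B, c⟩ ⟨h, -⟩
    have hB : B.PosDef := h
    obtain ⟨L, β, hF⟩ := exists_Fr (D.posA B hB.posSemidef c) hB.isHermitian
    have hβ : ∀ i, β i ∈ Ioo (0 : ℝ) 1 := hF.beta_mem hB c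
    have hA : Tendsto (fun p : Mat n × Vec n => D.A p.1 p.2)
        (𝓝[({B | B.PosDef} ×ˢ univ)] (B, c)) (𝓝 (D.A B c)) := by
      refine tendsto_pi_nhds.2 fun i => tendsto_pi_nhds.2 fun j => ?_
      exact ((D.cA i j).mono hsub) (B, c) ⟨h, trivial⟩
    have hBt : Tendsto (fun p : Mat n × Vec n => p.1)
        (𝓝[({B | B.PosDef} ×ˢ univ)] (B, c)) (𝓝 B) :=
      (continuous_fst.tendsto (B, c)).mono_left nhdsWithin_le_nhds
    refine Phi_tendsto hF hA hBt (f := ft W ε) (fun i => ?_) ?_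
    · unfold ft
      have h1 := (W.d1 _ (hβ i)).continuousAt
      have h2 : ContinuousAt (fun x : ℝ => Real.sqrt (1 - x)) (β i) :=
        (continuous_const.sub continuous_id).sqrt.continuousAt
      have h3 : ContinuousAt Real.log (β i) := Real.continuousAt_log (hβ i).1.ne'
      exact (h1.sub (continuousAt_const.mul h2)).add (continuousAt_const.mul h3)
    · filter_upwards [self_mem_nhdsWithin] with p hp
      have hp1 : p.1.PosDef := hp.1
      exact exists_Fr (D.posA p.1 hp1.posSemidef p.2) hp1.isHermitian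

end

/-! ### the minimum -/

section
variable {δ : ℝ} {k : ℝ → ℝ} {D : TiltData n} (E : EntData D) (W : WP δ k)

/-- **Existence of a good minimum point.** -/
theorem exists_min {ε η q0 Λ : ℝ} (hε : 0 ≤ ε) (hη : 0 < η) (hq0 : 0 < q0) (hΛ : q0 ≤ Λ)
    {B0 : Mat n} {c0 : Vec n} (hB0 : B0.PosDef) (h : GG E W ε B0 c0 < -η) :
    ∃ (B : Mat n) (c : Vec n), B.PosDef ∧ GG E W ε B c < -η ∧
      (∀ e : Vec n, ∀ᶠ t in 𝓝 (0 : ℝ), GG E W ε B c ≤ GG E W ε B (c + t • e)) ∧
      (∀ Q : Mat n, (Q - q0 • (D.A B c)⁻¹).PosSemidef → (Λ • (D.A B c)⁻¹ - Q).PosSemidef →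
        ∀ᶠ t in 𝓝[≥] (0 : ℝ),
          GG E W ε B c ≤ GG E W ε (B + t • Q) (c + t • (Q *ᵥ D.mu B c))) := by
  have hm := D.hm
  have hMm := D.hM
  have hΛ0 : 0 < Λ := hq0.trans_le hΛ
  obtain ⟨b, hb0, hb⟩ := log_ratio_small n (M := D.M) hm hη
  obtain ⟨M', hM0, hM'⟩ := exists_smul_ge (B0 + D.M • (1 : Mat n)) (by
    rw [Matrix.transpose_add, (psd_iff.1 hB0.posSemidef).1, Matrix.transpose_smul,
      Matrix.transpose_one])
  set a : ℝ := q0 * D.m with ha
  have ha0 : 0 < a := mul_pos hq0 hm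
  set S : ℝ := b / a with hS
  have hS0 : 0 < S := div_pos hb0 ha0
  obtain ⟨R, hR, -⟩ := Dom_compact (ρ := 0) hB0 (a := a) (M' := M') (Λ := Λ) (S := S) ha0.le hM0
    hΛ0.le
  obtain ⟨ρ1, hρ1⟩ := GG_side E W hε R hη
  set ρ : ℝ := max ρ1 (‖c0‖ + 1) with hρ
  obtain ⟨R', hR', hK⟩ := Dom_compact (ρ := ρ) hB0 (a := a) (M' := M') (Λ := Λ) (S := S) ha0.le hM0
    hΛ0.le
  have hne : ((0 : ℝ), B0, c0) ∈ Dom B0 a M' Λ S ρ := by
    refine ⟨⟨le_rfl, hS0.le⟩, ?_, ?_, ?_⟩
    · simpa using Matrix.PosSemidef.zero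
    · simpa using Matrix.PosSemidef.zero
    · exact (by linarith : ‖c0‖ ≤ ‖c0‖ + 1).trans (le_max_right _ _)
  have hcont : ContinuousOn (fun p : ℝ × Mat n × Vec n => GG E W ε p.2.1 p.2.2)
      (Dom B0 a M' Λ S ρ) := by
    refine (GG_cont E W (ε := ε)).comp continuous_snd.continuousOn ?_
    intro p hp
    exact ⟨Dom_B_mem hB0 ha0.le hp, trivial⟩
  obtain ⟨⟨s, B, c⟩, hmem, hmin⟩ := hK.exists_isMinOn ⟨_, hne⟩ hcont
  have hB : B.PosDef := Dom_B_mem hB0 ha0.le hmem
  have hmin' : ∀ p ∈ Dom B0 a M' Λ S ρ, GG E W ε B c ≤ GG E W ε p.2.1 p.2.2 := fun p hp =>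
    hmin hp
  have hlt : GG E W ε B c < -η := (hmin' _ hne).trans_lt h
  have hs : s < S := by
    rcases hmem.1.2.lt_or_eq with h1 | h1
    · exact h1
    · exfalso
      simp only at h1
      have h2 : (B - b • (1 : Mat n)).PosSemidef := by
        have h3 := hmem.2.1.add hB0.posSemidef
        refine cast (congrArg Matrix.PosSemidef ?_) h3
        simp only
        have : a * s = b := by rw [h1, hS]; field_simp
        rw [this]
        abel
      have h3 := GG_top E W hB c hε hb0.le h2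
      linarith
  have hc : ‖c‖ < ρ := by
    rcases hmem.2.2.2.lt_or_eq with h1 | h1
    · exact h1
    · exfalso
      simp only at h1
      have h2 : (R • (1 : Mat n) - B).PosSemidef := by
        refine hR (s, B, 0) ⟨hmem.1, hmem.2.1, hmem.2.2.1, ?_⟩
        simp
      have h3 := hρ1 B hB h2 c (by rw [h1]; exact le_max_left _ _)
      linarith
  refine ⟨B, c, hB, hlt, ?_, ?_⟩
  · intro e
    have h1 : Tendsto (fun t : ℝ => ‖c + t • e‖) (𝓝 0) (𝓝 ‖c + (0 : ℝ) • e‖) := by
      apply Continuous.tendsto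
      fun_prop
    rw [zero_smul, add_zero] at h1
    filter_upwards [h1.eventually (gt_mem_nhds hc)] with t ht
    exact hmin' (s, B, c + t • e) ⟨hmem.1, hmem.2.1, hmem.2.2.1, ht.le⟩
  · intro Q hQ1 hQ2
    have h1 : Tendsto (fun t : ℝ => ‖c + t • (Q *ᵥ D.mu B c)‖) (𝓝[≥] 0)
        (𝓝 ‖c + (0 : ℝ) • (Q *ᵥ D.mu B c)‖) := by
      refine Tendsto.mono_left ?_ nhdsWithin_le_nhds
      apply Continuous.tendsto
      fun_prop
    rw [zero_smul, add_zero] at h1
    have h2 : ∀ᶠ t in 𝓝[≥] (0 : ℝ), t < S - s :=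
      nhdsWithin_le_nhds (gt_mem_nhds (by linarith))
    filter_upwards [h1.eventually (gt_mem_nhds hc), h2, self_mem_nhdsWithin] with t ht h2 h3
    exact hmin' _ (Dom_step hB0 hq0.le hΛ0.le hM0 hM' hmem hQ1 hQ2 h3 (by linarith) ht.le)

/-- passage to the limit -/
theorem ent_of_GG {B : Mat n} (hB : B.PosDef) (c : Vec n)
    (h : ∀ ε : ℝ, 0 < ε → ∀ η : ℝ, 0 < η → -η ≤ GG E W ε B c) :
    (n : ℝ) + 1 / 2 * Real.log (D.A B c).det ≤ E.Ent B c + δ * n := by
  obtain ⟨L, β, hF⟩ := exists_Fr (D.posA B hB.posSemidef c) hB.isHermitian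
  have hβ : ∀ i, β i ∈ Ioo (0 : ℝ) 1 := hF.beta_mem hB c
  have hw : -(δ * n) ≤ ∑ i, W.w (β i) := by
    have : ∑ _i : Fin n, (-δ) ≤ ∑ i, W.w (β i) :=
      Finset.sum_le_sum fun i _ => W.w_ge _ (hβ i)
    rw [Finset.sum_const, Finset.card_univ, Fintype.card_fin, nsmul_eq_mul] at this
    linarith
  have hs : ∑ i, Real.sqrt (1 - β i) ≤ n := by
    have : ∑ i, Real.sqrt (1 - β i) ≤ ∑ _i : Fin n, (1 : ℝ) := by
      refine Finset.sum_le_sum fun i _ => ?_
      rw [Real.sqrt_le_one]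
      linarith [(hβ i).1]
    simpa using this
  refine le_of_forall_pos_le_add fun κ hκ => ?_
  have h1 := h (κ / (2 * (n + 1))) (by positivity) (κ / 2) (by positivity)
  rw [GG_eq E W hB c hF] at h1
  have h2 : κ / (2 * (n + 1)) * ∑ i, Real.sqrt (1 - β i) ≤ κ / 2 := by
    calc κ / (2 * (n + 1)) * ∑ i, Real.sqrt (1 - β i) ≤ κ / (2 * (n + 1)) * n :=
          mul_le_mul_of_nonneg_left hs (by positivity)
      _ ≤ κ / (2 * (n + 1)) * (n + 1) := by
          refine mul_le_mul_of_nonneg_left (by linarith) (by positivity)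
      _ = κ / 2 := by field_simp
  linarith

end

end Vale.Agent.P254.St625
end

section

/-! # P227/M/SC: real estimates for the third and fourth derivatives of the two-point average. -/

namespace Vale.Agent.P227.M.SC

theorem abs_mul2 {a b A B : ℝ} (ha : |a| ≤ A) (hb : |b| ≤ B) : |a * b| ≤ A * B := by
  rw [abs_mul]
  exact mul_le_mul ha hb (abs_nonneg _) ((abs_nonneg _).trans ha)

theorem abs_mul3 {a b c A B C : ℝ} (ha : |a| ≤ A) (hb : |b| ≤ B) (hc : |c| ≤ C) :
    |a * b * c| ≤ A * B * C := abs_mul2 (abs_mul2 ha hb) hc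

theorem abs_mul4 {a b c d A B C D : ℝ} (ha : |a| ≤ A) (hb : |b| ≤ B) (hc : |c| ≤ C)
    (hd : |d| ≤ D) : |a * b * c * d| ≤ A * B * C * D := abs_mul2 (abs_mul3 ha hb hc) hd

theorem q_bd {P Q : ℝ} (hP0 : 0 ≤ P) (hP1 : P ≤ 1) (hQ : Q = P * (1 - P)) :
    0 ≤ Q ∧ Q ≤ 1 / 4 := by
  subst hQ
  constructor
  · exact mul_nonneg hP0 (by linarith)
  · nlinarith [sq_nonneg (P - 1 / 2)]

theorem q_abs {P Q : ℝ} (hP0 : 0 ≤ P) (hP1 : P ≤ 1) (hQ : Q = P * (1 - P)) :
    |Q| ≤ 1 / 4 := by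
  have h := q_bd hP0 hP1 hQ
  rw [abs_of_nonneg h.1]
  exact h.2

theorem r_abs {P Q R : ℝ} (hP0 : 0 ≤ P) (hP1 : P ≤ 1) (hQ : Q = P * (1 - P))
    (hR : R = Q * (1 - 2 * P)) : |R| ≤ 1 / 4 := by
  have h1 : |1 - 2 * P| ≤ 1 := by
    rw [abs_le]
    constructor <;> linarith
  have h2 := abs_mul2 (q_abs hP0 hP1 hQ) h1
  rw [hR]
  linarith

theorem s_abs {P Q : ℝ} (hP0 : 0 ≤ P) (hP1 : P ≤ 1) (hQ : Q = P * (1 - P)) :
    |Q * (6 * Q - 1)| ≤ 1 / 4 := by
  have h := q_bd hP0 hP1 hQ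
  have h1 : |6 * Q - 1| ≤ 1 := by
    rw [abs_le]
    constructor <;> linarith [h.1, h.2]
  have h2 := abs_mul2 (q_abs hP0 hP1 hQ) h1
  linarith

theorem conv_abs {P g f T : ℝ} (hP0 : 0 ≤ P) (hP1 : P ≤ 1) (hg : |g| ≤ T) (hf : |f| ≤ T) :
    |g + P * (f - g)| ≤ T := by
  rw [abs_le] at hg hf ⊢
  have h0 : 0 ≤ 1 - P := by linarith
  have e1 := mul_le_mul_of_nonneg_left hg.1 h0
  have e2 := mul_le_mul_of_nonneg_left hg.2 h0
  have e3 := mul_le_mul_of_nonneg_left hf.1 hP0
  have e4 := mul_le_mul_of_nonneg_left hf.2 hP0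
  constructor <;> linarith

/-- third order estimate -/
theorem r3 {P Q R δ b C3 n1 n2 n3 f g d1 d2 d3 d21 d32 d31 : ℝ}
    (hP0 : 0 ≤ P) (hP1 : P ≤ 1) (hQ : Q = P * (1 - P)) (hR : R = Q * (1 - 2 * P))
    (_hδ0 : 0 ≤ δ) (_hδ1 : δ ≤ 1) (_hb : 0 ≤ b) (_hC3 : 0 ≤ C3)
    (_hn1 : 0 ≤ n1) (_hn2 : 0 ≤ n2) (_hn3 : 0 ≤ n3)
    (h1 : |d1| ≤ 2 * δ * (b * n1)) (h2 : |d2| ≤ 2 * δ * (b * n2))
    (h3 : |d3| ≤ 2 * δ * (b * n3))
    (h21 : |d21| ≤ 2 * δ * (C3 * (n1 * n2)))
    (h32 : |d32| ≤ 2 * δ * (C3 * (n2 * n3)))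
    (h31 : |d31| ≤ 2 * δ * (C3 * (n1 * n3)))
    (hg : |g| ≤ C3 * (n1 * n2 * n3)) (hf : |f| ≤ C3 * (n1 * n2 * n3)) :
    |g + P * (f - g) - Q * (d3 * d21 + d32 * d1 + d2 * d31) + R * (d3 * d2 * d1)|
      ≤ (C3 * (1 + 3 * b * δ ^ 2) + 2 * b ^ 3 * δ ^ 3) * (n1 * n2 * n3) := by
  have e0 := abs_le.1 (conv_abs hP0 hP1 hg hf)
  have hq := q_abs hP0 hP1 hQ
  have hr := r_abs hP0 hP1 hQ hR
  have e1 := abs_le.1 (abs_mul3 hq h3 h21)
  have e2 := abs_le.1 (abs_mul3 hq h32 h1)
  have e3 := abs_le.1 (abs_mul3 hq h2 h31)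
  have e4 := abs_le.1 (abs_mul4 hr h3 h2 h1)
  rw [abs_le]
  constructor
  · linarith [e0.1, e0.2, e1.1, e1.2, e2.1, e2.2, e3.1, e3.2, e4.1, e4.2]
  · linarith [e0.1, e0.2, e1.1, e1.2, e2.1, e2.2, e3.1, e3.2, e4.1, e4.2]

/-- fourth order estimate -/
theorem r4 {P Q R δ b C3 C4 n1 n2 n3 n4 f g d1 d2 d3 d4 d21 d32 d31 d41 d42 d43
      d321 d421 d431 d432 : ℝ}
    (hP0 : 0 ≤ P) (hP1 : P ≤ 1) (hQ : Q = P * (1 - P)) (hR : R = Q * (1 - 2 * P))
    (hδ0 : 0 ≤ δ) (hδ1 : δ ≤ 1) (_hb : 0 ≤ b) (hC3 : 0 ≤ C3) (_hC4 : 0 ≤ C4)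
    (hn1 : 0 ≤ n1) (hn2 : 0 ≤ n2) (hn3 : 0 ≤ n3) (hn4 : 0 ≤ n4)
    (h1 : |d1| ≤ 2 * δ * (b * n1)) (h2 : |d2| ≤ 2 * δ * (b * n2))
    (h3 : |d3| ≤ 2 * δ * (b * n3)) (h4 : |d4| ≤ 2 * δ * (b * n4))
    (h21 : |d21| ≤ 2 * δ * (C3 * (n1 * n2)))
    (h31 : |d31| ≤ 2 * δ * (C3 * (n1 * n3)))
    (h32 : |d32| ≤ 2 * δ * (C3 * (n2 * n3)))
    (h41 : |d41| ≤ 2 * δ * (C3 * (n1 * n4)))
    (h42 : |d42| ≤ 2 * δ * (C3 * (n2 * n4)))
    (h43 : |d43| ≤ 2 * δ * (C3 * (n3 * n4)))
    (h321 : |d321| ≤ 2 * δ * (C4 * (n1 * n2 * n3)))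
    (h421 : |d421| ≤ 2 * δ * (C4 * (n1 * n2 * n4)))
    (h431 : |d431| ≤ 2 * δ * (C4 * (n1 * n3 * n4)))
    (h432 : |d432| ≤ 2 * δ * (C4 * (n2 * n3 * n4)))
    (hg : |g| ≤ C4 * (n1 * n2 * n3 * n4)) (hf : |f| ≤ C4 * (n1 * n2 * n3 * n4)) :
    |g + P * (f - g) - Q * (d4 * d321 + d3 * d421 + d1 * d432 + d2 * d431)
        - Q * (d43 * d21 + d32 * d41 + d42 * d31)
        + R * (d4 * d3 * d21 + d4 * d32 * d1 + d4 * d2 * d31 + d43 * d2 * d1
          + d3 * d42 * d1 + d3 * d2 * d41)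
        + Q * (6 * Q - 1) * (d4 * d3 * d2 * d1)|
      ≤ (C4 * (1 + 4 * b * δ ^ 2) + δ ^ 2 * (3 * C3 ^ 2 + 12 * C3 * b ^ 2 + 4 * b ^ 4))
        * (n1 * n2 * n3 * n4) := by
  have e0 := abs_le.1 (conv_abs hP0 hP1 hg hf)
  have hq := q_abs hP0 hP1 hQ
  have hr := r_abs hP0 hP1 hQ hR
  have hs := s_abs hP0 hP1 hQ
  have a1 := abs_le.1 (abs_mul3 hq h4 h321)
  have a2 := abs_le.1 (abs_mul3 hq h3 h421)
  have a3 := abs_le.1 (abs_mul3 hq h1 h432)
  have a4 := abs_le.1 (abs_mul3 hq h2 h431)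
  have b1 := abs_le.1 (abs_mul3 hq h43 h21)
  have b2 := abs_le.1 (abs_mul3 hq h32 h41)
  have b3 := abs_le.1 (abs_mul3 hq h42 h31)
  have c1 := abs_le.1 (abs_mul4 hr h4 h3 h21)
  have c2 := abs_le.1 (abs_mul4 hr h4 h32 h1)
  have c3 := abs_le.1 (abs_mul4 hr h4 h2 h31)
  have c4 := abs_le.1 (abs_mul4 hr h43 h2 h1)
  have c5 := abs_le.1 (abs_mul4 hr h3 h42 h1)
  have c6 := abs_le.1 (abs_mul4 hr h3 h2 h41)
  have s1 := abs_le.1 (abs_mul2 hs (abs_mul4 h4 h3 h2 h1))
  have hN : 0 ≤ n1 * n2 * n3 * n4 := by positivity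
  have hδ3 : δ ^ 3 ≤ δ ^ 2 := pow_le_pow_of_le_one hδ0 hδ1 (by norm_num)
  have hδ4 : δ ^ 4 ≤ δ ^ 2 := pow_le_pow_of_le_one hδ0 hδ1 (by norm_num)
  have k1 : δ ^ 3 * (C3 * b ^ 2 * (n1 * n2 * n3 * n4))
      ≤ δ ^ 2 * (C3 * b ^ 2 * (n1 * n2 * n3 * n4)) :=
    mul_le_mul_of_nonneg_right hδ3 (by positivity)
  have k2 : δ ^ 4 * (b ^ 4 * (n1 * n2 * n3 * n4)) ≤ δ ^ 2 * (b ^ 4 * (n1 * n2 * n3 * n4)) :=
    mul_le_mul_of_nonneg_right hδ4 (by positivity)
  rw [abs_le]
  constructor
  · linarith [e0.1, a1.2, a2.2, a3.2, a4.2, b1.2, b2.2, b3.2, c1.1, c2.1, c3.1, c4.1, c5.1,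
      c6.1, s1.1, k1, k2]
  · linarith [e0.2, a1.1, a2.1, a3.1, a4.1, b1.1, b2.1, b3.1, c1.2, c2.2, c3.2, c4.2, c5.2,
      c6.2, s1.2, k1, k2]

end Vale.Agent.P227.M.SC
end

section

/-!
P254, almost unconditional bodies: parallel supporting hyperplanes at the longest chord.
-/

open MeasureTheory Set

namespace Vale.Agent.P254.AU

variable {n : ℕ}

/-- If all chords of `K` in the direction `j` have length at most `w`, there is a linear function
with `j`-th coefficient `1` and oscillation at most `w` on `K`. -/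
theorem exists_sep {K : Set (Fin n → ℝ)} (hK : IsConvexBody K) (j : Fin n) {w : ℝ}
    (hw : ∀ x u l, Function.update x j u ∈ K → Function.update x j l ∈ K → u - l ≤ w) :
    ∃ f : Fin n → ℝ, f j = 1 ∧ ∀ a ∈ K, ∀ b ∈ K, ∑ i, f i * a i ≤ ∑ i, f i * b i + w := by
  obtain ⟨hc, hcp, hint⟩ := hK
  have hw0 : 0 ≤ w := by
    obtain ⟨z, hz⟩ := hint
    have hz' := interior_subset hz
    have := hw z (z j) (z j) (by simpa using hz') (by simpa using hz')
    linarith
  set e : Fin n → ℝ := Pi.single j 1 with he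
  have hdisj : Disjoint (interior K) ((fun b => b + w • e) '' K) := by
    rw [Set.disjoint_left]
    rintro z hz ⟨b, hb, rfl⟩
    obtain ⟨r, hr, hball⟩ := Metric.isOpen_iff.1 isOpen_interior _ hz
    have h1 : b + w • e + (r / 2) • e ∈ K := by
      refine interior_subset (hball ?_)
      rw [Metric.mem_ball, dist_eq_norm, add_sub_cancel_left, norm_smul, he,
        Pi.norm_single, norm_one, mul_one, Real.norm_eq_abs, abs_of_pos (by positivity)]
      linarith
    have h2 : Function.update b j (b j + w + r / 2) = b + w • e + (r / 2) • e := by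
      funext i
      by_cases h : i = j
      · subst h; simp [he]
      · simp [he, h]
    have := hw b (b j + w + r / 2) (b j) (by rw [h2]; exact h1) (by simpa using hb)
    linarith
  have hconv2 : Convex ℝ ((fun b => b + w • e) '' K) := by
    have := hc.translate (w • e)
    have h0 : (fun b => b + w • e) = fun b => w • e + b := by
      funext b
      exact add_comm _ _
    rw [h0]
    exact this
  obtain ⟨F, u, hF1, hF2⟩ := geometric_hahn_banach_open hc.interior isOpen_interior hconv2 hdisj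
  have hF1' : ∀ a ∈ K, F a ≤ u := by
    intro a ha
    have h1 : a ∈ closure (interior K) := by
      rw [hc.closure_interior_eq_closure_of_nonempty_interior hint]
      exact subset_closure ha
    have h2 : closure (interior K) ⊆ {x | F x ≤ u} :=
      closure_minimal (fun x hx => (hF1 x hx).le) (isClosed_le F.continuous continuous_const)
    exact h2 h1
  have hF2' : ∀ b ∈ K, u ≤ F b + w * F e := by
    intro b hb
    have := hF2 _ ⟨b, hb, rfl⟩
    simpa using this
  set c := F e with hcdef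
  have hc0 : 0 < c := by
    by_contra h
    push Not at h
    obtain ⟨z, hz⟩ := hint
    have h1 := hF1 z hz
    have h2 := hF2' z (interior_subset hz)
    have h3 : w * c ≤ 0 := mul_nonpos_of_nonneg_of_nonpos hw0 h
    linarith
  have hsum : ∀ x : Fin n → ℝ, F x = ∑ i, F (Pi.single i 1) * x i := by
    intro x
    have h1 := LinearMap.pi_apply_eq_sum_univ (F : (Fin n → ℝ) →ₗ[ℝ] ℝ) x
    have h2 : F x = ∑ i, x i • F (fun k => if i = k then (1 : ℝ) else 0) := h1
    rw [h2]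
    refine Finset.sum_congr rfl fun i _ => ?_
    have : (fun k => if i = k then (1 : ℝ) else 0) = (Pi.single i 1 : Fin n → ℝ) := by
      funext k
      by_cases h : k = i
      · subst h; simp
      · rw [if_neg (fun h' => h h'.symm), Pi.single_eq_of_ne h]
    rw [this, smul_eq_mul, mul_comm]
  refine ⟨fun i => F (Pi.single i 1) / c, div_self hc0.ne', fun a ha b hb => ?_⟩
  have h1 : ∀ x : Fin n → ℝ, ∑ i, F (Pi.single i 1) / c * x i = F x / c := by
    intro x
    rw [hsum x, Finset.sum_div]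
    exact Finset.sum_congr rfl fun i _ => by ring
  rw [h1, h1, div_add' _ _ _ hc0.ne', div_le_div_iff_of_pos_right hc0]
  exact (hF1' a ha).trans (hF2' b hb)

end Vale.Agent.P254.AU
end
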