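import Mathlib
import Vale.Agent.P254.Unc.FinDefs

set_option linter.all false

section

/-! # P227/M/SC: the pure real inequality behind the two-point step (self-concordance of marginals). -/

namespace Vale.Agent.P227.M.SC

open Real

/-- tangent line of `x ^ (3/2)` -/
theorem g_tangent {x y : ℝ} (hx : 0 ≤ x) (hy : 0 ≤ y) :
    y * √y + 3 / 2 * √y * (x - y) ≤ x * √x := by
  obtain ⟨u, hu, rfl⟩ : ∃ u : ℝ, 0 ≤ u ∧ x = u ^ 2 := ⟨√x, sqrt_nonneg x, (sq_sqrt hx).symm⟩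
  obtain ⟨w, hw, rfl⟩ : ∃ w : ℝ, 0 ≤ w ∧ y = w ^ 2 := ⟨√y, sqrt_nonneg y, (sq_sqrt hy).symm⟩
  rw [sqrt_sq hu, sqrt_sq hw]
  have h : 0 ≤ (u - w) ^ 2 * (u + w / 2) := by positivity
  nlinarith [h]

/-- second order upper bound of `x ^ (3/2)` -/
theorem g_upper2 {x y a0 : ℝ} (ha : 0 < a0) (hx : 0 ≤ x) (hy : a0 ≤ y) :
    x * √x ≤ y * √y + 3 / 2 * √y * (x - y) + (x - y) ^ 2 / √a0 := by
  obtain ⟨u, hu, rfl⟩ : ∃ u : ℝ, 0 ≤ u ∧ x = u ^ 2 := ⟨√x, sqrt_nonneg x, (sq_sqrt hx).symm⟩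
  obtain ⟨w, hw, rfl⟩ : ∃ w : ℝ, 0 ≤ w ∧ y = w ^ 2 :=
    ⟨√y, sqrt_nonneg y, (sq_sqrt (ha.le.trans hy)).symm⟩
  rw [sqrt_sq hu, sqrt_sq hw]
  have hr : 0 < √a0 := sqrt_pos.2 ha
  have hwr : √a0 ≤ w := by
    have := sqrt_le_sqrt hy
    rwa [sqrt_sq hw] at this
  have h1 : (u + w / 2) ≤ (u + w) ^ 2 / √a0 := by
    rw [le_div_iff₀ hr]
    nlinarith [mul_nonneg hu hw, mul_nonneg hu hr.le, mul_nonneg hw hr.le, mul_self_nonneg u]
  have h2 : (u - w) ^ 2 * (u + w / 2) ≤ (u - w) ^ 2 * ((u + w) ^ 2 / √a0) :=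
    mul_le_mul_of_nonneg_left h1 (sq_nonneg _)
  have h3 : (u ^ 2 - w ^ 2) ^ 2 / √a0 = (u - w) ^ 2 * ((u + w) ^ 2 / √a0) := by ring
  rw [h3]
  nlinarith [h2]

/-- third order upper bound of `x ^ (3/2)` -/
theorem g_upper3 {x y a0 : ℝ} (ha : 0 < a0) (hx : a0 ≤ x) (hy : a0 ≤ y) :
    x * √x ≤ y * √y + 3 / 2 * √y * (x - y) + 3 / 8 * ((x - y) ^ 2 / √y)
      + |x - y| ^ 3 / (16 * (a0 * √a0)) := by
  obtain ⟨u, hu, rfl⟩ : ∃ u : ℝ, 0 ≤ u ∧ x = u ^ 2 :=
    ⟨√x, sqrt_nonneg x, (sq_sqrt (ha.le.trans hx)).symm⟩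
  obtain ⟨w, hw, rfl⟩ : ∃ w : ℝ, 0 ≤ w ∧ y = w ^ 2 :=
    ⟨√y, sqrt_nonneg y, (sq_sqrt (ha.le.trans hy)).symm⟩
  obtain ⟨r, hr, rfl⟩ : ∃ r : ℝ, 0 ≤ r ∧ a0 = r ^ 2 := ⟨√a0, sqrt_nonneg a0, (sq_sqrt ha.le).symm⟩
  rw [sqrt_sq hu, sqrt_sq hw, sqrt_sq hr]
  have hr0 : 0 < r := by
    rcases hr.lt_or_eq with h | h
    · exact h
    · rw [← h] at ha; simp at ha
  have hwr : r ≤ w := by nlinarith [hr0, hw]
  have hur : r ≤ u := by nlinarith [hr0, hu]
  have hw0 : 0 < w := lt_of_lt_of_le hr0 hwr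
  have e1 : (u ^ 2 - w ^ 2) ^ 2 / w = (u - w) ^ 2 * (4 * w + 4 * (u - w) + (u - w) ^ 2 / w) := by
    field_simp; ring
  have e2 : |u ^ 2 - w ^ 2| ^ 3 / (16 * (r ^ 2 * r)) = |u - w| ^ 3 * ((u + w) ^ 3 / (16 * (r ^ 2 * r))) := by
    have : |u ^ 2 - w ^ 2| = |u - w| * (u + w) := by
      rw [show u ^ 2 - w ^ 2 = (u - w) * (u + w) by ring, abs_mul, abs_of_nonneg (add_nonneg hu hw)]
    rw [this]; ring
  have e3 : (1 : ℝ) / 2 ≤ (u + w) ^ 3 / (16 * (r ^ 2 * r)) := by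
    rw [le_div_iff₀ (by positivity)]
    have h2 : 2 * r ≤ u + w := by linarith
    have : (2 * r) ^ 3 ≤ (u + w) ^ 3 := pow_le_pow_left₀ (by positivity) h2 3
    nlinarith [this]
  have e4 : |u - w| ^ 3 * (1 / 2) ≤ |u - w| ^ 3 * ((u + w) ^ 3 / (16 * (r ^ 2 * r))) :=
    mul_le_mul_of_nonneg_left e3 (by positivity)
  have e5 : -(|u - w| ^ 3) ≤ (u - w) ^ 3 := by
    have := neg_abs_le ((u - w) ^ 3)
    rwa [abs_pow] at this
  have e6 : 0 ≤ (u - w) ^ 2 * ((u - w) ^ 2 / w) := by positivity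
  rw [e1, e2]
  nlinarith [e4, e5, e6]

/-- `|√x - √y| ≤ |x - y| / √a0` -/
theorem sqrt_sub_le {x y a0 : ℝ} (ha : 0 < a0) (hx : 0 ≤ x) (hy : a0 ≤ y) :
    |√x - √y| ≤ |x - y| / √a0 := by
  have hr : 0 < √a0 := sqrt_pos.2 ha
  rw [le_div_iff₀ hr]
  have h1 : |x - y| = |√x - √y| * (√x + √y) := by
    have : x - y = (√x - √y) * (√x + √y) := by
      nlinarith [sq_sqrt hx, sq_sqrt (ha.le.trans hy)]
    rw [this, abs_mul, abs_of_nonneg (add_nonneg (sqrt_nonneg x) (sqrt_nonneg y))]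
  rw [h1]
  apply mul_le_mul_of_nonneg_left _ (abs_nonneg _)
  have := sqrt_le_sqrt hy
  linarith [sqrt_nonneg x]


theorem d_pows {d : ℝ} (hd0 : 0 < d) (hd1 : d ≤ 1) :
    d ^ 2 ≤ 1 ∧ d ^ 3 ≤ d ^ 2 ∧ d ^ 4 ≤ d ^ 3 ∧ d ^ 6 ≤ d ^ 3 ∧ d ^ 4 ≤ d ^ 2 ∧ d ^ 6 ≤ d ^ 2 := by
  have h0 : 0 ≤ d := hd0.le
  refine ⟨pow_le_one₀ h0 hd1, ?_, ?_, ?_, ?_, ?_⟩ <;>
    exact pow_le_pow_of_le_one h0 hd1 (by norm_num)

/-- the size of the perturbation of the second derivative -/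
theorem xi_bound {b R d η m1 c1 : ℝ} (hb : 0 < b) (hR : 0 ≤ R) (hd0 : 0 < d) (hd1 : d ≤ 1)
    (hm1 : |m1| ≤ b) (hc1 : |c1| ≤ b) (hη : |η| ≤ R * d ^ 2) :
    |2 * η * m1 + η ^ 2 * c1| ≤ (2 * R + R ^ 2) * b * d ^ 2 := by
  obtain ⟨hd2, hd3, hd4, hd6, hd4', hd6'⟩ := d_pows hd0 hd1
  have hηa : 0 ≤ |η| := abs_nonneg _
  have hη2 : η ^ 2 ≤ R ^ 2 * d ^ 4 := by
    have := pow_le_pow_left₀ hηa hη 2
    rw [sq_abs] at this
    calc η ^ 2 ≤ (R * d ^ 2) ^ 2 := this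
      _ = _ := by ring
  have h0 : |2 * η * m1 + η ^ 2 * c1| ≤ 2 * (|η| * |m1|) + η ^ 2 * |c1| := by
    refine (abs_add_le _ _).trans ?_
    rw [abs_mul, abs_mul, abs_mul, abs_of_nonneg (sq_nonneg η), abs_two, mul_assoc]
  have t1 : |η| * |m1| ≤ R * d ^ 2 * b := mul_le_mul hη hm1 (abs_nonneg _) (by positivity)
  have t2 : η ^ 2 * |c1| ≤ R ^ 2 * d ^ 4 * b := mul_le_mul hη2 hc1 (abs_nonneg _) (by positivity)
  have t3 : R ^ 2 * d ^ 4 * b ≤ R ^ 2 * d ^ 2 * b :=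
    mul_le_mul_of_nonneg_right (mul_le_mul_of_nonneg_left hd4' (by positivity)) hb.le
  calc |2 * η * m1 + η ^ 2 * c1| ≤ 2 * (R * d ^ 2 * b) + R ^ 2 * d ^ 2 * b := by linarith
    _ = _ := by ring

/-- `√a₁ m₁` versus `√a m` -/
theorem sm_bound {a0 b C3 d a a1 m m1 : ℝ} (ha0 : 0 < a0) (hC3 : 0 ≤ C3) (hd0 : 0 < d)
    (ha1 : a0 ≤ a1) (haa : a0 ≤ a) (hab' : a ≤ b) (h1 : |a1 - a| ≤ C3 * d) (h2 : |m1 - m| ≤ C3 * d)
    (hm1 : |m1| ≤ b) : |√a1 * m1 - √a * m| ≤ (C3 * b / √a0 + √b * C3) * d := by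
  have hr0 : 0 < √a0 := sqrt_pos.2 ha0
  have hsq : |√a1 - √a| ≤ C3 * d / √a0 := by
    refine (sqrt_sub_le ha0 (ha0.le.trans ha1) haa).trans ?_
    exact div_le_div_of_nonneg_right h1 hr0.le
  have e : √a1 * m1 - √a * m = (√a1 - √a) * m1 + √a * (m1 - m) := by ring
  rw [e]
  refine (abs_add_le _ _).trans ?_
  rw [abs_mul, abs_mul, abs_of_nonneg (sqrt_nonneg a)]
  have t1 : |√a1 - √a| * |m1| ≤ C3 * d / √a0 * b := mul_le_mul hsq hm1 (abs_nonneg _) (by positivity)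
  have t2 : √a * |m1 - m| ≤ √b * (C3 * d) := mul_le_mul (sqrt_le_sqrt hab') h2 (abs_nonneg _) (sqrt_nonneg b)
  have e2 : (C3 * b / √a0 + √b * C3) * d = C3 * d / √a0 * b + √b * (C3 * d) := by ring
  rw [e2]; linarith

/-- the first order term in `η` -/
theorem term_bound {a0 b C3 R d a a1 m m1 c1 η : ℝ} (ha0 : 0 < a0) (hb : 0 < b) (hC3 : 0 ≤ C3) (hR : 0 ≤ R)
    (hd0 : 0 < d) (hd1 : d ≤ 1)
    (ha1 : a0 ≤ a1) (ha1b : a1 ≤ b) (haa : a0 ≤ a) (hab' : a ≤ b) (h1 : |a1 - a| ≤ C3 * d)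
    (h2 : |m1 - m| ≤ C3 * d) (hm1 : |m1| ≤ b) (hc1 : |c1| ≤ b) (hη : |η| ≤ R * d ^ 2) :
    3 / 2 * √a1 * (2 * η * m1 + η ^ 2 * c1) ≤ 3 * √a * m * η
      + (3 * (R * (C3 * b / √a0 + √b * C3)) + 3 / 2 * √b * R ^ 2 * b) * d ^ 3 := by
  obtain ⟨hd2, hd3, hd4, hd6, hd4', hd6'⟩ := d_pows hd0 hd1
  have hsm := sm_bound ha0 hC3 hd0 ha1 haa hab' h1 h2 hm1
  have hη2 : η ^ 2 ≤ R ^ 2 * d ^ 4 := by
    have := pow_le_pow_left₀ (abs_nonneg η) hη 2
    rw [sq_abs] at this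
    calc η ^ 2 ≤ (R * d ^ 2) ^ 2 := this
      _ = _ := by ring
  have e : 3 / 2 * √a1 * (2 * η * m1 + η ^ 2 * c1)
      = 3 * √a * m * η + 3 * (η * (√a1 * m1 - √a * m)) + 3 / 2 * (√a1 * (η ^ 2 * c1)) := by ring
  rw [e]
  have t1 : η * (√a1 * m1 - √a * m) ≤ R * d ^ 2 * ((C3 * b / √a0 + √b * C3) * d) := by
    refine (le_abs_self _).trans ?_
    rw [abs_mul]
    exact mul_le_mul hη hsm (abs_nonneg _) (by positivity)
  have u1 : η ^ 2 * c1 ≤ R ^ 2 * d ^ 3 * b := by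
    have v1 : η ^ 2 * c1 ≤ η ^ 2 * b := mul_le_mul_of_nonneg_left ((le_abs_self _).trans hc1) (sq_nonneg _)
    have v2 : η ^ 2 * b ≤ R ^ 2 * d ^ 4 * b := mul_le_mul_of_nonneg_right hη2 hb.le
    have v3 : R ^ 2 * d ^ 4 * b ≤ R ^ 2 * d ^ 3 * b :=
      mul_le_mul_of_nonneg_right (mul_le_mul_of_nonneg_left hd4 (by positivity)) hb.le
    linarith
  have u4 : 0 ≤ R ^ 2 * d ^ 3 * b := by positivity
  have t2 : √a1 * (η ^ 2 * c1) ≤ √b * (R ^ 2 * d ^ 3 * b) :=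
    (mul_le_mul_of_nonneg_left u1 (sqrt_nonneg _)).trans
      (mul_le_mul_of_nonneg_right (sqrt_le_sqrt ha1b) u4)
  have e3 : (3 * (R * (C3 * b / √a0 + √b * C3)) + 3 / 2 * √b * R ^ 2 * b) * d ^ 3
      = 3 * (R * d ^ 2 * ((C3 * b / √a0 + √b * C3) * d)) + 3 / 2 * (√b * (R ^ 2 * d ^ 3 * b)) := by ring
  rw [e3]
  linarith

/-- the terms `-3ηq₁ - 3η²s₁ - η³t₁ + e(1+|η|)³` -/
theorem rest_bound {C3 C4 R e d q q1 s1 t1 η : ℝ} (hC3 : 0 ≤ C3) (hC4 : 0 ≤ C4) (hR : 0 ≤ R)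
    (he0 : 0 ≤ e) (hd0 : 0 < d) (hd1 : d ≤ 1) (h3 : |q1 - q| ≤ C4 * d) (hs1 : |s1| ≤ C3)
    (ht1 : |t1| ≤ C3) (hη : |η| ≤ R * d ^ 2) :
    -(3 * η * q1) - 3 * η ^ 2 * s1 - η ^ 3 * t1 + e * (1 + |η|) ^ 3 ≤
      -(3 * η * q) + e * (1 + (3 * R + 3 * R ^ 2 + R ^ 3) * d ^ 2)
        + (3 * R * C4 + (3 * R ^ 2 + R ^ 3) * C3) * d ^ 3 := by
  obtain ⟨hd2, hd3, hd4, hd6, hd4', hd6'⟩ := d_pows hd0 hd1
  have hηa : 0 ≤ |η| := abs_nonneg _
  have hη2 : η ^ 2 ≤ R ^ 2 * d ^ 4 := by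
    have := pow_le_pow_left₀ hηa hη 2
    rw [sq_abs] at this
    calc η ^ 2 ≤ (R * d ^ 2) ^ 2 := this
      _ = _ := by ring
  have hη3 : |η| ^ 3 ≤ R ^ 3 * d ^ 6 := by
    have := pow_le_pow_left₀ hηa hη 3
    calc |η| ^ 3 ≤ (R * d ^ 2) ^ 3 := this
      _ = _ := by ring
  have hqt : -(η * (q1 - q)) ≤ R * C4 * d ^ 3 := by
    have : -(η * (q1 - q)) ≤ R * d ^ 2 * (C4 * d) := by
      refine (neg_le_abs _).trans ?_
      rw [abs_mul]
      exact mul_le_mul hη h3 (abs_nonneg _) (by positivity)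
    calc -(η * (q1 - q)) ≤ R * d ^ 2 * (C4 * d) := this
      _ = _ := by ring
  have hst : -(η ^ 2 * s1) ≤ R ^ 2 * C3 * d ^ 3 := by
    have u1 : -(η ^ 2 * s1) ≤ R ^ 2 * d ^ 4 * C3 := by
      refine (neg_le_abs _).trans ?_
      rw [abs_mul, abs_of_nonneg (sq_nonneg η)]
      exact mul_le_mul hη2 hs1 (abs_nonneg _) (by positivity)
    calc -(η ^ 2 * s1) ≤ R ^ 2 * d ^ 4 * C3 := u1
      _ = R ^ 2 * C3 * d ^ 4 := by ring
      _ ≤ _ := mul_le_mul_of_nonneg_left hd4 (by positivity)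
  have htt : -(η ^ 3 * t1) ≤ R ^ 3 * C3 * d ^ 3 := by
    have u1 : -(η ^ 3 * t1) ≤ R ^ 3 * d ^ 6 * C3 := by
      refine (neg_le_abs _).trans ?_
      rw [abs_mul, abs_pow]
      exact mul_le_mul hη3 ht1 (abs_nonneg _) (by positivity)
    calc -(η ^ 3 * t1) ≤ R ^ 3 * d ^ 6 * C3 := u1
      _ = R ^ 3 * C3 * d ^ 6 := by ring
      _ ≤ _ := mul_le_mul_of_nonneg_left hd6 (by positivity)
  have het : e * (1 + |η|) ^ 3 ≤ e * (1 + (3 * R + 3 * R ^ 2 + R ^ 3) * d ^ 2) := by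
    apply mul_le_mul_of_nonneg_left _ he0
    have e1 : (1 + |η|) ^ 3 = 1 + 3 * |η| + 3 * η ^ 2 + |η| ^ 3 := by
      rw [← sq_abs η]; ring
    rw [e1]
    have u1 : R ^ 2 * d ^ 4 ≤ R ^ 2 * d ^ 2 := mul_le_mul_of_nonneg_left hd4' (by positivity)
    have u2 : R ^ 3 * d ^ 6 ≤ R ^ 3 * d ^ 2 := mul_le_mul_of_nonneg_left hd6' (by positivity)
    calc 1 + 3 * |η| + 3 * η ^ 2 + |η| ^ 3 ≤ 1 + 3 * (R * d ^ 2) + 3 * (R ^ 2 * d ^ 2) + R ^ 3 * d ^ 2 := by
          linarith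
      _ = _ := by ring
  have efin : (3 * R * C4 + (3 * R ^ 2 + R ^ 3) * C3) * d ^ 3
      = 3 * (R * C4 * d ^ 3) + 3 * (R ^ 2 * C3 * d ^ 3) + R ^ 3 * C3 * d ^ 3 := by ring
  have eq1 : -(3 * η * q1) = -(3 * η * q) + 3 * (-(η * (q1 - q))) := by ring
  rw [efin, eq1]
  linarith

/-- one of the two points: the self-concordance inequality in the direction `v + η e` -/
theorem one_point {a0 b C3 C4 R : ℝ} (ha0 : 0 < a0) (hab : a0 ≤ b) (hC3 : 0 ≤ C3) (hC4 : 0 ≤ C4) (hR : 0 ≤ R)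
    {k e d a m q a1 b1 m1 q1 c1 s1 t1 η : ℝ} (hk0 : 0 ≤ k) (hk1 : k ≤ 1) (he0 : 0 ≤ e)
    (hd0 : 0 < d) (hd1 : d ≤ 1) (ha1 : a0 ≤ a1) (ha1b : a1 ≤ b) (haa : a0 ≤ a) (hab' : a ≤ b)
    (h1 : |a1 - a| ≤ C3 * d) (h2 : |m1 - m| ≤ C3 * d) (h3 : |q1 - q| ≤ C4 * d)
    (hm1 : |m1| ≤ b) (hc1 : |c1| ≤ b) (hs1 : |s1| ≤ C3) (ht1 : |t1| ≤ C3)
    (hη : |η| ≤ R * d ^ 2) (hpos : 0 ≤ a1 + 2 * η * m1 + η ^ 2 * c1)
    (hsc : b1 + 3 * η * q1 + 3 * η ^ 2 * s1 + η ^ 3 * t1 ≤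
      2 * k * ((a1 + 2 * η * m1 + η ^ 2 * c1) * √(a1 + 2 * η * m1 + η ^ 2 * c1)) + e * (1 + |η|) ^ 3) :
    b1 ≤ 2 * k * (a1 * √a1) + 6 * k * √a * m * η - 3 * η * q + e * (1 + (3 * R + 3 * R ^ 2 + R ^ 3) * d ^ 2)
      + (2 * (3 * (R * (C3 * b / √a0 + √b * C3)) + 3 / 2 * √b * R ^ 2 * b
          + ((2 * R + R ^ 2) * b) ^ 2 / √a0) + (3 * R * C4 + (3 * R ^ 2 + R ^ 3) * C3)) * d ^ 3 := by
  have hr0 : 0 < √a0 := sqrt_pos.2 ha0
  have hb0 : 0 < b := lt_of_lt_of_le ha0 hab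
  obtain ⟨hd2, hd3, hd4, hd6, hd4', hd6'⟩ := d_pows hd0 hd1
  have hξb := xi_bound hb0 hR hd0 hd1 hm1 hc1 hη
  have hterm := term_bound ha0 hb0 hC3 hR hd0 hd1 ha1 ha1b haa hab' h1 h2 hm1 hc1 hη
  have hrest := rest_bound hC3 hC4 hR he0 hd0 hd1 h3 hs1 ht1 hη
  have earg : a1 + 2 * η * m1 + η ^ 2 * c1 = a1 + (2 * η * m1 + η ^ 2 * c1) := by ring
  rw [earg] at hsc hpos
  generalize 2 * η * m1 + η ^ 2 * c1 = ξ at hξb hterm hsc hpos
  have hG := g_upper2 ha0 (x := a1 + ξ) (y := a1) hpos ha1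
  rw [add_sub_cancel_left] at hG
  have hξ2 : ξ ^ 2 / √a0 ≤ ((2 * R + R ^ 2) * b) ^ 2 / √a0 * d ^ 3 := by
    have h4 : ξ ^ 2 ≤ ((2 * R + R ^ 2) * b) ^ 2 * d ^ 3 := by
      have := pow_le_pow_left₀ (abs_nonneg ξ) hξb 2
      rw [sq_abs] at this
      calc ξ ^ 2 ≤ ((2 * R + R ^ 2) * b * d ^ 2) ^ 2 := this
        _ = ((2 * R + R ^ 2) * b) ^ 2 * d ^ 4 := by ring
        _ ≤ _ := mul_le_mul_of_nonneg_left hd4 (by positivity)
    calc ξ ^ 2 / √a0 ≤ (((2 * R + R ^ 2) * b) ^ 2 * d ^ 3) / √a0 :=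
          div_le_div_of_nonneg_right h4 hr0.le
      _ = _ := by ring
  set A := 3 * (R * (C3 * b / √a0 + √b * C3)) + 3 / 2 * √b * R ^ 2 * b with hA
  set B := ((2 * R + R ^ 2) * b) ^ 2 / √a0 with hB
  have hA0 : 0 ≤ A := by positivity
  have hB0 : 0 ≤ B := by positivity
  have hd30 : 0 ≤ d ^ 3 := by positivity
  have u1 : (a1 + ξ) * √(a1 + ξ) ≤ a1 * √a1 + 3 * √a * m * η + (A + B) * d ^ 3 := by
    have : (A + B) * d ^ 3 = A * d ^ 3 + B * d ^ 3 := by ring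
    rw [this]; linarith
  have u3 := mul_le_mul_of_nonneg_left u1 (show (0 : ℝ) ≤ 2 * k by positivity)
  have u4 : 2 * k * ((A + B) * d ^ 3) ≤ 2 * ((A + B) * d ^ 3) := by
    have : 0 ≤ (A + B) * d ^ 3 := by positivity
    exact mul_le_mul_of_nonneg_right (by linarith) this
  have e5 : 2 * k * (a1 * √a1 + 3 * √a * m * η + (A + B) * d ^ 3)
      = 2 * k * (a1 * √a1) + 6 * k * √a * m * η + 2 * k * ((A + B) * d ^ 3) := by ring
  rw [e5] at u3
  have efin : (2 * (A + B) + (3 * R * C4 + (3 * R ^ 2 + R ^ 3) * C3)) * d ^ 3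
      = 2 * ((A + B) * d ^ 3) + (3 * R * C4 + (3 * R ^ 2 + R ^ 3) * C3) * d ^ 3 := by ring
  rw [efin]
  linarith

/-- the average of `g(a_i)` versus `g` of the average -/
theorem two_point_g {a0 C3 C4 : ℝ} (ha0 : 0 < a0) (hC3 : 0 ≤ C3) (hC4 : 0 ≤ C4)
    {d a q a1 a2 P Q : ℝ} (hd0 : 0 < d) (hd1 : d ≤ 1) (hP : 0 ≤ P) (hQ : 0 ≤ Q) (hPQ : P + Q = 1)
    (ha1 : a0 ≤ a1) (ha2 : a0 ≤ a2) (haa : a0 ≤ a)
    (h1 : |a1 - a| ≤ C3 * d) (h2 : |a2 - a| ≤ C3 * d) (h12 : |a1 - a2 - 2 * d * q| ≤ C4 * d ^ 2)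
    (hq : |q| ≤ C3) :
    P * (a1 * √a1) + Q * (a2 * √a2) ≤ (P * a1 + Q * a2) * √(P * a1 + Q * a2)
      + 3 / 8 * (4 * (P * Q) * d ^ 2) * (q ^ 2 / √a)
      + (C3 ^ 3 / (a0 * √a0) + C3 * C4 / √a0 + C3 ^ 2 * C3 / (a0 * √a0)) * d ^ 3 := by
  obtain ⟨hd2, hd3, hd4, hd6, hd4', hd6'⟩ := d_pows hd0 hd1
  have hr0 : 0 < √a0 := sqrt_pos.2 ha0
  have hPQ4 : P * Q ≤ 1 / 4 := by nlinarith [sq_nonneg (P - Q)]
  have hPQ0 : 0 ≤ P * Q := mul_nonneg hP hQ
  have hP1 : P ≤ 1 := by linarith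
  have hQ1 : Q ≤ 1 := by linarith
  set A := P * a1 + Q * a2 with hA
  have hA0 : a0 ≤ A := by
    have : P * a0 + Q * a0 = a0 := by rw [← add_mul, hPQ, one_mul]
    rw [← this, hA]
    exact add_le_add (mul_le_mul_of_nonneg_left ha1 hP) (mul_le_mul_of_nonneg_left ha2 hQ)
  have hAp : 0 < A := lt_of_lt_of_le ha0 hA0
  have hg1 := g_upper3 ha0 ha1 hA0
  have hg2 := g_upper3 ha0 ha2 hA0
  have hdiff : |a1 - a2| ≤ 2 * C3 * d := by
    have : a1 - a2 = (a1 - a) - (a2 - a) := by ring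
    rw [this]
    exact (abs_sub _ _).trans (by linarith)
  have e1 : a1 - A = Q * (a1 - a2) := by
    rw [hA]; linear_combination (-a1) * hPQ
  have e2 : a2 - A = -(P * (a1 - a2)) := by
    rw [hA]; linear_combination (-a2) * hPQ
  have c1 : |a1 - A| ^ 3 ≤ 8 * C3 ^ 3 * d ^ 3 := by
    have : |a1 - A| ≤ 2 * C3 * d := by
      rw [e1, abs_mul, abs_of_nonneg hQ]
      calc Q * |a1 - a2| ≤ 1 * |a1 - a2| := mul_le_mul_of_nonneg_right hQ1 (abs_nonneg _)
        _ ≤ _ := by linarith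
    calc |a1 - A| ^ 3 ≤ (2 * C3 * d) ^ 3 := pow_le_pow_left₀ (abs_nonneg _) this 3
      _ = _ := by ring
  have c2 : |a2 - A| ^ 3 ≤ 8 * C3 ^ 3 * d ^ 3 := by
    have : |a2 - A| ≤ 2 * C3 * d := by
      rw [e2, abs_neg, abs_mul, abs_of_nonneg hP]
      calc P * |a1 - a2| ≤ 1 * |a1 - a2| := mul_le_mul_of_nonneg_right hP1 (abs_nonneg _)
        _ ≤ _ := by linarith
    calc |a2 - A| ^ 3 ≤ (2 * C3 * d) ^ 3 := pow_le_pow_left₀ (abs_nonneg _) this 3
      _ = _ := by ring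
  have hden : 0 < 16 * (a0 * √a0) := by positivity
  have c3 : P * (|a1 - A| ^ 3 / (16 * (a0 * √a0))) + Q * (|a2 - A| ^ 3 / (16 * (a0 * √a0)))
      ≤ C3 ^ 3 / (a0 * √a0) * d ^ 3 := by
    have u1 : |a1 - A| ^ 3 / (16 * (a0 * √a0)) ≤ 8 * C3 ^ 3 * d ^ 3 / (16 * (a0 * √a0)) :=
      div_le_div_of_nonneg_right c1 hden.le
    have u2 : |a2 - A| ^ 3 / (16 * (a0 * √a0)) ≤ 8 * C3 ^ 3 * d ^ 3 / (16 * (a0 * √a0)) :=
      div_le_div_of_nonneg_right c2 hden.le
    have u3 : P * (|a1 - A| ^ 3 / (16 * (a0 * √a0))) + Q * (|a2 - A| ^ 3 / (16 * (a0 * √a0)))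
        ≤ (P + Q) * (8 * C3 ^ 3 * d ^ 3 / (16 * (a0 * √a0))) := by
      rw [add_mul]
      exact add_le_add (mul_le_mul_of_nonneg_left u1 hP) (mul_le_mul_of_nonneg_left u2 hQ)
    rw [hPQ, one_mul] at u3
    refine u3.trans ?_
    have : 8 * C3 ^ 3 * d ^ 3 / (16 * (a0 * √a0)) = 1 / 2 * (C3 ^ 3 / (a0 * √a0) * d ^ 3) := by
      field_simp; ring
    rw [this]
    have : 0 ≤ C3 ^ 3 / (a0 * √a0) * d ^ 3 := by positivity
    linarith
  -- the variance
  have hV : P * (a1 - A) ^ 2 + Q * (a2 - A) ^ 2 = P * Q * (a1 - a2) ^ 2 := by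
    rw [e1, e2]
    linear_combination (P * Q * (a1 - a2) ^ 2) * hPQ
  have hsq : (a1 - a2) ^ 2 ≤ 4 * d ^ 2 * q ^ 2 + 4 * C3 * C4 * d ^ 3 := by
    have e : (a1 - a2) ^ 2 = 4 * d ^ 2 * q ^ 2 + (a1 - a2 - 2 * d * q) * (a1 - a2 + 2 * d * q) := by ring
    rw [e]
    have u1 : |a1 - a2 + 2 * d * q| ≤ 4 * C3 * d := by
      refine (abs_add_le _ _).trans ?_
      rw [abs_mul, abs_mul, abs_two, abs_of_pos hd0]
      have : 2 * d * |q| ≤ 2 * d * C3 := mul_le_mul_of_nonneg_left hq (by positivity)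
      linarith
    have u2 : (a1 - a2 - 2 * d * q) * (a1 - a2 + 2 * d * q) ≤ C4 * d ^ 2 * (4 * C3 * d) := by
      refine (le_abs_self _).trans ?_
      rw [abs_mul]
      exact mul_le_mul h12 u1 (abs_nonneg _) (by positivity)
    calc _ ≤ 4 * d ^ 2 * q ^ 2 + C4 * d ^ 2 * (4 * C3 * d) := by linarith
      _ = _ := by ring
  have hVb : P * Q * (a1 - a2) ^ 2 ≤ 4 * (P * Q) * d ^ 2 * q ^ 2 + C3 * C4 * d ^ 3 := by
    have u1 := mul_le_mul_of_nonneg_left hsq hPQ0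
    have u2 : P * Q * (4 * C3 * C4 * d ^ 3) ≤ 1 / 4 * (4 * C3 * C4 * d ^ 3) :=
      mul_le_mul_of_nonneg_right hPQ4 (by positivity)
    calc P * Q * (a1 - a2) ^ 2 ≤ P * Q * (4 * d ^ 2 * q ^ 2 + 4 * C3 * C4 * d ^ 3) := u1
      _ = 4 * (P * Q) * d ^ 2 * q ^ 2 + P * Q * (4 * C3 * C4 * d ^ 3) := by ring
      _ ≤ _ := by linarith
  -- 1/√A versus 1/√a
  have hsA : √a0 ≤ √A := sqrt_le_sqrt hA0
  have hsa : √a0 ≤ √a := sqrt_le_sqrt haa
  have hsAp : 0 < √A := lt_of_lt_of_le hr0 hsA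
  have hsap : 0 < √a := lt_of_lt_of_le hr0 hsa
  have hAa : |A - a| ≤ C3 * d := by
    have : A - a = P * (a1 - a) + Q * (a2 - a) := by
      rw [hA]; linear_combination a * hPQ
    rw [this]
    refine (abs_add_le _ _).trans ?_
    rw [abs_mul, abs_mul, abs_of_nonneg hP, abs_of_nonneg hQ]
    calc P * |a1 - a| + Q * |a2 - a| ≤ P * (C3 * d) + Q * (C3 * d) :=
          add_le_add (mul_le_mul_of_nonneg_left h1 hP) (mul_le_mul_of_nonneg_left h2 hQ)
      _ = C3 * d := by rw [← add_mul, hPQ, one_mul]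
  have hsdiff : √a - √A ≤ C3 * d / √a0 := by
    have := sqrt_sub_le ha0 (hAp.le) haa
    have h' : |√A - √a| ≤ C3 * d / √a0 := this.trans (div_le_div_of_nonneg_right hAa hr0.le)
    have := neg_abs_le (√A - √a)
    linarith
  have hinv : 1 / √A ≤ 1 / √a + C3 * d / (a0 * √a0) := by
    have e : 1 / √A - 1 / √a = (√a - √A) / (√A * √a) := by field_simp
    have u0 : a0 ≤ √A * √a := by
      calc a0 = √a0 * √a0 := (mul_self_sqrt ha0.le).symm
        _ ≤ _ := mul_le_mul hsA hsa hr0.le hsAp.le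
    have u1 : (√a - √A) / (√A * √a) ≤ (C3 * d / √a0) / a0 := by
      have w1 : (√a - √A) / (√A * √a) ≤ (C3 * d / √a0) / (√A * √a) :=
        div_le_div_of_nonneg_right hsdiff (by positivity)
      have w2 : (C3 * d / √a0) / (√A * √a) ≤ (C3 * d / √a0) / a0 :=
        div_le_div_of_nonneg_left (by positivity) ha0 u0
      exact w1.trans w2
    have e3 : (C3 * d / √a0) / a0 = C3 * d / (a0 * √a0) := by field_simp
    rw [e3] at u1
    linarith
  have hvar : 3 / 8 * (P * Q * (a1 - a2) ^ 2 / √A) ≤ 3 / 8 * (4 * (P * Q) * d ^ 2) * (q ^ 2 / √a)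
      + (C3 * C4 / √a0 + C3 ^ 2 * C3 / (a0 * √a0)) * d ^ 3 := by
    have u1 : P * Q * (a1 - a2) ^ 2 / √A ≤ (4 * (P * Q) * d ^ 2 * q ^ 2 + C3 * C4 * d ^ 3) / √A :=
      div_le_div_of_nonneg_right hVb hsAp.le
    have u2 : (4 * (P * Q) * d ^ 2 * q ^ 2 + C3 * C4 * d ^ 3) / √A
        = 4 * (P * Q) * d ^ 2 * q ^ 2 * (1 / √A) + C3 * C4 * d ^ 3 / √A := by ring
    have u3 : 4 * (P * Q) * d ^ 2 * q ^ 2 * (1 / √A)
        ≤ 4 * (P * Q) * d ^ 2 * q ^ 2 * (1 / √a + C3 * d / (a0 * √a0)) :=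
      mul_le_mul_of_nonneg_left hinv (by positivity)
    have u4 : C3 * C4 * d ^ 3 / √A ≤ C3 * C4 * d ^ 3 / √a0 :=
      div_le_div_of_nonneg_left (by positivity) hr0 hsA
    have hq2 : q ^ 2 ≤ C3 ^ 2 := by
      have := pow_le_pow_left₀ (abs_nonneg q) hq 2
      rwa [sq_abs] at this
    have u5 : 4 * (P * Q) * d ^ 2 * q ^ 2 * (C3 * d / (a0 * √a0)) ≤ C3 ^ 2 * C3 / (a0 * √a0) * d ^ 3 := by
      have w1 : 4 * (P * Q) * (d ^ 2 * q ^ 2 * (C3 * d / (a0 * √a0)))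
          ≤ 1 * (d ^ 2 * q ^ 2 * (C3 * d / (a0 * √a0))) :=
        mul_le_mul_of_nonneg_right (by linarith) (by positivity)
      have w2 : d ^ 2 * q ^ 2 * (C3 * d / (a0 * √a0)) ≤ d ^ 2 * C3 ^ 2 * (C3 * d / (a0 * √a0)) := by
        apply mul_le_mul_of_nonneg_right _ (by positivity)
        exact mul_le_mul_of_nonneg_left hq2 (by positivity)
      calc 4 * (P * Q) * d ^ 2 * q ^ 2 * (C3 * d / (a0 * √a0))
          = 4 * (P * Q) * (d ^ 2 * q ^ 2 * (C3 * d / (a0 * √a0))) := by ring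
        _ ≤ d ^ 2 * C3 ^ 2 * (C3 * d / (a0 * √a0)) := by linarith
        _ = _ := by ring
    have e6 : 4 * (P * Q) * d ^ 2 * q ^ 2 * (1 / √a + C3 * d / (a0 * √a0))
        = 4 * (P * Q) * d ^ 2 * (q ^ 2 / √a) + 4 * (P * Q) * d ^ 2 * q ^ 2 * (C3 * d / (a0 * √a0)) := by ring
    have e7 : (C3 * C4 / √a0 + C3 ^ 2 * C3 / (a0 * √a0)) * d ^ 3
        = C3 * C4 * d ^ 3 / √a0 + C3 ^ 2 * C3 / (a0 * √a0) * d ^ 3 := by ring
    have p1 : 0 ≤ C3 * C4 * d ^ 3 / √a0 := by positivity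
    have p2 : 0 ≤ C3 ^ 2 * C3 / (a0 * √a0) * d ^ 3 := by positivity
    rw [e7]
    linarith
  -- assemble
  have hlin : P * (3 / 2 * √A * (a1 - A)) + Q * (3 / 2 * √A * (a2 - A)) = 0 := by
    rw [e1, e2]; ring
  have hAA : P * (A * √A) + Q * (A * √A) = A * √A := by rw [← add_mul, hPQ, one_mul]
  have hvv : P * (3 / 8 * ((a1 - A) ^ 2 / √A)) + Q * (3 / 8 * ((a2 - A) ^ 2 / √A))
      = 3 / 8 * (P * Q * (a1 - a2) ^ 2 / √A) := by
    rw [← hV]; ring
  have f1 := mul_le_mul_of_nonneg_left hg1 hP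
  have f2 := mul_le_mul_of_nonneg_left hg2 hQ
  have e8 : P * (A * √A + 3 / 2 * √A * (a1 - A) + 3 / 8 * ((a1 - A) ^ 2 / √A) + |a1 - A| ^ 3 / (16 * (a0 * √a0)))
      = P * (A * √A) + P * (3 / 2 * √A * (a1 - A)) + P * (3 / 8 * ((a1 - A) ^ 2 / √A))
        + P * (|a1 - A| ^ 3 / (16 * (a0 * √a0))) := by ring
  have e9 : Q * (A * √A + 3 / 2 * √A * (a2 - A) + 3 / 8 * ((a2 - A) ^ 2 / √A) + |a2 - A| ^ 3 / (16 * (a0 * √a0)))
      = Q * (A * √A) + Q * (3 / 2 * √A * (a2 - A)) + Q * (3 / 8 * ((a2 - A) ^ 2 / √A))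
        + Q * (|a2 - A| ^ 3 / (16 * (a0 * √a0))) := by ring
  rw [e8] at f1
  rw [e9] at f2
  have e10 : (C3 ^ 3 / (a0 * √a0) + C3 * C4 / √a0 + C3 ^ 2 * C3 / (a0 * √a0)) * d ^ 3
      = C3 ^ 3 / (a0 * √a0) * d ^ 3 + (C3 * C4 / √a0 + C3 ^ 2 * C3 / (a0 * √a0)) * d ^ 3 := by ring
  rw [e10]
  linarith

/-- bounds of `D` -/
theorem D_bounds {b C3 d m D : ℝ} (hC3 : 0 ≤ C3) (hb : 0 < b) (hd0 : 0 < d) (hd1 : d ≤ 1)
    (hD : |D - 2 * d * m| ≤ C3 * d ^ 2) (hm : |m| ≤ b) :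
    |D| ≤ (2 * b + C3) * d ∧ D ^ 2 ≤ 4 * d ^ 2 * m ^ 2 + C3 * (4 * b + C3) * d ^ 3 := by
  have hdd : C3 * d ^ 2 ≤ C3 * d := by
    have : d ^ 2 ≤ d := by nlinarith
    exact mul_le_mul_of_nonneg_left this hC3
  have h2m : |2 * d * m| ≤ 2 * d * b := by
    rw [abs_mul, abs_mul, abs_two, abs_of_pos hd0]
    exact mul_le_mul_of_nonneg_left hm (by positivity)
  constructor
  · have e : D = (D - 2 * d * m) + 2 * d * m := by ring
    rw [e]
    refine (abs_add_le _ _).trans ?_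
    calc |D - 2 * d * m| + |2 * d * m| ≤ C3 * d + 2 * d * b := by linarith
      _ = _ := by ring
  · have e : D ^ 2 = 4 * d ^ 2 * m ^ 2 + (D - 2 * d * m) * (D - 2 * d * m + 2 * (2 * d * m)) := by ring
    rw [e]
    have u1 : |D - 2 * d * m + 2 * (2 * d * m)| ≤ (4 * b + C3) * d := by
      refine (abs_add_le _ _).trans ?_
      rw [abs_mul 2 (2 * d * m), abs_two]
      calc |D - 2 * d * m| + 2 * |2 * d * m| ≤ C3 * d + 2 * (2 * d * b) := by linarith
        _ = _ := by ring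
    have u2 : (D - 2 * d * m) * (D - 2 * d * m + 2 * (2 * d * m)) ≤ C3 * d ^ 2 * ((4 * b + C3) * d) := by
      refine (le_abs_self _).trans ?_
      rw [abs_mul]
      exact mul_le_mul hD u1 (abs_nonneg _) (by positivity)
    calc _ ≤ 4 * d ^ 2 * m ^ 2 + C3 * d ^ 2 * ((4 * b + C3) * d) := by linarith
      _ = _ := by ring

/-- `g` of the average versus `g` of the new second derivative -/
theorem avg_new {a0 b C3 : ℝ} (ha0 : 0 < a0) (hab : a0 ≤ b) (hC3 : 0 ≤ C3)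
    {k d a m a1 a2 P Q D : ℝ} (hk0 : 0 ≤ k) (hk1 : k ≤ 1) (hd0 : 0 < d) (hd1 : d ≤ 1)
    (hP : 0 ≤ P) (hQ : 0 ≤ Q) (hPQ : P + Q = 1)
    (ha1 : a0 ≤ a1) (ha2 : a0 ≤ a2) (ha1b : a1 ≤ b) (ha2b : a2 ≤ b) (haa : a0 ≤ a)
    (h1 : |a1 - a| ≤ C3 * d) (h2 : |a2 - a| ≤ C3 * d)
    (hD : |D - 2 * d * m| ≤ C3 * d ^ 2) (hm : |m| ≤ b) (hnn : 0 ≤ P * a1 + Q * a2 - P * Q * D ^ 2) :
    2 * k * ((P * a1 + Q * a2) * √(P * a1 + Q * a2)) ≤
      2 * k * ((P * a1 + Q * a2 - P * Q * D ^ 2) * √(P * a1 + Q * a2 - P * Q * D ^ 2))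
      + 3 * k * √a * (4 * (P * Q) * d ^ 2) * m ^ 2
      + (3 * (C3 / √a0) * b ^ 2 + 3 * √b * (C3 * (4 * b + C3))) * d ^ 3 := by
  obtain ⟨hd2, hd3, hd4, hd6, hd4', hd6'⟩ := d_pows hd0 hd1
  have hb0 : 0 < b := lt_of_lt_of_le ha0 hab
  have hr0 : 0 < √a0 := sqrt_pos.2 ha0
  have hPQ4 : P * Q ≤ 1 / 4 := by nlinarith [sq_nonneg (P - Q)]
  have hPQ0 : 0 ≤ P * Q := mul_nonneg hP hQ
  obtain ⟨-, hD2⟩ := D_bounds hC3 hb0 hd0 hd1 hD hm
  set A := P * a1 + Q * a2 with hA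
  have hA0 : a0 ≤ A := by
    have : P * a0 + Q * a0 = a0 := by rw [← add_mul, hPQ, one_mul]
    rw [← this, hA]
    exact add_le_add (mul_le_mul_of_nonneg_left ha1 hP) (mul_le_mul_of_nonneg_left ha2 hQ)
  have hAb : A ≤ b := by
    have : P * b + Q * b = b := by rw [← add_mul, hPQ, one_mul]
    rw [← this, hA]
    exact add_le_add (mul_le_mul_of_nonneg_left ha1b hP) (mul_le_mul_of_nonneg_left ha2b hQ)
  have hAp : 0 < A := lt_of_lt_of_le ha0 hA0
  have hsA : √A ≤ √a + C3 * d / √a0 := by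
    have hAa : |A - a| ≤ C3 * d := by
      have : A - a = P * (a1 - a) + Q * (a2 - a) := by
        rw [hA]; linear_combination a * hPQ
      rw [this]
      refine (abs_add_le _ _).trans ?_
      rw [abs_mul, abs_mul, abs_of_nonneg hP, abs_of_nonneg hQ]
      calc P * |a1 - a| + Q * |a2 - a| ≤ P * (C3 * d) + Q * (C3 * d) :=
            add_le_add (mul_le_mul_of_nonneg_left h1 hP) (mul_le_mul_of_nonneg_left h2 hQ)
        _ = C3 * d := by rw [← add_mul, hPQ, one_mul]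
    have h' : |√A - √a| ≤ C3 * d / √a0 :=
      (sqrt_sub_le ha0 hAp.le haa).trans (div_le_div_of_nonneg_right hAa hr0.le)
    have := le_abs_self (√A - √a)
    linarith
  have hsAb : √A ≤ √b := sqrt_le_sqrt hAb
  have hT := g_tangent (x := A - P * Q * D ^ 2) (y := A) hnn hAp.le
  have e1 : A - P * Q * D ^ 2 - A = -(P * Q * D ^ 2) := by ring
  rw [e1] at hT
  have hPD : P * Q * D ^ 2 ≤ 4 * (P * Q) * d ^ 2 * m ^ 2 + C3 * (4 * b + C3) * d ^ 3 := by
    have u1 := mul_le_mul_of_nonneg_left hD2 hPQ0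
    have u2 : P * Q * (C3 * (4 * b + C3) * d ^ 3) ≤ 1 * (C3 * (4 * b + C3) * d ^ 3) :=
      mul_le_mul_of_nonneg_right (by linarith) (by positivity)
    calc P * Q * D ^ 2 ≤ P * Q * (4 * d ^ 2 * m ^ 2 + C3 * (4 * b + C3) * d ^ 3) := u1
      _ = 4 * (P * Q) * d ^ 2 * m ^ 2 + P * Q * (C3 * (4 * b + C3) * d ^ 3) := by ring
      _ ≤ _ := by linarith
  have hm2 : m ^ 2 ≤ b ^ 2 := by
    have := pow_le_pow_left₀ (abs_nonneg m) hm 2
    rwa [sq_abs] at this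
  have hB : √A * (P * Q * D ^ 2) ≤ √a * (4 * (P * Q) * d ^ 2) * m ^ 2
      + ((C3 / √a0) * b ^ 2 + √b * (C3 * (4 * b + C3))) * d ^ 3 := by
    have w1 : √A * (P * Q * D ^ 2) ≤ √A * (4 * (P * Q) * d ^ 2 * m ^ 2 + C3 * (4 * b + C3) * d ^ 3) :=
      mul_le_mul_of_nonneg_left hPD (sqrt_nonneg _)
    have w2 : √A * (4 * (P * Q) * d ^ 2 * m ^ 2) ≤ (√a + C3 * d / √a0) * (4 * (P * Q) * d ^ 2 * m ^ 2) :=
      mul_le_mul_of_nonneg_right hsA (by positivity)
    have w3 : √A * (C3 * (4 * b + C3) * d ^ 3) ≤ √b * (C3 * (4 * b + C3) * d ^ 3) :=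
      mul_le_mul_of_nonneg_right hsAb (by positivity)
    have w4 : C3 * d / √a0 * (4 * (P * Q) * d ^ 2 * m ^ 2) ≤ (C3 / √a0) * b ^ 2 * d ^ 3 := by
      have v1 : 4 * (P * Q) * (C3 * d / √a0 * (d ^ 2 * m ^ 2)) ≤ 1 * (C3 * d / √a0 * (d ^ 2 * m ^ 2)) :=
        mul_le_mul_of_nonneg_right (by linarith) (by positivity)
      have v2 : C3 * d / √a0 * (d ^ 2 * m ^ 2) ≤ C3 * d / √a0 * (d ^ 2 * b ^ 2) := by
        apply mul_le_mul_of_nonneg_left _ (by positivity)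
        exact mul_le_mul_of_nonneg_left hm2 (by positivity)
      calc C3 * d / √a0 * (4 * (P * Q) * d ^ 2 * m ^ 2)
          = 4 * (P * Q) * (C3 * d / √a0 * (d ^ 2 * m ^ 2)) := by ring
        _ ≤ C3 * d / √a0 * (d ^ 2 * b ^ 2) := by linarith
        _ = _ := by ring
    calc √A * (P * Q * D ^ 2) ≤ √A * (4 * (P * Q) * d ^ 2 * m ^ 2 + C3 * (4 * b + C3) * d ^ 3) := w1
      _ = √A * (4 * (P * Q) * d ^ 2 * m ^ 2) + √A * (C3 * (4 * b + C3) * d ^ 3) := by ring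
      _ ≤ (√a + C3 * d / √a0) * (4 * (P * Q) * d ^ 2 * m ^ 2) + √b * (C3 * (4 * b + C3) * d ^ 3) := by
          linarith
      _ = √a * (4 * (P * Q) * d ^ 2) * m ^ 2 + C3 * d / √a0 * (4 * (P * Q) * d ^ 2 * m ^ 2)
          + √b * (C3 * (4 * b + C3) * d ^ 3) := by ring
      _ ≤ √a * (4 * (P * Q) * d ^ 2) * m ^ 2 + (C3 / √a0) * b ^ 2 * d ^ 3
          + √b * (C3 * (4 * b + C3) * d ^ 3) := by linarith
      _ = _ := by ring
  set F := ((C3 / √a0) * b ^ 2 + √b * (C3 * (4 * b + C3))) * d ^ 3 with hF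
  have hF0 : 0 ≤ F := by positivity
  have hg : A * √A ≤ (A - P * Q * D ^ 2) * √(A - P * Q * D ^ 2)
      + 3 / 2 * (√a * (4 * (P * Q) * d ^ 2) * m ^ 2 + F) := by
    have e2 : 3 / 2 * √A * -(P * Q * D ^ 2) = -(3 / 2 * (√A * (P * Q * D ^ 2))) := by ring
    rw [e2] at hT
    linarith
  have hg2 := mul_le_mul_of_nonneg_left hg (show (0 : ℝ) ≤ 2 * k by positivity)
  have hkF : 3 * k * F ≤ 3 * F := by
    have := mul_le_mul_of_nonneg_right hk1 hF0
    linarith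
  calc 2 * k * (A * √A) ≤ 2 * k * ((A - P * Q * D ^ 2) * √(A - P * Q * D ^ 2)
      + 3 / 2 * (√a * (4 * (P * Q) * d ^ 2) * m ^ 2 + F)) := hg2
    _ = 2 * k * ((A - P * Q * D ^ 2) * √(A - P * Q * D ^ 2)) + 3 * k * √a * (4 * (P * Q) * d ^ 2) * m ^ 2
        + 3 * k * F := by ring
    _ ≤ 2 * k * ((A - P * Q * D ^ 2) * √(A - P * Q * D ^ 2)) + 3 * k * √a * (4 * (P * Q) * d ^ 2) * m ^ 2
        + 3 * F := by linarith
    _ = _ := by rw [hF]; ring

/-- the covariance term -/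
theorem cov_term {b C3 C4 : ℝ} (hC3 : 0 ≤ C3) (hC4 : 0 ≤ C4) (hb : 0 < b)
    {d m q a1 a2 P Q D : ℝ} (hd0 : 0 < d) (hd1 : d ≤ 1)
    (hP : 0 ≤ P) (hQ : 0 ≤ Q) (hPQ : P + Q = 1)
    (h12 : |a1 - a2 - 2 * d * q| ≤ C4 * d ^ 2) (hq : |q| ≤ C3)
    (hD : |D - 2 * d * m| ≤ C3 * d ^ 2) (hm : |m| ≤ b) :
    -(3 * (P * Q) * (a1 - a2) * D) ≤ -(3 * (4 * (P * Q) * d ^ 2) * q * m)
      + (C4 * (2 * b + C3) + 2 * C3 ^ 2) * d ^ 3 := by
  have hPQ4 : P * Q ≤ 1 / 4 := by nlinarith [sq_nonneg (P - Q)]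
  have hPQ0 : 0 ≤ P * Q := mul_nonneg hP hQ
  obtain ⟨hDb, -⟩ := D_bounds hC3 hb hd0 hd1 hD hm
  have e : (a1 - a2) * D - 4 * d ^ 2 * q * m = (a1 - a2 - 2 * d * q) * D + 2 * d * q * (D - 2 * d * m) := by ring
  have h1 : |(a1 - a2) * D - 4 * d ^ 2 * q * m| ≤ (C4 * (2 * b + C3) + 2 * C3 ^ 2) * d ^ 3 := by
    rw [e]
    refine (abs_add_le _ _).trans ?_
    rw [abs_mul, abs_mul (2 * d * q), abs_mul, abs_mul, abs_two, abs_of_pos hd0]
    have t1 : |a1 - a2 - 2 * d * q| * |D| ≤ C4 * d ^ 2 * ((2 * b + C3) * d) :=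
      mul_le_mul h12 hDb (abs_nonneg _) (by positivity)
    have t2 : 2 * d * |q| * |D - 2 * d * m| ≤ 2 * d * C3 * (C3 * d ^ 2) :=
      mul_le_mul (mul_le_mul_of_nonneg_left hq (by positivity)) hD (abs_nonneg _) (by positivity)
    calc _ ≤ C4 * d ^ 2 * ((2 * b + C3) * d) + 2 * d * C3 * (C3 * d ^ 2) := by linarith
      _ = _ := by ring
  set F := (C4 * (2 * b + C3) + 2 * C3 ^ 2) * d ^ 3 with hF
  have hF0 : 0 ≤ F := by positivity
  have h2 : -((a1 - a2) * D) ≤ -(4 * d ^ 2 * q * m) + F := by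
    have := neg_abs_le ((a1 - a2) * D - 4 * d ^ 2 * q * m)
    linarith
  have h3 := mul_le_mul_of_nonneg_left h2 (show (0 : ℝ) ≤ 3 * (P * Q) by positivity)
  have h4 : 3 * (P * Q) * F ≤ F := by
    have := mul_le_mul_of_nonneg_right (show 3 * (P * Q) ≤ 1 by linarith) hF0
    linarith
  calc -(3 * (P * Q) * (a1 - a2) * D) = 3 * (P * Q) * -((a1 - a2) * D) := by ring
    _ ≤ 3 * (P * Q) * (-(4 * d ^ 2 * q * m) + F) := h3
    _ = -(3 * (4 * (P * Q) * d ^ 2) * q * m) + 3 * (P * Q) * F := by ring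
    _ ≤ _ := by linarith

/-- the third cumulant term -/
theorem cub_term {b C3 : ℝ} (hC3 : 0 ≤ C3) (hb : 0 < b)
    {d m P Q D : ℝ} (hd0 : 0 < d) (hd1 : d ≤ 1)
    (hP : 0 ≤ P) (hQ : 0 ≤ Q) (hPQ : P + Q = 1)
    (hD : |D - 2 * d * m| ≤ C3 * d ^ 2) (hm : |m| ≤ b) :
    P * Q * (Q - P) * D ^ 3 ≤ (2 * b + C3) ^ 3 * d ^ 3 := by
  have hPQ4 : P * Q ≤ 1 / 4 := by nlinarith [sq_nonneg (P - Q)]
  have hPQ0 : 0 ≤ P * Q := mul_nonneg hP hQ
  obtain ⟨hDb, -⟩ := D_bounds hC3 hb hd0 hd1 hD hm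
  have h1 : |P * Q * (Q - P)| ≤ 1 := by
    rw [abs_mul, abs_of_nonneg hPQ0]
    have : |Q - P| ≤ 1 := by
      rw [abs_le]; constructor <;> linarith
    calc P * Q * |Q - P| ≤ 1 / 4 * 1 := mul_le_mul hPQ4 this (abs_nonneg _) (by norm_num)
      _ ≤ 1 := by norm_num
  have h2 : |D ^ 3| ≤ (2 * b + C3) ^ 3 * d ^ 3 := by
    rw [abs_pow]
    calc |D| ^ 3 ≤ ((2 * b + C3) * d) ^ 3 := pow_le_pow_left₀ (abs_nonneg _) hDb 3
      _ = _ := by ring
  calc P * Q * (Q - P) * D ^ 3 ≤ |P * Q * (Q - P) * D ^ 3| := le_abs_self _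
    _ = |P * Q * (Q - P)| * |D ^ 3| := abs_mul _ _
    _ ≤ 1 * ((2 * b + C3) ^ 3 * d ^ 3) := mul_le_mul h1 h2 (abs_nonneg _) (by norm_num)
    _ = _ := one_mul _

theorem pq_le {P Q : ℝ} (hPQ : P + Q = 1) : P * Q ≤ 1 / 4 := by
  obtain rfl : Q = 1 - P := by linarith
  nlinarith [sq_nonneg (2 * P - 1)]

theorem r_bound {b S k m ρ : ℝ} (hk0 : 0 ≤ k) (hk1 : k ≤ 1) (hm : |m| ≤ b) (hρ : |ρ| ≤ S) :
    |(-1 + k ^ 2 / 2) * m + k / 4 * ρ| ≤ b + S := by
  have hk2 : k ^ 2 ≤ 1 := pow_le_one₀ hk0 hk1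
  have hk3 : 0 ≤ k ^ 2 := sq_nonneg k
  have u1 : |(-1 + k ^ 2 / 2) * m| ≤ b := by
    rw [abs_mul]
    have : |(-1 + k ^ 2 / 2)| ≤ 1 := by
      rw [abs_le]; constructor <;> linarith
    calc |(-1 + k ^ 2 / 2)| * |m| ≤ 1 * b := mul_le_mul this hm (abs_nonneg _) (by norm_num)
      _ = b := one_mul _
  have u2 : |k / 4 * ρ| ≤ S := by
    rw [abs_mul]
    have : |k / 4| ≤ 1 := by
      rw [abs_le]; constructor <;> linarith
    calc |k / 4| * |ρ| ≤ 1 * S := mul_le_mul this hρ (abs_nonneg _) (by norm_num)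
      _ = _ := one_mul _
  exact (abs_add_le _ _).trans (by linarith)

theorem rho_bound {a0 a C3 q ρ : ℝ} (ha0 : 0 < a0) (haa : a0 ≤ a) (hρ : q = ρ * √a) (hq : |q| ≤ C3) :
    |ρ| ≤ C3 / √a0 := by
  have hr0 : 0 < √a0 := sqrt_pos.2 ha0
  have hsa : √a0 ≤ √a := sqrt_le_sqrt haa
  have hsap : 0 < √a := lt_of_lt_of_le hr0 hsa
  have e1 : |ρ| * √a = |q| := by rw [hρ, abs_mul, abs_of_pos hsap]
  rw [le_div_iff₀ hr0]
  calc |ρ| * √a0 ≤ |ρ| * √a := mul_le_mul_of_nonneg_left hsa (abs_nonneg _)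
    _ = |q| := e1
    _ ≤ C3 := hq

theorem eta_bound {P Q d r R : ℝ} (hP : 0 ≤ P) (hQ : 0 ≤ Q) (hPQ : P + Q = 1) (hr : |r| ≤ R) :
    |4 * (P * Q) * d ^ 2 * r| ≤ R * d ^ 2 := by
  have hPQ4 := pq_le hPQ
  have hPQ0 : 0 ≤ P * Q := mul_nonneg hP hQ
  have hh0 : 0 ≤ 4 * (P * Q) * d ^ 2 := by positivity
  have hhd : 4 * (P * Q) * d ^ 2 ≤ d ^ 2 := by
    have := mul_le_mul_of_nonneg_right (show 4 * (P * Q) ≤ 1 by linarith) (sq_nonneg d)
    linarith
  rw [abs_mul, abs_of_nonneg hh0]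
  calc 4 * (P * Q) * d ^ 2 * |r| ≤ d ^ 2 * R := mul_le_mul hhd hr (abs_nonneg _) (by positivity)
    _ = _ := mul_comm _ _

theorem key_alg {k s ρ m q h r : ℝ} (hk0 : 0 ≤ k) (hk1 : k ≤ 1) (hs : 0 ≤ s) (hh : 0 ≤ h)
    (hq : q = ρ * s) (hr : r = (-1 + k ^ 2 / 2) * m + k / 4 * ρ) :
    (6 * k * s * m * (h * r) - 3 * (h * r) * q) + 3 * k * s * h * m ^ 2
      + 2 * k * (3 / 8 * h * (ρ ^ 2 * s)) - 3 * h * q * m ≤ 0 := by
  have e1 : (6 * k * s * m * (h * r) - 3 * (h * r) * q) + 3 * k * s * h * m ^ 2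
      + 2 * k * (3 / 8 * h * (ρ ^ 2 * s)) - 3 * h * q * m
      = -(3 * (k * (1 - k ^ 2)) * s * m ^ 2 * h) := by
    rw [hr, hq]; ring
  have hk2 : 0 ≤ 1 - k ^ 2 := by
    have := pow_le_one₀ (n := 2) hk0 hk1
    linarith
  rw [e1]
  have : 0 ≤ 3 * (k * (1 - k ^ 2)) * s * m ^ 2 * h := by positivity
  linarith

theorem assemble {k e d P Q g1 g2 gA gN b1 b2 X Y Z W K1 K2 K3 K4 K5 K6 cv cb : ℝ}
    (hk0 : 0 ≤ k) (hk1 : k ≤ 1) (he0 : 0 ≤ e) (hd0 : 0 < d) (hP : 0 ≤ P) (hQ : 0 ≤ Q) (hPQ : P + Q = 1)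
    (h1p : 0 ≤ K1) (h2p : 0 ≤ K2) (h3p : 0 ≤ K3) (h4p : 0 ≤ K4) (h5p : 0 ≤ K5) (h6p : 0 ≤ K6)
    (f1 : b1 ≤ 2 * k * g1 + X + e * (1 + K1 * d ^ 2) + K2 * d ^ 3)
    (f2 : b2 ≤ 2 * k * g2 + X + e * (1 + K1 * d ^ 2) + K2 * d ^ 3)
    (f3 : P * g1 + Q * g2 ≤ gA + Y + K3 * d ^ 3)
    (f4 : 2 * k * gA ≤ 2 * k * gN + Z + K4 * d ^ 3)
    (f5 : -cv ≤ -W + K5 * d ^ 3)
    (f6 : cb ≤ K6 * d ^ 3)
    (key : X + Z + 2 * k * Y - W ≤ 0) :
    P * b1 + Q * b2 - cv + cb ≤ 2 * k * gN + e * (1 + (K1 + K2 + 2 * K3 + K4 + K5 + K6) * d ^ 2)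
      + (K1 + K2 + 2 * K3 + K4 + K5 + K6) * d ^ 3 := by
  have hd3 : 0 ≤ d ^ 3 := by positivity
  have g1' := mul_le_mul_of_nonneg_left f1 hP
  have g2' := mul_le_mul_of_nonneg_left f2 hQ
  have g3 := mul_le_mul_of_nonneg_left f3 (show (0 : ℝ) ≤ 2 * k by positivity)
  have g3' : 2 * k * (K3 * d ^ 3) ≤ 2 * (K3 * d ^ 3) :=
    mul_le_mul_of_nonneg_right (by linarith) (mul_nonneg h3p hd3)
  have e1 : P * (2 * k * g1 + X + e * (1 + K1 * d ^ 2) + K2 * d ^ 3)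
      + Q * (2 * k * g2 + X + e * (1 + K1 * d ^ 2) + K2 * d ^ 3)
      = 2 * k * (P * g1 + Q * g2) + (P + Q) * (X + e * (1 + K1 * d ^ 2) + K2 * d ^ 3) := by ring
  rw [hPQ, one_mul] at e1
  have e5 : 2 * k * (gA + Y + K3 * d ^ 3) = 2 * k * gA + 2 * k * Y + 2 * k * (K3 * d ^ 3) := by ring
  rw [e5] at g3
  have e6 : e * (1 + (K1 + K2 + 2 * K3 + K4 + K5 + K6) * d ^ 2)
      = e * (1 + K1 * d ^ 2) + e * ((K2 + 2 * K3 + K4 + K5 + K6) * d ^ 2) := by ring
  have e7 : 0 ≤ e * ((K2 + 2 * K3 + K4 + K5 + K6) * d ^ 2) := by positivity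
  have e8 : (K1 + K2 + 2 * K3 + K4 + K5 + K6) * d ^ 3
      = K1 * d ^ 3 + K2 * d ^ 3 + 2 * (K3 * d ^ 3) + K4 * d ^ 3 + K5 * d ^ 3 + K6 * d ^ 3 := by ring
  have e9 : 0 ≤ K1 * d ^ 3 := mul_nonneg h1p hd3
  rw [e6, e8]
  linarith

/-- the core with named constants -/
theorem sc_core {a0 b C3 C4 R K1 K2 K3 K4 K5 K6 : ℝ} (ha0 : 0 < a0) (hab : a0 ≤ b) (hC3 : 0 ≤ C3) (hC4 : 0 ≤ C4)
    (hR : R = b + C3 / √a0)
    (hK1 : K1 = 3 * R + 3 * R ^ 2 + R ^ 3)
    (hK2 : K2 = 2 * (3 * (R * (C3 * b / √a0 + √b * C3)) + 3 / 2 * √b * R ^ 2 * b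
          + ((2 * R + R ^ 2) * b) ^ 2 / √a0) + (3 * R * C4 + (3 * R ^ 2 + R ^ 3) * C3))
    (hK3 : K3 = C3 ^ 3 / (a0 * √a0) + C3 * C4 / √a0 + C3 ^ 2 * C3 / (a0 * √a0))
    (hK4 : K4 = 3 * (C3 / √a0) * b ^ 2 + 3 * √b * (C3 * (4 * b + C3)))
    (hK5 : K5 = C4 * (2 * b + C3) + 2 * C3 ^ 2)
    (hK6 : K6 = (2 * b + C3) ^ 3)
    (h1p : 0 ≤ K1) (h2p : 0 ≤ K2) (h3p : 0 ≤ K3) (h4p : 0 ≤ K4) (h5p : 0 ≤ K5) (h6p : 0 ≤ K6)
    {k e d P Q a1 a2 b1 b2 D a m q m1 m2 q1 q2 c1 c2 s1 s2 t1 t2 : ℝ}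
    (hk0 : 0 ≤ k) (hk1 : k ≤ 1) (he0 : 0 ≤ e) (hd0 : 0 < d) (hd1 : d ≤ 1) (hP : 0 ≤ P) (hQ : 0 ≤ Q)
    (hPQ : P + Q = 1)
    (ha1 : a0 ≤ a1) (ha1b : a1 ≤ b) (ha2 : a0 ≤ a2) (ha2b : a2 ≤ b) (haa : a0 ≤ a) (hab' : a ≤ b)
    (h1 : |a1 - a| ≤ C3 * d) (h2 : |a2 - a| ≤ C3 * d) (h12 : |a1 - a2 - 2 * d * q| ≤ C4 * d ^ 2)
    (hD : |D - 2 * d * m| ≤ C3 * d ^ 2) (hm1' : |m1 - m| ≤ C3 * d) (hm2' : |m2 - m| ≤ C3 * d)
    (hq1' : |q1 - q| ≤ C4 * d) (hq2' : |q2 - q| ≤ C4 * d)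
    (hm : |m| ≤ b) (hm1 : |m1| ≤ b) (hm2 : |m2| ≤ b) (hc1 : |c1| ≤ b) (hc2 : |c2| ≤ b)
    (hq : |q| ≤ C3) (hs1 : |s1| ≤ C3) (hs2 : |s2| ≤ C3) (ht1 : |t1| ≤ C3) (ht2 : |t2| ≤ C3)
    (hpos1 : ∀ η : ℝ, 0 ≤ a1 + 2 * η * m1 + η ^ 2 * c1) (hpos2 : ∀ η : ℝ, 0 ≤ a2 + 2 * η * m2 + η ^ 2 * c2)
    (hsc1 : ∀ η : ℝ, b1 + 3 * η * q1 + 3 * η ^ 2 * s1 + η ^ 3 * t1 ≤
        2 * k * ((a1 + 2 * η * m1 + η ^ 2 * c1) * √(a1 + 2 * η * m1 + η ^ 2 * c1)) + e * (1 + |η|) ^ 3)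
    (hsc2 : ∀ η : ℝ, b2 + 3 * η * q2 + 3 * η ^ 2 * s2 + η ^ 3 * t2 ≤
        2 * k * ((a2 + 2 * η * m2 + η ^ 2 * c2) * √(a2 + 2 * η * m2 + η ^ 2 * c2)) + e * (1 + |η|) ^ 3)
    (hnn : 0 ≤ P * a1 + Q * a2 - P * Q * D ^ 2) :
      P * b1 + Q * b2 - 3 * (P * Q) * (a1 - a2) * D + P * Q * (Q - P) * D ^ 3 ≤
        2 * k * ((P * a1 + Q * a2 - P * Q * D ^ 2) * √(P * a1 + Q * a2 - P * Q * D ^ 2))
          + e * (1 + (K1 + K2 + 2 * K3 + K4 + K5 + K6) * d ^ 2)
          + (K1 + K2 + 2 * K3 + K4 + K5 + K6) * d ^ 3 := by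
  have hr0 : 0 < √a0 := sqrt_pos.2 ha0
  have hb0 : 0 < b := lt_of_lt_of_le ha0 hab
  have hR0 : 0 ≤ R := by rw [hR]; positivity
  have hsap : 0 < √a := lt_of_lt_of_le hr0 (sqrt_le_sqrt haa)
  obtain ⟨ρ, hρ⟩ : ∃ ρ : ℝ, q = ρ * √a := ⟨q / √a, (div_mul_cancel₀ q hsap.ne').symm⟩
  obtain ⟨r, hr⟩ : ∃ r : ℝ, r = (-1 + k ^ 2 / 2) * m + k / 4 * ρ := ⟨_, rfl⟩
  have hrb : |r| ≤ R := by
    rw [hr, hR]
    exact r_bound hk0 hk1 hm (rho_bound ha0 haa hρ hq)
  have hη : |4 * (P * Q) * d ^ 2 * r| ≤ R * d ^ 2 := eta_bound hP hQ hPQ hrb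
  have f1 : b1 ≤ 2 * k * (a1 * √a1) + (6 * k * √a * m * (4 * (P * Q) * d ^ 2 * r)
      - 3 * (4 * (P * Q) * d ^ 2 * r) * q) + e * (1 + K1 * d ^ 2) + K2 * d ^ 3 := by
    rw [hK1, hK2, ← add_sub_assoc]
    exact one_point ha0 hab hC3 hC4 hR0 hk0 hk1 he0 hd0 hd1 ha1 ha1b haa hab' h1 hm1' hq1' hm1 hc1 hs1 ht1
      hη (hpos1 _) (hsc1 _)
  have f2 : b2 ≤ 2 * k * (a2 * √a2) + (6 * k * √a * m * (4 * (P * Q) * d ^ 2 * r)
      - 3 * (4 * (P * Q) * d ^ 2 * r) * q) + e * (1 + K1 * d ^ 2) + K2 * d ^ 3 := by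
    rw [hK1, hK2, ← add_sub_assoc]
    exact one_point ha0 hab hC3 hC4 hR0 hk0 hk1 he0 hd0 hd1 ha2 ha2b haa hab' h2 hm2' hq2' hm2 hc2 hs2 ht2
      hη (hpos2 _) (hsc2 _)
  have f3 : P * (a1 * √a1) + Q * (a2 * √a2) ≤ (P * a1 + Q * a2) * √(P * a1 + Q * a2)
      + 3 / 8 * (4 * (P * Q) * d ^ 2) * (ρ ^ 2 * √a) + K3 * d ^ 3 := by
    have hq2 : q ^ 2 / √a = ρ ^ 2 * √a := by
      rw [hρ, div_eq_iff hsap.ne']; ring
    rw [hK3, ← hq2]
    exact two_point_g ha0 hC3 hC4 hd0 hd1 hP hQ hPQ ha1 ha2 haa h1 h2 h12 hq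
  have f4 : 2 * k * ((P * a1 + Q * a2) * √(P * a1 + Q * a2))
      ≤ 2 * k * ((P * a1 + Q * a2 - P * Q * D ^ 2) * √(P * a1 + Q * a2 - P * Q * D ^ 2))
        + 3 * k * √a * (4 * (P * Q) * d ^ 2) * m ^ 2 + K4 * d ^ 3 := by
    rw [hK4]
    exact avg_new ha0 hab hC3 hk0 hk1 hd0 hd1 hP hQ hPQ ha1 ha2 ha1b ha2b haa h1 h2 hD hm hnn
  have f5 : -(3 * (P * Q) * (a1 - a2) * D) ≤ -(3 * (4 * (P * Q) * d ^ 2) * q * m) + K5 * d ^ 3 := by
    rw [hK5]
    exact cov_term hC3 hC4 hb0 hd0 hd1 hP hQ hPQ h12 hq hD hm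
  have f6 : P * Q * (Q - P) * D ^ 3 ≤ K6 * d ^ 3 := by
    rw [hK6]
    exact cub_term hC3 hb0 hd0 hd1 hP hQ hPQ hD hm
  have hh0 : 0 ≤ 4 * (P * Q) * d ^ 2 := by positivity
  exact assemble hk0 hk1 he0 hd0 hP hQ hPQ h1p h2p h3p h4p h5p h6p f1 f2 f3 f4 f5 f6
    (key_alg hk0 hk1 hsap.le hh0 hρ hr)

/-- THE REAL INEQUALITY of the two-point step (`x * √x` form). -/
theorem sc_real' (a0 b C3 C4 : ℝ) (ha0 : 0 < a0) (hab : a0 ≤ b) (hC3 : 0 ≤ C3) (hC4 : 0 ≤ C4) :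
    ∃ K : ℝ, 0 ≤ K ∧ ∀ k e d P Q a1 a2 b1 b2 D a m q m1 m2 q1 q2 c1 c2 s1 s2 t1 t2 : ℝ,
      0 ≤ k → k ≤ 1 → 0 ≤ e → 0 < d → d ≤ 1 → 0 ≤ P → 0 ≤ Q → P + Q = 1 →
      a0 ≤ a1 → a1 ≤ b → a0 ≤ a2 → a2 ≤ b → a0 ≤ a → a ≤ b →
      |a1 - a| ≤ C3 * d → |a2 - a| ≤ C3 * d → |a1 - a2 - 2 * d * q| ≤ C4 * d ^ 2 →
      |D - 2 * d * m| ≤ C3 * d ^ 2 → |m1 - m| ≤ C3 * d → |m2 - m| ≤ C3 * d →
      |q1 - q| ≤ C4 * d → |q2 - q| ≤ C4 * d →
      |m| ≤ b → |m1| ≤ b → |m2| ≤ b → |c1| ≤ b → |c2| ≤ b →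
      |q| ≤ C3 → |s1| ≤ C3 → |s2| ≤ C3 → |t1| ≤ C3 → |t2| ≤ C3 →
      (∀ η : ℝ, 0 ≤ a1 + 2 * η * m1 + η ^ 2 * c1) → (∀ η : ℝ, 0 ≤ a2 + 2 * η * m2 + η ^ 2 * c2) →
      (∀ η : ℝ, b1 + 3 * η * q1 + 3 * η ^ 2 * s1 + η ^ 3 * t1 ≤
        2 * k * ((a1 + 2 * η * m1 + η ^ 2 * c1) * √(a1 + 2 * η * m1 + η ^ 2 * c1)) + e * (1 + |η|) ^ 3) →
      (∀ η : ℝ, b2 + 3 * η * q2 + 3 * η ^ 2 * s2 + η ^ 3 * t2 ≤
        2 * k * ((a2 + 2 * η * m2 + η ^ 2 * c2) * √(a2 + 2 * η * m2 + η ^ 2 * c2)) + e * (1 + |η|) ^ 3) →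
      0 ≤ P * a1 + Q * a2 - P * Q * D ^ 2 →
      P * b1 + Q * b2 - 3 * (P * Q) * (a1 - a2) * D + P * Q * (Q - P) * D ^ 3 ≤
        2 * k * ((P * a1 + Q * a2 - P * Q * D ^ 2) * √(P * a1 + Q * a2 - P * Q * D ^ 2))
          + e * (1 + K * d ^ 2) + K * d ^ 3 := by
  have hr0 : 0 < √a0 := sqrt_pos.2 ha0
  have hb0 : 0 < b := lt_of_lt_of_le ha0 hab
  obtain ⟨R, hR⟩ : ∃ R : ℝ, R = b + C3 / √a0 := ⟨_, rfl⟩
  have hR0 : 0 ≤ R := by rw [hR]; positivity
  obtain ⟨K1, hK1⟩ : ∃ K1 : ℝ, K1 = 3 * R + 3 * R ^ 2 + R ^ 3 := ⟨_, rfl⟩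
  obtain ⟨K2, hK2⟩ : ∃ K2 : ℝ, K2 = 2 * (3 * (R * (C3 * b / √a0 + √b * C3)) + 3 / 2 * √b * R ^ 2 * b
          + ((2 * R + R ^ 2) * b) ^ 2 / √a0) + (3 * R * C4 + (3 * R ^ 2 + R ^ 3) * C3) := ⟨_, rfl⟩
  obtain ⟨K3, hK3⟩ : ∃ K3 : ℝ, K3 = C3 ^ 3 / (a0 * √a0) + C3 * C4 / √a0 + C3 ^ 2 * C3 / (a0 * √a0) := ⟨_, rfl⟩
  obtain ⟨K4, hK4⟩ : ∃ K4 : ℝ, K4 = 3 * (C3 / √a0) * b ^ 2 + 3 * √b * (C3 * (4 * b + C3)) := ⟨_, rfl⟩
  obtain ⟨K5, hK5⟩ : ∃ K5 : ℝ, K5 = C4 * (2 * b + C3) + 2 * C3 ^ 2 := ⟨_, rfl⟩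
  obtain ⟨K6, hK6⟩ : ∃ K6 : ℝ, K6 = (2 * b + C3) ^ 3 := ⟨_, rfl⟩
  have h1p : 0 ≤ K1 := by rw [hK1]; positivity
  have h2p : 0 ≤ K2 := by rw [hK2]; positivity
  have h3p : 0 ≤ K3 := by rw [hK3]; positivity
  have h4p : 0 ≤ K4 := by rw [hK4]; positivity
  have h5p : 0 ≤ K5 := by rw [hK5]; positivity
  have h6p : 0 ≤ K6 := by rw [hK6]; positivity
  refine ⟨K1 + K2 + 2 * K3 + K4 + K5 + K6, by positivity, ?_⟩
  intro k e d P Q a1 a2 b1 b2 D a m q m1 m2 q1 q2 c1 c2 s1 s2 t1 t2 hk0 hk1 he0 hd0 hd1 hP hQ hPQ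
    ha1 ha1b ha2 ha2b haa hab' h1 h2 h12 hD hm1' hm2' hq1' hq2' hm hm1 hm2 hc1 hc2 hq hs1 hs2 ht1 ht2
    hpos1 hpos2 hsc1 hsc2 hnn
  exact sc_core ha0 hab hC3 hC4 hR hK1 hK2 hK3 hK4 hK5 hK6 h1p h2p h3p h4p h5p h6p
    hk0 hk1 he0 hd0 hd1 hP hQ hPQ
    ha1 ha1b ha2 ha2b haa hab' h1 h2 h12 hD hm1' hm2' hq1' hq2' hm hm1 hm2 hc1 hc2 hq hs1 hs2 ht1 ht2
    hpos1 hpos2 hsc1 hsc2 hnn

theorem rpow32 {x : ℝ} (hx : 0 ≤ x) : x ^ ((3 : ℝ) / 2) = x * √x := by
  rcases hx.lt_or_eq with h | h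
  · rw [show ((3 : ℝ) / 2) = 1 + 1 / 2 by norm_num, Real.rpow_add h, Real.rpow_one, ← Real.sqrt_eq_rpow]
  · rw [← h]; simp

/-- THE REAL INEQUALITY of the two-point step (`rpow` form). -/
theorem sc_real (a0 b C3 C4 : ℝ) (ha0 : 0 < a0) (hab : a0 ≤ b) (hC3 : 0 ≤ C3) (hC4 : 0 ≤ C4) :
    ∃ K : ℝ, 0 ≤ K ∧ ∀ k e d P Q a1 a2 b1 b2 D a m q m1 m2 q1 q2 c1 c2 s1 s2 t1 t2 : ℝ,
      0 ≤ k → k ≤ 1 → 0 ≤ e → 0 < d → d ≤ 1 → 0 ≤ P → 0 ≤ Q → P + Q = 1 →
      a0 ≤ a1 → a1 ≤ b → a0 ≤ a2 → a2 ≤ b → a0 ≤ a → a ≤ b →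
      |a1 - a| ≤ C3 * d → |a2 - a| ≤ C3 * d → |a1 - a2 - 2 * d * q| ≤ C4 * d ^ 2 →
      |D - 2 * d * m| ≤ C3 * d ^ 2 → |m1 - m| ≤ C3 * d → |m2 - m| ≤ C3 * d →
      |q1 - q| ≤ C4 * d → |q2 - q| ≤ C4 * d →
      |m| ≤ b → |m1| ≤ b → |m2| ≤ b → |c1| ≤ b → |c2| ≤ b →
      |q| ≤ C3 → |s1| ≤ C3 → |s2| ≤ C3 → |t1| ≤ C3 → |t2| ≤ C3 →
      (∀ η : ℝ, 0 ≤ a1 + 2 * η * m1 + η ^ 2 * c1) → (∀ η : ℝ, 0 ≤ a2 + 2 * η * m2 + η ^ 2 * c2) →
      (∀ η : ℝ, b1 + 3 * η * q1 + 3 * η ^ 2 * s1 + η ^ 3 * t1 ≤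
        2 * k * (a1 + 2 * η * m1 + η ^ 2 * c1) ^ ((3 : ℝ) / 2) + e * (1 + |η|) ^ 3) →
      (∀ η : ℝ, b2 + 3 * η * q2 + 3 * η ^ 2 * s2 + η ^ 3 * t2 ≤
        2 * k * (a2 + 2 * η * m2 + η ^ 2 * c2) ^ ((3 : ℝ) / 2) + e * (1 + |η|) ^ 3) →
      0 ≤ P * a1 + Q * a2 - P * Q * D ^ 2 →
      P * b1 + Q * b2 - 3 * (P * Q) * (a1 - a2) * D + P * Q * (Q - P) * D ^ 3 ≤
        2 * k * (P * a1 + Q * a2 - P * Q * D ^ 2) ^ ((3 : ℝ) / 2)
          + e * (1 + K * d ^ 2) + K * d ^ 3 := by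
  obtain ⟨K, hK, H⟩ := sc_real' a0 b C3 C4 ha0 hab hC3 hC4
  refine ⟨K, hK, ?_⟩
  intro k e d P Q a1 a2 b1 b2 D a m q m1 m2 q1 q2 c1 c2 s1 s2 t1 t2 hk0 hk1 he0 hd0 hd1 hP hQ hPQ
    ha1 ha1b ha2 ha2b haa hab' h1 h2 h12 hD hm1' hm2' hq1' hq2' hm hm1 hm2 hc1 hc2 hq hs1 hs2 ht1 ht2
    hpos1 hpos2 hsc1 hsc2 hnn
  rw [rpow32 hnn]
  refine H k e d P Q a1 a2 b1 b2 D a m q m1 m2 q1 q2 c1 c2 s1 s2 t1 t2 hk0 hk1 he0 hd0 hd1 hP hQ hPQ
    ha1 ha1b ha2 ha2b haa hab' h1 h2 h12 hD hm1' hm2' hq1' hq2' hm hm1 hm2 hc1 hc2 hq hs1 hs2 ht1 ht2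
    hpos1 hpos2 (fun η => ?_) (fun η => ?_) hnn
  · rw [← rpow32 (hpos1 η)]; exact hsc1 η
  · rw [← rpow32 (hpos2 η)]; exact hsc2 η

end Vale.Agent.P227.M.SC
end

section

open MeasureTheory Set
open scoped ENNReal NNReal Pointwise

namespace Vale.Agent.P254.Unc

/-- One-dimensional Brunn-Minkowski, compact case. -/
theorem bm_one_compact {A B C : Set ℝ} {s t : ℝ} (hs : 0 < s) (ht : 0 < t)
    (hA : IsCompact A) (hB : IsCompact B)
    (nA : A.Nonempty) (nB : B.Nonempty) (h : ∀ a ∈ A, ∀ b ∈ B, s * a + t * b ∈ C) :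
    ENNReal.ofReal s * volume A + ENNReal.ofReal t * volume B ≤ volume C := by
  obtain ⟨a, haA, ha⟩ := hA.exists_isGreatest nA
  obtain ⟨b, hbB, hb⟩ := hB.exists_isLeast nB
  have h1 : (fun x => x + t * b) '' (s • A) ⊆ C := by
    rintro _ ⟨_, ⟨x, hx, rfl⟩, rfl⟩
    exact h x hx b hbB
  have h2 : (fun y => s * a + y) '' (t • B) ⊆ C := by
    rintro _ ⟨_, ⟨y, hy, rfl⟩, rfl⟩
    exact h a haA y hy
  have c1 : IsCompact ((fun x => x + t * b) '' (s • A)) := (hA.smul s).image (by fun_prop)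
  have c2 : IsCompact ((fun y => s * a + y) '' (t • B)) := (hB.smul t).image (by fun_prop)
  have hdis : AEDisjoint volume ((fun x => x + t * b) '' (s • A))
      ((fun y => s * a + y) '' (t • B)) := by
    have : ((fun x => x + t * b) '' (s • A)) ∩ ((fun y => s * a + y) '' (t • B)) ⊆
        {s * a + t * b} := by
      rintro _ ⟨⟨_, ⟨x, hx, rfl⟩, rfl⟩, ⟨_, ⟨y, hy, rfl⟩, hxy⟩⟩
      have hx' := ha hx
      have hy' := hb hy
      simp only [smul_eq_mul] at hxy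
      simp only [mem_singleton_iff, smul_eq_mul]
      have e1 : s * x ≤ s * a := by gcongr
      have e2 : t * b ≤ t * y := by gcongr
      linarith
    exact measure_mono_null this (by simp)
  have v1 : volume ((fun x => x + t * b) '' (s • A)) = ENNReal.ofReal s * volume A := by
    rw [image_add_right, measure_preimage_add_right, Measure.addHaar_smul]
    simp [abs_of_pos hs]
  have v2 : volume ((fun y => s * a + y) '' (t • B)) = ENNReal.ofReal t * volume B := by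
    rw [image_add_left, measure_preimage_add, Measure.addHaar_smul]
    simp [abs_of_pos ht]
  calc ENNReal.ofReal s * volume A + ENNReal.ofReal t * volume B
      = volume ((fun x => x + t * b) '' (s • A)) + volume ((fun y => s * a + y) '' (t • B)) := by
        rw [v1, v2]
    _ = volume (((fun x => x + t * b) '' (s • A)) ∪ ((fun y => s * a + y) '' (t • B))) := by
        rw [measure_union₀ c2.measurableSet.nullMeasurableSet hdis]
    _ ≤ volume C := measure_mono (union_subset h1 h2)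

/-- One-dimensional Brunn-Minkowski. -/
theorem bm_one {A B C : Set ℝ} {s t : ℝ} (hs : 0 < s) (ht : 0 < t)
    (hA : MeasurableSet A) (hB : MeasurableSet B)
    (nA : A.Nonempty) (nB : B.Nonempty) (h : ∀ a ∈ A, ∀ b ∈ B, s * a + t * b ∈ C) :
    ENNReal.ofReal s * volume A + ENNReal.ofReal t * volume B ≤ volume C := by
  have hs0 : ENNReal.ofReal s ≠ 0 := by simpa using hs
  have ht0 : ENNReal.ofReal t ≠ 0 := by simpa using ht
  have key : ∀ K L : Set ℝ, IsCompact K → IsCompact L → K ⊆ A → L ⊆ B →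
      ENNReal.ofReal s * volume K + ENNReal.ofReal t * volume L ≤ volume C := by
    intro K L hK hL hKA hLB
    obtain ⟨a0, ha0⟩ := nA
    obtain ⟨b0, hb0⟩ := nB
    have hK' : IsCompact (K ∪ {a0}) := hK.union isCompact_singleton
    have hL' : IsCompact (L ∪ {b0}) := hL.union isCompact_singleton
    have := bm_one_compact hs ht hK' hL' ⟨a0, by simp⟩ ⟨b0, by simp⟩ (C := C) (by
      intro a ha b hb
      apply h
      · rcases ha with ha | ha
        · exact hKA ha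
        · rw [mem_singleton_iff.mp ha]; exact ha0
      · rcases hb with hb | hb
        · exact hLB hb
        · rw [mem_singleton_iff.mp hb]; exact hb0)
    refine le_trans (add_le_add ?_ ?_) this
    · gcongr; exact subset_union_left
    · gcongr; exact subset_union_left
  have key1 : ∀ K : Set ℝ, IsCompact K → K ⊆ A →
      ENNReal.ofReal s * volume K + ENNReal.ofReal t * volume B ≤ volume C := by
    intro K hK hKA
    have : volume B = ⨆ (L) (_ : L ⊆ B) (_ : IsCompact L), volume L := hB.measure_eq_iSup_isCompact _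
    rw [this]
    simp_rw [ENNReal.mul_iSup]
    by_cases htop : volume C = ∞
    · rw [htop]; exact le_top
    have hKfin : ENNReal.ofReal s * volume K ≠ ∞ :=
      ENNReal.mul_ne_top ENNReal.ofReal_ne_top hK.measure_lt_top.ne
    have h0 : ENNReal.ofReal s * volume K ≤ volume C := by
      simpa using key K ∅ hK isCompact_empty hKA (empty_subset _)
    refine le_trans (add_le_add_right (?_ : _ ≤ volume C - ENNReal.ofReal s * volume K) _) ?_
    · refine iSup_le fun L => iSup_le fun hL => iSup_le fun hLc => ?_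
      exact ENNReal.le_sub_of_add_le_left hKfin (key K L hK hLc hKA hL)
    · rw [add_tsub_cancel_of_le h0]
  by_cases htop : volume C = ∞
  · rw [htop]; exact le_top
  have h0 : ENNReal.ofReal t * volume B ≤ volume C := by
    simpa using key1 ∅ isCompact_empty (empty_subset _)
  have hBfin : ENNReal.ofReal t * volume B ≠ ∞ := ne_top_of_le_ne_top htop h0
  have : volume A = ⨆ (L) (_ : L ⊆ A) (_ : IsCompact L), volume L := hA.measure_eq_iSup_isCompact _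
  rw [this]
  simp_rw [ENNReal.mul_iSup]
  refine le_trans (add_le_add_left (?_ : _ ≤ volume C - ENNReal.ofReal t * volume B) _) ?_
  · refine iSup_le fun L => iSup_le fun hL => iSup_le fun hLc => ?_
    exact ENNReal.le_sub_of_add_le_right hBfin (key1 L hLc hL)
  · rw [tsub_add_cancel_of_le h0]


/-- Normalised one-dimensional Prekopa-Leindler. -/
theorem pl_one_normalized {s t : ℝ} (hs : 0 < s) (ht : 0 < t) (hst : s + t = 1)
    (f g h : ℝ → ℝ≥0∞) (hf : Measurable f) (hg : Measurable g)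
    (hh : Measurable h) (hf1 : ⨆ x, f x = 1) (hg1 : ⨆ x, g x = 1)
    (hfg : ∀ x y, f x ^ s * g y ^ t ≤ h (s * x + t * y)) :
    ENNReal.ofReal s * (∫⁻ x, f x) + ENNReal.ofReal t * (∫⁻ x, g x) ≤ ∫⁻ x, h x := by
  have hfle : ∀ x, f x ≤ 1 := fun x => hf1 ▸ le_iSup f x
  have hgle : ∀ x, g x ≤ 1 := fun x => hg1 ▸ le_iSup g x
  set k : ℝ → ℝ≥0∞ := fun x => min (h x) 1 with hk
  have hkm : Measurable k := hh.min measurable_const
  have hk1 : ∀ x, k x ≤ 1 := fun x => min_le_right _ _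
  have hfgk : ∀ x y, f x ^ s * g y ^ t ≤ k (s * x + t * y) := by
    intro x y
    have h1 : f x ^ s * g y ^ t ≤ 1 := by
      calc f x ^ s * g y ^ t ≤ 1 * 1 :=
            mul_le_mul' (ENNReal.rpow_le_one (hfle x) hs.le) (ENNReal.rpow_le_one (hgle y) ht.le)
        _ = 1 := by simp
    simp only [hk]
    exact le_min (hfg x y) h1
  have hcake : ∀ u : ℝ → ℝ≥0∞, Measurable u → (∀ x, u x ≤ 1) →
      ∫⁻ x, u x = ∫⁻ r in Ioi (0 : ℝ), volume {x | r < (u x).toReal} := by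
    intro u hu hu1
    rw [← lintegral_eq_lintegral_meas_lt volume (Filter.Eventually.of_forall fun x => by
      simp) hu.ennreal_toReal.aemeasurable]
    apply lintegral_congr
    intro x
    rw [ENNReal.ofReal_toReal (ne_top_of_le_ne_top ENNReal.one_ne_top (hu1 x))]
  have hkh : ∫⁻ x, k x ≤ ∫⁻ x, h x := lintegral_mono fun x => min_le_left _ _
  refine le_trans ?_ hkh
  rw [hcake f hf hfle, hcake g hg hgle, hcake k hkm hk1]
  have hmeas : ∀ u : ℝ → ℝ≥0∞, Measurable (fun r : ℝ => volume {x | r < (u x).toReal}) := by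
    intro u
    apply Antitone.measurable
    intro a b hab
    exact measure_mono fun x hx => lt_of_le_of_lt hab hx
  rw [← lintegral_const_mul _ (hmeas f), ← lintegral_const_mul _ (hmeas g),
    ← lintegral_add_left ((hmeas f).const_mul _)]
  refine setLIntegral_mono' measurableSet_Ioi ?_
  intro r hr
  have hr0 : 0 < r := hr
  rcases lt_or_ge r 1 with hr1 | hr1
  · apply bm_one hs ht
    · exact measurableSet_lt measurable_const hf.ennreal_toReal
    · exact measurableSet_lt measurable_const hg.ennreal_toReal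
    · have : ENNReal.ofReal r < ⨆ x, f x := by
        rw [hf1]
        rw [← ENNReal.ofReal_one]
        exact (ENNReal.ofReal_lt_ofReal_iff one_pos).2 hr1
      obtain ⟨x, hx⟩ := lt_iSup_iff.1 this
      refine ⟨x, ?_⟩
      exact (ENNReal.ofReal_lt_iff_lt_toReal hr0.le
        (ne_top_of_le_ne_top ENNReal.one_ne_top (hfle x))).1 hx
    · have : ENNReal.ofReal r < ⨆ x, g x := by
        rw [hg1]
        rw [← ENNReal.ofReal_one]
        exact (ENNReal.ofReal_lt_ofReal_iff one_pos).2 hr1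
      obtain ⟨x, hx⟩ := lt_iSup_iff.1 this
      refine ⟨x, ?_⟩
      exact (ENNReal.ofReal_lt_iff_lt_toReal hr0.le
        (ne_top_of_le_ne_top ENNReal.one_ne_top (hgle x))).1 hx
    · intro a ha b hb
      simp only [mem_ofPred_eq] at ha hb ⊢
      have h3 := ENNReal.toReal_mono (ne_top_of_le_ne_top ENNReal.one_ne_top (hk1 _)) (hfgk a b)
      rw [ENNReal.toReal_mul, ← ENNReal.toReal_rpow, ← ENNReal.toReal_rpow] at h3
      have h4 : r < (k (s * a + t * b)).toReal := by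
        calc r = r ^ s * r ^ t := by
              rw [← Real.rpow_add hr0, hst, Real.rpow_one]
          _ < (f a).toReal ^ s * (g b).toReal ^ t := by
            apply mul_lt_mul''
            · exact Real.rpow_lt_rpow hr0.le ha hs
            · exact Real.rpow_lt_rpow hr0.le hb ht
            · positivity
            · positivity
          _ ≤ _ := h3
      exact h4
  · have e1 : {x | r < (f x).toReal} = ∅ := by
      ext x
      simp only [mem_ofPred_eq, mem_empty_iff_false, iff_false, not_lt]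
      refine le_trans ?_ hr1
      have := ENNReal.toReal_mono ENNReal.one_ne_top (hfle x)
      simpa using this
    have e2 : {x | r < (g x).toReal} = ∅ := by
      ext x
      simp only [mem_ofPred_eq, mem_empty_iff_false, iff_false, not_lt]
      refine le_trans ?_ hr1
      have := ENNReal.toReal_mono ENNReal.one_ne_top (hgle x)
      simpa using this
    rw [e1, e2]
    simp

theorem ennreal_amgm {s t : ℝ} (hs : 0 < s) (ht : 0 < t) (hst : s + t = 1) (x y : ℝ≥0∞) :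
    x ^ s * y ^ t ≤ ENNReal.ofReal s * x + ENNReal.ofReal t * y := by
  have hs0 : ENNReal.ofReal s ≠ 0 := by simpa using hs
  have ht0 : ENNReal.ofReal t ≠ 0 := by simpa using ht
  by_cases hx : x = ∞
  · subst hx; simp [ENNReal.mul_top hs0]
  by_cases hy : y = ∞
  · subst hy; simp [ENNReal.mul_top ht0]
  lift x to ℝ≥0 using hx
  lift y to ℝ≥0 using hy
  have := NNReal.geom_mean_le_arith_mean2_weighted s.toNNReal t.toNNReal x y (by
    rw [← Real.toNNReal_add hs.le ht.le, hst, Real.toNNReal_one])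
  rw [Real.coe_toNNReal s hs.le, Real.coe_toNNReal t ht.le] at this
  rw [ENNReal.ofReal, ENNReal.ofReal, ← ENNReal.coe_rpow_of_nonneg _ hs.le,
    ← ENNReal.coe_rpow_of_nonneg _ ht.le]
  exact_mod_cast this

theorem pl_one_bdd {s t : ℝ} (hs : 0 < s) (ht : 0 < t) (hst : s + t = 1)
    (f g h : ℝ → ℝ≥0∞) (hf : Measurable f) (hg : Measurable g)
    (hh : Measurable h) (hf1 : ⨆ x, f x ≠ ∞) (hg1 : ⨆ x, g x ≠ ∞)
    (hfg : ∀ x y, f x ^ s * g y ^ t ≤ h (s * x + t * y)) :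
    (∫⁻ x, f x) ^ s * (∫⁻ x, g x) ^ t ≤ ∫⁻ x, h x := by
  by_cases hf0 : ⨆ x, f x = 0
  · have : f = fun _ => 0 := by
      funext x
      have := le_iSup f x
      rw [hf0] at this
      simpa using this
    rw [this]
    simp [hs]
  by_cases hg0 : ⨆ x, g x = 0
  · have : g = fun _ => 0 := by
      funext x
      have := le_iSup g x
      rw [hg0] at this
      simpa using this
    rw [this]
    simp [ht]
  set a := ⨆ x, f x with ha
  set b := ⨆ x, g x with hb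
  have has : a ^ s ≠ 0 := by simp [hf0, hf1, ENNReal.rpow_eq_zero_iff]
  have has' : a ^ s ≠ ∞ := ENNReal.rpow_ne_top_of_nonneg hs.le hf1
  have hbt : b ^ t ≠ 0 := by simp [hg0, hg1, ENNReal.rpow_eq_zero_iff]
  have hbt' : b ^ t ≠ ∞ := ENNReal.rpow_ne_top_of_nonneg ht.le hg1
  set c := a ^ s * b ^ t with hc
  have hc0 : c ≠ 0 := mul_ne_zero has hbt
  have hc1 : c ≠ ∞ := ENNReal.mul_ne_top has' hbt'
  have key := pl_one_normalized hs ht hst (fun x => a⁻¹ * f x) (fun x => b⁻¹ * g x)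
    (fun x => c⁻¹ * h x) (hf.const_mul _) (hg.const_mul _) (hh.const_mul _)
    (by rw [← ENNReal.mul_iSup, ← ha]; exact ENNReal.inv_mul_cancel hf0 hf1)
    (by rw [← ENNReal.mul_iSup, ← hb]; exact ENNReal.inv_mul_cancel hg0 hg1)
    (by
      intro x y
      rw [ENNReal.mul_rpow_of_nonneg _ _ hs.le, ENNReal.mul_rpow_of_nonneg _ _ ht.le,
        ENNReal.inv_rpow, ENNReal.inv_rpow, hc, ENNReal.mul_inv (Or.inl has) (Or.inl has')]
      calc (a ^ s)⁻¹ * f x ^ s * ((b ^ t)⁻¹ * g y ^ t)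
          = ((a ^ s)⁻¹ * (b ^ t)⁻¹) * (f x ^ s * g y ^ t) := by ring
        _ ≤ _ := by gcongr; exact hfg x y)
  rw [lintegral_const_mul _ hf, lintegral_const_mul _ hg, lintegral_const_mul _ hh] at key
  set F := ∫⁻ x, f x
  set G := ∫⁻ x, g x
  set H := ∫⁻ x, h x
  have h5 := le_trans (ennreal_amgm hs ht hst _ _) key
  rw [ENNReal.mul_rpow_of_nonneg _ _ hs.le, ENNReal.mul_rpow_of_nonneg _ _ ht.le,
        ENNReal.inv_rpow, ENNReal.inv_rpow] at h5
  have h6 : c * ((a ^ s)⁻¹ * F ^ s * ((b ^ t)⁻¹ * G ^ t)) ≤ c * (c⁻¹ * H) := by gcongr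
  have h7 : c * ((a ^ s)⁻¹ * F ^ s * ((b ^ t)⁻¹ * G ^ t)) = F ^ s * G ^ t := by
    rw [hc]
    calc a ^ s * b ^ t * ((a ^ s)⁻¹ * F ^ s * ((b ^ t)⁻¹ * G ^ t))
        = (a ^ s * (a ^ s)⁻¹) * (b ^ t * (b ^ t)⁻¹) * (F ^ s * G ^ t) := by ring
      _ = _ := by
        rw [ENNReal.mul_inv_cancel has has', ENNReal.mul_inv_cancel hbt hbt']; simp
  rw [h7, ← mul_assoc, ENNReal.mul_inv_cancel hc0 hc1, one_mul] at h6
  exact h6

theorem pl_one {s t : ℝ} (hs : 0 < s) (ht : 0 < t) (hst : s + t = 1)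
    (f g h : ℝ → ℝ≥0∞) (hf : Measurable f) (hg : Measurable g)
    (hh : Measurable h) (hfg : ∀ x y, f x ^ s * g y ^ t ≤ h (s * x + t * y)) :
    (∫⁻ x, f x) ^ s * (∫⁻ x, g x) ^ t ≤ ∫⁻ x, h x := by
  have hcut : ∀ u : ℝ → ℝ≥0∞, Measurable u →
      ∫⁻ x, u x = ⨆ n : ℕ, ∫⁻ x, min (u x) n := by
    intro u hu
    rw [← lintegral_iSup (fun n => hu.min measurable_const)
      (fun m n hmn x => min_le_min_left _ (by exact_mod_cast hmn))]
    apply lintegral_congr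
    intro x
    apply le_antisymm
    · by_cases hx : u x = ∞
      · rw [hx]
        simp only [top_le_iff, le_top, inf_of_le_right]
        exact ENNReal.iSup_natCast
      · obtain ⟨n, hn⟩ := ENNReal.exists_nat_gt hx
        refine le_trans ?_ (le_iSup _ n)
        rw [min_eq_left hn.le]
    · exact iSup_le fun n => min_le_left _ _
  have hsup : ∀ (u : ℝ → ℝ≥0∞) (n : ℕ), ⨆ x, min (u x) (n : ℝ≥0∞) ≠ ∞ := by
    intro u n
    refine ne_top_of_le_ne_top (ENNReal.natCast_ne_top n) (iSup_le fun x => min_le_right _ _)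
  have hpow : ∀ (r : ℝ) (_ : 0 < r) (u : ℕ → ℝ≥0∞), (⨆ n, u n) ^ r = ⨆ n, u n ^ r := by
    intro r hr u
    exact (ENNReal.orderIsoRpow r hr).map_iSup u
  rw [hcut f hf, hcut g hg, hpow s hs, hpow t ht, ENNReal.iSup_mul]
  refine iSup_le fun n => ?_
  rw [ENNReal.mul_iSup]
  refine iSup_le fun m => ?_
  refine pl_one_bdd hs ht hst _ _ h (hf.min measurable_const) (hg.min measurable_const) hh
    (hsup f n) (hsup g m) ?_
  intro x y
  exact le_trans (mul_le_mul' (ENNReal.rpow_le_rpow (min_le_left _ _) hs.le)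
    (ENNReal.rpow_le_rpow (min_le_left _ _) ht.le)) (hfg x y)

/-- Prekopa-Leindler inequality on `Fin n → ℝ`. -/
theorem pl_pi {s t : ℝ} (hs : 0 < s) (ht : 0 < t) (hst : s + t = 1) (n : ℕ) :
    ∀ (f g h : (Fin n → ℝ) → ℝ≥0∞), Measurable f → Measurable g →
    Measurable h → (∀ x y, f x ^ s * g y ^ t ≤ h (s • x + t • y)) →
    (∫⁻ x, f x) ^ s * (∫⁻ x, g x) ^ t ≤ ∫⁻ x, h x := by
  induction n with
  | zero =>
    intro f g h hf hg hh hfg
    have hv : (volume : Measure (Fin 0 → ℝ)) univ = 1 := by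
      simp [volume_pi]
    rw [lintegral_unique, lintegral_unique, lintegral_unique, hv]
    simp only [mul_one]
    exact (hfg _ _).trans (le_of_eq (congrArg h (Subsingleton.elim _ _)))
  | succ n ih =>
    intro f g h hf hg hh hfg
    set e := MeasurableEquiv.piFinSuccAbove (fun _ : Fin (n + 1) => ℝ) 0 with he
    have hvp : MeasurePreserving e volume volume :=
      volume_preserving_piFinSuccAbove (fun _ : Fin (n + 1) => ℝ) 0
    have hsplit : ∀ u : (Fin (n + 1) → ℝ) → ℝ≥0∞, Measurable u →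
        ∫⁻ x, u x = ∫⁻ a : ℝ, ∫⁻ x : Fin n → ℝ, u (e.symm (a, x)) := by
      intro u hu
      rw [← hvp.symm.lintegral_comp hu]
      exact lintegral_prod _ (hu.comp e.symm.measurable).aemeasurable
    have hmid : ∀ (a b : ℝ) (x y : Fin n → ℝ),
        s • e.symm (a, x) + t • e.symm (b, y) = e.symm (s * a + t * b, s • x + t • y) := by
      intro a b x y
      funext i
      refine Fin.cases ?_ (fun j => ?_) i
      · simp [he, MeasurableEquiv.piFinSuccAbove]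
      · simp [he, MeasurableEquiv.piFinSuccAbove]
    have hm2 : ∀ u : (Fin (n + 1) → ℝ) → ℝ≥0∞, Measurable u →
        Measurable fun a : ℝ => ∫⁻ x : Fin n → ℝ, u (e.symm (a, x)) := by
      intro u hu
      exact (hu.comp e.symm.measurable).lintegral_prod_right'
    rw [hsplit f hf, hsplit g hg, hsplit h hh]
    apply pl_one hs ht hst _ _ _ (hm2 f hf) (hm2 g hg) (hm2 h hh)
    intro a b
    have hsec : ∀ (u : (Fin (n + 1) → ℝ) → ℝ≥0∞) (c : ℝ), Measurable u →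
        Measurable fun x : Fin n → ℝ => u (e.symm (c, x)) := by
      intro u c hu
      exact hu.comp (e.symm.measurable.comp measurable_prodMk_left)
    apply ih _ _ _ (hsec f a hf) (hsec g b hg) (hsec h _ hh)
    intro x y
    have := hfg (e.symm (a, x)) (e.symm (b, y))
    rwa [hmid] at this

/-- Multiplicative Brunn-Minkowski inequality for measurable sets in `Fin n → ℝ`. -/
theorem bm_mul {s t : ℝ} (hs : 0 < s) (ht : 0 < t) (hst : s + t = 1) {n : ℕ}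
    {A B C : Set (Fin n → ℝ)} (hA : MeasurableSet A) (hB : MeasurableSet B)
    (hC : MeasurableSet C) (h : ∀ a ∈ A, ∀ b ∈ B, s • a + t • b ∈ C) :
    volume A ^ s * volume B ^ t ≤ volume C := by
  have := pl_pi hs ht hst n (A.indicator 1) (B.indicator 1) (C.indicator 1)
    (measurable_one.indicator hA) (measurable_one.indicator hB) (measurable_one.indicator hC)
    (by
      intro x y
      by_cases hx : x ∈ A
      · by_cases hy : y ∈ B
        · simp [indicator_of_mem hx, indicator_of_mem hy, indicator_of_mem (h x hx y hy)]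
        · simp [indicator_of_notMem hy, ht]
      · simp [indicator_of_notMem hx, hs])
  rwa [lintegral_indicator_one hA, lintegral_indicator_one hB, lintegral_indicator_one hC] at this

end Vale.Agent.P254.Unc
end

section

/-! P254, Theorem X, leaf (T): a one-dimensional marginal of a convex body with small tail
probability has its fourth moment controlled (Prekopa-Leindler + Cauchy-Schwarz). -/

open MeasureTheory Set
open scoped ENNReal

namespace Vale.Agent.P254.EX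

theorem meas_abs_gt {n : ℕ} (k : Fin n) (r : ℝ) :
    MeasurableSet {x : Fin n → ℝ | r < |x k|} :=
  measurableSet_lt measurable_const (measurable_pi_apply k).abs

theorem meas_abs_le {n : ℕ} (k : Fin n) (r : ℝ) :
    MeasurableSet {x : Fin n → ℝ | |x k| ≤ r} :=
  measurableSet_le (measurable_pi_apply k).abs measurable_const

theorem pow_intOn {n : ℕ} {K : Set (Fin n → ℝ)} (hk : IsCompact K) (k : Fin n) (m : ℕ) :
    IntegrableOn (fun x : Fin n → ℝ => x k ^ m) K :=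
  (by fun_prop : Continuous fun x : Fin n → ℝ => x k ^ m).continuousOn.integrableOn_compact hk

/-- Cauchy-Schwarz for a finite measure: `(∫ u)² ≤ μ(univ) ∫ u²`. -/
theorem cs_sq {α : Type*} [MeasurableSpace α] {μ : Measure α} [IsFiniteMeasure μ] {u : α → ℝ}
    (h1 : Integrable u μ) (h2 : Integrable (fun x => u x ^ 2) μ) :
    (∫ x, u x ∂μ) ^ 2 ≤ (μ univ).toReal * ∫ x, u x ^ 2 ∂μ := by
  set W := (μ univ).toReal with hW
  set m := ∫ x, u x ∂μ with hm
  set Q := ∫ x, u x ^ 2 ∂μ with hQ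
  have hc : Integrable (fun _ : α => m ^ 2) μ := integrable_const _
  have h0 : 0 ≤ ∫ x, (W * u x - m) ^ 2 ∂μ := integral_nonneg fun x => sq_nonneg _
  have h3 : ∫ x, (W * u x - m) ^ 2 ∂μ = W ^ 2 * Q - 2 * W * m * m + m ^ 2 * W := by
    have e : (fun x => (W * u x - m) ^ 2) =
        fun x => (W ^ 2 * u x ^ 2 - (2 * W * m) * u x) + m ^ 2 := by
      funext x; ring
    have i1 : Integrable (fun x => W ^ 2 * u x ^ 2) μ := h2.const_mul _
    have i2 : Integrable (fun x => (2 * W * m) * u x) μ := h1.const_mul _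
    have i3 : Integrable (fun x => W ^ 2 * u x ^ 2 - (2 * W * m) * u x) μ := i1.sub i2
    rw [e, integral_add i3 hc, integral_sub i1 i2, integral_const_mul, integral_const_mul,
      integral_const]
    simp only [smul_eq_mul, Measure.real, ← hW, ← hm, ← hQ]
    ring
  rw [h3] at h0
  have hW0 : 0 ≤ W := ENNReal.toReal_nonneg
  rcases hW0.eq_or_lt with h | h
  · have hμ : μ = 0 := by
      rw [hW, eq_comm, ENNReal.toReal_eq_zero_iff] at h
      rcases h with h | h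
      · exact Measure.measure_univ_eq_zero.1 h
      · exact absurd h (measure_ne_top μ _)
    have hm0 : m = 0 := by simp [hm, hμ]
    rw [← h, hm0]
    simp
  · by_contra hcon
    push Not at hcon
    nlinarith [mul_pos h (sub_pos.2 hcon)]

/-- Prekopa-Leindler step. -/
theorem tail_pl {n : ℕ} {K : Set (Fin n → ℝ)} (hc : Convex ℝ K) (hk : IsCompact K) (k : Fin n)
    {r : ℝ} (_hr : 0 < r) :
    (∫ x in K ∩ {x | 3 * r < |x k|}, x k ^ 4) * (volume (K ∩ {x | |x k| ≤ r})).toReal ≤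
      (9 * ∫ x in K ∩ {x | r < |x k|}, x k ^ 2) ^ 2 := by
  have hKm := hk.measurableSet
  have hA : MeasurableSet (K ∩ {x : Fin n → ℝ | 3 * r < |x k|}) := hKm.inter (meas_abs_gt k _)
  have hB : MeasurableSet (K ∩ {x : Fin n → ℝ | |x k| ≤ r}) := hKm.inter (meas_abs_le k _)
  have hC : MeasurableSet (K ∩ {x : Fin n → ℝ | r < |x k|}) := hKm.inter (meas_abs_gt k _)
  have hKf : volume K ≠ ∞ := hk.measure_lt_top.ne
  have hm : ∀ j : ℕ, Measurable fun x : Fin n → ℝ => ENNReal.ofReal (x k ^ j) := fun j =>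
    ENNReal.measurable_ofReal.comp ((measurable_pi_apply k).pow_const j)
  have hpl := Unc.pl_pi (s := 1 / 2) (t := 1 / 2) (by norm_num) (by norm_num) (by norm_num) n
    ((K ∩ {x : Fin n → ℝ | 3 * r < |x k|}).indicator fun x => ENNReal.ofReal (x k ^ 4))
    ((K ∩ {x : Fin n → ℝ | |x k| ≤ r}).indicator 1)
    ((K ∩ {x : Fin n → ℝ | r < |x k|}).indicator fun x => 9 * ENNReal.ofReal (x k ^ 2))
    ((hm 4).indicator hA) (measurable_one.indicator hB) (((hm 2).const_mul 9).indicator hC)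
    (by
      intro x y
      by_cases hx : x ∈ K ∩ {x : Fin n → ℝ | 3 * r < |x k|}
      · by_cases hy : y ∈ K ∩ {x : Fin n → ℝ | |x k| ≤ r}
        · have hx2 : 3 * r < |x k| := hx.2
          have hy2 : |y k| ≤ r := hy.2
          have hzk : ((1 / 2 : ℝ) • x + (1 / 2 : ℝ) • y) k = (x k + y k) / 2 := by
            simp only [Pi.add_apply, Pi.smul_apply, smul_eq_mul]; ring
          have habs : |x k| ≤ |x k + y k| + |y k| := by
            have := abs_sub (x k + y k) (y k)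
            rwa [add_sub_cancel_right] at this
          have hz : ((1 / 2 : ℝ) • x + (1 / 2 : ℝ) • y) ∈ K ∩ {x : Fin n → ℝ | r < |x k|} := by
            refine ⟨hc hx.1 hy.1 (by norm_num) (by norm_num) (by norm_num), ?_⟩
            show r < |((1 / 2 : ℝ) • x + (1 / 2 : ℝ) • y) k|
            rw [hzk, abs_div, abs_two, lt_div_iff₀ (by norm_num)]
            linarith
          rw [indicator_of_mem hx, indicator_of_mem hy, indicator_of_mem hz, Pi.one_apply,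
            ENNReal.one_rpow, mul_one, hzk]
          have h9 : (9 : ℝ≥0∞) * ENNReal.ofReal (((x k + y k) / 2) ^ 2) =
              ENNReal.ofReal (9 * ((x k + y k) / 2) ^ 2) := by
            rw [ENNReal.ofReal_mul (by norm_num)]
            norm_num
          have h4 : x k ^ 4 = (x k ^ 2) ^ 2 := by ring
          rw [h9, ENNReal.ofReal_rpow_of_nonneg (by positivity) (by norm_num), h4,
            ← Real.sqrt_eq_rpow, Real.sqrt_sq (by positivity)]
          apply ENNReal.ofReal_le_ofReal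
          have h5 : |x k| ≤ 3 * (|x k + y k| / 2) := by linarith
          calc x k ^ 2 = |x k| ^ 2 := (sq_abs _).symm
            _ ≤ (3 * (|x k + y k| / 2)) ^ 2 := by gcongr
            _ = 9 * (|x k + y k| ^ 2) / 4 := by ring
            _ = 9 * ((x k + y k) / 2) ^ 2 := by rw [sq_abs]; ring
        · rw [indicator_of_notMem hy, ENNReal.zero_rpow_of_pos (by norm_num), mul_zero]
          exact zero_le
      · rw [indicator_of_notMem hx, ENNReal.zero_rpow_of_pos (by norm_num), zero_mul]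
        exact zero_le)
  rw [lintegral_indicator hA, lintegral_indicator_one hB, lintegral_indicator hC,
    lintegral_const_mul 9 (hm 2),
    ← ofReal_integral_eq_lintegral_ofReal ((pow_intOn hk k 4).mono_set inter_subset_left)
      (Filter.Eventually.of_forall fun x => by positivity),
    ← ofReal_integral_eq_lintegral_ofReal ((pow_intOn hk k 2).mono_set inter_subset_left)
      (Filter.Eventually.of_forall fun x => by positivity)] at hpl
  set M := ∫ x in K ∩ {x : Fin n → ℝ | 3 * r < |x k|}, x k ^ 4 with hM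
  set S := ∫ x in K ∩ {x : Fin n → ℝ | r < |x k|}, x k ^ 2 with hS
  have hM0 : 0 ≤ M := integral_nonneg fun x => by positivity
  have hS0 : 0 ≤ S := integral_nonneg fun x => by positivity
  have hBf : volume (K ∩ {x : Fin n → ℝ | |x k| ≤ r}) ≠ ∞ :=
    ne_top_of_le_ne_top hKf (measure_mono inter_subset_left)
  rw [← ENNReal.ofReal_toReal hBf] at hpl
  set a := (volume (K ∩ {x : Fin n → ℝ | |x k| ≤ r})).toReal with ha
  have ha0 : 0 ≤ a := ENNReal.toReal_nonneg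
  have h9 : (9 : ℝ≥0∞) * ENNReal.ofReal S = ENNReal.ofReal (9 * S) := by
    rw [ENNReal.ofReal_mul (by norm_num)]
    norm_num
  rw [h9, ENNReal.ofReal_rpow_of_nonneg hM0 (by norm_num),
    ENNReal.ofReal_rpow_of_nonneg ha0 (by norm_num),
    ← ENNReal.ofReal_mul (by positivity), ENNReal.ofReal_le_ofReal_iff (by positivity),
    ← Real.sqrt_eq_rpow, ← Real.sqrt_eq_rpow] at hpl
  calc M * a = (Real.sqrt M * Real.sqrt a) ^ 2 := by
        rw [mul_pow, Real.sq_sqrt hM0, Real.sq_sqrt ha0]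
    _ ≤ (9 * S) ^ 2 := by gcongr

/-- Leaf (T). -/
theorem tailT {n : ℕ} {K : Set (Fin n → ℝ)} (hc : Convex ℝ K) (hk : IsCompact K)
    (hV : 0 < (volume K).toReal) (k : Fin n) {r : ℝ} (hr : 0 < r)
    (hp : 400 * (volume (K ∩ {x | r < |x k|})).toReal ≤ (volume K).toReal) :
    ∫ x in K, x k ^ 4 ≤ 2 * r ^ 4 * (volume K).toReal := by
  have hKm := hk.measurableSet
  have hA : MeasurableSet (K ∩ {x : Fin n → ℝ | 3 * r < |x k|}) := hKm.inter (meas_abs_gt k _)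
  have hB : MeasurableSet (K ∩ {x : Fin n → ℝ | |x k| ≤ r}) := hKm.inter (meas_abs_le k _)
  have hC : MeasurableSet (K ∩ {x : Fin n → ℝ | r < |x k|}) := hKm.inter (meas_abs_gt k _)
  have hKf : volume K ≠ ∞ := hk.measure_lt_top.ne
  have hBf : volume (K ∩ {x : Fin n → ℝ | |x k| ≤ r}) ≠ ∞ :=
    ne_top_of_le_ne_top hKf (measure_mono inter_subset_left)
  have hCf : volume (K ∩ {x : Fin n → ℝ | r < |x k|}) ≠ ∞ :=
    ne_top_of_le_ne_top hKf (measure_mono inter_subset_left)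
  have h1 := tail_pl hc hk k hr
  -- Cauchy-Schwarz
  have h2 : (∫ x in K ∩ {x : Fin n → ℝ | r < |x k|}, x k ^ 2) ^ 2 ≤
      (volume (K ∩ {x : Fin n → ℝ | r < |x k|})).toReal *
        ∫ x in K ∩ {x : Fin n → ℝ | r < |x k|}, x k ^ 4 := by
    have : IsFiniteMeasure (volume.restrict (K ∩ {x : Fin n → ℝ | r < |x k|})) :=
      ⟨by rw [Measure.restrict_apply_univ]; exact lt_top_iff_ne_top.2 hCf⟩
    have := cs_sq (μ := volume.restrict (K ∩ {x : Fin n → ℝ | r < |x k|}))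
      (u := fun x => x k ^ 2) ((pow_intOn hk k 2).mono_set inter_subset_left) (by
        have := (pow_intOn hk k 4).mono_set (inter_subset_left (t := {x : Fin n → ℝ | r < |x k|}))
        refine this.congr (Filter.Eventually.of_forall fun x => ?_)
        show x k ^ 4 = (x k ^ 2) ^ 2
        ring)
    rw [Measure.restrict_apply_univ] at this
    refine this.trans (le_of_eq ?_)
    congr 1
    refine integral_congr_ae (Filter.Eventually.of_forall fun x => ?_)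
    show (x k ^ 2) ^ 2 = x k ^ 4
    ring
  -- split of C
  have hsplitC : ∫ x in K ∩ {x : Fin n → ℝ | r < |x k|}, x k ^ 4 ≤
      (∫ x in K ∩ {x : Fin n → ℝ | 3 * r < |x k|}, x k ^ 4) +
        81 * r ^ 4 * (volume (K ∩ {x : Fin n → ℝ | r < |x k|})).toReal := by
    have e : ∀ x ∈ K ∩ {x : Fin n → ℝ | r < |x k|}, x k ^ 4 ≤
        (K ∩ {x : Fin n → ℝ | 3 * r < |x k|}).indicator (fun x => x k ^ 4) x + 81 * r ^ 4 := by
      intro x hx
      by_cases h : 3 * r < |x k|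
      · rw [indicator_of_mem (show x ∈ K ∩ {x : Fin n → ℝ | 3 * r < |x k|} from ⟨hx.1, h⟩)]
        have : 0 ≤ 81 * r ^ 4 := by positivity
        linarith
      · rw [indicator_of_notMem (fun h' => h h'.2), zero_add]
        push Not at h
        calc x k ^ 4 = |x k| ^ 4 := by
              rw [show (4 : ℕ) = 2 * 2 from rfl, pow_mul, pow_mul, sq_abs]
          _ ≤ (3 * r) ^ 4 := by gcongr
          _ = 81 * r ^ 4 := by ring
    have hi1 : IntegrableOn ((K ∩ {x : Fin n → ℝ | 3 * r < |x k|}).indicator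
        fun x => x k ^ 4) (K ∩ {x : Fin n → ℝ | r < |x k|}) :=
      ((pow_intOn hk k 4).mono_set inter_subset_left).indicator hA
    have hi2 : IntegrableOn (fun _ : Fin n → ℝ => 81 * r ^ 4)
        (K ∩ {x : Fin n → ℝ | r < |x k|}) := integrableOn_const hCf
    calc ∫ x in K ∩ {x : Fin n → ℝ | r < |x k|}, x k ^ 4 ≤
        ∫ x in K ∩ {x : Fin n → ℝ | r < |x k|},
          ((K ∩ {x : Fin n → ℝ | 3 * r < |x k|}).indicator (fun x => x k ^ 4) x +
            81 * r ^ 4) :=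
        setIntegral_mono_on ((pow_intOn hk k 4).mono_set inter_subset_left) (hi1.add hi2) hC e
      _ = (∫ x in K ∩ {x : Fin n → ℝ | r < |x k|},
            (K ∩ {x : Fin n → ℝ | 3 * r < |x k|}).indicator (fun x => x k ^ 4) x) +
            ∫ _ in K ∩ {x : Fin n → ℝ | r < |x k|}, 81 * r ^ 4 := integral_add hi1 hi2
      _ = _ := by
        rw [setIntegral_indicator hA, setIntegral_const]
        have hsub : (K ∩ {x : Fin n → ℝ | r < |x k|}) ∩ (K ∩ {x : Fin n → ℝ | 3 * r < |x k|}) =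
            K ∩ {x : Fin n → ℝ | 3 * r < |x k|} := by
          apply inter_eq_right.2
          rintro x ⟨hx1, hx2⟩
          have hx2' : 3 * r < |x k| := hx2
          exact ⟨hx1, show r < |x k| by linarith⟩
        rw [hsub, smul_eq_mul, Measure.real]
        ring
  -- split of K
  have hU : K = (K ∩ {x : Fin n → ℝ | |x k| ≤ r}) ∪ (K ∩ {x : Fin n → ℝ | r < |x k|}) := by
    rw [← inter_union_distrib_left]
    refine (inter_eq_left.2 fun x _ => ?_).symm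
    exact le_or_gt (|x k|) r
  have hD : Disjoint (K ∩ {x : Fin n → ℝ | |x k| ≤ r}) (K ∩ {x : Fin n → ℝ | r < |x k|}) := by
    rw [Set.disjoint_left]
    rintro x ⟨-, h1⟩ ⟨-, h2⟩
    exact absurd (show |x k| ≤ r from h1) (not_le.2 h2)
  have hsplitK : ∫ x in K, x k ^ 4 = (∫ x in K ∩ {x : Fin n → ℝ | |x k| ≤ r}, x k ^ 4) +
      ∫ x in K ∩ {x : Fin n → ℝ | r < |x k|}, x k ^ 4 := by
    conv_lhs => rw [hU]
    exact setIntegral_union hD hC ((pow_intOn hk k 4).mono_set inter_subset_left)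
      ((pow_intOn hk k 4).mono_set inter_subset_left)
  have hVs : (volume K).toReal = (volume (K ∩ {x : Fin n → ℝ | |x k| ≤ r})).toReal +
      (volume (K ∩ {x : Fin n → ℝ | r < |x k|})).toReal := by
    conv_lhs => rw [hU]
    rw [measure_union hD hC, ENNReal.toReal_add hBf hCf]
  have hBle : ∫ x in K ∩ {x : Fin n → ℝ | |x k| ≤ r}, x k ^ 4 ≤
      r ^ 4 * (volume (K ∩ {x : Fin n → ℝ | |x k| ≤ r})).toReal := by
    calc ∫ x in K ∩ {x : Fin n → ℝ | |x k| ≤ r}, x k ^ 4 ≤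
        ∫ _ in K ∩ {x : Fin n → ℝ | |x k| ≤ r}, r ^ 4 :=
        setIntegral_mono_on ((pow_intOn hk k 4).mono_set inter_subset_left)
          (integrableOn_const hBf) hB (by
            rintro x ⟨-, hx⟩
            have hx' : |x k| ≤ r := hx
            calc x k ^ 4 = |x k| ^ 4 := by
                  rw [show (4 : ℕ) = 2 * 2 from rfl, pow_mul, pow_mul, sq_abs]
              _ ≤ r ^ 4 := by gcongr)
      _ = _ := by
        rw [setIntegral_const, smul_eq_mul, Measure.real]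
        ring
  rw [hsplitK, hVs]
  rw [hVs] at hp hV
  set M := ∫ x in K ∩ {x : Fin n → ℝ | 3 * r < |x k|}, x k ^ 4 with hM
  set S := ∫ x in K ∩ {x : Fin n → ℝ | r < |x k|}, x k ^ 2 with hS
  set Q := ∫ x in K ∩ {x : Fin n → ℝ | r < |x k|}, x k ^ 4 with hQ
  set a := (volume (K ∩ {x : Fin n → ℝ | |x k| ≤ r})).toReal with ha
  set w := (volume (K ∩ {x : Fin n → ℝ | r < |x k|})).toReal with hw
  have hM0 : 0 ≤ M := integral_nonneg fun x => by positivity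
  have hw0 : 0 ≤ w := ENNReal.toReal_nonneg
  have ha0 : 0 < a := by linarith
  have hwa : 399 * w ≤ a := by linarith
  have hr4 : 0 < r ^ 4 := by positivity
  -- M a ≤ 81 w (M + 81 r^4 w)
  have h3 : M * a ≤ 81 * w * (M + 81 * r ^ 4 * w) := by
    calc M * a ≤ (9 * S) ^ 2 := h1
      _ = 81 * S ^ 2 := by ring
      _ ≤ 81 * (w * Q) := by linarith
      _ ≤ 81 * (w * (M + 81 * r ^ 4 * w)) := by gcongr
      _ = _ := by ring
  have h4 : M * (318 / 399 * a) ≤ 6561 * r ^ 4 * w * (a / 399) := by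
    have e1 : M * (81 * w) ≤ M * (81 / 399 * a) := by
      apply mul_le_mul_of_nonneg_left _ hM0
      linarith
    have e2 : 6561 * r ^ 4 * w * w ≤ 6561 * r ^ 4 * w * (a / 399) := by
      apply mul_le_mul_of_nonneg_left _ (by positivity)
      linarith
    nlinarith
  have h5 : M * 318 ≤ 6561 * r ^ 4 * w := by
    have : M * 318 * a ≤ 6561 * r ^ 4 * w * a := by linarith
    exact le_of_mul_le_mul_right this ha0
  have h6 : r ^ 4 * w * 399 ≤ r ^ 4 * a := by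
    have := mul_le_mul_of_nonneg_left hwa hr4.le
    linarith
  nlinarith

end Vale.Agent.P254.EX
end

section

/-! P254, Theorem X, leaves (A) and (B): logarithmic moment controls second moment. -/

open MeasureTheory Set
open scoped ENNReal

namespace Vale.Agent.P254.EX

theorem log_cont {n : ℕ} (k : Fin n) {ρ : ℝ} (hρ : 0 < ρ) :
    Continuous fun x : Fin n → ℝ => Real.log (1 + x k ^ 2 / ρ) := by
  apply Continuous.log
  · fun_prop
  · intro x
    positivity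

theorem log_nonneg' {y ρ : ℝ} (hρ : 0 < ρ) : 0 ≤ Real.log (1 + y ^ 2 / ρ) :=
  Real.log_nonneg (by
    have : 0 ≤ y ^ 2 / ρ := by positivity
    linarith)

/-- Markov. -/
theorem markov_log {n : ℕ} {K : Set (Fin n → ℝ)} (hk : IsCompact K)
    (hV : 0 < (volume K).toReal) (k : Fin n) {ρ r c : ℝ} (hρ : 0 < ρ) (hr : 0 < r) (hc : 0 < c)
    (hcr : c ≤ Real.log (1 + r ^ 2 / ρ))
    (hb : 400 * ((volume K).toReal⁻¹ * ∫ x in K, Real.log (1 + x k ^ 2 / ρ)) ≤ c) :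
    400 * (volume (K ∩ {x | r < |x k|})).toReal ≤ (volume K).toReal := by
  have hKm := hk.measurableSet
  have hC : MeasurableSet (K ∩ {x : Fin n → ℝ | r < |x k|}) := hKm.inter (meas_abs_gt k _)
  have hKf : volume K ≠ ∞ := hk.measure_lt_top.ne
  have hCf : volume (K ∩ {x : Fin n → ℝ | r < |x k|}) ≠ ∞ :=
    ne_top_of_le_ne_top hKf (measure_mono inter_subset_left)
  have hint : IntegrableOn (fun x : Fin n → ℝ => Real.log (1 + x k ^ 2 / ρ)) K :=
    (log_cont k hρ).continuousOn.integrableOn_compact hk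
  have h1 : c * (volume (K ∩ {x : Fin n → ℝ | r < |x k|})).toReal ≤
      ∫ x in K, Real.log (1 + x k ^ 2 / ρ) := by
    calc c * (volume (K ∩ {x : Fin n → ℝ | r < |x k|})).toReal =
        ∫ _ in K ∩ {x : Fin n → ℝ | r < |x k|}, c := by
          rw [setIntegral_const, smul_eq_mul, Measure.real]
          ring
      _ ≤ ∫ x in K ∩ {x : Fin n → ℝ | r < |x k|}, Real.log (1 + x k ^ 2 / ρ) :=
          setIntegral_mono_on (integrableOn_const hCf) (hint.mono_set inter_subset_left) hC (by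
            rintro x ⟨-, hx⟩
            have hx' : r < |x k| := hx
            refine hcr.trans (Real.log_le_log (by positivity) ?_)
            have : r ^ 2 ≤ x k ^ 2 := by
              rw [← sq_abs (x k)]
              gcongr
            gcongr)
      _ ≤ _ := setIntegral_mono_set hint (Filter.Eventually.of_forall fun x => log_nonneg' hρ)
          (Filter.Eventually.of_forall fun x hx => inter_subset_left hx)
  have h2 : 400 * ∫ x in K, Real.log (1 + x k ^ 2 / ρ) ≤ c * (volume K).toReal := by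
    have := mul_le_mul_of_nonneg_right hb hV.le
    calc 400 * ∫ x in K, Real.log (1 + x k ^ 2 / ρ) =
        400 * ((volume K).toReal⁻¹ * ∫ x in K, Real.log (1 + x k ^ 2 / ρ)) *
          (volume K).toReal := by field_simp
      _ ≤ _ := this
  have h3 : c * (400 * (volume (K ∩ {x : Fin n → ℝ | r < |x k|})).toReal) ≤
      c * (volume K).toReal := by linarith
  exact le_of_mul_le_mul_left h3 hc

theorem second_le {n : ℕ} {K : Set (Fin n → ℝ)} (hk : IsCompact K)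
    (hV : 0 < (volume K).toReal) (k : Fin n) {r : ℝ} (hr : 0 < r)
    (h4 : ∫ x in K, x k ^ 4 ≤ 2 * r ^ 4 * (volume K).toReal) :
    (volume K).toReal⁻¹ * ∫ x in K, x k ^ 2 ≤ 2 * r ^ 2 := by
  have hKf : volume K ≠ ∞ := hk.measure_lt_top.ne
  have : IsFiniteMeasure (volume.restrict K) :=
    ⟨by rw [Measure.restrict_apply_univ]; exact lt_top_iff_ne_top.2 hKf⟩
  have h := cs_sq (μ := volume.restrict K) (u := fun x => x k ^ 2) (pow_intOn hk k 2) (by
        refine (pow_intOn hk k 4).congr (Filter.Eventually.of_forall fun x => ?_)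
        show x k ^ 4 = (x k ^ 2) ^ 2
        ring)
  rw [Measure.restrict_apply_univ] at h
  have e : ∫ x in K, (x k ^ 2) ^ 2 = ∫ x in K, x k ^ 4 := by
    refine integral_congr_ae (Filter.Eventually.of_forall fun x => ?_)
    show (x k ^ 2) ^ 2 = x k ^ 4
    ring
  rw [e] at h
  set V := (volume K).toReal
  set S := ∫ x in K, x k ^ 2
  have h5 : S ^ 2 ≤ (2 * r ^ 2 * V) ^ 2 := by
    calc S ^ 2 ≤ V * (2 * r ^ 4 * V) := h.trans (mul_le_mul_of_nonneg_left h4 hV.le)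
      _ ≤ (2 * r ^ 2 * V) ^ 2 := by
        have : 0 ≤ (r ^ 2 * V) ^ 2 := sq_nonneg _
        nlinarith
  have h6 : S ≤ 2 * r ^ 2 * V := by
    exact (le_abs_self S).trans (abs_le_of_sq_le_sq h5 (by positivity))
  rw [inv_mul_le_iff₀ hV]
  linarith

/-- Leaf (A). -/
theorem leafA {n : ℕ} {K : Set (Fin n → ℝ)} (hc : Convex ℝ K) (hk : IsCompact K)
    (hV : 0 < (volume K).toReal) (k : Fin n) {ρ : ℝ} (hρ : 0 < ρ) :
    (volume K).toReal⁻¹ * ∫ x in K, x k ^ 2 ≤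
      2 * ρ * Real.exp (400 * ((volume K).toReal⁻¹ * ∫ x in K, Real.log (1 + x k ^ 2 / ρ))) := by
  set b := (volume K).toReal⁻¹ * ∫ x in K, Real.log (1 + x k ^ 2 / ρ) with hb
  set r := Real.sqrt (ρ * Real.exp (400 * b)) with hr
  have hr0 : 0 < r := Real.sqrt_pos.2 (by positivity)
  have hr2 : r ^ 2 = ρ * Real.exp (400 * b) := Real.sq_sqrt (by positivity)
  have hquo : r ^ 2 / ρ = Real.exp (400 * b) := by
    rw [hr2]; field_simp
  have hlog : 400 * b ≤ Real.log (1 + Real.exp (400 * b)) := by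
    calc 400 * b = Real.log (Real.exp (400 * b)) := (Real.log_exp _).symm
      _ ≤ _ := Real.log_le_log (Real.exp_pos _) (by linarith)
  have hpos : 0 < Real.log (1 + Real.exp (400 * b)) :=
    Real.log_pos (by linarith [Real.exp_pos (400 * b)])
  have hm := markov_log hk hV k (c := Real.log (1 + r ^ 2 / ρ)) hρ hr0
    (by rw [hquo]; exact hpos) le_rfl (by rw [hquo]; exact hlog)
  have h := second_le hk hV k hr0 (tailT hc hk hV k hr0 hm)
  rw [hr2] at h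
  linarith

/-- Leaf (B). -/
theorem leafB {n : ℕ} {K : Set (Fin n → ℝ)} (hc : Convex ℝ K) (hk : IsCompact K)
    (hV : 0 < (volume K).toReal) (k : Fin n) {σ : ℝ} (hσ : 0 < σ)
    (hb : 5e7 * ((volume K).toReal⁻¹ * ∫ x in K, Real.log (1 + x k ^ 2 / (5e7 * σ))) ≤ 2) :
    (volume K).toReal⁻¹ * ∫ x in K, x k ^ 2 ≤
      σ * (5e7 * ((volume K).toReal⁻¹ * ∫ x in K, Real.log (1 + x k ^ 2 / (5e7 * σ))) +
        0.01284) := by
  have hρ : 0 < 5e7 * σ := by positivity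
  set ρ := 5e7 * σ with hρd
  set b := (volume K).toReal⁻¹ * ∫ x in K, Real.log (1 + x k ^ 2 / ρ) with hbd
  set r := Real.sqrt (ρ * (16001 / 10 ^ 9)) with hr
  have hr0 : 0 < r := Real.sqrt_pos.2 (by positivity)
  have hr2 : r ^ 2 = ρ * (16001 / 10 ^ 9) := Real.sq_sqrt (by positivity)
  have hquo : r ^ 2 / ρ = 16001 / 10 ^ 9 := by
    rw [hr2]; field_simp
  have hlog : (16 / 10 ^ 6 : ℝ) ≤ Real.log (1 + 16001 / 10 ^ 9) := by
    have h := Real.one_sub_inv_le_log_of_pos (show (0 : ℝ) < 1 + 16001 / 10 ^ 9 by norm_num)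
    refine le_trans ?_ h
    norm_num
  have hm := markov_log hk hV k (c := 16 / 10 ^ 6) hρ hr0 (by norm_num) (by rw [hquo]; exact hlog)
    (by rw [← hbd]; norm_num at hb ⊢; linarith)
  have h4 := tailT hc hk hV k hr0 hm
  have hint : IntegrableOn (fun x : Fin n → ℝ => Real.log (1 + x k ^ 2 / ρ)) K :=
    (log_cont k hρ).continuousOn.integrableOn_compact hk
  -- pointwise: y ≤ log (1+y) + y²/2
  have hpt : ∀ y : ℝ, 0 ≤ y → y ≤ Real.log (1 + y) + y ^ 2 / 2 := by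
    intro y hy
    have h1 := Real.le_log_one_add_of_nonneg hy
    have h2 : y - y ^ 2 / 2 ≤ 2 * y / (y + 2) := by
      rw [le_div_iff₀ (by linarith)]
      nlinarith [mul_nonneg hy (mul_nonneg hy hy)]
    linarith
  have h6 : ∫ x in K, x k ^ 2 / ρ ≤
      (∫ x in K, Real.log (1 + x k ^ 2 / ρ)) + (∫ x in K, x k ^ 4) / (2 * ρ ^ 2) := by
    have e : ∫ x in K, (Real.log (1 + x k ^ 2 / ρ) + x k ^ 4 / (2 * ρ ^ 2)) =
        (∫ x in K, Real.log (1 + x k ^ 2 / ρ)) + (∫ x in K, x k ^ 4) / (2 * ρ ^ 2) := by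
      rw [integral_add hint ((pow_intOn hk k 4).div_const _), integral_div]
    rw [← e]
    refine setIntegral_mono ((pow_intOn hk k 2).div_const _)
      (hint.add ((pow_intOn hk k 4).div_const _)) fun x => ?_
    have := hpt (x k ^ 2 / ρ) (by positivity)
    refine this.trans (le_of_eq ?_)
    have : (x k ^ 2 / ρ) ^ 2 / 2 = x k ^ 4 / (2 * ρ ^ 2) := by
      field_simp
    rw [this]
  rw [integral_div] at h6
  have hI : ∫ x in K, Real.log (1 + x k ^ 2 / ρ) = b * (volume K).toReal := by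
    rw [hbd]; field_simp
  rw [hI] at h6
  have h7 : (∫ x in K, x k ^ 4) / (2 * ρ ^ 2) ≤ (16001 / 10 ^ 9) ^ 2 * (volume K).toReal := by
    rw [div_le_iff₀ (by positivity)]
    refine h4.trans (le_of_eq ?_)
    have : r ^ 4 = (ρ * (16001 / 10 ^ 9)) ^ 2 := by
      rw [← hr2]; ring
    rw [this]
    ring
  have h8 : (∫ x in K, x k ^ 2) / ρ ≤ (b + (16001 / 10 ^ 9) ^ 2) * (volume K).toReal := by
    linarith
  rw [div_le_iff₀ hρ] at h8
  rw [inv_mul_le_iff₀ hV]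
  refine h8.trans ?_
  rw [hρd]
  have h9 : (b + (16001 / 10 ^ 9) ^ 2) * (5e7) ≤ 5e7 * b + 0.01284 := by
    norm_num
    linarith
  calc (b + (16001 / 10 ^ 9) ^ 2) * (volume K).toReal * (5e7 * σ) =
      ((b + (16001 / 10 ^ 9) ^ 2) * 5e7) * ((volume K).toReal * σ) := by ring
    _ ≤ (5e7 * b + 0.01284) * ((volume K).toReal * σ) := by gcongr
    _ = _ := by ring

end Vale.Agent.P254.EX
end

section

/-! P254, unconditional bodies: Brunn-Minkowski, additive form. -/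

open MeasureTheory Set
open scoped ENNReal NNReal Pointwise

namespace Vale.Agent.P254.Unc

theorem volume_smul_real {n : ℕ} {c : ℝ} (hc : 0 < c) (A : Set (Fin n → ℝ)) :
    (volume (c • A)).toReal = c ^ n * (volume A).toReal := by
  rw [Measure.addHaar_smul, ENNReal.toReal_mul, Module.finrank_fin_fun, abs_of_pos (pow_pos hc n),
    ENNReal.toReal_ofReal (pow_pos hc n).le]

/-- additive Brunn-Minkowski inequality. -/
theorem bm_add {n : ℕ} (hn : 0 < n) {A B C : Set (Fin n → ℝ)} (hA : MeasurableSet A)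
    (hB : MeasurableSet B) (hC : MeasurableSet C) {a b c : ℝ} (ha : 0 < a) (hb : 0 < b)
    (hc : 0 ≤ c) (hAv : (volume A).toReal = a ^ n) (hBv : (volume B).toReal = b ^ n)
    (hCv : (volume C).toReal = c ^ n) (hCf : volume C ≠ ⊤)
    (h : ∀ x ∈ A, ∀ y ∈ B, x + y ∈ C) : a + b ≤ c := by
  have hab : 0 < a + b := add_pos ha hb
  have hA1 : volume (a⁻¹ • A) = 1 := by
    have h1 := volume_smul_real (inv_pos.2 ha) A
    rw [hAv, ← mul_pow, inv_mul_cancel₀ ha.ne', one_pow] at h1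
    rw [← ENNReal.toReal_eq_one_iff]
    exact h1
  have hB1 : volume (b⁻¹ • B) = 1 := by
    have h1 := volume_smul_real (inv_pos.2 hb) B
    rw [hBv, ← mul_pow, inv_mul_cancel₀ hb.ne', one_pow] at h1
    rw [← ENNReal.toReal_eq_one_iff]
    exact h1
  have key := bm_mul (s := a / (a + b)) (t := b / (a + b)) (by positivity) (by positivity)
    (by field_simp) (hA.const_smul₀ a⁻¹) (hB.const_smul₀ b⁻¹) (hC.const_smul₀ (a + b)⁻¹) (by
      rintro _ ⟨x, hx, rfl⟩ _ ⟨y, hy, rfl⟩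
      refine ⟨x + y, h x hx y hy, ?_⟩
      have e1 : a / (a + b) * a⁻¹ = (a + b)⁻¹ := by field_simp
      have e2 : b / (a + b) * b⁻¹ = (a + b)⁻¹ := by field_simp
      show (a + b)⁻¹ • (x + y) = (a / (a + b)) • a⁻¹ • x + (b / (a + b)) • b⁻¹ • y
      rw [smul_smul, smul_smul, e1, e2, smul_add])
  rw [hA1, hB1, ENNReal.one_rpow, ENNReal.one_rpow, mul_one] at key
  have hfin : volume ((a + b)⁻¹ • C) ≠ ⊤ := by
    rw [Measure.addHaar_smul]
    exact ENNReal.mul_ne_top ENNReal.ofReal_ne_top hCf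
  have h2 := ENNReal.toReal_mono hfin key
  rw [ENNReal.toReal_one, volume_smul_real (inv_pos.2 hab), hCv, ← mul_pow] at h2
  have h3 : 1 ≤ (a + b)⁻¹ * c := by
    by_contra hlt
    push Not at hlt
    have h4 : ((a + b)⁻¹ * c) ^ n < 1 :=
      pow_lt_one₀ (by positivity) hlt hn.ne'
    linarith
  rw [← div_eq_inv_mul, le_div_iff₀ hab, one_mul] at h3
  exact h3

end Vale.Agent.P254.Unc
end

section

/-! P254, unconditional bodies: a sharp inequality between the first two moments of a coordinate. -/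

open MeasureTheory Set
open scoped ENNReal NNReal Pointwise Interval

namespace Vale.Agent.P254.Unc

section Layer

variable {α : Type*} [MeasurableSpace α] (μ : Measure α) [IsFiniteMeasure μ]

theorem antitone_meas_le (f : α → ℝ) : Antitone fun t : ℝ => μ.real {a | t ≤ f a} := by
  intro s t hst
  exact measureReal_mono (fun a (ha : t ≤ f a) => hst.trans ha)

theorem layer {f : α → ℝ} (hf : Measurable f) (h0 : ∀ᵐ x ∂μ, 0 ≤ f x) {M : ℝ}
    (hM : ∀ᵐ x ∂μ, f x ≤ M) (hM0 : 0 ≤ M) {g : ℝ → ℝ} (hg : Continuous g)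
    (hg0 : ∀ t, 0 ≤ t → 0 ≤ g t) :
    ∫ x, (∫ t in (0 : ℝ)..f x, g t) ∂μ = ∫ t in (0 : ℝ)..M, g t * μ.real {a | t ≤ f a} := by
  have key := lintegral_comp_eq_lintegral_meas_le_mul μ h0 hf.aemeasurable
    (g := g) (fun t _ => hg.intervalIntegrable 0 t)
    (by
      filter_upwards [ae_restrict_mem measurableSet_Ioi] with t ht
      exact hg0 t (le_of_lt ht))
  have hG : Continuous fun x : ℝ => ∫ t in (0 : ℝ)..x, g t :=
    intervalIntegral.continuous_primitive (fun a b => hg.intervalIntegrable a b) 0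
  rw [integral_eq_lintegral_of_nonneg_ae (by
      filter_upwards [h0] with x hx
      exact intervalIntegral.integral_nonneg hx fun t ht => hg0 t ht.1)
    (show AEStronglyMeasurable (fun x => ∫ t in (0 : ℝ)..f x, g t) μ from
      (hG.measurable.comp hf).aestronglyMeasurable), key, intervalIntegral.integral_of_le hM0]
  have hmeas : Measurable fun t : ℝ => g t * μ.real {a | t ≤ f a} :=
    hg.measurable.mul (antitone_meas_le μ f).measurable
  rw [integral_eq_lintegral_of_nonneg_ae (by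
      filter_upwards [ae_restrict_mem measurableSet_Ioc] with t ht
      exact mul_nonneg (hg0 t ht.1.le) measureReal_nonneg) hmeas.aestronglyMeasurable]
  congr 1
  have h1 : ∫⁻ t in Ioi (0 : ℝ), μ {a : α | t ≤ f a} * ENNReal.ofReal (g t) =
      ∫⁻ t in Ioc (0 : ℝ) M, μ {a : α | t ≤ f a} * ENNReal.ofReal (g t) := by
    rw [← lintegral_indicator measurableSet_Ioi, ← lintegral_indicator measurableSet_Ioc]
    congr 1
    funext t
    by_cases ht : t ∈ Ioc (0 : ℝ) M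
    · rw [indicator_of_mem ht, indicator_of_mem (show t ∈ Ioi (0 : ℝ) from ht.1)]
    · rw [indicator_of_notMem ht]
      by_cases ht0 : t ∈ Ioi (0 : ℝ)
      · rw [indicator_of_mem ht0]
        have hMt : M < t := by
          by_contra hlt
          exact ht ⟨ht0, not_lt.1 hlt⟩
        have : μ {a : α | t ≤ f a} = 0 := by
          refine measure_mono_null (t := {a | ¬ f a ≤ M}) ?_ (ae_iff.1 hM)
          intro a (ha : t ≤ f a)
          exact not_le.2 (hMt.trans_le ha)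
        rw [this, zero_mul]
      · rw [indicator_of_notMem ht0]
  rw [h1]
  refine lintegral_congr_ae ?_
  filter_upwards [ae_restrict_mem measurableSet_Ioc] with t ht
  rw [mul_comm, ENNReal.ofReal_mul (hg0 t ht.1.le)]
  congr 1
  exact (ENNReal.ofReal_toReal (measure_ne_top μ _)).symm

end Layer

/-- comparison of first moments, one crossing. -/
theorem crossing {F H : ℝ → ℝ} {M : ℝ} (hM : 0 ≤ M) (hF : IntervalIntegrable F volume 0 M)
    (hH : IntervalIntegrable H volume 0 M)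
    (hcross : ∀ s t, 0 < s → s < t → t ≤ M → H t < F t → H s ≤ F s)
    (heq : ∫ t in (0 : ℝ)..M, F t = ∫ t in (0 : ℝ)..M, H t) :
    ∫ t in (0 : ℝ)..M, t * F t ≤ ∫ t in (0 : ℝ)..M, t * H t := by
  set S : Set ℝ := {t | 0 < t ∧ t ≤ M ∧ H t < F t} with hS
  set t₀ := sSup S with ht₀
  have hbdd : BddAbove S := ⟨M, fun t ht => ht.2.1⟩
  have hpt : ∀ t ∈ Ioo (0 : ℝ) M, (t - t₀) * (F t - H t) ≤ 0 := by
    intro t ht
    rcases lt_or_ge t t₀ with h1 | h1
    · have hne : S.Nonempty := by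
        by_contra hne
        rw [not_nonempty_iff_eq_empty] at hne
        rw [ht₀, hne, Real.sSup_empty] at h1
        exact absurd ht.1 (not_lt.2 h1.le)
      obtain ⟨t', ht', htt'⟩ := exists_lt_of_lt_csSup hne h1
      have := hcross t t' ht.1 htt' ht'.2.1 ht'.2.2
      exact mul_nonpos_of_nonpos_of_nonneg (by linarith) (by linarith)
    · rcases eq_or_lt_of_le h1 with h2 | h2
      · rw [h2]
        simp
      · have h3 : F t ≤ H t := by
          by_contra hlt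
          push Not at hlt
          have : t ∈ S := ⟨ht.1, ht.2.le, hlt⟩
          exact absurd (le_csSup hbdd this) (not_le.2 h2)
        exact mul_nonpos_of_nonneg_of_nonpos (by linarith) (by linarith)
  have hcF : IntervalIntegrable (fun t => t * F t) volume 0 M :=
    hF.continuousOn_mul continuousOn_id
  have hcH : IntervalIntegrable (fun t => t * H t) volume 0 M :=
    hH.continuousOn_mul continuousOn_id
  have h1 : ∫ t in (0 : ℝ)..M, (t - t₀) * (F t - H t) ≤ 0 := by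
    have h2 : ∫ t in (0 : ℝ)..M, (t - t₀) * (F t - H t) ≤ ∫ t in (0 : ℝ)..M, (0 : ℝ) := by
      refine intervalIntegral.integral_mono_on_of_le_Ioo hM ?_ (by simp) hpt
      exact (hF.sub hH).continuousOn_mul (continuousOn_id.sub continuousOn_const)
    simpa using h2
  have h3 : ∫ t in (0 : ℝ)..M, (t - t₀) * (F t - H t) =
      (∫ t in (0 : ℝ)..M, t * F t) - (∫ t in (0 : ℝ)..M, t * H t) := by
    have e1 : (fun t => (t - t₀) * (F t - H t)) =
        fun t => (t * F t - t * H t) - t₀ * (F t - H t) := by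
      funext t
      ring
    rw [e1, intervalIntegral.integral_sub (hcF.sub hcH) ((hF.sub hH).const_mul t₀),
      intervalIntegral.integral_sub hcF hcH, intervalIntegral.integral_const_mul,
      intervalIntegral.integral_sub hF hH, heq]
    ring
  linarith

/-- the comparison function. -/
noncomputable def cmp (V b : ℝ) (n : ℕ) (t : ℝ) : ℝ := V * (max 0 (1 - t / b)) ^ n

theorem cmp_continuous (V b : ℝ) (n : ℕ) : Continuous (cmp V b n) := by
  unfold cmp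
  fun_prop

theorem cmp_of_le {V b t : ℝ} (hb : 0 < b) (h : t ≤ b) (n : ℕ) :
    cmp V b n t = V * (1 - t / b) ^ n := by
  unfold cmp
  rw [max_eq_right]
  have : t / b ≤ 1 := (div_le_one hb).2 h
  linarith

theorem cmp_of_ge {V b t : ℝ} (hb : 0 < b) (h : b ≤ t) {n : ℕ} (hn : n ≠ 0) :
    cmp V b n t = 0 := by
  unfold cmp
  rw [max_eq_left, zero_pow hn, mul_zero]
  have : 1 ≤ t / b := (one_le_div hb).2 h
  linarith

theorem integral_cmp {V b M : ℝ} (hb : 0 < b) (hbM : b ≤ M) {n : ℕ} (hn : n ≠ 0) :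
    ∫ t in (0 : ℝ)..M, cmp V b n t = V * b / (n + 1) := by
  have hc := cmp_continuous V b n
  rw [← intervalIntegral.integral_add_adjacent_intervals (hc.intervalIntegrable 0 b)
    (hc.intervalIntegrable b M)]
  have h1 : ∫ t in b..M, cmp V b n t = 0 := by
    rw [intervalIntegral.integral_congr (g := fun _ => (0 : ℝ)) (fun t ht => ?_)]
    · simp
    · rw [uIcc_of_le hbM] at ht
      exact cmp_of_ge hb ht.1 hn
  have h2 : ∫ t in (0 : ℝ)..b, cmp V b n t = ∫ t in (0 : ℝ)..b, V * (1 - t / b) ^ n := by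
    refine intervalIntegral.integral_congr (fun t ht => ?_)
    rw [uIcc_of_le hb.le] at ht
    exact cmp_of_le hb ht.2 n
  have hn1 : ((n : ℝ) + 1) ≠ 0 := by positivity
  have h3 : ∀ t ∈ uIcc (0 : ℝ) b,
      HasDerivAt (fun t => -(V * b / (n + 1)) * (1 - t / b) ^ (n + 1)) (V * (1 - t / b) ^ n) t := by
    intro t _
    have hd : HasDerivAt (fun t : ℝ => 1 - t / b) (-(1 / b)) t := by
      have := ((hasDerivAt_id t).div_const b).const_sub 1
      simpa using this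
    refine ((hd.pow (n + 1)).const_mul (-(V * b / (n + 1)))).congr_deriv ?_
    rw [Nat.add_sub_cancel]
    push_cast
    field_simp
  rw [h1, h2, intervalIntegral.integral_eq_sub_of_hasDerivAt h3
    ((by fun_prop : Continuous fun t : ℝ => V * (1 - t / b) ^ n).intervalIntegrable 0 b),
    div_self hb.ne']
  simp

theorem integral_mul_cmp {V b M : ℝ} (hb : 0 < b) (hbM : b ≤ M) {n : ℕ} (hn : n ≠ 0) :
    ∫ t in (0 : ℝ)..M, t * cmp V b n t = V * b ^ 2 / ((n + 1) * (n + 2)) := by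
  have hc : Continuous fun t => t * cmp V b n t := continuous_id.mul (cmp_continuous V b n)
  rw [← intervalIntegral.integral_add_adjacent_intervals (hc.intervalIntegrable 0 b)
    (hc.intervalIntegrable b M)]
  have h1 : ∫ t in b..M, t * cmp V b n t = 0 := by
    rw [intervalIntegral.integral_congr (g := fun _ => (0 : ℝ)) (fun t ht => ?_)]
    · simp
    · rw [uIcc_of_le hbM] at ht
      show t * cmp V b n t = 0
      rw [cmp_of_ge hb ht.1 hn, mul_zero]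
  have h2 : ∫ t in (0 : ℝ)..b, t * cmp V b n t =
      ∫ t in (0 : ℝ)..b, t * (V * (1 - t / b) ^ n) := by
    refine intervalIntegral.integral_congr (fun t ht => ?_)
    rw [uIcc_of_le hb.le] at ht
    show t * cmp V b n t = _
    rw [cmp_of_le hb ht.2 n]
  have hn1 : ((n : ℝ) + 1) ≠ 0 := by positivity
  have hn2 : ((n : ℝ) + 2) ≠ 0 := by positivity
  -- `t = b - b (1 - t / b)`
  have h3 : ∀ t ∈ uIcc (0 : ℝ) b,
      HasDerivAt (fun t => -(V * b ^ 2 / (n + 1)) * (1 - t / b) ^ (n + 1) +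
        (V * b ^ 2 / (n + 2)) * (1 - t / b) ^ (n + 2)) (t * (V * (1 - t / b) ^ n)) t := by
    intro t _
    have hd : HasDerivAt (fun t : ℝ => 1 - t / b) (-(1 / b)) t := by
      have := ((hasDerivAt_id t).div_const b).const_sub 1
      simpa using this
    have h4 := (hd.pow (n + 1)).const_mul (-(V * b ^ 2 / (n + 1)))
    have h5 := (hd.pow (n + 2)).const_mul (V * b ^ 2 / (n + 2))
    refine (h4.add h5).congr_deriv ?_
    have hu : t = b * (1 - (1 - t / b)) := by field_simp; ring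
    rw [Nat.add_sub_cancel, show n + 2 - 1 = n + 1 from rfl, pow_succ]
    push_cast
    generalize 1 - t / b = u at hu
    subst hu
    field_simp
    ring
  rw [h1, h2, intervalIntegral.integral_eq_sub_of_hasDerivAt h3
    ((by fun_prop : Continuous fun t : ℝ => t * (V * (1 - t / b) ^ n)).intervalIntegrable 0 b),
    div_self hb.ne']
  simp
  field_simp
  ring

/-- **Berwald's inequality** for a coordinate of a convex body in a half space. -/
theorem berwald {n : ℕ} {K : Set (Fin n → ℝ)} (hc : Convex ℝ K) (hK : IsCompact K) (k : Fin n)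
    (h0 : ∀ x ∈ K, 0 ≤ x k) :
    (volume K).toReal * ∫ x in K, x k ^ 2 ≤ 2 * (n + 1) / (n + 2) * (∫ x in K, x k) ^ 2 := by
  have hn : 0 < n := Fin.pos k
  have hn0 : n ≠ 0 := hn.ne'
  set μ : Measure (Fin n → ℝ) := volume.restrict K with hμ
  have : IsFiniteMeasure μ := ⟨by rw [hμ, Measure.restrict_apply_univ]; exact hK.measure_lt_top⟩
  have hf : Measurable fun x : Fin n → ℝ => x k := measurable_pi_apply k
  have h0' : ∀ᵐ x ∂μ, 0 ≤ x k := by
    filter_upwards [ae_restrict_mem hK.measurableSet] with x hx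
    exact h0 x hx
  set V := (volume K).toReal with hV
  have hV0 : 0 ≤ V := ENNReal.toReal_nonneg
  obtain ⟨M₁, hM₁⟩ : ∃ M₁ : ℝ, ∀ x ∈ K, x k ≤ M₁ := by
    obtain ⟨M₁, hM₁⟩ := (hK.image (continuous_apply k)).bddAbove
    exact ⟨M₁, fun x hx => hM₁ ⟨x, hx, rfl⟩⟩
  set m := ∫ x in K, x k with hm
  have hm0 : 0 ≤ m := setIntegral_nonneg hK.measurableSet h0
  rcases eq_or_lt_of_le hm0 with hm1 | hm1
  · -- the coordinate vanishes almost everywhere
    have hint : Integrable (fun x : Fin n → ℝ => x k) μ :=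
      (continuous_apply k).continuousOn.integrableOn_compact hK
    have h1 : (fun x : Fin n → ℝ => x k) =ᵐ[μ] 0 :=
      (integral_eq_zero_iff_of_nonneg_ae h0' hint).1 hm1.symm
    have h2 : ∫ x in K, x k ^ 2 = 0 := by
      refine integral_eq_zero_of_ae ?_
      filter_upwards [h1] with x hx
      simp only [Pi.zero_apply] at hx ⊢
      rw [hx]
      simp
    rw [h2, mul_zero]
    positivity
  rcases eq_or_lt_of_le hV0 with hV1 | hV1
  · rw [← hV1, zero_mul]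
    positivity
  set b := (n + 1) * m / V with hb
  have hbpos : 0 < b := by positivity
  set M := max b M₁ with hM
  have hbM : b ≤ M := le_max_left _ _
  have hM0 : 0 ≤ M := hbpos.le.trans hbM
  have hMx : ∀ᵐ x ∂μ, x k ≤ M := by
    filter_upwards [ae_restrict_mem hK.measurableSet] with x hx
    exact (hM₁ x hx).trans (le_max_right _ _)
  set F : ℝ → ℝ := fun t => μ.real {x : Fin n → ℝ | t ≤ x k} with hF
  have e1 : m = ∫ t in (0 : ℝ)..M, F t := by
    have := layer μ hf h0' hMx hM0 (g := fun _ => 1) continuous_const (fun _ _ => zero_le_one)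
    simp only [intervalIntegral.integral_const, smul_eq_mul, mul_one, sub_zero, one_mul] at this
    exact this
  have e2 : ∫ x in K, x k ^ 2 = ∫ t in (0 : ℝ)..M, 2 * (t * F t) := by
    have := layer μ hf h0' hMx hM0 (g := fun t => 2 * t) (by fun_prop)
      (fun t ht => by positivity)
    have e3 : ∀ x : Fin n → ℝ, ∫ t in (0 : ℝ)..x k, 2 * t = x k ^ 2 := by
      intro x
      rw [intervalIntegral.integral_const_mul, integral_id]
      ring
    simp only [e3] at this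
    rw [this]
    exact intervalIntegral.integral_congr fun t _ => by ring
  have hFint : IntervalIntegrable F volume 0 M := (antitone_meas_le μ _).intervalIntegrable
  have hHint : IntervalIntegrable (cmp V b n) volume 0 M :=
    (cmp_continuous V b n).intervalIntegrable 0 M
  have hFv : ∀ t, F t = (volume (K ∩ {x : Fin n → ℝ | t ≤ x k})).toReal := by
    intro t
    show (μ {x : Fin n → ℝ | t ≤ x k}).toReal = _
    have h1 : MeasurableSet {x : Fin n → ℝ | t ≤ x k} := hf measurableSet_Ici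
    rw [hμ, Measure.restrict_apply h1, inter_comm]
  have hcl : ∀ t, MeasurableSet (K ∩ {x : Fin n → ℝ | t ≤ x k}) := fun t =>
    hK.measurableSet.inter (hf measurableSet_Ici)
  have hroot : ∀ y : ℝ, 0 ≤ y → ∃ c : ℝ, 0 ≤ c ∧ y = c ^ n := fun y hy =>
    ⟨y ^ ((n : ℝ)⁻¹), Real.rpow_nonneg hy _, (Real.rpow_inv_natCast_pow hy hn0).symm⟩
  obtain ⟨v, hv0, hv⟩ := hroot V hV0
  have hvpos : 0 < v := by
    rcases eq_or_lt_of_le hv0 with h | h
    · rw [← h, zero_pow hn0] at hv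
      exact absurd hv hV1.ne'
    · exact h
  have hcross : ∀ s t, 0 < s → s < t → t ≤ M → cmp V b n t < F t → cmp V b n s ≤ F s := by
    intro s t hs hst _ hlt
    obtain ⟨a, ha0, ha⟩ := hroot (F t) measureReal_nonneg
    obtain ⟨c, hc0, hc'⟩ := hroot (F s) measureReal_nonneg
    have ht : 0 < t := hs.trans hst
    have hcmp : ∀ r, cmp V b n r = (v * max 0 (1 - r / b)) ^ n := by
      intro r
      unfold cmp
      rw [hv, mul_pow]
    rw [hcmp, ha] at hlt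
    have hlt' : v * max 0 (1 - t / b) < a := lt_of_pow_lt_pow_left₀ n ha0 hlt
    have ha1 : 0 < a := lt_of_le_of_lt (mul_nonneg hv0 (le_max_left _ _)) hlt'
    set l := s / t with hl
    have hl0 : 0 < l := div_pos hs ht
    have hl1 : l < 1 := (div_lt_one ht).2 hst
    have key := bm_add hn (A := l • (K ∩ {x : Fin n → ℝ | t ≤ x k})) (B := (1 - l) • K)
      (C := K ∩ {x : Fin n → ℝ | s ≤ x k}) ((hcl t).const_smul₀ l)
      (hK.measurableSet.const_smul₀ _) (hcl s) (a := l * a) (b := (1 - l) * v) (c := c)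
      (mul_pos hl0 ha1) (mul_pos (by linarith) hvpos) hc0
      (by rw [volume_smul_real hl0, ← hFv, ha, mul_pow])
      (by rw [volume_smul_real (by linarith), ← hV, hv, mul_pow])
      (by rw [← hFv, hc'])
      (ne_top_of_le_ne_top hK.measure_lt_top.ne (measure_mono inter_subset_left))
      (by
        rintro _ ⟨x, ⟨hx, hxt⟩, rfl⟩ _ ⟨y, hy, rfl⟩
        refine ⟨hc hx hy hl0.le (by linarith) (by ring), ?_⟩
        show s ≤ l * x k + (1 - l) * y k
        have h3 : l * t ≤ l * x k := mul_le_mul_of_nonneg_left hxt hl0.le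
        have h4 : l * t = s := div_mul_cancel₀ s ht.ne'
        have h5 : 0 ≤ (1 - l) * y k := mul_nonneg (by linarith) (h0 y hy)
        linarith)
    rw [hcmp, hc']
    refine pow_le_pow_left₀ (mul_nonneg hv0 (le_max_left _ _)) ?_ n
    rw [mul_max_of_nonneg _ _ hv0, mul_zero]
    refine max_le hc0 ?_
    have h6 : v * (1 - t / b) ≤ a :=
      (mul_le_mul_of_nonneg_left (le_max_right _ _) hv0).trans hlt'.le
    have h7 : l * (v * (1 - t / b)) ≤ l * a := mul_le_mul_of_nonneg_left h6 hl0.le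
    have h8 : v * (1 - s / b) = l * (v * (1 - t / b)) + (1 - l) * v := by
      rw [← div_mul_cancel₀ s ht.ne', ← hl]
      ring
    linarith
  have heq : ∫ t in (0 : ℝ)..M, F t = ∫ t in (0 : ℝ)..M, cmp V b n t := by
    rw [← e1, integral_cmp hbpos hbM hn0, hb]
    field_simp
  have hfin := crossing hM0 hFint hHint hcross heq
  rw [integral_mul_cmp hbpos hbM hn0] at hfin
  rw [e2, intervalIntegral.integral_const_mul]
  have h9 : V * (2 * ∫ t in (0 : ℝ)..M, t * F t) ≤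
      V * (2 * (V * b ^ 2 / ((n + 1) * (n + 2)))) :=
    mul_le_mul_of_nonneg_left (by linarith) hV0
  refine h9.trans (le_of_eq ?_)
  rw [hb]
  field_simp

end Vale.Agent.P254.Unc
end

section

/-!
P254, unconditional bodies: the volume inequality `UNCR` and the inequality of Berwald between the
first two moments give the bound `L_K ^ 2 ≤ (n + 1) / (8 (n + 2))` for all unconditional convex
bodies.
-/

open MeasureTheory Set

namespace Vale.Agent.P254.Unc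

variable {n : ℕ}

namespace FB

/-- Change of the sign of the coordinate `j`. -/
def refl (j : Fin n) (x : Fin n → ℝ) : Fin n → ℝ := fun i => if i = j then -x i else x i

lemma refl_self (j : Fin n) (x : Fin n → ℝ) : refl j x j = -x j := by simp [refl]

lemma refl_ne {i j : Fin n} (h : i ≠ j) (x : Fin n → ℝ) : refl j x i = x i := by simp [refl, h]

lemma refl_refl (j : Fin n) (x : Fin n → ℝ) : refl j (refl j x) = x := by
  funext i
  by_cases h : i = j <;> simp [refl, h]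

lemma refl_abs (j i : Fin n) (x : Fin n → ℝ) : |refl j x i| = |x i| := by
  by_cases h : i = j <;> simp [refl, h]

lemma refl_cont (j : Fin n) : Continuous (refl j) := by
  refine continuous_pi fun i => ?_
  by_cases h : i = j
  · simp only [refl, h, if_true]; fun_prop
  · simp only [refl, h, if_false]; fun_prop

/-- The reflection as a homeomorphism. -/
def reflH (j : Fin n) : (Fin n → ℝ) ≃ₜ (Fin n → ℝ) where
  toFun := refl j
  invFun := refl j
  left_inv := refl_refl j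
  right_inv := refl_refl j
  continuous_toFun := refl_cont j
  continuous_invFun := refl_cont j

lemma refl_mp (j : Fin n) : MeasurePreserving (refl j) (volume : Measure (Fin n → ℝ)) volume := by
  have h : ∀ i : Fin n, MeasurePreserving (fun t : ℝ => if i = j then -t else t) volume volume := by
    intro i
    by_cases hi : i = j
    · simp only [hi, if_true]; exact Measure.measurePreserving_neg volume
    · simp only [hi, if_false]; exact MeasurePreserving.id volume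
  exact volume_preserving_pi h

lemma refl_int (j : Fin n) (K : Set (Fin n → ℝ)) (f : (Fin n → ℝ) → ℝ) :
    ∫ x in refl j ⁻¹' K, f (refl j x) = ∫ x in K, f x :=
  (refl_mp j).setIntegral_preimage_emb (reflH j).measurableEmbedding f K

lemma half {K : Set (Fin n → ℝ)} (j : Fin n) (hs : refl j ⁻¹' K = K)
    {f : (Fin n → ℝ) → ℝ} (hf : IntegrableOn f K) (hfs : ∀ x, f (refl j x) = f x) :
    ∫ x in K, f x = 2 * ∫ x in K ∩ {x | 0 ≤ x j}, f x := by
  have hH : MeasurableSet {x : Fin n → ℝ | 0 ≤ x j} :=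
    measurableSet_le measurable_const (measurable_pi_apply j)
  have h1 := integral_inter_add_sdiff hH hf
  have h2 : ∫ x in K \ {x : Fin n → ℝ | 0 ≤ x j}, f x = ∫ x in K ∩ {x | 0 ≤ x j}, f x := by
    have e : K \ {x : Fin n → ℝ | 0 ≤ x j} = refl j ⁻¹' (K ∩ {x | 0 < x j}) := by
      ext x
      have hx : refl j x ∈ K ↔ x ∈ K := by
        rw [← mem_preimage, hs]
      simp only [mem_sdiff, mem_ofPred_eq, not_le, mem_preimage, mem_inter_iff, hx, refl_self,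
        Left.neg_pos_iff]
    rw [e]
    have h3 := refl_int j (K ∩ {x | 0 < x j}) f
    simp_rw [hfs] at h3
    rw [h3]
    refine setIntegral_congr_set ?_
    have hnull : volume {x : Fin n → ℝ | x j = 0} = 0 := by
      rw [volume_pi]
      exact Measure.pi_hyperplane _ _ _
    have h4 : ({x : Fin n → ℝ | 0 < x j} : Set (Fin n → ℝ)) =ᵐ[volume] {x | 0 ≤ x j} := by
      filter_upwards [compl_mem_ae_iff.2 hnull] with x hx
      have hx' : x j ≠ 0 := hx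
      exact propext ⟨fun h => le_of_lt h, fun h => lt_of_le_of_ne h hx'.symm⟩
    exact Filter.EventuallyEq.rfl.inter h4
  rw [← h1, h2]
  ring

lemma reduct {K : Set (Fin n → ℝ)} (hs : ∀ j, refl j ⁻¹' K = K)
    {f : (Fin n → ℝ) → ℝ} (hf : IntegrableOn f K) (hfs : ∀ j x, f (refl j x) = f x)
    (S : Finset (Fin n)) :
    ∫ x in K, f x = 2 ^ S.card * ∫ x in K ∩ {x | ∀ i ∈ S, 0 ≤ x i}, f x := by
  classical
  induction S using Finset.induction_on with
  | empty => simp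
  | insert j S hj ih =>
    rw [ih, Finset.card_insert_of_notMem hj]
    have hinv : refl j ⁻¹' (K ∩ {x | ∀ i ∈ S, 0 ≤ x i}) = K ∩ {x | ∀ i ∈ S, 0 ≤ x i} := by
      ext x
      have hx : refl j x ∈ K ↔ x ∈ K := by
        rw [← mem_preimage, hs]
      simp only [mem_preimage, mem_inter_iff, hx, mem_ofPred_eq]
      refine and_congr_right fun _ => forall₂_congr fun i hi => ?_
      have hne : i ≠ j := by
        rintro rfl
        exact hj hi
      rw [refl_ne hne]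
    have h1 := half j hinv (hf.mono_set inter_subset_left) (hfs j)
    rw [h1]
    have e : K ∩ {x : Fin n → ℝ | ∀ i ∈ S, 0 ≤ x i} ∩ {x | 0 ≤ x j} =
        K ∩ {x | ∀ i ∈ insert j S, 0 ≤ x i} := by
      ext x
      simp only [mem_inter_iff, mem_ofPred_eq, Finset.forall_mem_insert]
      tauto
    rw [e]
    ring

section Sym

variable {K : Set (Fin n → ℝ)}

lemma sym_refl (hu : Uncond K) (j : Fin n) : refl j ⁻¹' K = K := by
  ext x
  constructor
  · intro h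
    exact hu _ h x fun i => (refl_abs j i x).symm
  · intro h
    exact hu _ h _ fun i => refl_abs j i x

lemma update_mem (hc : Convex ℝ K) (hu : Uncond K) {x : Fin n → ℝ} (hx : x ∈ K) (j : Fin n)
    {t : ℝ} (ht : |t| ≤ |x j|) : Function.update x j t ∈ K := by
  by_cases h0 : x j = 0
  · rw [h0, abs_zero, abs_nonpos_iff] at ht
    rw [ht, ← h0, Function.update_eq_self]
    exact hx
  · set s : ℝ := t / x j with hs
    have hs1 : |s| ≤ 1 := by
      rw [hs, abs_div]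
      exact div_le_one_of_le₀ ht (abs_nonneg _)
    rw [abs_le] at hs1
    have hr : refl j x ∈ K := hu _ hx _ fun i => refl_abs j i x
    have h := hc hx hr (a := (1 + s) / 2) (b := (1 - s) / 2) (by linarith) (by linarith) (by ring)
    have e : ((1 + s) / 2) • x + ((1 - s) / 2) • refl j x = Function.update x j t := by
      funext i
      by_cases hi : i = j
      · subst hi
        rw [Pi.add_apply, Pi.smul_apply, Pi.smul_apply, refl_self, Function.update_self,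
          smul_eq_mul, smul_eq_mul]
        have : s * x i = t := by rw [hs]; field_simp
        linear_combination this
      · rw [Pi.add_apply, Pi.smul_apply, Pi.smul_apply, refl_ne hi, Function.update_of_ne hi,
          smul_eq_mul, smul_eq_mul]
        ring
    rwa [e] at h

lemma solid (hc : Convex ℝ K) (hu : Uncond K) {x : Fin n → ℝ} (hx : x ∈ K) {y : Fin n → ℝ}
    (hy : ∀ i, |y i| ≤ |x i|) : y ∈ K := by
  classical
  have h : ∀ S : Finset (Fin n), (fun i => if i ∈ S then y i else x i) ∈ K := by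
    intro S
    induction S using Finset.induction_on with
    | empty => simpa using hx
    | insert j S hj ih =>
      have h1 := update_mem hc hu ih j (t := y j) (by simpa [hj] using hy j)
      have e : Function.update (fun i => if i ∈ S then y i else x i) j (y j) =
          fun i => if i ∈ insert j S then y i else x i := by
        funext i
        by_cases hi : i = j
        · subst hi; simp
        · simp [hi]
      rwa [e] at h1
  have h1 := h Finset.univ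
  simpa using h1

lemma down (hc : Convex ℝ K) (hu : Uncond K) : Down (K ∩ {x | ∀ i, 0 ≤ x i}) := by
  refine ⟨fun x hx => hx.2, fun x hx y hy0 hyx => ⟨?_, hy0⟩⟩
  refine solid hc hu hx.1 fun i => ?_
  rw [abs_of_nonneg (hy0 i), abs_of_nonneg (hx.2 i)]
  exact hyx i

lemma orth_closed : IsClosed {x : Fin n → ℝ | ∀ i, 0 ≤ x i} := by
  have : {x : Fin n → ℝ | ∀ i, 0 ≤ x i} = ⋂ i, {x | 0 ≤ x i} := by
    ext x; simp
  rw [this]
  exact isClosed_iInter fun i => isClosed_le continuous_const (continuous_apply i)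

lemma orth_convex : Convex ℝ {x : Fin n → ℝ | ∀ i, 0 ≤ x i} := by
  intro x hx y hy a b ha hb _ i
  have h1 := hx i
  have h2 := hy i
  simp only [Pi.add_apply, Pi.smul_apply, smul_eq_mul]
  positivity

lemma reduct_univ (hu : Uncond K) {f : (Fin n → ℝ) → ℝ} (hf : IntegrableOn f K)
    (hfs : ∀ j x, f (refl j x) = f x) :
    ∫ x in K, f x = 2 ^ n * ∫ x in K ∩ {x | ∀ i, 0 ≤ x i}, f x := by
  have h := reduct (sym_refl hu) hf hfs Finset.univ
  simpa using h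

lemma int_odd (hu : Uncond K) (j : Fin n) {f : (Fin n → ℝ) → ℝ}
    (hfs : ∀ x, f (refl j x) = -f x) : ∫ x in K, f x = 0 := by
  have h := refl_int j K f
  rw [sym_refl hu j] at h
  simp_rw [hfs] at h
  rw [integral_neg] at h
  linarith

lemma cov_diag (hu : Uncond K) :
    covMatrix K = Matrix.diagonal fun i => (volume K).toReal⁻¹ * ∫ x in K, x i ^ 2 := by
  have hc : ∀ i, centroid K i = 0 := by
    intro i
    rw [centroid, int_odd hu i (f := fun x => x i) (refl_self i), mul_zero]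
  ext i j
  rw [covMatrix, Matrix.diagonal_apply]
  simp only [hc, sub_zero]
  by_cases hij : i = j
  · subst hij
    simp only [if_true, pow_two]
  · rw [if_neg hij, int_odd hu i (f := fun x => x i * x j), mul_zero]
    intro x
    rw [refl_self, refl_ne (Ne.symm hij)]
    ring

end Sym

end FB

open FB in
/-- The bound `det Cov / |K| ^ 2 ≤ ((n + 1) / (8 (n + 2))) ^ n` for unconditional bodies. -/
theorem unc_body {n : ℕ} (hUNC : UNCR n) {K : Set (Fin n → ℝ)} (hK : IsConvexBody K)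
    (hu : Uncond K) :
    (covMatrix K).det / (volume K).toReal ^ 2 ≤
      (((n : ℝ) + 1) / (8 * ((n : ℝ) + 2))) ^ n := by
  obtain ⟨hc, hcp, hint⟩ := hK
  have hfin : volume K ≠ ⊤ := hcp.measure_lt_top.ne
  have hV : 0 < (volume K).toReal := by
    refine ENNReal.toReal_pos ?_ hfin
    have h1 := isOpen_interior.measure_pos volume hint
    exact (h1.trans_le (measure_mono interior_subset)).ne'
  set P : Set (Fin n → ℝ) := K ∩ {x | ∀ i, 0 ≤ x i} with hP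
  have hPc : Convex ℝ P := hc.inter orth_convex
  have hPk : IsCompact P := hcp.inter_right orth_closed
  have hPd : Down P := down hc hu
  have hcont : ∀ i : Fin n, Continuous fun x : Fin n → ℝ => x i ^ 2 := fun i => by fun_prop
  have hVP : (volume K).toReal = 2 ^ n * (volume P).toReal := by
    have h := reduct_univ hu (f := fun _ => (1 : ℝ)) (integrableOn_const hfin) (fun _ _ => rfl)
    rw [setIntegral_const, setIntegral_const] at h
    simpa [Measure.real] using h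
  have hAP : ∀ i, ∫ x in K, x i ^ 2 = 2 ^ n * ∫ x in P, x i ^ 2 := by
    intro i
    refine reduct_univ hu (f := fun x => x i ^ 2)
      ((hcont i).continuousOn.integrableOn_compact hcp) ?_
    intro j x
    rw [← sq_abs, refl_abs, sq_abs]
  have h2n : (0 : ℝ) < 2 ^ n := by positivity
  have hVp : 0 < (volume P).toReal := by
    rw [hVP] at hV
    exact pos_of_mul_pos_right hV h2n.le
  have hPne : P.Nonempty := by
    rw [nonempty_iff_ne_empty]
    intro h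
    rw [h, measure_empty, ENNReal.toReal_zero] at hVp
    exact lt_irrefl _ hVp
  set V : ℝ := (volume P).toReal with hVdef
  set A : Fin n → ℝ := fun i => ∫ x in P, x i ^ 2 with hA
  set M : Fin n → ℝ := fun i => ∫ x in P, x i with hM
  have hA0 : ∀ i, 0 ≤ A i := fun i => integral_nonneg fun x => sq_nonneg _
  have hM0 : ∀ i, 0 ≤ M i := fun i =>
    setIntegral_nonneg hPk.measurableSet fun x hx => hx.2 i
  have hn1 : (0 : ℝ) < (n : ℝ) + 1 := by positivity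
  have hn2 : (0 : ℝ) < (n : ℝ) + 2 := by positivity
  have hAM : ∀ i, A i / V ≤ (2 * ((n : ℝ) + 1) / ((n : ℝ) + 2)) * (M i / V) ^ 2 := by
    intro i
    have h := berwald hPc hPk i (fun x hx => hx.2 i)
    change V * A i ≤ 2 * ((n : ℝ) + 1) / ((n : ℝ) + 2) * M i ^ 2 at h
    rw [div_pow, ← mul_div_assoc, div_le_div_iff₀ hVp (by positivity)]
    nlinarith
  have hU : ∏ i, (M i / V) ≤ V / 2 ^ n := by
    have h := hUNC P hPc hPk hPne hPd
    change ∏ i, (2 * M i) ≤ V ^ (n + 1) at h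
    rw [Finset.prod_mul_distrib, Finset.prod_const, Finset.card_univ, Fintype.card_fin] at h
    rw [Finset.prod_div_distrib, Finset.prod_const, Finset.card_univ, Fintype.card_fin,
      div_le_div_iff₀ (by positivity) h2n]
    rw [pow_succ] at h
    linarith
  have hU0 : 0 ≤ ∏ i, (M i / V) := Finset.prod_nonneg fun i _ => div_nonneg (hM0 i) hVp.le
  have hdet : (covMatrix K).det = ∏ i, (A i / V) := by
    rw [cov_diag hu, Matrix.det_diagonal]
    refine Finset.prod_congr rfl fun i _ => ?_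
    rw [hAP i, hVP]
    field_simp
    simp only [hA]
  have h1 : ∏ i, (A i / V) ≤
      ∏ i : Fin n, ((2 * ((n : ℝ) + 1) / ((n : ℝ) + 2)) * (M i / V) ^ 2) :=
    Finset.prod_le_prod (fun i _ => div_nonneg (hA0 i) hVp.le) fun i _ => hAM i
  have h2 : ∏ i : Fin n, ((2 * ((n : ℝ) + 1) / ((n : ℝ) + 2)) * (M i / V) ^ 2) =
      (2 * ((n : ℝ) + 1) / ((n : ℝ) + 2)) ^ n * (∏ i, (M i / V)) ^ 2 := by
    rw [Finset.prod_mul_distrib, Finset.prod_const, Finset.card_univ, Fintype.card_fin,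
      Finset.prod_pow]
  have h3 : (∏ i, (M i / V)) ^ 2 ≤ (V / 2 ^ n) ^ 2 := by
    exact pow_le_pow_left₀ hU0 hU 2
  rw [hdet, hVP, div_le_iff₀ (by positivity)]
  have h4 : (2 * ((n : ℝ) + 1) / ((n : ℝ) + 2)) ^ n * (∏ i, (M i / V)) ^ 2 ≤
      (2 * ((n : ℝ) + 1) / ((n : ℝ) + 2)) ^ n * (V / 2 ^ n) ^ 2 :=
    mul_le_mul_of_nonneg_left h3 (by positivity)
  refine (h1.trans (h2.le.trans h4)).trans (le_of_eq ?_)
  have e1 : (2 * ((n : ℝ) + 1) / ((n : ℝ) + 2)) ^ n =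
      (((n : ℝ) + 1) / (8 * ((n : ℝ) + 2))) ^ n * 16 ^ n := by
    rw [← mul_pow]
    congr 1
    field_simp
    ring
  have e2 : (16 : ℝ) ^ n = 2 ^ n * 2 ^ n * (2 ^ n * 2 ^ n) := by
    rw [← mul_pow, ← mul_pow]
    norm_num
  rw [e1, e2]
  field_simp

end Vale.Agent.P254.Unc
end

section

/-!
P254, almost unconditional bodies: lower bound of the second moment of a coordinate by its maximum.
-/

open MeasureTheory Set
open scoped Pointwise

namespace Vale.Agent.P254.AU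

open Vale.Agent.P254.Unc

theorem sq_lower {n : ℕ} {L : Set (Fin n → ℝ)} (hc : Convex ℝ L) (hL : IsCompact L) (k : Fin n)
    (h0 : ∀ x ∈ L, 0 ≤ x k) {z : Fin n → ℝ} (hz : z ∈ L) {w : ℝ} (hw : 0 < w) (hzw : z k = w) :
    2 * ((volume L).toReal * w ^ 2 / ((n + 1) * (n + 2))) ≤ ∫ x in L, x k ^ 2 := by
  have hn : 0 < n := Fin.pos k
  have hn0 : n ≠ 0 := hn.ne'
  set μ : Measure (Fin n → ℝ) := volume.restrict L with hμ
  have : IsFiniteMeasure μ := ⟨by rw [hμ, Measure.restrict_apply_univ]; exact hL.measure_lt_top⟩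
  have hf : Measurable fun x : Fin n → ℝ => x k := measurable_pi_apply k
  have h0' : ∀ᵐ x ∂μ, 0 ≤ x k := by
    filter_upwards [ae_restrict_mem hL.measurableSet] with x hx
    exact h0 x hx
  set V := (volume L).toReal with hV
  have hV0 : 0 ≤ V := ENNReal.toReal_nonneg
  obtain ⟨M₁, hM₁⟩ : ∃ M₁ : ℝ, ∀ x ∈ L, x k ≤ M₁ := by
    obtain ⟨M₁, hM₁⟩ := (hL.image (continuous_apply k)).bddAbove
    exact ⟨M₁, fun x hx => hM₁ ⟨x, hx, rfl⟩⟩
  have hwM : w ≤ M₁ := hzw ▸ hM₁ z hz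
  have hM0 : 0 ≤ M₁ := hw.le.trans hwM
  have hMx : ∀ᵐ x ∂μ, x k ≤ M₁ := by
    filter_upwards [ae_restrict_mem hL.measurableSet] with x hx
    exact hM₁ x hx
  set F : ℝ → ℝ := fun t => μ.real {x : Fin n → ℝ | t ≤ x k} with hF
  have e2 : ∫ x in L, x k ^ 2 = ∫ t in (0 : ℝ)..M₁, 2 * (t * F t) := by
    have := layer μ hf h0' hMx hM0 (g := fun t => 2 * t) (by fun_prop)
      (fun t ht => by positivity)
    have e3 : ∀ x : Fin n → ℝ, ∫ t in (0 : ℝ)..x k, 2 * t = x k ^ 2 := by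
      intro x
      rw [intervalIntegral.integral_const_mul, integral_id]
      ring
    simp only [e3] at this
    rw [this]
    exact intervalIntegral.integral_congr fun t _ => by ring
  have hFint : IntervalIntegrable F volume 0 M₁ := (antitone_meas_le μ _).intervalIntegrable
  have hFv : ∀ t, F t = (volume (L ∩ {x : Fin n → ℝ | t ≤ x k})).toReal := by
    intro t
    show (μ {x : Fin n → ℝ | t ≤ x k}).toReal = _
    have h1 : MeasurableSet {x : Fin n → ℝ | t ≤ x k} := hf measurableSet_Ici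
    rw [hμ, Measure.restrict_apply h1, inter_comm]
  have hlow : ∀ t, 0 ≤ t → cmp V w n t ≤ F t := by
    intro t ht
    rcases le_or_gt w t with h | h
    · rw [cmp_of_ge hw h hn0]
      exact measureReal_nonneg
    · rw [cmp_of_le hw h.le, hFv]
      set s : ℝ := 1 - t / w with hs
      have hs0 : 0 < s := by
        have : t / w < 1 := (div_lt_one hw).2 h
        linarith
      have hs1 : s ≤ 1 := by
        have : 0 ≤ t / w := by positivity
        linarith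
      have hsub : (fun x => (1 - s) • z + x) '' (s • L) ⊆ L ∩ {x : Fin n → ℝ | t ≤ x k} := by
        rintro _ ⟨_, ⟨x, hx, rfl⟩, rfl⟩
        refine ⟨hc hz hx (by linarith) hs0.le (by ring), ?_⟩
        show t ≤ (1 - s) * z k + s * x k
        have h1 : (1 - s) * z k = t := by
          rw [hzw, hs]
          field_simp
          ring
        have h2 : 0 ≤ s * x k := mul_nonneg hs0.le (h0 x hx)
        linarith
      have h3 : volume (s • L) ≤ volume (L ∩ {x : Fin n → ℝ | t ≤ x k}) := by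
        have h4 := measure_mono (μ := volume) hsub
        rwa [image_add_left, measure_preimage_add] at h4
      have h5 := ENNReal.toReal_mono
        (ne_top_of_le_ne_top hL.measure_lt_top.ne (measure_mono inter_subset_left)) h3
      rw [volume_smul_real hs0] at h5
      rw [mul_comm]
      exact h5
  have hcmp := integral_mul_cmp (V := V) hw hwM hn0
  have h1 : ∫ t in (0 : ℝ)..M₁, t * cmp V w n t ≤ ∫ t in (0 : ℝ)..M₁, t * F t := by
    refine intervalIntegral.integral_mono_on hM0 ?_ ?_ ?_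
    · exact (continuous_id.mul (cmp_continuous V w n)).intervalIntegrable 0 M₁
    · exact hFint.continuousOn_mul continuous_id.continuousOn
    · intro t ht
      exact mul_le_mul_of_nonneg_left (hlow t ht.1) ht.1
  rw [e2, intervalIntegral.integral_const_mul]
  rw [hcmp] at h1
  linarith

end Vale.Agent.P254.AU
end
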