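import Mathlib
import Vale.Agent.P254.Bdl.B1
import Vale.Agent.P254.Bdl.B3
import Vale.Agent.P254.Bdl.B7
import Vale.Agent.P254.Bdl.B4
import Vale.Agent.P254.Bdl.B2

set_option linter.all false

section

/-! # P227/M: basic facts (part 2): the expectation `Ex`; calculus of `pd`, `hess`; test functions. -/

open MeasureTheory
open scoped Topology

namespace Vale.Agent.P227.M

variable {n : ℕ}

/-! ## `Ex` -/

theorem Ex_congr (V : E n → ℝ) {f g : E n → ℝ} (h : ∀ x, f x = g x) : Ex V f = Ex V g := by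
  rw [funext h]

theorem Ex_const_mul (V : E n → ℝ) (a : ℝ) (f : E n → ℝ) :
    Ex V (fun x => a * f x) = a * Ex V f := by
  unfold Ex
  simp only [mul_assoc]
  rw [integral_const_mul, mul_div_assoc]

theorem Ex_neg (V f : E n → ℝ) : Ex V (fun x => -f x) = -Ex V f := by
  have h := Ex_const_mul V (-1) f
  simpa using h

theorem Ex_zero (V : E n → ℝ) : Ex V (fun _ => 0) = 0 := by simp [Ex]

theorem Ex_nonneg (V : E n → ℝ) {f : E n → ℝ} (hf : ∀ x, 0 ≤ f x) : 0 ≤ Ex V f :=
  div_nonneg (integral_nonneg fun x => mul_nonneg (hf x) (Real.exp_pos _).le)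
    (integral_nonneg fun _ => (Real.exp_pos _).le)

/-- odd functions have zero expectation for an even potential -/
theorem Ex_odd {V f : E n → ℝ} (hV : ∀ x, V (-x) = V x) (hf : ∀ x, f (-x) = -f x) :
    Ex V f = 0 := by
  have h : (∫ x, f x * Real.exp (-V x)) = ∫ x, f (-x) * Real.exp (-V (-x)) :=
    (integral_neg_eq_self (fun x => f x * Real.exp (-V x)) volume).symm
  simp only [hV, hf, neg_mul, integral_neg] at h
  have h0 : (∫ x, f x * Real.exp (-V x)) = 0 := by linarith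
  unfold Ex
  rw [h0, zero_div]

section

variable {V : E n → ℝ} {c C : ℝ}

theorem Ex_add (h : Reg V c C) {f g : E n → ℝ} (hf : Gr f) (hg : Gr g) :
    Ex V (fun x => f x + g x) = Ex V f + Ex V g := by
  unfold Ex
  simp only [add_mul]
  rw [integral_add (h.integrable_gr hf) (h.integrable_gr hg), add_div]

theorem Ex_sub (h : Reg V c C) {f g : E n → ℝ} (hf : Gr f) (hg : Gr g) :
    Ex V (fun x => f x - g x) = Ex V f - Ex V g := by
  unfold Ex
  simp only [sub_mul]
  rw [integral_sub (h.integrable_gr hf) (h.integrable_gr hg), sub_div]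

theorem Ex_const (h : Reg V c C) (a : ℝ) : Ex V (fun _ => a) = a := by
  have hz := h.Z_pos
  unfold Ex
  rw [integral_const_mul, mul_div_assoc, div_self hz.ne', mul_one]

theorem Ex_sum (h : Reg V c C) {ι : Type*} (s : Finset ι) {f : ι → E n → ℝ}
    (hf : ∀ i ∈ s, Gr (f i)) : Ex V (fun x => ∑ i ∈ s, f i x) = ∑ i ∈ s, Ex V (f i) := by
  unfold Ex
  simp only [Finset.sum_mul]
  rw [integral_finsetSum s fun i hi => h.integrable_gr (hf i hi), Finset.sum_div]

theorem Ex_mono (h : Reg V c C) {f g : E n → ℝ} (hf : Gr f) (hg : Gr g) (hfg : ∀ x, f x ≤ g x) :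
    Ex V f ≤ Ex V g := by
  have h1 := Ex_sub h hg hf
  have h2 : 0 ≤ Ex V (fun x => g x - f x) := Ex_nonneg V fun x => sub_nonneg.2 (hfg x)
  linarith

theorem abs_Ex_le (h : Reg V c C) {f : E n → ℝ} (hf : Gr f) :
    |Ex V f| ≤ Ex V (fun x => |f x|) := by
  rw [abs_le]
  constructor
  · rw [← Ex_neg]
    exact Ex_mono h hf.abs.neg hf fun x => neg_abs_le _
  · exact Ex_mono h hf hf.abs fun x => le_abs_self _

theorem sq_le_of_quad {A B D : ℝ} (h : ∀ t : ℝ, 0 ≤ A + 2 * t * B + t ^ 2 * D) : B ^ 2 ≤ A * D := by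
  have h1 := discrim_le_zero (a := D) (b := 2 * B) (c := A) fun t => by
    have := h t
    nlinarith
  unfold discrim at h1
  nlinarith

/-- Cauchy-Schwarz, vector version -/
theorem Ex_sq_le_sum (h : Reg V c C) {ι : Type*} (s : Finset ι) {f g : ι → E n → ℝ}
    (hf : ∀ i ∈ s, Gr (f i)) (hg : ∀ i ∈ s, Gr (g i)) :
    (Ex V (fun x => ∑ i ∈ s, f i x * g i x)) ^ 2 ≤
      Ex V (fun x => ∑ i ∈ s, f i x ^ 2) * Ex V (fun x => ∑ i ∈ s, g i x ^ 2) := by
  refine sq_le_of_quad fun t => ?_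
  have h1 : Gr (fun x => ∑ i ∈ s, f i x ^ 2) := Gr.sum s fun i hi => (hf i hi).pow 2
  have h2 : Gr (fun x => ∑ i ∈ s, g i x ^ 2) := Gr.sum s fun i hi => (hg i hi).pow 2
  have h3 : Gr (fun x => ∑ i ∈ s, f i x * g i x) := Gr.sum s fun i hi => (hf i hi).mul (hg i hi)
  have h4 : Ex V (fun x => (∑ i ∈ s, f i x ^ 2) + 2 * t * (∑ i ∈ s, f i x * g i x)
      + t ^ 2 * ∑ i ∈ s, g i x ^ 2) = Ex V (fun x => ∑ i ∈ s, f i x ^ 2)
        + 2 * t * Ex V (fun x => ∑ i ∈ s, f i x * g i x)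
        + t ^ 2 * Ex V (fun x => ∑ i ∈ s, g i x ^ 2) := by
    rw [Ex_add h (h1.add (h3.const_mul (2 * t))) (h2.const_mul (t ^ 2)),
      Ex_add h h1 (h3.const_mul (2 * t)), Ex_const_mul, Ex_const_mul]
  rw [← h4]
  refine Ex_nonneg V fun x => ?_
  have h5 : (∑ i ∈ s, f i x ^ 2) + 2 * t * (∑ i ∈ s, f i x * g i x) + t ^ 2 * ∑ i ∈ s, g i x ^ 2
      = ∑ i ∈ s, (f i x + t * g i x) ^ 2 := by
    rw [Finset.mul_sum, Finset.mul_sum, ← Finset.sum_add_distrib, ← Finset.sum_add_distrib]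
    refine Finset.sum_congr rfl fun i _ => ?_
    ring
  rw [h5]
  exact Finset.sum_nonneg fun i _ => sq_nonneg _

/-- Cauchy-Schwarz -/
theorem Ex_sq_le (h : Reg V c C) {f g : E n → ℝ} (hf : Gr f) (hg : Gr g) :
    (Ex V (fun x => f x * g x)) ^ 2 ≤ Ex V (fun x => f x ^ 2) * Ex V (fun x => g x ^ 2) := by
  have h1 := Ex_sq_le_sum h (Finset.univ : Finset Unit) (f := fun _ => f) (g := fun _ => g)
    (fun _ _ => hf) (fun _ _ => hg)
  simpa using h1

theorem Ex_abs_mul_le (h : Reg V c C) {f g : E n → ℝ} (hf : Gr f) (hg : Gr g) :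
    |Ex V (fun x => f x * g x)| ≤
      Real.sqrt (Ex V (fun x => f x ^ 2)) * Real.sqrt (Ex V (fun x => g x ^ 2)) := by
  rw [← Real.sqrt_mul (Ex_nonneg V fun x => sq_nonneg _)]
  exact Real.abs_le_sqrt (Ex_sq_le h hf hg)

/-- variance is nonnegative -/
theorem sq_Ex_le (h : Reg V c C) {f : E n → ℝ} (hf : Gr f) :
    (Ex V f) ^ 2 ≤ Ex V (fun x => f x ^ 2) := by
  have h1 := Ex_sq_le h hf (Gr.const 1)
  simpa [Ex_const h] using h1

end

/-! ## Calculus of `pd` and `hess` -/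

theorem pd_add {f g : E n → ℝ} (hf : Differentiable ℝ f) (hg : Differentiable ℝ g) (i : Fin n)
    (x : E n) : pd i (fun z => f z + g z) x = pd i f x + pd i g x := by
  unfold pd
  have h := fderiv_add (hf x) (hg x)
  have h' : fderiv ℝ (fun z => f z + g z) x = fderiv ℝ f x + fderiv ℝ g x := h
  rw [h']
  rfl

theorem pd_sub {f g : E n → ℝ} (hf : Differentiable ℝ f) (hg : Differentiable ℝ g) (i : Fin n)
    (x : E n) : pd i (fun z => f z - g z) x = pd i f x - pd i g x := by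
  unfold pd
  have h := fderiv_sub (hf x) (hg x)
  have h' : fderiv ℝ (fun z => f z - g z) x = fderiv ℝ f x - fderiv ℝ g x := h
  rw [h']
  rfl

theorem pd_neg (f : E n → ℝ) (i : Fin n) (x : E n) : pd i (fun z => -f z) x = -pd i f x := by
  unfold pd
  have h' : fderiv ℝ (fun z => -f z) x = -fderiv ℝ f x := fderiv_neg
  rw [h']
  rfl

theorem pd_mul {f g : E n → ℝ} (hf : Differentiable ℝ f) (hg : Differentiable ℝ g) (i : Fin n)
    (x : E n) : pd i (fun z => f z * g z) x = pd i f x * g x + f x * pd i g x := by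
  unfold pd
  have h := (((hf x).hasFDerivAt).mul ((hg x).hasFDerivAt)).fderiv
  have h' : fderiv ℝ (fun z => f z * g z) x = f x • fderiv ℝ g x + g x • fderiv ℝ f x := h
  rw [h']
  simp only [add_apply, smul_apply, smul_eq_mul]
  ring

theorem pd_const (a : ℝ) (i : Fin n) (x : E n) : pd i (fun _ => a) x = 0 := by
  unfold pd
  simp

theorem pd_const_mul {f : E n → ℝ} (a : ℝ) (hf : Differentiable ℝ f) (i : Fin n)
    (x : E n) : pd i (fun z => a * f z) x = a * pd i f x := by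
  rw [pd_mul (differentiable_const a) hf]
  rw [pd_const]
  ring

theorem pd_sum {ι : Type*} (s : Finset ι) {f : ι → E n → ℝ}
    (hf : ∀ j ∈ s, Differentiable ℝ (f j)) (i : Fin n) (x : E n) :
    pd i (fun z => ∑ j ∈ s, f j z) x = ∑ j ∈ s, pd i (f j) x := by
  unfold pd
  have h := fderiv_fun_sum (𝕜 := ℝ) (u := s) (x := x) (A := f) fun j hj => (hf j hj) x
  rw [h]
  simp

theorem pd_coord (i j : Fin n) (x : E n) : pd i (fun z : E n => z j) x = if j = i then 1 else 0 := by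
  have h : HasFDerivAt (fun z : E n => z j) (EuclideanSpace.proj j : E n →L[ℝ] ℝ) x :=
    (EuclideanSpace.proj j : E n →L[ℝ] ℝ).hasFDerivAt
  unfold pd
  rw [h.fderiv]
  exact ei_apply i j

theorem fderiv_neg_arg (f : E n → ℝ) (x v : E n) :
    fderiv ℝ (fun z => f (-z)) x v = -fderiv ℝ f (-x) v := by
  have h := (ContinuousLinearEquiv.neg ℝ (M := E n)).comp_right_fderiv (f := f) (x := x)
  have h' : fderiv ℝ (fun z => f (-z)) x = (fderiv ℝ f (-x)).comp
    ((ContinuousLinearEquiv.neg ℝ : E n ≃L[ℝ] E n) : E n →L[ℝ] E n) := h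
  rw [h']
  simp

/-- the derivative of an even function is odd -/
theorem pd_even {f : E n → ℝ} (hf : ∀ x, f (-x) = f x) (i : Fin n) (x : E n) :
    pd i f (-x) = -pd i f x := by
  have h := fderiv_neg_arg f x (ei i)
  have h2 : (fun z => f (-z)) = f := funext hf
  rw [h2] at h
  unfold pd
  linarith

/-- the derivative of an odd function is even -/
theorem pd_odd {f : E n → ℝ} (hf : ∀ x, f (-x) = -f x) (i : Fin n) (x : E n) :
    pd i f (-x) = pd i f x := by
  have h := fderiv_neg_arg f x (ei i)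
  have h2 : (fun z => f (-z)) = fun z => -f z := funext hf
  have h3 := pd_neg f i x
  rw [h2] at h
  unfold pd at h3 ⊢
  linarith

theorem hess_even {f : E n → ℝ} (hf : ∀ x, f (-x) = f x) (x : E n) : hess f (-x) = hess f x := by
  ext i j
  exact pd_odd (pd_even hf j) i x

theorem hess_add {f g : E n → ℝ} (hf : ContDiff ℝ 2 f) (hg : ContDiff ℝ 2 g) (x : E n)
    (i j : Fin n) : hess (fun z => f z + g z) x i j = hess f x i j + hess g x i j := by
  unfold hess
  have h1 : pd j (fun z => f z + g z) = fun z => pd j f z + pd j g z := funext fun z =>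
    pd_add (hf.differentiable (by norm_num)) (hg.differentiable (by norm_num)) j z
  rw [h1, pd_add]
  · exact (contDiff_pd (k := 1) hf (by norm_num) j).differentiable (by norm_num)
  · exact (contDiff_pd (k := 1) hg (by norm_num) j).differentiable (by norm_num)

theorem hess_neg (f : E n → ℝ) (x : E n)
    (i j : Fin n) : hess (fun z => -f z) x i j = -hess f x i j := by
  unfold hess
  have h1 : pd j (fun z => -f z) = fun z => -pd j f z := funext fun z => pd_neg f j z
  rw [h1, pd_neg]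

theorem hess_sub {f g : E n → ℝ} (hf : ContDiff ℝ 2 f) (hg : ContDiff ℝ 2 g) (x : E n)
    (i j : Fin n) : hess (fun z => f z - g z) x i j = hess f x i j - hess g x i j := by
  have h := hess_add hf hg.neg x i j
  have h2 := hess_neg g x i j
  rw [sub_eq_add_neg, ← h2, ← h]
  simp only [sub_eq_add_neg]

theorem hess_const_mul {f : E n → ℝ} (a : ℝ) (hf : ContDiff ℝ 2 f) (x : E n)
    (i j : Fin n) : hess (fun z => a * f z) x i j = a * hess f x i j := by
  unfold hess
  have h1 : pd j (fun z => a * f z) = fun z => a * pd j f z := funext fun z =>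
    pd_const_mul a (hf.differentiable (by norm_num)) j z
  rw [h1, pd_const_mul]
  exact (contDiff_pd (k := 1) hf (by norm_num) j).differentiable (by norm_num)

theorem hess_sum {ι : Type*} (s : Finset ι) {f : ι → E n → ℝ}
    (hf : ∀ k ∈ s, ContDiff ℝ 2 (f k)) (x : E n) (i j : Fin n) :
    hess (fun z => ∑ k ∈ s, f k z) x i j = ∑ k ∈ s, hess (f k) x i j := by
  unfold hess
  have h1 : pd j (fun z => ∑ k ∈ s, f k z) = fun z => ∑ k ∈ s, pd j (f k) z := funext fun z =>
    pd_sum s (fun k hk => (hf k hk).differentiable (by norm_num)) j z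
  rw [h1, pd_sum]
  exact fun k hk => (contDiff_pd (k := 1) (hf k hk) (by norm_num) j).differentiable (by norm_num)

/-- `D²(fg) = g D²f + f D²g + ∇f ⊗ ∇g + ∇g ⊗ ∇f` -/
theorem hess_mul {f g : E n → ℝ} (hf : ContDiff ℝ 2 f) (hg : ContDiff ℝ 2 g) (x : E n)
    (i j : Fin n) : hess (fun z => f z * g z) x i j = hess f x i j * g x + f x * hess g x i j
      + pd j f x * pd i g x + pd i f x * pd j g x := by
  unfold hess
  have df : Differentiable ℝ f := hf.differentiable (by norm_num)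
  have dg : Differentiable ℝ g := hg.differentiable (by norm_num)
  have dpf : Differentiable ℝ (pd j f) :=
    (contDiff_pd (k := 1) hf (by norm_num) j).differentiable (by norm_num)
  have dpg : Differentiable ℝ (pd j g) :=
    (contDiff_pd (k := 1) hg (by norm_num) j).differentiable (by norm_num)
  have h1 : pd j (fun z => f z * g z) = fun z => pd j f z * g z + f z * pd j g z := funext fun z =>
    pd_mul df dg j z
  have h2 := pd_add (f := fun z => pd j f z * g z) (g := fun z => f z * pd j g z)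
    (dpf.mul dg) (df.mul dpg) i x
  rw [h1, h2, pd_mul dpf dg, pd_mul df dpg]
  ring

/-! ## Supports and test functions -/

theorem hasCompactSupport_pd {f : E n → ℝ} (hs : HasCompactSupport f) (i : Fin n) :
    HasCompactSupport (pd i f) := hs.fderiv_apply (𝕜 := ℝ) (ei i)

theorem hasCompactSupport_hess {f : E n → ℝ} (hs : HasCompactSupport f) (i j : Fin n) :
    HasCompactSupport (fun x => hess f x i j) :=
  hasCompactSupport_pd (hasCompactSupport_pd hs j) i

theorem hasCompactSupport_sum {ι : Type*} (s : Finset ι) {f : ι → E n → ℝ}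
    (hf : ∀ i ∈ s, HasCompactSupport (f i)) : HasCompactSupport (fun x => ∑ i ∈ s, f i x) := by
  classical
  induction s using Finset.induction_on with
  | empty =>
    simp only [Finset.sum_empty]
    exact HasCompactSupport.zero
  | insert a s ha ih =>
    simp only [Finset.sum_insert ha]
    exact (hf a (Finset.mem_insert_self a s)).add
      (ih fun i hi => hf i (Finset.mem_insert_of_mem hi))

namespace Test

variable {f g : E n → ℝ}

theorem C2 (h : Test f) : ContDiff ℝ 2 f := h.1.of_le (by norm_cast)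

theorem cont (h : Test f) : Continuous f := h.1.continuous

theorem diff (h : Test f) : Differentiable ℝ f := h.C2.differentiable (by norm_num)

theorem zero : Test (fun _ : E n => (0 : ℝ)) := ⟨contDiff_const, HasCompactSupport.zero⟩

theorem add (hf : Test f) (hg : Test g) : Test (fun x => f x + g x) :=
  ⟨hf.1.add hg.1, hf.2.add hg.2⟩

theorem neg (hf : Test f) : Test (fun x => -f x) :=
  ⟨hf.1.neg, by
    have h : HasCompactSupport (-f) := hf.2.neg
    exact h⟩

theorem sub (hf : Test f) (hg : Test g) : Test (fun x => f x - g x) := by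
  have h := hf.add hg.neg
  simpa [sub_eq_add_neg] using h

theorem mul_smooth (hf : Test f) (hg : ContDiff ℝ (⊤ : ℕ∞) g) : Test (fun x => f x * g x) :=
  ⟨hf.1.mul hg, hf.2.mul_right⟩

theorem smooth_mul (hf : Test f) (hg : ContDiff ℝ (⊤ : ℕ∞) g) : Test (fun x => g x * f x) :=
  ⟨hg.mul hf.1, hf.2.mul_left⟩

theorem const_mul (hf : Test f) (a : ℝ) : Test (fun x => a * f x) := hf.smooth_mul contDiff_const

theorem pd (hf : Test f) (i : Fin n) : Test (M.pd i f) :=
  ⟨contDiff_pd_top hf.1 i, hasCompactSupport_pd hf.2 i⟩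

theorem hess (hf : Test f) (i j : Fin n) : Test (fun x => M.hess f x i j) := (hf.pd j).pd i

theorem sum {ι : Type*} (s : Finset ι) {f : ι → E n → ℝ} (hf : ∀ i ∈ s, Test (f i)) :
    Test (fun x => ∑ i ∈ s, f i x) :=
  ⟨ContDiff.sum fun i hi => (hf i hi).1, hasCompactSupport_sum s fun i hi => (hf i hi).2⟩

theorem gr (hf : Test f) : Gr f := Gr.of_test hf.cont hf.2

theorem gr_pd (hf : Test f) (i : Fin n) : Gr (M.pd i f) := (hf.pd i).gr

theorem gr_hess (hf : Test f) (i j : Fin n) : Gr (fun x => M.hess f x i j) := (hf.hess i j).gr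

theorem bdd (hf : Test f) : ∃ B, ∀ x, |f x| ≤ B := hf.2.exists_bound_of_continuous hf.cont

end Test

end Vale.Agent.P227.M
end

section

/-! # P227/M: basic facts (part 3): the structure `MM`, the matrix `tau`, `Lop`, `fld`. -/

open MeasureTheory
open scoped Topology

namespace Vale.Agent.P227.M

variable {n : ℕ}

theorem qf_eq_dot (A : Matrix (Fin n) (Fin n) ℝ) (v : E n) :
    qf A v = v.ofLp ⬝ᵥ (A.mulVec v.ofLp) := by
  unfold qf dotProduct Matrix.mulVec dotProduct
  refine Finset.sum_congr rfl fun i _ => ?_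
  rw [Finset.mul_sum]
  refine Finset.sum_congr rfl fun j _ => ?_
  ring

theorem qf_single (A : Matrix (Fin n) (Fin n) ℝ) (i : Fin n) : qf A (ei i) = A i i := by
  unfold qf
  simp [ei_apply]

namespace MM

variable {ψ V : E n → ℝ} {c C M : ℝ}

theorem hess_symm (h : MM ψ V c C M) (x : E n) (i j : Fin n) : hess ψ x i j = hess ψ x j i :=
  _root_.Vale.Agent.P227.M.hess_symm h.C2 x i j

theorem hess_posDef (h : MM ψ V c C M) (x : E n) : (hess ψ x).PosDef := by
  refine Matrix.PosDef.of_dotProduct_mulVec_pos ?_ fun v hv => ?_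
  · ext i j
    simpa using h.hess_symm x j i
  · have h1 := h.lower x (WithLp.toLp 2 v)
    rw [qf_eq_dot] at h1
    have h2 : 0 < ‖(WithLp.toLp 2 v : E n)‖ := by
      rw [norm_pos_iff]
      intro h0
      apply hv
      have := congrArg WithLp.ofLp h0
      simpa using this
    have h3 : 0 < c * ‖(WithLp.toLp 2 v : E n)‖ ^ 2 := mul_pos h.c_pos (pow_pos h2 2)
    simpa using h3.trans_le h1

theorem det_pos (h : MM ψ V c C M) (x : E n) : 0 < (hess ψ x).det := (h.hess_posDef x).det_pos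

theorem isUnit_det (h : MM ψ V c C M) (x : E n) : IsUnit (hess ψ x).det := (h.det_pos x).ne'.isUnit

theorem tau_mul_hess (h : MM ψ V c C M) (x : E n) : tau ψ x * hess ψ x = 1 :=
  Matrix.nonsing_inv_mul _ (h.isUnit_det x)

theorem hess_mul_tau (h : MM ψ V c C M) (x : E n) : hess ψ x * tau ψ x = 1 :=
  Matrix.mul_nonsing_inv _ (h.isUnit_det x)

theorem tau_posDef (h : MM ψ V c C M) (x : E n) : (tau ψ x).PosDef := (h.hess_posDef x).inv

theorem tau_posSemidef (h : MM ψ V c C M) (x : E n) : (tau ψ x).PosSemidef :=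
  (h.tau_posDef x).posSemidef

theorem tau_symm (h : MM ψ V c C M) (x : E n) (i j : Fin n) : tau ψ x i j = tau ψ x j i := by
  have h1 := (h.tau_posDef x).1
  have h2 := congrFun (congrFun h1 j) i
  simpa using h2

theorem tau_transpose (h : MM ψ V c C M) (x : E n) : (tau ψ x).transpose = tau ψ x := by
  ext i j
  exact h.tau_symm x j i

/-- the vector `τ v` -/
theorem exists_tau_vec (h : MM ψ V c C M) (x v : E n) : ∃ w : E n,
    (∀ i, w i = ∑ j, tau ψ x i j * v j) ∧ (∀ i, v i = ∑ j, hess ψ x i j * w j) := by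
  refine ⟨WithLp.toLp 2 ((tau ψ x).mulVec v.ofLp), fun i => rfl, fun i => ?_⟩
  have h1 : (hess ψ x).mulVec ((tau ψ x).mulVec v.ofLp) = v.ofLp := by
    rw [Matrix.mulVec_mulVec, h.hess_mul_tau, Matrix.one_mulVec]
  exact (congrFun h1 i).symm

theorem tau_vec_bounds (h : MM ψ V c C M) (x v w : E n)
    (hw : ∀ i, w i = ∑ j, tau ψ x i j * v j) (hv : ∀ i, v i = ∑ j, hess ψ x i j * w j) :
    ‖w‖ ≤ c⁻¹ * ‖v‖ ∧ qf (tau ψ x) v = ∑ i, v i * w i ∧ qf (hess ψ x) w = ∑ i, v i * w i := by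
  have h1 : qf (tau ψ x) v = ∑ i, v i * w i := by
    unfold qf
    refine Finset.sum_congr rfl fun i _ => ?_
    rw [hw i, Finset.mul_sum]
    refine Finset.sum_congr rfl fun j _ => ?_
    ring
  have h2 : qf (hess ψ x) w = ∑ i, v i * w i := by
    unfold qf
    refine Finset.sum_congr rfl fun i _ => ?_
    rw [hv i, Finset.sum_mul]
    refine Finset.sum_congr rfl fun j _ => ?_
    ring
  refine ⟨?_, h1, h2⟩
  have h3 := h.lower x w
  have h4 : ∑ i, v i * w i ≤ ‖v‖ * ‖w‖ := by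
    have h5 := real_inner_le_norm w v
    have h6 : inner ℝ w v = ∑ i, v i * w i := by
      rw [PiLp.inner_apply]
      rfl
    rw [h6] at h5
    linarith
  have hc := h.c_pos
  rw [h2] at h3
  rcases eq_or_lt_of_le (norm_nonneg w) with h0 | h0
  · rw [← h0]
    positivity
  · have h5 : c * ‖w‖ ≤ ‖v‖ := by
      by_contra hcon
      push Not at hcon
      nlinarith
    rw [inv_mul_eq_div, le_div_iff₀ hc]
    linarith

theorem qf_tau_le (h : MM ψ V c C M) (x v : E n) : qf (tau ψ x) v ≤ c⁻¹ * ‖v‖ ^ 2 := by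
  obtain ⟨w, hw, hv⟩ := h.exists_tau_vec x v
  obtain ⟨h1, h2, h3⟩ := h.tau_vec_bounds x v w hw hv
  have h4 : ∑ i, v i * w i ≤ ‖v‖ * ‖w‖ := by
    have h5 := real_inner_le_norm w v
    have h6 : inner ℝ w v = ∑ i, v i * w i := by
      rw [PiLp.inner_apply]
      rfl
    rw [h6] at h5
    linarith
  rw [h2]
  have h5 := mul_le_mul_of_nonneg_left h1 (norm_nonneg v)
  linarith [h5, h4, mul_comm ‖v‖ (c⁻¹ * ‖v‖)]

theorem qf_tau_nonneg (h : MM ψ V c C M) (x v : E n) : 0 ≤ qf (tau ψ x) v := by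
  obtain ⟨w, hw, hv⟩ := h.exists_tau_vec x v
  obtain ⟨h1, h2, h3⟩ := h.tau_vec_bounds x v w hw hv
  rw [h2, ← h3]
  have hc := h.c_pos
  exact le_trans (by positivity) (h.lower x w)

theorem qf_add_smul (A : Matrix (Fin n) (Fin n) ℝ) (hA : ∀ i j, A i j = A j i) (w v : E n) (t : ℝ) :
    qf A (w + t • v) = qf A w + 2 * t * (∑ i, v i * ∑ j, A i j * w j) + t ^ 2 * qf A v := by
  unfold qf
  have h1 : ∑ i, v i * ∑ j, A i j * w j = ∑ i, ∑ j, A i j * w i * v j := by
    rw [Finset.sum_comm]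
    refine Finset.sum_congr rfl fun i _ => ?_
    rw [Finset.mul_sum]
    refine Finset.sum_congr rfl fun j _ => ?_
    rw [hA i j]
    ring
  have h2 : ∑ i, v i * ∑ j, A i j * w j = ∑ i, ∑ j, A i j * v i * w j := by
    refine Finset.sum_congr rfl fun i _ => ?_
    rw [Finset.mul_sum]
    refine Finset.sum_congr rfl fun j _ => ?_
    ring
  have h3 : 2 * t * (∑ i, v i * ∑ j, A i j * w j) = ∑ i, ∑ j, (t * (A i j * w i * v j)
      + t * (A i j * v i * w j)) := by
    simp only [Finset.sum_add_distrib, ← Finset.mul_sum]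
    rw [← h1]
    have h4 : ∑ i, ∑ j, A i j * v i * w j = ∑ i, v i * ∑ j, A i j * w j := h2.symm
    rw [h4]
    ring
  rw [h3, Finset.mul_sum, ← Finset.sum_add_distrib, ← Finset.sum_add_distrib]
  refine Finset.sum_congr rfl fun i _ => ?_
  rw [Finset.mul_sum, ← Finset.sum_add_distrib, ← Finset.sum_add_distrib]
  refine Finset.sum_congr rfl fun j _ => ?_
  simp only [PiLp.add_apply, PiLp.smul_apply, smul_eq_mul]
  ring

theorem le_qf_tau (h : MM ψ V c C M) (x v : E n) : C⁻¹ * ‖v‖ ^ 2 ≤ qf (tau ψ x) v := by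
  rcases eq_or_lt_of_le (norm_nonneg v) with h0 | h0
  · rw [← h0]
    simpa using h.qf_tau_nonneg x v
  have hc := h.c_pos
  have hC : 0 < C := by
    have h1 := (h.lower x v).trans (h.upper x v)
    have h2 : 0 < ‖v‖ ^ 2 := pow_pos h0 2
    have h3 : c ≤ C := le_of_mul_le_mul_right h1 h2
    linarith
  obtain ⟨w, hw, hv⟩ := h.exists_tau_vec x v
  obtain ⟨h1, h2, h3⟩ := h.tau_vec_bounds x v w hw hv
  have h4 := h.lower x (w + (-C⁻¹) • v)
  rw [qf_add_smul _ (h.hess_symm x)] at h4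
  have h5 : ∑ i, v i * ∑ j, hess ψ x i j * w j = ‖v‖ ^ 2 := by
    rw [norm_sq_eq_sum]
    refine Finset.sum_congr rfl fun i _ => ?_
    rw [← hv i]
    ring
  rw [h5, h3] at h4
  have h6 : 0 ≤ c * ‖w + (-C⁻¹) • v‖ ^ 2 := by positivity
  have h7 := mul_le_mul_of_nonneg_left (h.upper x v) (sq_nonneg (-C⁻¹))
  have h8 : (-C⁻¹) ^ 2 * (C * ‖v‖ ^ 2) = C⁻¹ * ‖v‖ ^ 2 := by
    field_simp
  rw [h2]
  rw [h8] at h7
  linarith

theorem abs_tau_le (h : MM ψ V c C M) (x : E n) (i j : Fin n) : |tau ψ x i j| ≤ c⁻¹ := by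
  obtain ⟨w, hw, hv⟩ := h.exists_tau_vec x (ei j)
  obtain ⟨h1, -, -⟩ := h.tau_vec_bounds x (ei j) w hw hv
  have h2 : w i = tau ψ x i j := by
    rw [hw i]
    simp [ei_apply]
  rw [norm_ei, mul_one] at h1
  rw [← h2]
  exact (abs_coord_le w i).trans h1

theorem M_nonneg' (h : MM ψ V c C M) (i j : Fin n) : 0 ≤ M := by
  have h1 := h.lip i j (ei i) 0
  rw [sub_zero, norm_ei, mul_one] at h1
  exact (abs_nonneg _).trans h1

theorem tau_lip (h : MM ψ V c C M) (i j : Fin n) (x y : E n) :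
    |tau ψ x i j - tau ψ y i j| ≤ (n : ℝ) ^ 2 * M * (c⁻¹) ^ 2 * ‖x - y‖ := by
  have h1 : tau ψ x - tau ψ y = tau ψ x * (hess ψ y - hess ψ x) * tau ψ y := by
    rw [mul_sub, sub_mul, h.tau_mul_hess, one_mul, mul_assoc, h.hess_mul_tau, mul_one]
  have h2 : tau ψ x i j - tau ψ y i j
      = ∑ l, ∑ k, tau ψ x i k * (hess ψ y k l - hess ψ x k l) * tau ψ y l j := by
    have h3 := congrFun (congrFun h1 i) j
    rw [Matrix.sub_apply] at h3
    rw [h3, Matrix.mul_apply]
    refine Finset.sum_congr rfl fun l _ => ?_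
    rw [Matrix.mul_apply, Finset.sum_mul]
    refine Finset.sum_congr rfl fun k _ => ?_
    rw [Matrix.sub_apply]
  have hc : 0 ≤ c⁻¹ := inv_nonneg.2 h.c_pos.le
  have h3 : ∀ l k, |tau ψ x i k * (hess ψ y k l - hess ψ x k l) * tau ψ y l j|
      ≤ c⁻¹ * (M * ‖x - y‖) * c⁻¹ := fun l k => by
    rw [abs_mul, abs_mul]
    have h4 := h.lip k l y x
    rw [norm_sub_rev] at h4
    have h5 := h.abs_tau_le x i k
    have h6 := h.abs_tau_le y l j
    have h7 : 0 ≤ M * ‖x - y‖ := (abs_nonneg _).trans h4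
    exact mul_le_mul (mul_le_mul h5 h4 (abs_nonneg _) hc) h6 (abs_nonneg _) (mul_nonneg hc h7)
  rw [h2]
  calc |∑ l, ∑ k, tau ψ x i k * (hess ψ y k l - hess ψ x k l) * tau ψ y l j|
      ≤ ∑ l, |∑ k, tau ψ x i k * (hess ψ y k l - hess ψ x k l) * tau ψ y l j| :=
        Finset.abs_sum_le_sum_abs _ _
    _ ≤ ∑ l : Fin n, ∑ k : Fin n, c⁻¹ * (M * ‖x - y‖) * c⁻¹ :=
        Finset.sum_le_sum fun l _ => (Finset.abs_sum_le_sum_abs _ _).trans
          (Finset.sum_le_sum fun k _ => h3 l k)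
    _ = (n : ℝ) ^ 2 * M * (c⁻¹) ^ 2 * ‖x - y‖ := by
        simp only [Finset.sum_const, Finset.card_univ, Fintype.card_fin, nsmul_eq_mul]
        ring

theorem continuous_hess (h : MM ψ V c C M) (i j : Fin n) : Continuous (fun x => hess ψ x i j) :=
  _root_.Vale.Agent.P227.M.continuous_hess h.C2 i j

theorem tau_lipschitz (h : MM ψ V c C M) (i j : Fin n) :
    LipschitzWith (Real.toNNReal ((n : ℝ) ^ 2 * M * (c⁻¹) ^ 2)) (fun x => tau ψ x i j) := by
  refine LipschitzWith.of_dist_le_mul fun x y => ?_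
  rw [Real.dist_eq, dist_eq_norm]
  have h0 : 0 ≤ (n : ℝ) ^ 2 * M * (c⁻¹) ^ 2 := by
    have := h.M_nonneg' i j
    positivity
  rw [Real.coe_toNNReal _ h0]
  exact h.tau_lip i j x y

theorem continuous_tau (h : MM ψ V c C M) (i j : Fin n) : Continuous (fun x => tau ψ x i j) :=
  (h.tau_lipschitz i j).continuous

theorem gr_tau (h : MM ψ V c C M) (i j : Fin n) : Gr (fun x => tau ψ x i j) :=
  Gr.of_bound (h.continuous_tau i j) fun x => h.abs_tau_le x i j

theorem gr_hessψ (h : MM ψ V c C M) (i j : Fin n) : Gr (fun x => hess ψ x i j) := by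
  refine ⟨h.continuous_hess i j, |hess ψ 0 i j| + M, 1,
    add_nonneg (abs_nonneg _) (h.M_nonneg' i j), fun x => ?_⟩
  have h1 := h.lip i j x 0
  rw [sub_zero] at h1
  have h2 : |hess ψ x i j| ≤ |hess ψ x i j - hess ψ 0 i j| + |hess ψ 0 i j| := by
    calc |hess ψ x i j| = |(hess ψ x i j - hess ψ 0 i j) + hess ψ 0 i j| := by ring_nf
      _ ≤ _ := abs_add_le _ _
  have h3 := norm_nonneg x
  have h4 := abs_nonneg (hess ψ 0 i j)
  have h5 := h.M_nonneg' i j
  rw [pow_one]
  nlinarith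

/-! ### symmetry -/

theorem tau_even (h : MM ψ V c C M) (x : E n) : tau ψ (-x) = tau ψ x := by
  unfold tau
  rw [hess_even h.even]

/-! ### `Lop` -/

theorem gr_Lop_of (h : MM ψ V c C M) {f : E n → ℝ} (h1 : ∀ i, Gr (pd i f))
    (h2 : ∀ i j, Gr (fun x => hess f x i j)) : Gr (Lop ψ f) := by
  refine Gr.sub (Gr.sum _ fun i _ => Gr.sum _ fun j _ => (h.gr_tau i j).mul (h2 i j))
    (Gr.sum _ fun i _ => (Gr.coord i).mul (h1 i))

theorem gr_Lop (h : MM ψ V c C M) {f : E n → ℝ} (hf : Test f) : Gr (Lop ψ f) :=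
  h.gr_Lop_of hf.gr_pd hf.gr_hess

theorem continuous_Lop (h : MM ψ V c C M) {f : E n → ℝ} (hf : ContDiff ℝ 2 f) :
    Continuous (Lop ψ f) := by
  unfold Lop
  refine Continuous.sub ?_ ?_
  · exact continuous_finsetSum _ fun i _ => continuous_finsetSum _ fun j _ =>
      (h.continuous_tau i j).mul (_root_.Vale.Agent.P227.M.continuous_hess hf i j)
  · refine continuous_finsetSum _ fun i _ => Continuous.mul (by fun_prop) ?_
    exact (contDiff_pd (k := 1) hf (by norm_num) i).continuous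

theorem gr_fld_of (h : MM ψ V c C M) {u : E n → ℝ} (h1 : ∀ i, Gr (pd i u)) (b : Fin n) :
    Gr (fld ψ u b) := Gr.sum _ fun i _ => (h.gr_tau b i).mul (h1 i)

theorem gr_fld (h : MM ψ V c C M) {u : E n → ℝ} (hu : Test u) (b : Fin n) : Gr (fld ψ u b) :=
  h.gr_fld_of hu.gr_pd b

theorem continuous_fld (h : MM ψ V c C M) {u : E n → ℝ} (hu : ContDiff ℝ 1 u) (b : Fin n) :
    Continuous (fld ψ u b) :=
  continuous_finsetSum _ fun i _ => (h.continuous_tau b i).mul
    (contDiff_pd (k := 0) hu (by norm_num) i).continuous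

theorem Lop_even (h : MM ψ V c C M) {f : E n → ℝ} (hf : ∀ x, f (-x) = f x) (x : E n) :
    Lop ψ f (-x) = Lop ψ f x := by
  unfold Lop
  rw [h.tau_even, hess_even hf]
  simp only [PiLp.neg_apply, pd_even hf, neg_mul_neg]

theorem Lop_odd (h : MM ψ V c C M) {f : E n → ℝ} (hf : ∀ x, f (-x) = -f x) (x : E n) :
    Lop ψ f (-x) = -Lop ψ f x := by
  unfold Lop
  rw [h.tau_even]
  have h1 : ∀ i j, hess f (-x) i j = -hess f x i j := fun i j => pd_even (pd_odd hf j) i x
  simp only [PiLp.neg_apply, pd_odd hf, h1, mul_neg, neg_mul, Finset.sum_neg_distrib]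
  ring

end MM

theorem hasCompactSupport_Lop (ψ : E n → ℝ) {f : E n → ℝ} (hs : HasCompactSupport f) :
    HasCompactSupport (Lop ψ f) := by
  have h1 : HasCompactSupport (fun x => ∑ i, ∑ j, tau ψ x i j * hess f x i j) :=
    hasCompactSupport_sum _ fun i _ => hasCompactSupport_sum _ fun j _ =>
      (hasCompactSupport_hess hs i j).mul_left
  have h2 : HasCompactSupport (fun x => ∑ i, x i * pd i f x) :=
    hasCompactSupport_sum _ fun i _ => (hasCompactSupport_pd hs i).mul_left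
  have h3 := h1.sub h2
  exact h3

theorem hasCompactSupport_fld (ψ : E n → ℝ) {f : E n → ℝ} (hs : HasCompactSupport f) (b : Fin n) :
    HasCompactSupport (fld ψ f b) :=
  hasCompactSupport_sum _ fun i _ => (hasCompactSupport_pd hs i).mul_left

theorem Lop_add (ψ : E n → ℝ) {f g : E n → ℝ} (hf : ContDiff ℝ 2 f) (hg : ContDiff ℝ 2 g)
    (x : E n) : Lop ψ (fun z => f z + g z) x = Lop ψ f x + Lop ψ g x := by
  unfold Lop
  simp only [hess_add hf hg, pd_add (hf.differentiable (by norm_num))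
    (hg.differentiable (by norm_num)), mul_add, Finset.sum_add_distrib]
  ring

theorem Lop_neg (ψ : E n → ℝ) (f : E n → ℝ) (x : E n) :
    Lop ψ (fun z => -f z) x = -Lop ψ f x := by
  unfold Lop
  simp only [hess_neg, pd_neg, mul_neg, Finset.sum_neg_distrib]
  ring

theorem Lop_sub (ψ : E n → ℝ) {f g : E n → ℝ} (hf : ContDiff ℝ 2 f) (hg : ContDiff ℝ 2 g)
    (x : E n) : Lop ψ (fun z => f z - g z) x = Lop ψ f x - Lop ψ g x := by
  unfold Lop
  simp only [hess_sub hf hg, pd_sub (hf.differentiable (by norm_num))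
    (hg.differentiable (by norm_num)), mul_sub, Finset.sum_sub_distrib]
  ring

theorem Lop_const_mul (ψ : E n → ℝ) (a : ℝ) {f : E n → ℝ} (hf : ContDiff ℝ 2 f)
    (x : E n) : Lop ψ (fun z => a * f z) x = a * Lop ψ f x := by
  unfold Lop
  simp only [hess_const_mul a hf, pd_const_mul a (hf.differentiable (by norm_num))]
  rw [mul_sub, Finset.mul_sum, Finset.mul_sum]
  congr 1
  · refine Finset.sum_congr rfl fun i _ => ?_
    rw [Finset.mul_sum]
    refine Finset.sum_congr rfl fun j _ => ?_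
    ring
  · refine Finset.sum_congr rfl fun i _ => ?_
    ring

/-- `L(fg) = f L g + g L f + 2 ⟨∇f, τ ∇g⟩` -/
theorem MM.Lop_mul {ψ V : E n → ℝ} {c C M : ℝ} (h : MM ψ V c C M) {f g : E n → ℝ}
    (hf : ContDiff ℝ 2 f) (hg : ContDiff ℝ 2 g) (x : E n) :
    Lop ψ (fun z => f z * g z) x = f x * Lop ψ g x + g x * Lop ψ f x
      + 2 * ∑ b, pd b f x * fld ψ g b x := by
  unfold Lop fld
  simp only [hess_mul hf hg, pd_mul (hf.differentiable (by norm_num))
    (hg.differentiable (by norm_num))]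
  have h1 : ∑ i, ∑ j, tau ψ x i j * (hess f x i j * g x + f x * hess g x i j
      + pd j f x * pd i g x + pd i f x * pd j g x)
      = g x * (∑ i, ∑ j, tau ψ x i j * hess f x i j) + f x * (∑ i, ∑ j, tau ψ x i j * hess g x i j)
        + (∑ i, ∑ j, tau ψ x i j * (pd j f x * pd i g x))
        + ∑ i, ∑ j, tau ψ x i j * (pd i f x * pd j g x) := by
    simp only [Finset.mul_sum, ← Finset.sum_add_distrib]
    refine Finset.sum_congr rfl fun i _ => Finset.sum_congr rfl fun j _ => ?_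
    ring
  have h2 : ∑ i, ∑ j, tau ψ x i j * (pd j f x * pd i g x)
      = ∑ b, pd b f x * ∑ c, tau ψ x b c * pd c g x := by
    rw [Finset.sum_comm]
    refine Finset.sum_congr rfl fun i _ => ?_
    rw [Finset.mul_sum]
    refine Finset.sum_congr rfl fun j _ => ?_
    rw [h.tau_symm x i j]
    ring
  have h3 : ∑ i, ∑ j, tau ψ x i j * (pd i f x * pd j g x)
      = ∑ b, pd b f x * ∑ c, tau ψ x b c * pd c g x := by
    refine Finset.sum_congr rfl fun i _ => ?_
    rw [Finset.mul_sum]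
    refine Finset.sum_congr rfl fun j _ => ?_
    ring
  have h4 : ∑ i, x i * (pd i f x * g x + f x * pd i g x)
      = g x * (∑ i, x i * pd i f x) + f x * ∑ i, x i * pd i g x := by
    simp only [Finset.mul_sum, ← Finset.sum_add_distrib]
    refine Finset.sum_congr rfl fun i _ => ?_
    ring
  rw [h1, h2, h3, h4]
  ring

end Vale.Agent.P227.M
end

section

/-! # P254/S2: basic facts for the structure `MMc` (copy of P227/M/BasMM, no evenness). -/

open MeasureTheory
open scoped Topology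

namespace Vale.Agent.P254.MC

open Vale.Agent.P227.M

variable {n : ℕ}

namespace MMc

variable {ψ V : E n → ℝ} {c C M : ℝ}

theorem hess_symm (h : MMc ψ V c C M) (x : E n) (i j : Fin n) : hess ψ x i j = hess ψ x j i :=
  _root_.Vale.Agent.P227.M.hess_symm h.C2 x i j

theorem hess_posDef (h : MMc ψ V c C M) (x : E n) : (hess ψ x).PosDef := by
  refine Matrix.PosDef.of_dotProduct_mulVec_pos ?_ fun v hv => ?_
  · ext i j
    simpa using h.hess_symm x j i
  · have h1 := h.lower x (WithLp.toLp 2 v)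
    rw [qf_eq_dot] at h1
    have h2 : 0 < ‖(WithLp.toLp 2 v : E n)‖ := by
      rw [norm_pos_iff]
      intro h0
      apply hv
      have := congrArg WithLp.ofLp h0
      simpa using this
    have h3 : 0 < c * ‖(WithLp.toLp 2 v : E n)‖ ^ 2 := mul_pos h.c_pos (pow_pos h2 2)
    simpa using h3.trans_le h1

theorem det_pos (h : MMc ψ V c C M) (x : E n) : 0 < (hess ψ x).det := (h.hess_posDef x).det_pos

theorem isUnit_det (h : MMc ψ V c C M) (x : E n) : IsUnit (hess ψ x).det := (h.det_pos x).ne'.isUnit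

theorem tau_mul_hess (h : MMc ψ V c C M) (x : E n) : tau ψ x * hess ψ x = 1 :=
  Matrix.nonsing_inv_mul _ (h.isUnit_det x)

theorem hess_mul_tau (h : MMc ψ V c C M) (x : E n) : hess ψ x * tau ψ x = 1 :=
  Matrix.mul_nonsing_inv _ (h.isUnit_det x)

theorem tau_posDef (h : MMc ψ V c C M) (x : E n) : (tau ψ x).PosDef := (h.hess_posDef x).inv

theorem tau_posSemidef (h : MMc ψ V c C M) (x : E n) : (tau ψ x).PosSemidef :=
  (h.tau_posDef x).posSemidef

theorem tau_symm (h : MMc ψ V c C M) (x : E n) (i j : Fin n) : tau ψ x i j = tau ψ x j i := by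
  have h1 := (h.tau_posDef x).1
  have h2 := congrFun (congrFun h1 j) i
  simpa using h2

theorem tau_transpose (h : MMc ψ V c C M) (x : E n) : (tau ψ x).transpose = tau ψ x := by
  ext i j
  exact h.tau_symm x j i

/-- the vector `τ v` -/
theorem exists_tau_vec (h : MMc ψ V c C M) (x v : E n) : ∃ w : E n,
    (∀ i, w i = ∑ j, tau ψ x i j * v j) ∧ (∀ i, v i = ∑ j, hess ψ x i j * w j) := by
  refine ⟨WithLp.toLp 2 ((tau ψ x).mulVec v.ofLp), fun i => rfl, fun i => ?_⟩
  have h1 : (hess ψ x).mulVec ((tau ψ x).mulVec v.ofLp) = v.ofLp := by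
    rw [Matrix.mulVec_mulVec, h.hess_mul_tau, Matrix.one_mulVec]
  exact (congrFun h1 i).symm

theorem tau_vec_bounds (h : MMc ψ V c C M) (x v w : E n)
    (hw : ∀ i, w i = ∑ j, tau ψ x i j * v j) (hv : ∀ i, v i = ∑ j, hess ψ x i j * w j) :
    ‖w‖ ≤ c⁻¹ * ‖v‖ ∧ qf (tau ψ x) v = ∑ i, v i * w i ∧ qf (hess ψ x) w = ∑ i, v i * w i := by
  have h1 : qf (tau ψ x) v = ∑ i, v i * w i := by
    unfold qf
    refine Finset.sum_congr rfl fun i _ => ?_
    rw [hw i, Finset.mul_sum]
    refine Finset.sum_congr rfl fun j _ => ?_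
    ring
  have h2 : qf (hess ψ x) w = ∑ i, v i * w i := by
    unfold qf
    refine Finset.sum_congr rfl fun i _ => ?_
    rw [hv i, Finset.sum_mul]
    refine Finset.sum_congr rfl fun j _ => ?_
    ring
  refine ⟨?_, h1, h2⟩
  have h3 := h.lower x w
  have h4 : ∑ i, v i * w i ≤ ‖v‖ * ‖w‖ := by
    have h5 := real_inner_le_norm w v
    have h6 : inner ℝ w v = ∑ i, v i * w i := by
      rw [PiLp.inner_apply]
      rfl
    rw [h6] at h5
    linarith
  have hc := h.c_pos
  rw [h2] at h3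
  rcases eq_or_lt_of_le (norm_nonneg w) with h0 | h0
  · rw [← h0]
    positivity
  · have h5 : c * ‖w‖ ≤ ‖v‖ := by
      by_contra hcon
      push Not at hcon
      nlinarith
    rw [inv_mul_eq_div, le_div_iff₀ hc]
    linarith

theorem qf_tau_le (h : MMc ψ V c C M) (x v : E n) : qf (tau ψ x) v ≤ c⁻¹ * ‖v‖ ^ 2 := by
  obtain ⟨w, hw, hv⟩ := h.exists_tau_vec x v
  obtain ⟨h1, h2, h3⟩ := h.tau_vec_bounds x v w hw hv
  have h4 : ∑ i, v i * w i ≤ ‖v‖ * ‖w‖ := by
    have h5 := real_inner_le_norm w v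
    have h6 : inner ℝ w v = ∑ i, v i * w i := by
      rw [PiLp.inner_apply]
      rfl
    rw [h6] at h5
    linarith
  rw [h2]
  have h5 := mul_le_mul_of_nonneg_left h1 (norm_nonneg v)
  linarith [h5, h4, mul_comm ‖v‖ (c⁻¹ * ‖v‖)]

theorem qf_tau_nonneg (h : MMc ψ V c C M) (x v : E n) : 0 ≤ qf (tau ψ x) v := by
  obtain ⟨w, hw, hv⟩ := h.exists_tau_vec x v
  obtain ⟨h1, h2, h3⟩ := h.tau_vec_bounds x v w hw hv
  rw [h2, ← h3]
  have hc := h.c_pos
  exact le_trans (by positivity) (h.lower x w)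

theorem qf_add_smul (A : Matrix (Fin n) (Fin n) ℝ) (hA : ∀ i j, A i j = A j i) (w v : E n) (t : ℝ) :
    qf A (w + t • v) = qf A w + 2 * t * (∑ i, v i * ∑ j, A i j * w j) + t ^ 2 * qf A v := by
  unfold qf
  have h1 : ∑ i, v i * ∑ j, A i j * w j = ∑ i, ∑ j, A i j * w i * v j := by
    rw [Finset.sum_comm]
    refine Finset.sum_congr rfl fun i _ => ?_
    rw [Finset.mul_sum]
    refine Finset.sum_congr rfl fun j _ => ?_
    rw [hA i j]
    ring
  have h2 : ∑ i, v i * ∑ j, A i j * w j = ∑ i, ∑ j, A i j * v i * w j := by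
    refine Finset.sum_congr rfl fun i _ => ?_
    rw [Finset.mul_sum]
    refine Finset.sum_congr rfl fun j _ => ?_
    ring
  have h3 : 2 * t * (∑ i, v i * ∑ j, A i j * w j) = ∑ i, ∑ j, (t * (A i j * w i * v j)
      + t * (A i j * v i * w j)) := by
    simp only [Finset.sum_add_distrib, ← Finset.mul_sum]
    rw [← h1]
    have h4 : ∑ i, ∑ j, A i j * v i * w j = ∑ i, v i * ∑ j, A i j * w j := h2.symm
    rw [h4]
    ring
  rw [h3, Finset.mul_sum, ← Finset.sum_add_distrib, ← Finset.sum_add_distrib]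
  refine Finset.sum_congr rfl fun i _ => ?_
  rw [Finset.mul_sum, ← Finset.sum_add_distrib, ← Finset.sum_add_distrib]
  refine Finset.sum_congr rfl fun j _ => ?_
  simp only [PiLp.add_apply, PiLp.smul_apply, smul_eq_mul]
  ring

theorem le_qf_tau (h : MMc ψ V c C M) (x v : E n) : C⁻¹ * ‖v‖ ^ 2 ≤ qf (tau ψ x) v := by
  rcases eq_or_lt_of_le (norm_nonneg v) with h0 | h0
  · rw [← h0]
    simpa using h.qf_tau_nonneg x v
  have hc := h.c_pos
  have hC : 0 < C := by
    have h1 := (h.lower x v).trans (h.upper x v)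
    have h2 : 0 < ‖v‖ ^ 2 := pow_pos h0 2
    have h3 : c ≤ C := le_of_mul_le_mul_right h1 h2
    linarith
  obtain ⟨w, hw, hv⟩ := h.exists_tau_vec x v
  obtain ⟨h1, h2, h3⟩ := h.tau_vec_bounds x v w hw hv
  have h4 := h.lower x (w + (-C⁻¹) • v)
  rw [qf_add_smul _ (h.hess_symm x)] at h4
  have h5 : ∑ i, v i * ∑ j, hess ψ x i j * w j = ‖v‖ ^ 2 := by
    rw [norm_sq_eq_sum]
    refine Finset.sum_congr rfl fun i _ => ?_
    rw [← hv i]
    ring
  rw [h5, h3] at h4
  have h6 : 0 ≤ c * ‖w + (-C⁻¹) • v‖ ^ 2 := by positivity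
  have h7 := mul_le_mul_of_nonneg_left (h.upper x v) (sq_nonneg (-C⁻¹))
  have h8 : (-C⁻¹) ^ 2 * (C * ‖v‖ ^ 2) = C⁻¹ * ‖v‖ ^ 2 := by
    field_simp
  rw [h2]
  rw [h8] at h7
  linarith

theorem abs_tau_le (h : MMc ψ V c C M) (x : E n) (i j : Fin n) : |tau ψ x i j| ≤ c⁻¹ := by
  obtain ⟨w, hw, hv⟩ := h.exists_tau_vec x (ei j)
  obtain ⟨h1, -, -⟩ := h.tau_vec_bounds x (ei j) w hw hv
  have h2 : w i = tau ψ x i j := by
    rw [hw i]
    simp [ei_apply]
  rw [norm_ei, mul_one] at h1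
  rw [← h2]
  exact (abs_coord_le w i).trans h1

theorem M_nonneg' (h : MMc ψ V c C M) (i j : Fin n) : 0 ≤ M := by
  have h1 := h.lip i j (ei i) 0
  rw [sub_zero, norm_ei, mul_one] at h1
  exact (abs_nonneg _).trans h1

theorem tau_lip (h : MMc ψ V c C M) (i j : Fin n) (x y : E n) :
    |tau ψ x i j - tau ψ y i j| ≤ (n : ℝ) ^ 2 * M * (c⁻¹) ^ 2 * ‖x - y‖ := by
  have h1 : tau ψ x - tau ψ y = tau ψ x * (hess ψ y - hess ψ x) * tau ψ y := by
    rw [mul_sub, sub_mul, h.tau_mul_hess, one_mul, mul_assoc, h.hess_mul_tau, mul_one]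
  have h2 : tau ψ x i j - tau ψ y i j
      = ∑ l, ∑ k, tau ψ x i k * (hess ψ y k l - hess ψ x k l) * tau ψ y l j := by
    have h3 := congrFun (congrFun h1 i) j
    rw [Matrix.sub_apply] at h3
    rw [h3, Matrix.mul_apply]
    refine Finset.sum_congr rfl fun l _ => ?_
    rw [Matrix.mul_apply, Finset.sum_mul]
    refine Finset.sum_congr rfl fun k _ => ?_
    rw [Matrix.sub_apply]
  have hc : 0 ≤ c⁻¹ := inv_nonneg.2 h.c_pos.le
  have h3 : ∀ l k, |tau ψ x i k * (hess ψ y k l - hess ψ x k l) * tau ψ y l j|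
      ≤ c⁻¹ * (M * ‖x - y‖) * c⁻¹ := fun l k => by
    rw [abs_mul, abs_mul]
    have h4 := h.lip k l y x
    rw [norm_sub_rev] at h4
    have h5 := h.abs_tau_le x i k
    have h6 := h.abs_tau_le y l j
    have h7 : 0 ≤ M * ‖x - y‖ := (abs_nonneg _).trans h4
    exact mul_le_mul (mul_le_mul h5 h4 (abs_nonneg _) hc) h6 (abs_nonneg _) (mul_nonneg hc h7)
  rw [h2]
  calc |∑ l, ∑ k, tau ψ x i k * (hess ψ y k l - hess ψ x k l) * tau ψ y l j|
      ≤ ∑ l, |∑ k, tau ψ x i k * (hess ψ y k l - hess ψ x k l) * tau ψ y l j| :=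
        Finset.abs_sum_le_sum_abs _ _
    _ ≤ ∑ l : Fin n, ∑ k : Fin n, c⁻¹ * (M * ‖x - y‖) * c⁻¹ :=
        Finset.sum_le_sum fun l _ => (Finset.abs_sum_le_sum_abs _ _).trans
          (Finset.sum_le_sum fun k _ => h3 l k)
    _ = (n : ℝ) ^ 2 * M * (c⁻¹) ^ 2 * ‖x - y‖ := by
        simp only [Finset.sum_const, Finset.card_univ, Fintype.card_fin, nsmul_eq_mul]
        ring

theorem continuous_hess (h : MMc ψ V c C M) (i j : Fin n) : Continuous (fun x => hess ψ x i j) :=
  _root_.Vale.Agent.P227.M.continuous_hess h.C2 i j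

theorem tau_lipschitz (h : MMc ψ V c C M) (i j : Fin n) :
    LipschitzWith (Real.toNNReal ((n : ℝ) ^ 2 * M * (c⁻¹) ^ 2)) (fun x => tau ψ x i j) := by
  refine LipschitzWith.of_dist_le_mul fun x y => ?_
  rw [Real.dist_eq, dist_eq_norm]
  have h0 : 0 ≤ (n : ℝ) ^ 2 * M * (c⁻¹) ^ 2 := by
    have := h.M_nonneg' i j
    positivity
  rw [Real.coe_toNNReal _ h0]
  exact h.tau_lip i j x y

theorem continuous_tau (h : MMc ψ V c C M) (i j : Fin n) : Continuous (fun x => tau ψ x i j) :=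
  (h.tau_lipschitz i j).continuous

theorem gr_tau (h : MMc ψ V c C M) (i j : Fin n) : Gr (fun x => tau ψ x i j) :=
  Gr.of_bound (h.continuous_tau i j) fun x => h.abs_tau_le x i j

theorem gr_hessψ (h : MMc ψ V c C M) (i j : Fin n) : Gr (fun x => hess ψ x i j) := by
  refine ⟨h.continuous_hess i j, |hess ψ 0 i j| + M, 1,
    add_nonneg (abs_nonneg _) (h.M_nonneg' i j), fun x => ?_⟩
  have h1 := h.lip i j x 0
  rw [sub_zero] at h1
  have h2 : |hess ψ x i j| ≤ |hess ψ x i j - hess ψ 0 i j| + |hess ψ 0 i j| := by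
    calc |hess ψ x i j| = |(hess ψ x i j - hess ψ 0 i j) + hess ψ 0 i j| := by ring_nf
      _ ≤ _ := abs_add_le _ _
  have h3 := norm_nonneg x
  have h4 := abs_nonneg (hess ψ 0 i j)
  have h5 := h.M_nonneg' i j
  rw [pow_one]
  nlinarith

/-! ### symmetry -/



/-! ### `Lop` -/

theorem gr_Lop_of (h : MMc ψ V c C M) {f : E n → ℝ} (h1 : ∀ i, Gr (pd i f))
    (h2 : ∀ i j, Gr (fun x => hess f x i j)) : Gr (Lop ψ f) := by
  refine Gr.sub (Gr.sum _ fun i _ => Gr.sum _ fun j _ => (h.gr_tau i j).mul (h2 i j))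
    (Gr.sum _ fun i _ => (Gr.coord i).mul (h1 i))

theorem gr_Lop (h : MMc ψ V c C M) {f : E n → ℝ} (hf : Test f) : Gr (Lop ψ f) :=
  h.gr_Lop_of hf.gr_pd hf.gr_hess

theorem continuous_Lop (h : MMc ψ V c C M) {f : E n → ℝ} (hf : ContDiff ℝ 2 f) :
    Continuous (Lop ψ f) := by
  unfold Lop
  refine Continuous.sub ?_ ?_
  · exact continuous_finsetSum _ fun i _ => continuous_finsetSum _ fun j _ =>
      (h.continuous_tau i j).mul (_root_.Vale.Agent.P227.M.continuous_hess hf i j)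
  · refine continuous_finsetSum _ fun i _ => Continuous.mul (by fun_prop) ?_
    exact (contDiff_pd (k := 1) hf (by norm_num) i).continuous

theorem gr_fld_of (h : MMc ψ V c C M) {u : E n → ℝ} (h1 : ∀ i, Gr (pd i u)) (b : Fin n) :
    Gr (fld ψ u b) := Gr.sum _ fun i _ => (h.gr_tau b i).mul (h1 i)

theorem gr_fld (h : MMc ψ V c C M) {u : E n → ℝ} (hu : Test u) (b : Fin n) : Gr (fld ψ u b) :=
  h.gr_fld_of hu.gr_pd b

theorem continuous_fld (h : MMc ψ V c C M) {u : E n → ℝ} (hu : ContDiff ℝ 1 u) (b : Fin n) :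
    Continuous (fld ψ u b) :=
  continuous_finsetSum _ fun i _ => (h.continuous_tau b i).mul
    (contDiff_pd (k := 0) hu (by norm_num) i).continuous





end MMc

/-- `L(fg) = f L g + g L f + 2 ⟨∇f, τ ∇g⟩` -/
theorem MMc.Lop_mul {ψ V : E n → ℝ} {c C M : ℝ} (h : MMc ψ V c C M) {f g : E n → ℝ}
    (hf : ContDiff ℝ 2 f) (hg : ContDiff ℝ 2 g) (x : E n) :
    Lop ψ (fun z => f z * g z) x = f x * Lop ψ g x + g x * Lop ψ f x
      + 2 * ∑ b, pd b f x * fld ψ g b x := by
  unfold Lop fld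
  simp only [hess_mul hf hg, pd_mul (hf.differentiable (by norm_num))
    (hg.differentiable (by norm_num))]
  have h1 : ∑ i, ∑ j, tau ψ x i j * (hess f x i j * g x + f x * hess g x i j
      + pd j f x * pd i g x + pd i f x * pd j g x)
      = g x * (∑ i, ∑ j, tau ψ x i j * hess f x i j) + f x * (∑ i, ∑ j, tau ψ x i j * hess g x i j)
        + (∑ i, ∑ j, tau ψ x i j * (pd j f x * pd i g x))
        + ∑ i, ∑ j, tau ψ x i j * (pd i f x * pd j g x) := by
    simp only [Finset.mul_sum, ← Finset.sum_add_distrib]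
    refine Finset.sum_congr rfl fun i _ => Finset.sum_congr rfl fun j _ => ?_
    ring
  have h2 : ∑ i, ∑ j, tau ψ x i j * (pd j f x * pd i g x)
      = ∑ b, pd b f x * ∑ c, tau ψ x b c * pd c g x := by
    rw [Finset.sum_comm]
    refine Finset.sum_congr rfl fun i _ => ?_
    rw [Finset.mul_sum]
    refine Finset.sum_congr rfl fun j _ => ?_
    rw [h.tau_symm x i j]
    ring
  have h3 : ∑ i, ∑ j, tau ψ x i j * (pd i f x * pd j g x)
      = ∑ b, pd b f x * ∑ c, tau ψ x b c * pd c g x := by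
    refine Finset.sum_congr rfl fun i _ => ?_
    rw [Finset.mul_sum]
    refine Finset.sum_congr rfl fun j _ => ?_
    ring
  have h4 : ∑ i, x i * (pd i f x * g x + f x * pd i g x)
      = g x * (∑ i, x i * pd i f x) + f x * ∑ i, x i * pd i g x := by
    simp only [Finset.mul_sum, ← Finset.sum_add_distrib]
    refine Finset.sum_congr rfl fun i _ => ?_
    ring
  rw [h1, h2, h3, h4]
  ring

end Vale.Agent.P254.MC
end

section

/-! P254 stage 3, block S2 (d) (helper300): from the core identity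
`∫ (∑_b τ_ab ∂_b G) e^{-V} = ∫ x_a G e^{-V}` to `E τ = Cov`, `T_ijk = 2 E x_k τ_ij`, Bessel.
Abstract in the matrix field `t`; no evenness. -/

open MeasureTheory
open scoped Topology

namespace Vale.Agent.P254.S2.H300

open Vale.Agent.P227.M

variable {n : ℕ}

/-- the core (Stein) identity for a matrix field `t` -/
def CoreId (t : E n → Matrix (Fin n) (Fin n) ℝ) (V : E n → ℝ) : Prop :=
  ∀ (a : Fin n) (G : E n → ℝ), Differentiable ℝ G → Gr G → (∀ b, Gr (pd b G)) →
    ∫ x, (∑ b, t x a b * pd b G x) * Real.exp (-(V x)) = ∫ x, (x a * G x) * Real.exp (-(V x))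

variable {t : E n → Matrix (Fin n) (Fin n) ℝ} {V : E n → ℝ} {c C : ℝ}

theorem differentiable_coord (i : Fin n) : Differentiable ℝ (fun x : E n => x i) :=
  (EuclideanSpace.proj i : E n →L[ℝ] ℝ).differentiable

theorem CoreId.ex (h : CoreId t V) (a : Fin n) (G : E n → ℝ) (hG : Differentiable ℝ G)
    (h0 : Gr G) (h1 : ∀ b, Gr (pd b G)) :
    Ex V (fun x => ∑ b, t x a b * pd b G x) = Ex V (fun x => x a * G x) := by
  unfold Ex
  congr 1
  exact h a G hG h0 h1

/-- `E τ_ij = E x_i x_j` -/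
theorem CoreId.ex_tau (h : CoreId t V) (i j : Fin n) :
    Ex V (fun x => t x i j) = Ex V (fun x => x i * x j) := by
  have e1 : ∀ b (x : E n), pd b (fun z : E n => z j) x = if j = b then 1 else 0 := fun b x =>
    pd_coord b j x
  have e2 : ∀ b, pd b (fun z : E n => z j) = fun _ => if j = b then (1 : ℝ) else 0 := fun b =>
    funext (e1 b)
  have h2 := h.ex i (fun z => z j) (differentiable_coord j) (Gr.coord j) fun b => by
    rw [e2 b]
    exact Gr.const _
  rw [← h2]
  refine Ex_congr V fun x => ?_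
  simp [e1]

/-- `E x_i x_j x_k = E x_k τ_ij + E x_j τ_ik` -/
theorem CoreId.ex_three (h : CoreId t V) (hV : Reg V c C) (ht : ∀ i j, Gr (fun x => t x i j))
    (i j k : Fin n) :
    Ex V (fun x => x i * x j * x k) = Ex V (fun x => x k * t x i j) + Ex V (fun x => x j * t x i k) := by
  have e1 : ∀ b (x : E n), pd b (fun z : E n => z j * z k) x
      = (if j = b then 1 else 0) * x k + x j * (if k = b then 1 else 0) := fun b x => by
    rw [pd_mul (differentiable_coord j) (differentiable_coord k), pd_coord, pd_coord]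
  have h2 := h.ex i (fun z => z j * z k) ((differentiable_coord j).mul (differentiable_coord k))
    ((Gr.coord j).mul (Gr.coord k)) fun b => by
      rw [funext (e1 b)]
      exact ((Gr.const _).mul (Gr.coord k)).add ((Gr.coord j).mul (Gr.const _))
  have h3 : Ex V (fun x => x i * x j * x k) = Ex V (fun x => x i * (x j * x k)) :=
    Ex_congr V fun x => by ring
  rw [h3, ← h2, ← Ex_add hV ((Gr.coord k).mul (ht i j)) ((Gr.coord j).mul (ht i k))]
  refine Ex_congr V fun x => ?_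
  simp only [e1, mul_add, Finset.sum_add_distrib]
  congr 1
  · rw [Finset.sum_eq_single j]
    · simp
      ring
    · intro b _ hb
      rw [if_neg hb.symm]
      ring
    · intro hb
      exact absurd (Finset.mem_univ j) hb
  · rw [Finset.sum_eq_single k]
    · simp
      ring
    · intro b _ hb
      rw [if_neg hb.symm]
      ring
    · intro hb
      exact absurd (Finset.mem_univ k) hb

/-- `E x_k τ_ij` is totally symmetric and `E x_i x_j x_k = 2 E x_k τ_ij` -/
theorem CoreId.three_eq (h : CoreId t V) (hV : Reg V c C) (ht : ∀ i j, Gr (fun x => t x i j))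
    (hs : ∀ x i j, t x i j = t x j i) (i j k : Fin n) :
    Ex V (fun x => x i * x j * x k) = 2 * Ex V (fun x => x k * t x i j) := by
  have hsym : ∀ a b d : Fin n, Ex V (fun x => x a * t x b d) = Ex V (fun x => x a * t x d b) :=
    fun a b d => Ex_congr V fun x => by rw [hs x b d]
  have hswap : ∀ a b d : Fin n, Ex V (fun x => x a * t x b d) = Ex V (fun x => x b * t x a d) := by
    intro a b d
    have h1 := h.ex_three hV ht b a d
    have h2 := h.ex_three hV ht a b d
    have h3 : Ex V (fun x => x b * x a * x d) = Ex V (fun x => x a * x b * x d) :=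
      Ex_congr V fun x => by ring
    have h4 := hsym d b a
    rw [h3] at h1
    linarith
  have h1 := h.ex_three hV ht i j k
  have h2 : Ex V (fun x => x j * t x i k) = Ex V (fun x => x k * t x i j) := by
    rw [hsym j i k, hswap j k i, hsym k j i]
  rw [h1, h2]
  ring

/-- Bessel's inequality for the coordinates -/
theorem bessel (hV : Reg V c C) (h0 : ∀ i, Ex V (fun x => x i) = 0)
    (h1 : ∀ i j, Ex V (fun x => x i * x j) = if i = j then 1 else 0) {F : E n → ℝ} (hF : Gr F) :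
    ∑ k, (Ex V (fun x => x k * F x)) ^ 2 ≤ Ex V (fun x => F x ^ 2) - (Ex V F) ^ 2 := by
  set a : Fin n → ℝ := fun k => Ex V (fun x => x k * F x) with ha
  set m : ℝ := Ex V F with hm
  have hS : Gr (fun x : E n => ∑ k, a k * x k) := Gr.sum _ fun k _ => (Gr.coord k).const_mul (a k)
  have hlin : Ex V (fun x => ∑ k, a k * x k) = 0 := by
    rw [Ex_sum hV _ fun k _ => (Gr.coord k).const_mul (a k)]
    refine Finset.sum_eq_zero fun k _ => ?_
    rw [Ex_const_mul, h0, mul_zero]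
  have hFS : Ex V (fun x => F x * ∑ k, a k * x k) = ∑ k, a k ^ 2 := by
    have e1 : Ex V (fun x => F x * ∑ k, a k * x k) = Ex V (fun x => ∑ k, a k * (x k * F x)) :=
      Ex_congr V fun x => by
        rw [Finset.mul_sum]
        exact Finset.sum_congr rfl fun k _ => by ring
    rw [e1, Ex_sum hV _ fun k _ => ((Gr.coord k).mul hF).const_mul (a k)]
    refine Finset.sum_congr rfl fun k _ => ?_
    rw [Ex_const_mul, sq]
  have hSS : Ex V (fun x => (∑ k, a k * x k) ^ 2) = ∑ k, a k ^ 2 := by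
    have e1 : Ex V (fun x => (∑ k, a k * x k) ^ 2)
        = Ex V (fun x => ∑ k, ∑ l, a k * a l * (x k * x l)) := Ex_congr V fun x => by
      rw [sq, Finset.sum_mul_sum]
      exact Finset.sum_congr rfl fun k _ => Finset.sum_congr rfl fun l _ => by ring
    rw [e1, Ex_sum hV _ fun k _ => Gr.sum _ fun l _ =>
      ((Gr.coord k).mul (Gr.coord l)).const_mul (a k * a l)]
    refine Finset.sum_congr rfl fun k _ => ?_
    rw [Ex_sum hV _ fun l _ => ((Gr.coord k).mul (Gr.coord l)).const_mul (a k * a l)]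
    rw [Finset.sum_eq_single k]
    · rw [Ex_const_mul, h1]
      simp [sq]
    · intro l _ hl
      rw [Ex_const_mul, h1, if_neg hl.symm, mul_zero]
    · intro hk
      exact absurd (Finset.mem_univ k) hk
  have hpos : 0 ≤ Ex V (fun x => (F x - m - ∑ k, a k * x k) ^ 2) := Ex_nonneg V fun x => sq_nonneg _
  have e2 : Ex V (fun x => (F x - m - ∑ k, a k * x k) ^ 2)
      = Ex V (fun x => F x ^ 2) - m ^ 2 - ∑ k, a k ^ 2 := by
    have e3 : Ex V (fun x => (F x - m - ∑ k, a k * x k) ^ 2)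
        = Ex V (fun x => (F x ^ 2 + (m ^ 2 + (-(2 * m)) * F x)) + ((∑ k, a k * x k) ^ 2 +
          ((-2) * (F x * ∑ k, a k * x k) + (2 * m) * ∑ k, a k * x k))) :=
      Ex_congr V fun x => by ring
    rw [e3, Ex_add hV ((hF.pow 2).add ((Gr.const _).add (hF.const_mul _)))
      ((hS.pow 2).add (((hF.mul hS).const_mul _).add (hS.const_mul _))),
      Ex_add hV (hF.pow 2) ((Gr.const _).add (hF.const_mul _)),
      Ex_add hV (Gr.const _) (hF.const_mul _),
      Ex_add hV (hS.pow 2) (((hF.mul hS).const_mul _).add (hS.const_mul _)),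
      Ex_add hV ((hF.mul hS).const_mul _) (hS.const_mul _), Ex_const hV, Ex_const_mul,
      Ex_const_mul, Ex_const_mul, hlin, hFS, hSS, ← hm]
    ring
  linarith

/-- the conclusion of `StmtBes` for a matrix field with the core identity -/
theorem CoreId.bes (h : CoreId t V) (hV : Reg V c C) (ht : ∀ i j, Gr (fun x => t x i j))
    (hs : ∀ x i j, t x i j = t x j i) (h0 : ∀ i, Ex V (fun x => x i) = 0)
    (h1 : ∀ i j, Ex V (fun x => x i * x j) = if i = j then 1 else 0) (i j : Fin n) :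
    Ex V (fun x => t x i j) = (if i = j then 1 else 0) ∧
    ∑ k, (Ex V (fun x => x i * x j * x k)) ^ 2
      ≤ 4 * (Ex V (fun x => t x i j ^ 2) - (Ex V (fun x => t x i j)) ^ 2) := by
  refine ⟨by rw [h.ex_tau i j, h1 i j], ?_⟩
  have h2 := bessel hV h0 h1 (ht i j)
  have h3 : ∑ k, (Ex V (fun x => x i * x j * x k)) ^ 2
      = 4 * ∑ k, (Ex V (fun x => x k * t x i j)) ^ 2 := by
    rw [Finset.mul_sum]
    refine Finset.sum_congr rfl fun k _ => ?_
    rw [h.three_eq hV ht hs i j k]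
    ring
  rw [h3]
  linarith

end Vale.Agent.P254.S2.H300
end

section

/-! P254, static method (captain helper625): the static profile and the statement of block S2. -/

open MeasureTheory

namespace Vale.Agent.P254.St625

open Vale.Agent.P227.M

/-- positive root of `b y² + y = 2` -/
noncomputable def yy (b : ℝ) : ℝ := (Real.sqrt (1 + 8 * b) - 1) / (2 * b)

/-- the static profile -/
noncomputable def kst (b : ℝ) : ℝ := 4 * (yy b - 1)

/-- output of block S2 (static third moment inequality), `Cov = 1`, centred, `D²V ≥ diag b`;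
no evenness -/
def StmtStatic : Prop := ∀ (n : ℕ) (V : E n → ℝ) (c C : ℝ), Reg V c C →
  (∀ i, Ex V (fun x => x i) = 0) → (∀ i j, Ex V (fun x => x i * x j) = if i = j then 1 else 0) →
  ∀ b : Fin n → ℝ, (∀ i, 0 < b i ∧ b i < 1) → (∀ x v, ∑ i, b i * v i ^ 2 ≤ qf (hess V x) v) →
  ∀ r : Fin n → ℝ, (∀ i, 0 < r i) →
    ∑ i, ∑ j, r i * r j * ∑ k, (Ex V (fun x => x i * x j * x k)) ^ 2 ≤ ∑ i, r i ^ 2 * kst (b i)

end Vale.Agent.P254.St625
end

section

/-!
# P254 stage 3, block S2d (second hand): Bessel, Stein symmetry and the algebraic end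

From the inequality `2 S ≤ E tr(WτWτ) - E tr(WτWτV''τ)` (`S = ∑ w_i w_j Var τ_ij`) to the static
inequality with the profile `kst`.
-/

open MeasureTheory

namespace Vale.Agent.P254.X.S2d

open Vale.Agent.P227.M Vale.Agent.P254.St625
open scoped MatrixOrder Matrix.Norms.L2Operator

section alg

variable {n : ℕ}

/-- `tr (B (t - Y) W t W (t - Y)) ≥ 0` -/
theorem ptw (t : Matrix (Fin n) (Fin n) ℝ) (hs : ∀ i j, t i j = t j i)
    (hp : ∀ u : Fin n → ℝ, 0 ≤ ∑ i, ∑ j, t i j * u i * u j) (w b y : Fin n → ℝ)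
    (hb : ∀ i, 0 ≤ b i) :
    2 * (∑ i, ∑ k, b i * y i * w i * w k * t i k ^ 2) - ∑ i, b i * y i ^ 2 * w i ^ 2 * t i i ≤
      ∑ i, b i * ∑ j, ∑ k, w j * w k * t i j * t j k * t k i := by
  have h1 : ∀ i, 2 * (∑ k, y i * w i * w k * t i k ^ 2) - y i ^ 2 * w i ^ 2 * t i i ≤
      ∑ j, ∑ k, w j * w k * t i j * t j k * t k i := by
    intro i
    have h2 := hp (fun j => w j * (t i j - if j = i then y i else 0))
    have h3 : ∑ j, ∑ k, t j k * (w j * (t i j - if j = i then y i else 0)) *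
        (w k * (t i k - if k = i then y i else 0)) =
        ∑ j, ∑ k, w j * w k * t i j * t j k * t k i -
          2 * (∑ k, y i * w i * w k * t i k ^ 2) + y i ^ 2 * w i ^ 2 * t i i := by
      have h4 : ∀ j k, t j k * (w j * (t i j - if j = i then y i else 0)) *
          (w k * (t i k - if k = i then y i else 0)) =
          w j * w k * t i j * t j k * t k i
            - (if j = i then y i * w i * w k * t i k ^ 2 else 0)
            - (if k = i then y i * w i * w j * t i j ^ 2 else 0)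
            + (if j = i then (if k = i then y i ^ 2 * w i ^ 2 * t i i else 0) else 0) := by
        intro j k
        by_cases hj : j = i
        · subst hj
          by_cases hk : k = j
          · subst hk
            simp only [if_true]
            ring
          · simp only [if_true, if_neg hk]
            rw [hs k j]
            ring
        · by_cases hk : k = i
          · subst hk
            simp only [if_true, if_neg hj]
            rw [hs j k]
            ring
          · simp only [if_neg hj, if_neg hk]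
            rw [hs k i]
            ring
      simp_rw [h4]
      simp only [Finset.sum_add_distrib, Finset.sum_sub_distrib]
      have h5 : ∑ j, ∑ k, (if j = i then y i * w i * w k * t i k ^ 2 else 0) =
          ∑ k, y i * w i * w k * t i k ^ 2 := by
        rw [Finset.sum_comm]
        exact Finset.sum_congr rfl fun k _ => by simp
      have h6 : ∑ j, ∑ k, (if k = i then y i * w i * w j * t i j ^ 2 else 0) =
          ∑ k, y i * w i * w k * t i k ^ 2 :=
        Finset.sum_congr rfl fun k _ => by simp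
      have h7 : ∑ j, ∑ k, (if j = i then (if k = i then y i ^ 2 * w i ^ 2 * t i i else 0) else 0) =
          y i ^ 2 * w i ^ 2 * t i i := by
        rw [Finset.sum_eq_single i]
        · simp
        · intro j _ hj
          simp [hj]
        · intro h
          exact absurd (Finset.mem_univ i) h
      rw [h5, h6, h7]
      ring
    rw [h3] at h2
    linarith
  have h8 : ∑ i, b i * (2 * (∑ k, y i * w i * w k * t i k ^ 2) - y i ^ 2 * w i ^ 2 * t i i) ≤
      ∑ i, b i * ∑ j, ∑ k, w j * w k * t i j * t j k * t k i :=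
    Finset.sum_le_sum fun i _ => mul_le_mul_of_nonneg_left (h1 i) (hb i)
  refine le_trans (le_of_eq ?_) h8
  rw [Finset.mul_sum, ← Finset.sum_sub_distrib]
  refine Finset.sum_congr rfl fun i _ => ?_
  rw [mul_sub, Finset.mul_sum, Finset.mul_sum, Finset.mul_sum]
  congr 1
  · refine Finset.sum_congr rfl fun k _ => by ring
  · ring

theorem yy_eq {b : ℝ} (hb : 0 < b) : b * yy b ^ 2 + yy b = 2 := by
  have h1 : Real.sqrt (1 + 8 * b) ^ 2 = 1 + 8 * b := Real.sq_sqrt (by linarith)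
  unfold yy
  generalize Real.sqrt (1 + 8 * b) = s at h1
  field_simp
  linear_combination h1

theorem yy_pos {b : ℝ} (hb : 0 < b) : 0 < yy b := by
  have h1 : 1 < Real.sqrt (1 + 8 * b) := by
    rw [Real.lt_sqrt (by norm_num)]
    linarith
  unfold yy
  exact div_pos (by linarith) (by linarith)

/-- final algebra: choice of the weights -/
theorem end_alg (v : Fin n → Fin n → ℝ) (hv : ∀ i j, 0 ≤ v i j) (hvs : ∀ i j, v i j = v j i)
    (b : Fin n → ℝ) (hb : ∀ i, 0 < b i)
    (hmain : ∀ w : Fin n → ℝ, (∀ i, 0 ≤ w i) →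
      ∑ i, ∑ j, w i * w j * (1 + 2 * b i * yy (b i)) * v i j ≤
        ∑ i, w i ^ 2 * (1 + b i * yy (b i) ^ 2 - 2 * b i * yy (b i)))
    (r : Fin n → ℝ) (hr : ∀ i, 0 < r i) :
    4 * (∑ i, ∑ j, r i * r j * v i j) ≤ ∑ i, r i ^ 2 * kst (b i) := by
  set q : Fin n → ℝ := fun i => 1 + 2 * b i * yy (b i) with hq
  have hq1 : ∀ i, 0 < q i := fun i => by
    have := yy_pos (hb i)
    have := hb i
    simp only [hq]
    positivity
  set w : Fin n → ℝ := fun i => r i / Real.sqrt (q i) with hw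
  have hw0 : ∀ i, 0 ≤ w i := fun i => div_nonneg (hr i).le (Real.sqrt_nonneg _)
  have h1 := hmain w hw0
  have h2 : ∑ i, w i ^ 2 * (1 + b i * yy (b i) ^ 2 - 2 * b i * yy (b i)) =
      ∑ i, r i ^ 2 * (yy (b i) - 1) := by
    refine Finset.sum_congr rfl fun i _ => ?_
    have h3 := yy_eq (hb i)
    have h4 : 1 + b i * yy (b i) ^ 2 - 2 * b i * yy (b i) = q i * (yy (b i) - 1) := by
      simp only [hq]
      linear_combination (-1) * h3
    have h5 : w i ^ 2 * q i = r i ^ 2 := by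
      simp only [hw]
      rw [div_pow, Real.sq_sqrt (hq1 i).le]
      field_simp [(hq1 i).ne']
    rw [h4, ← mul_assoc, h5]
  rw [h2] at h1
  have h3 : ∑ i, ∑ j, w i * w j * q i * v i j = ∑ i, ∑ j, w i * w j * q j * v i j := by
    rw [Finset.sum_comm]
    refine Finset.sum_congr rfl fun i _ => Finset.sum_congr rfl fun j _ => ?_
    rw [hvs j i]
    ring
  have h4 : ∑ i, ∑ j, r i * r j * v i j ≤ ∑ i, ∑ j, w i * w j * ((q i + q j) / 2) * v i j := by
    refine Finset.sum_le_sum fun i _ => Finset.sum_le_sum fun j _ => ?_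
    refine mul_le_mul_of_nonneg_right ?_ (hv i j)
    have h5 : r i = w i * Real.sqrt (q i) := by
      simp only [hw]
      rw [div_mul_cancel₀ _ (Real.sqrt_pos.2 (hq1 i)).ne']
    have h6 : r j = w j * Real.sqrt (q j) := by
      simp only [hw]
      rw [div_mul_cancel₀ _ (Real.sqrt_pos.2 (hq1 j)).ne']
    have h7 : Real.sqrt (q i) * Real.sqrt (q j) ≤ (q i + q j) / 2 := by
      have h8 := sq_nonneg (Real.sqrt (q i) - Real.sqrt (q j))
      have h9 := Real.sq_sqrt (hq1 i).le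
      have h10 := Real.sq_sqrt (hq1 j).le
      nlinarith
    calc r i * r j = w i * w j * (Real.sqrt (q i) * Real.sqrt (q j)) := by rw [h5, h6]; ring
      _ ≤ _ := mul_le_mul_of_nonneg_left h7 (mul_nonneg (hw0 i) (hw0 j))
  have h5 : ∑ i, ∑ j, w i * w j * ((q i + q j) / 2) * v i j = ∑ i, ∑ j, w i * w j * q i * v i j := by
    have h6 : ∑ i, ∑ j, w i * w j * ((q i + q j) / 2) * v i j =
        1 / 2 * (∑ i, ∑ j, w i * w j * q i * v i j) + 1 / 2 * ∑ i, ∑ j, w i * w j * q j * v i j := by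
      rw [Finset.mul_sum, Finset.mul_sum, ← Finset.sum_add_distrib]
      refine Finset.sum_congr rfl fun i _ => ?_
      rw [Finset.mul_sum, Finset.mul_sum, ← Finset.sum_add_distrib]
      exact Finset.sum_congr rfl fun j _ => by ring
    rw [h6, ← h3]
    ring
  have h6 : ∑ i, r i ^ 2 * kst (b i) = 4 * ∑ i, r i ^ 2 * (yy (b i) - 1) := by
    rw [Finset.mul_sum]
    exact Finset.sum_congr rfl fun i _ => by unfold kst; ring
  rw [h6]
  rw [h5] at h4
  linarith [h4.trans h1]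

/-- `tr ((H - diag b) τWτWτ) ≥ 0` -/
theorem ptw2 (t H : Matrix (Fin n) (Fin n) ℝ) (ht : t.PosSemidef) (w b : Fin n → ℝ)
    (hH : ∀ v : E n, ∑ i, b i * v i ^ 2 ≤ qf H v) :
    ∑ i, b i * ∑ j, ∑ k, w j * w k * t i j * t j k * t k i ≤
      ∑ i, ∑ l, H i l * ∑ j, ∑ k, w j * w k * t i j * t j k * t k l := by
  obtain ⟨A, hA⟩ := CStarAlgebra.nonneg_iff_eq_star_mul_self.1 ht.nonneg
  have hA' : ∀ i j, t i j = ∑ m, A m i * A m j := by
    intro i j
    rw [hA, Matrix.mul_apply]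
    exact Finset.sum_congr rfl fun m _ => by rw [Matrix.star_apply, star_trivial]
  have hs : ∀ i j, t i j = t j i := by
    intro i j
    rw [hA', hA']
    exact Finset.sum_congr rfl fun m _ => mul_comm _ _
  -- the vectors
  set u : Fin n → Fin n → ℝ := fun m i => ∑ j, t i j * w j * A m j with hu
  have h1 : ∀ i l, ∑ j, ∑ k, w j * w k * t i j * t j k * t k l = ∑ m, u m i * u m l := by
    intro i l
    simp only [hu]
    simp_rw [Finset.sum_mul_sum]
    rw [Finset.sum_comm (s := (Finset.univ : Finset (Fin n))) (t := (Finset.univ : Finset (Fin n)))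
      (f := fun m j => ∑ k, t i j * w j * A m j * (t l k * w k * A m k))]
    refine Finset.sum_congr rfl fun j _ => ?_
    rw [Finset.sum_comm]
    refine Finset.sum_congr rfl fun k _ => ?_
    rw [hA' j k, Finset.mul_sum, Finset.sum_mul]
    refine Finset.sum_congr rfl fun m _ => ?_
    rw [hs k l]
    ring
  simp_rw [h1]
  have h2 : ∀ m, ∑ i, b i * (u m i * u m i) ≤ ∑ i, ∑ l, H i l * (u m i * u m l) := by
    intro m
    have h3 := hH (WithLp.toLp 2 (u m))
    unfold qf at h3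
    refine le_trans (le_of_eq ?_) (h3.trans (le_of_eq ?_))
    · exact Finset.sum_congr rfl fun i _ => by ring
    · exact Finset.sum_congr rfl fun i _ => Finset.sum_congr rfl fun l _ => by ring
  have h4 := Finset.sum_le_sum fun m (_ : m ∈ (Finset.univ : Finset (Fin n))) => h2 m
  refine le_trans (le_of_eq ?_) (h4.trans (le_of_eq ?_))
  · rw [Finset.sum_comm]
    exact Finset.sum_congr rfl fun i _ => by rw [Finset.mul_sum]
  · rw [Finset.sum_comm]
    refine Finset.sum_congr rfl fun i _ => ?_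
    rw [Finset.sum_comm]
    exact Finset.sum_congr rfl fun l _ => by rw [Finset.mul_sum]

end alg

section prob

variable {n : ℕ} {V : E n → ℝ} {c C : ℝ}

/-- Bessel for the coordinates, `Cov = 1`, centred -/
theorem bessel (hV : Reg V c C) (h0 : ∀ i, Ex V (fun x => x i) = 0)
    (h1 : ∀ i j, Ex V (fun x => x i * x j) = if i = j then 1 else 0) {f : E n → ℝ} (hf : Gr f) :
    ∑ k, (Ex V (fun x => f x * x k)) ^ 2 ≤ Ex V (fun x => f x ^ 2) - (Ex V f) ^ 2 := by
  set m := Ex V f with hm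
  set a : Fin n → ℝ := fun k => Ex V (fun x => f x * x k) with ha
  have hpos : 0 ≤ Ex V (fun x => (f x - m - ∑ k, a k * x k) ^ 2) := Ex_nonneg V fun x => sq_nonneg _
  have hsum : Gr (fun x : E n => ∑ k, a k * x k) := Gr.sum _ fun k _ => (Gr.coord k).const_mul _
  have hexp : Ex V (fun x => (f x - m - ∑ k, a k * x k) ^ 2) =
      Ex V (fun x => f x ^ 2) - m ^ 2 - ∑ k, a k ^ 2 := by
    have e1 : ∀ x : E n, (f x - m - ∑ k, a k * x k) ^ 2 =
        ((f x ^ 2 + m ^ 2) + (∑ k, a k * x k) ^ 2) +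
          ((2 * m) * (∑ k, a k * x k) - (2 * m) * f x) - 2 * (f x * ∑ k, a k * x k) := by
      intro x; ring
    rw [Ex_congr V e1]
    have g1 : Gr (fun x => f x ^ 2) := hf.pow 2
    have g2 : Gr (fun _ : E n => m ^ 2) := Gr.const _
    have g3 : Gr (fun x : E n => (∑ k, a k * x k) ^ 2) := hsum.pow 2
    have g4 : Gr (fun x : E n => (2 * m) * ∑ k, a k * x k) := hsum.const_mul _
    have g5 : Gr (fun x : E n => (2 * m) * f x) := hf.const_mul _
    have g6 : Gr (fun x : E n => f x * ∑ k, a k * x k) := hf.mul hsum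
    rw [Ex_sub hV (((g1.add g2).add g3).add (g4.sub g5)) (g6.const_mul 2),
      Ex_add hV ((g1.add g2).add g3) (g4.sub g5), Ex_add hV (g1.add g2) g3, Ex_add hV g1 g2,
      Ex_sub hV g4 g5, Ex_const hV, Ex_const_mul, Ex_const_mul, Ex_const_mul, ← hm]
    have e2 : Ex V (fun x : E n => ∑ k, a k * x k) = 0 := by
      rw [Ex_sum hV _ fun k _ => (Gr.coord k).const_mul _]
      refine Finset.sum_eq_zero fun k _ => ?_
      rw [Ex_const_mul, h0, mul_zero]
    have e3 : Ex V (fun x : E n => (∑ k, a k * x k) ^ 2) = ∑ k, a k ^ 2 := by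
      have e4 : ∀ x : E n, (∑ k, a k * x k) ^ 2 = ∑ k, ∑ l, (a k * a l) * (x k * x l) := by
        intro x
        rw [sq, Finset.sum_mul_sum]
        exact Finset.sum_congr rfl fun k _ => Finset.sum_congr rfl fun l _ => by ring
      rw [Ex_congr V e4, Ex_sum hV _ fun k _ => Gr.sum _ fun l _ =>
        ((Gr.coord k).mul (Gr.coord l)).const_mul _]
      refine Finset.sum_congr rfl fun k _ => ?_
      rw [Ex_sum hV _ fun l _ => ((Gr.coord k).mul (Gr.coord l)).const_mul _]
      have e5 : ∀ l, Ex V (fun x : E n => (a k * a l) * (x k * x l)) =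
          if k = l then a k ^ 2 else 0 := by
        intro l
        rw [Ex_const_mul, h1]
        split_ifs with h
        · subst h; ring
        · ring
      simp_rw [e5]
      simp
    have e6 : Ex V (fun x : E n => f x * ∑ k, a k * x k) = ∑ k, a k ^ 2 := by
      have e7 : ∀ x : E n, f x * ∑ k, a k * x k = ∑ k, a k * (f x * x k) := by
        intro x
        rw [Finset.mul_sum]
        exact Finset.sum_congr rfl fun k _ => by ring
      rw [Ex_congr V e7, Ex_sum hV _ fun k _ => (hf.mul (Gr.coord k)).const_mul _]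
      refine Finset.sum_congr rfl fun k _ => ?_
      rw [Ex_const_mul]
      simp only [ha]
      ring
    rw [e2, e3, e6]
    ring
  rw [hexp] at hpos
  linarith

/-- Stein's identity for linear and quadratic functions gives `T = 2 a` -/
theorem third_eq (T a : Fin n → Fin n → Fin n → ℝ) (hT1 : ∀ i j k, T i j k = T j i k)
    (has : ∀ i j k, a i j k = a j i k)
    (hst : ∀ i j k, T i j k = a i j k + a i k j) (i j k : Fin n) : T i j k = 2 * a i j k := by
  have h1 := hst i j k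
  have h2 := hst j i k
  have h3 := hst i k j
  have h4 := hst k i j
  have h5 := hT1 i j k
  have h6 := hT1 i k j
  have h7 := has i j k
  have h8 := has i k j
  have h9 := has j k i
  linarith

/-- **assembly of S2** for one potential `V` and one field of matrices `t` (to be `τ = (D²ψ)⁻¹`) -/
theorem static_of (hV : Reg V c C) (t : E n → Matrix (Fin n) (Fin n) ℝ)
    (htG : ∀ i j, Gr (fun x => t x i j)) (htP : ∀ x, (t x).PosSemidef)
    (h0 : ∀ i, Ex V (fun x => x i) = 0)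
    (h1 : ∀ i j, Ex V (fun x => x i * x j) = if i = j then 1 else 0)
    (hE : ∀ i j, Ex V (fun x => t x i j) = if i = j then 1 else 0)
    (hSt : ∀ i j k, Ex V (fun x => x i * x j * x k) =
      Ex V (fun x => t x i j * x k) + Ex V (fun x => t x i k * x j))
    (hmain : ∀ w : Fin n → ℝ, (∀ i, 0 ≤ w i) →
      2 * (∑ i, ∑ j, w i * w j * (Ex V (fun x => t x i j ^ 2) - (Ex V (fun x => t x i j)) ^ 2)) ≤
        Ex V (fun x => ∑ i, ∑ j, w i * w j * t x i j ^ 2) -
          Ex V (fun x => ∑ i, ∑ l, hess V x i l *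
            ∑ j, ∑ k, w j * w k * t x i j * t x j k * t x k l))
    (b : Fin n → ℝ) (hb : ∀ i, 0 < b i) (hH : ∀ x v, ∑ i, b i * v i ^ 2 ≤ qf (hess V x) v)
    (r : Fin n → ℝ) (hr : ∀ i, 0 < r i) :
    ∑ i, ∑ j, r i * r j * ∑ k, (Ex V (fun x => x i * x j * x k)) ^ 2 ≤ ∑ i, r i ^ 2 * kst (b i) := by
  have hs : ∀ x i j, t x i j = t x j i := by
    intro x i j
    have := (htP x).1
    have h := congrFun (congrFun this j) i
    simpa [Matrix.conjTranspose_apply] using h
  have hqf : ∀ x (u : Fin n → ℝ), 0 ≤ ∑ i, ∑ j, t x i j * u i * u j := by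
    intro x u
    obtain ⟨A, hA⟩ := CStarAlgebra.nonneg_iff_eq_star_mul_self.1 (htP x).nonneg
    have hA' : ∀ i j, t x i j = ∑ m, A m i * A m j := by
      intro i j
      rw [hA, Matrix.mul_apply]
      exact Finset.sum_congr rfl fun m _ => by rw [Matrix.star_apply, star_trivial]
    have h2 : ∑ i, ∑ j, t x i j * u i * u j = ∑ m, (∑ i, A m i * u i) ^ 2 := by
      have h3 : ∀ m, (∑ i, A m i * u i) ^ 2 = ∑ i, ∑ j, (A m i * u i) * (A m j * u j) := by
        intro m
        rw [sq, Finset.sum_mul_sum]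
      calc ∑ i, ∑ j, t x i j * u i * u j
          = ∑ i, ∑ j, ∑ m, (A m i * u i) * (A m j * u j) := by
            refine Finset.sum_congr rfl fun i _ => Finset.sum_congr rfl fun j _ => ?_
            rw [hA', Finset.sum_mul, Finset.sum_mul]
            exact Finset.sum_congr rfl fun m _ => by ring
        _ = ∑ i, ∑ m, ∑ j, (A m i * u i) * (A m j * u j) :=
            Finset.sum_congr rfl fun i _ => Finset.sum_comm
        _ = ∑ m, ∑ i, ∑ j, (A m i * u i) * (A m j * u j) := Finset.sum_comm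
        _ = ∑ m, (∑ i, A m i * u i) ^ 2 := Finset.sum_congr rfl fun m _ => (h3 m).symm
    rw [h2]
    exact Finset.sum_nonneg fun m _ => sq_nonneg _
  set v : Fin n → Fin n → ℝ := fun i j => Ex V (fun x => t x i j ^ 2) - (Ex V (fun x => t x i j)) ^ 2
    with hv
  have hbes : ∀ i j, ∑ k, (Ex V (fun x => t x i j * x k)) ^ 2 ≤ v i j := fun i j =>
    bessel hV h0 h1 (htG i j)
  have hv0 : ∀ i j, 0 ≤ v i j := fun i j =>
    (Finset.sum_nonneg fun k _ => sq_nonneg _).trans (hbes i j)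
  have hvs : ∀ i j, v i j = v j i := by
    intro i j
    simp only [hv]
    rw [Ex_congr V (fun x => by rw [hs x i j] : ∀ x, t x i j ^ 2 = t x j i ^ 2),
      Ex_congr V (fun x => hs x i j)]
  have hE2 : ∀ i j, Ex V (fun x => t x i j ^ 2) = v i j + if i = j then 1 else 0 := by
    intro i j
    simp only [hv]
    rw [hE]
    split_ifs <;> ring
  have hG2 : ∀ i j, Gr (fun x => t x i j ^ 2) := fun i j => (htG i j).pow 2
  have key : ∀ w : Fin n → ℝ, (∀ i, 0 ≤ w i) →
      ∑ i, ∑ j, w i * w j * (1 + 2 * b i * yy (b i)) * v i j ≤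
        ∑ i, w i ^ 2 * (1 + b i * yy (b i) ^ 2 - 2 * b i * yy (b i)) := by
    intro w hw
    have m1 := hmain w hw
    have m2 : Ex V (fun x => ∑ i, ∑ j, w i * w j * t x i j ^ 2) =
        ∑ i, ∑ j, w i * w j * v i j + ∑ i, w i ^ 2 := by
      rw [Ex_sum hV _ fun i _ => Gr.sum _ fun j _ => (hG2 i j).const_mul _,
        ← Finset.sum_add_distrib]
      refine Finset.sum_congr rfl fun i _ => ?_
      rw [Ex_sum hV _ fun j _ => (hG2 i j).const_mul _]
      have m3 : ∀ j, Ex V (fun x => w i * w j * t x i j ^ 2) =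
          w i * w j * v i j + if i = j then w i ^ 2 else 0 := by
        intro j
        rw [Ex_const_mul, hE2]
        split_ifs with h
        · subst h; ring
        · ring
      simp_rw [m3]
      rw [Finset.sum_add_distrib]
      simp
    have g1 : Gr (fun x => 2 * (∑ i, ∑ k, b i * yy (b i) * w i * w k * t x i k ^ 2) -
        ∑ i, b i * yy (b i) ^ 2 * w i ^ 2 * t x i i) :=
      ((Gr.sum _ fun i _ => Gr.sum _ fun k _ => (hG2 i k).const_mul _).const_mul 2).sub
        (Gr.sum _ fun i _ => (htG i i).const_mul _)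
    have g2 : Gr (fun x => ∑ i, ∑ l, hess V x i l *
        ∑ j, ∑ k, w j * w k * t x i j * t x j k * t x k l) :=
      Gr.sum _ fun i _ => Gr.sum _ fun l _ => (hV.gr_hess i l).mul
        (Gr.sum _ fun j _ => Gr.sum _ fun k _ =>
          (((htG i j).const_mul _).mul (htG j k)).mul (htG k l))
    have m4 := Ex_mono hV g1 g2 fun x =>
      (ptw (t x) (hs x) (hqf x) w b (fun i => yy (b i)) fun i => (hb i).le).trans
        (ptw2 (t x) (hess V x) (htP x) w b (hH x))
    have m5 : Ex V (fun x => 2 * (∑ i, ∑ k, b i * yy (b i) * w i * w k * t x i k ^ 2) -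
        ∑ i, b i * yy (b i) ^ 2 * w i ^ 2 * t x i i) =
        2 * (∑ i, ∑ k, b i * yy (b i) * w i * w k * v i k) + 2 * (∑ i, b i * yy (b i) * w i ^ 2) -
          ∑ i, b i * yy (b i) ^ 2 * w i ^ 2 := by
      rw [Ex_sub hV ((Gr.sum _ fun i _ => Gr.sum _ fun k _ => (hG2 i k).const_mul _).const_mul 2)
        (Gr.sum _ fun i _ => (htG i i).const_mul _), Ex_const_mul,
        Ex_sum hV _ fun i _ => Gr.sum _ fun k _ => (hG2 i k).const_mul _,
        Ex_sum hV _ fun i _ => (htG i i).const_mul _, ← mul_add, ← Finset.sum_add_distrib]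
      congr 1
      · congr 1
        refine Finset.sum_congr rfl fun i _ => ?_
        rw [Ex_sum hV _ fun k _ => (hG2 i k).const_mul _]
        have m6 : ∀ k, Ex V (fun x => b i * yy (b i) * w i * w k * t x i k ^ 2) =
            b i * yy (b i) * w i * w k * v i k + if i = k then b i * yy (b i) * w i ^ 2 else 0 := by
          intro k
          rw [Ex_const_mul, hE2]
          split_ifs with h
          · subst h; ring
          · ring
        simp_rw [m6]
        rw [Finset.sum_add_distrib]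
        simp
      · refine Finset.sum_congr rfl fun i _ => ?_
        rw [Ex_const_mul, hE, if_pos rfl, mul_one]
    rw [m5] at m4
    rw [m2] at m1
    have m7 : ∑ i, ∑ j, w i * w j * (1 + 2 * b i * yy (b i)) * v i j =
        ∑ i, ∑ j, w i * w j * v i j + 2 * ∑ i, ∑ k, b i * yy (b i) * w i * w k * v i k := by
      rw [Finset.mul_sum, ← Finset.sum_add_distrib]
      refine Finset.sum_congr rfl fun i _ => ?_
      rw [Finset.mul_sum, ← Finset.sum_add_distrib]
      exact Finset.sum_congr rfl fun j _ => by ring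
    have m8 : ∑ i, w i ^ 2 * (1 + b i * yy (b i) ^ 2 - 2 * b i * yy (b i)) =
        ∑ i, w i ^ 2 + ∑ i, b i * yy (b i) ^ 2 * w i ^ 2 - 2 * ∑ i, b i * yy (b i) * w i ^ 2 := by
      rw [Finset.mul_sum, ← Finset.sum_add_distrib, ← Finset.sum_sub_distrib]
      exact Finset.sum_congr rfl fun j _ => by ring
    rw [m7, m8]
    simp only [hv] at m1 m4 ⊢
    linarith
  have hend := end_alg v hv0 hvs b hb key r hr
  have hT : ∀ i j k, Ex V (fun x => x i * x j * x k) = 2 * Ex V (fun x => t x i j * x k) :=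
    third_eq (fun i j k => Ex V (fun x => x i * x j * x k)) (fun i j k => Ex V (fun x => t x i j * x k))
      (fun i j k => Ex_congr V fun x => by ring) (fun i j k => Ex_congr V fun x => by rw [hs x i j])
      hSt
  refine le_trans ?_ hend
  rw [Finset.mul_sum]
  refine Finset.sum_le_sum fun i _ => ?_
  rw [Finset.mul_sum]
  refine Finset.sum_le_sum fun j _ => ?_
  have h5 : ∑ k, (Ex V (fun x => x i * x j * x k)) ^ 2 ≤ 4 * v i j := by
    have h6 : ∑ k, (Ex V (fun x => x i * x j * x k)) ^ 2 =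
        4 * ∑ k, (Ex V (fun x => t x i j * x k)) ^ 2 := by
      rw [Finset.mul_sum]
      exact Finset.sum_congr rfl fun k _ => by rw [hT]; ring
    rw [h6]
    linarith [hbes i j]
  calc r i * r j * ∑ k, (Ex V (fun x => x i * x j * x k)) ^ 2 ≤ r i * r j * (4 * v i j) :=
        mul_le_mul_of_nonneg_left h5 (mul_nonneg (hr i).le (hr j).le)
    _ = 4 * (r i * r j * v i j) := by ring

end prob

end Vale.Agent.P254.X.S2d
end

section

/-! P254, static method, block S3w: the one-variable data for the static profile, `δ = 19/100`. -/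

namespace Vale.Agent.P254.St625

open Set Vale.Agent.P254.L

namespace W833

noncomputable def w (x : ℝ) : ℝ := 29 / 100 * x + 71 / 325 * Real.log (1 + 13 / 4 * x) - 19 / 100

noncomputable def w1 (x : ℝ) : ℝ := 29 / 100 + 71 / 100 / (1 + 13 / 4 * x)

noncomputable def w2 (x : ℝ) : ℝ := -(923 / 400) / (1 + 13 / 4 * x) ^ 2

theorem hd1 {x : ℝ} (hx : 0 < x) : HasDerivAt w (w1 x) x := by
  have hp : (1 + 13 / 4 * x) ≠ 0 := by positivity
  have h1 : HasDerivAt (fun x : ℝ => 1 + 13 / 4 * x) (13 / 4) x := by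
    have := ((hasDerivAt_id x).const_mul (13 / 4 : ℝ)).const_add 1
    simpa using this
  have h2 := (((hasDerivAt_id x).const_mul (29 / 100 : ℝ)).add
    ((h1.log hp).const_mul (71 / 325 : ℝ))).sub_const (19 / 100)
  refine h2.congr_deriv ?_
  unfold w1
  ring

theorem hd2 {x : ℝ} (hx : 0 < x) : HasDerivAt w1 (w2 x) x := by
  have hp : (1 + 13 / 4 * x) ≠ 0 := by positivity
  have h1 : HasDerivAt (fun x : ℝ => 1 + 13 / 4 * x) (13 / 4) x := by
    have := ((hasDerivAt_id x).const_mul (13 / 4 : ℝ)).const_add 1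
    simpa using this
  have h2 := ((hasDerivAt_const x (71 / 100 : ℝ)).div h1 hp).const_add (29 / 100)
  refine h2.congr_deriv ?_
  unfold w2
  ring

theorem c_eq {x : ℝ} : 1 / 4 - x ^ 2 * w2 x / 2 = 1 / 4 + 923 / 800 * (x / (1 + 13 / 4 * x)) ^ 2 := by
  unfold w2
  rw [div_pow]
  ring

theorem dd1_eq {x y : ℝ} (hx : 0 < x) (hy : 0 < y) :
    dd1 w1 w2 x y = -(923 / 400) / ((1 + 13 / 4 * x) * (1 + 13 / 4 * y)) := by
  have hpx : (1 + 13 / 4 * x) ≠ 0 := by positivity
  have hpy : (1 + 13 / 4 * y) ≠ 0 := by positivity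
  unfold dd1
  split_ifs with h
  · subst h
    unfold w2
    rw [pow_two]
  · have h' : x - y ≠ 0 := sub_ne_zero.2 h
    unfold w1
    field_simp
    ring

theorem poly {t : ℝ} (h0 : 0 ≤ t) :
    0 ≤ t * (277 / 100 - 3443 / 800 * t - 1833 / 320 * t ^ 2 + 8957 / 1600 * t ^ 3 +
      4901 / 320 * t ^ 4 + 4901 / 1600 * t ^ 5) := by
  refine mul_nonneg h0 ?_
  have h5 : 0 ≤ t ^ 5 := by positivity
  nlinarith [sq_nonneg (t ^ 2 + 8957 / 49010 * t - 3 / 10), sq_nonneg (t - 4 / 9)]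

theorem ode_aux {t : ℝ} (h0 : 0 < t) (h1 : t < 1) :
    (1 / 4 + 923 / 800 * (((t + t ^ 2) / 2) / (1 + 13 / 4 * ((t + t ^ 2) / 2))) ^ 2) *
      (4 * ((1 - t) / (1 + t))) ≤
    (29 / 100 + 71 / 100 / (1 + 13 / 4 * ((t + t ^ 2) / 2))) * (1 - (t + t ^ 2) / 2) := by
  have hq : 0 < 1 + 13 / 4 * ((t + t ^ 2) / 2) := by positivity
  have ht1 : 0 < 1 + t := by linarith
  have hP := poly h0.le
  have hP2 : 0 ≤ (1 - t) * (t * (277 / 100 - 3443 / 800 * t - 1833 / 320 * t ^ 2 +
      8957 / 1600 * t ^ 3 + 4901 / 320 * t ^ 4 + 4901 / 1600 * t ^ 5)) :=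
    mul_nonneg (by linarith) hP
  rw [← sub_nonneg]
  have e : (29 / 100 + 71 / 100 / (1 + 13 / 4 * ((t + t ^ 2) / 2))) * (1 - (t + t ^ 2) / 2) -
      (1 / 4 + 923 / 800 * (((t + t ^ 2) / 2) / (1 + 13 / 4 * ((t + t ^ 2) / 2))) ^ 2) *
      (4 * ((1 - t) / (1 + t))) = ((1 - t) * (t * (277 / 100 - 3443 / 800 * t -
      1833 / 320 * t ^ 2 + 8957 / 1600 * t ^ 3 + 4901 / 320 * t ^ 4 + 4901 / 1600 * t ^ 5))) /
      (8 * (1 + t) * (1 + 13 / 4 * ((t + t ^ 2) / 2)) ^ 2) := by
    field_simp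
    ring
  rw [e]
  positivity

theorem log_bound : (1 : ℝ) / 10 + 71 / 325 * Real.log (17 / 4) ≤
    1 / 2 * Real.log (2 * Real.pi * Real.exp 1) - 1 := by
  have hpi := Real.pi_gt_d6
  have h1 : Real.log (17 / 4) ≤ 2 * Real.log 2 + 1 / 16 := by
    have e : (17 / 4 : ℝ) = 2 ^ 2 * (17 / 16) := by norm_num
    rw [e, Real.log_mul (by norm_num) (by norm_num), Real.log_pow]
    have := Real.log_le_sub_one_of_pos (by norm_num : (0 : ℝ) < 17 / 16)
    push_cast
    linarith
  have h2 : 3 * Real.log 2 + Real.log (1 - 0.214602) ≤ Real.log (2 * Real.pi) := by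
    have e : 3 * Real.log 2 + Real.log (1 - 0.214602) = Real.log (2 ^ 3 * (1 - 0.214602)) := by
      rw [Real.log_mul (by norm_num) (by norm_num), Real.log_pow]
      push_cast
      ring
    rw [e]
    refine Real.log_le_log (by norm_num) ?_
    norm_num
    linarith
  have h3 := Real.abs_log_sub_add_sum_range_le (x := 0.214602) (by
    rw [abs_of_pos (by norm_num)]; norm_num) 3
  rw [abs_of_pos (by norm_num : (0 : ℝ) < 0.214602)] at h3
  have h4 := (abs_le.1 h3).1
  simp only [Finset.sum_range_succ, Finset.sum_range_zero] at h4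
  have h5 := Real.log_two_lt_d9
  have h6 := Real.log_two_gt_d9
  rw [Real.log_mul (by positivity) (Real.exp_pos 1).ne', Real.log_exp]
  norm_num at h4
  linarith

noncomputable def wp : WP (19 / 100) kst where
  w := w
  w1 := w1
  w2 := w2
  d1 := fun x hx => hd1 hx.1
  d2 := fun x hx => hd2 hx.1
  ode := by
    rintro x ⟨hx0, hx1⟩
    rw [c_eq]
    set s : ℝ := Real.sqrt (1 + 8 * x) with hs
    have hs2 : s ^ 2 = 1 + 8 * x := Real.sq_sqrt (by positivity)
    have hs0 : 0 ≤ s := Real.sqrt_nonneg _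
    have hs1 : 1 < s := by nlinarith
    have hs3 : s < 3 := by nlinarith
    set t : ℝ := (s - 1) / 2 with ht
    have hst : s = 1 + 2 * t := by rw [ht]; ring
    have ht0 : 0 < t := by rw [ht]; linarith
    have ht1 : t < 1 := by rw [ht]; linarith
    have hxt : x = (t + t ^ 2) / 2 := by
      have : 8 * x = s ^ 2 - 1 := by linarith
      rw [hst] at this
      nlinarith
    have hk : kst x = 4 * ((1 - t) / (1 + t)) := by
      unfold kst yy
      rw [← hs, hst, hxt]
      have : 0 < t + t ^ 2 := by positivity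
      have h1 : 1 + t ≠ 0 := by positivity
      field_simp
      ring
    rw [hk, hxt]
    exact ode_aux ht0 ht1
  c_pos := by
    rintro x ⟨hx0, -⟩
    rw [c_eq]
    positivity
  w_ge := by
    rintro x ⟨hx0, -⟩
    have : 0 ≤ Real.log (1 + 13 / 4 * x) := Real.log_nonneg (by linarith)
    unfold w
    linarith
  w_le := by
    rintro x ⟨hx0, hx1⟩
    have : Real.log (1 + 13 / 4 * x) ≤ Real.log (17 / 4) :=
      Real.log_le_log (by positivity) (by linarith)
    refine le_trans ?_ log_bound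
    unfold w
    linarith
  cij := by
    rintro x ⟨hx0, -⟩ y ⟨hy0, -⟩
    rw [c_eq, c_eq, dd1_eq hx0 hy0]
    have hpx : (1 + 13 / 4 * x) ≠ 0 := by positivity
    have hpy : (1 + 13 / 4 * y) ≠ 0 := by positivity
    set u : ℝ := x / (1 + 13 / 4 * x) with hu
    set v : ℝ := y / (1 + 13 / 4 * y) with hv
    have hu0 : 0 ≤ u := by positivity
    have hv0 : 0 ≤ v := by positivity
    have e : 1 / 4 - x * y * (-(923 / 400) / ((1 + 13 / 4 * x) * (1 + 13 / 4 * y))) / 2 =
        1 / 4 + 923 / 800 * (u * v) := by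
      rw [hu, hv]
      field_simp
      ring
    rw [e, ← Real.sqrt_mul (by positivity)]
    refine Real.le_sqrt_of_sq_le ?_
    nlinarith [sq_nonneg (u - v)]

end W833

end Vale.Agent.P254.St625
end

section

/-! Block A1: elementary properties of `nrm`. -/

open MeasureTheory Set
open scoped Matrix

namespace Vale.Agent.P254.L1

variable {n : ℕ}

theorem nrm_zero (μ : Measure (Fin n → ℝ)) : nrm μ 0 = 0 := by
  simp [nrm]

theorem nrm_neg (μ : Measure (Fin n → ℝ)) (x : Fin n → ℝ) : nrm μ (-x) = nrm μ x := by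
  simp [nrm, neg_dotProduct]

theorem nrm_smul (μ : Measure (Fin n → ℝ)) (r : ℝ) (x : Fin n → ℝ) :
    nrm μ (r • x) = |r| * nrm μ x := by
  simp only [nrm, smul_dotProduct, smul_eq_mul, abs_mul]
  rw [integral_const_mul]

theorem nrm_nonneg (μ : Measure (Fin n → ℝ)) (x : Fin n → ℝ) : 0 ≤ nrm μ x :=
  integral_nonneg fun _ => abs_nonneg _

/-- `|x · v| ≤ n ‖x‖ ‖v‖` -/
theorem nrm_dot_le (x v : Fin n → ℝ) : |x ⬝ᵥ v| ≤ (n : ℝ) * ‖x‖ * ‖v‖ := by
  calc |x ⬝ᵥ v| ≤ ∑ i : Fin n, |x i * v i| := Finset.abs_sum_le_sum_abs _ _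
    _ ≤ ∑ _i : Fin n, ‖x‖ * ‖v‖ := by
        refine Finset.sum_le_sum fun i _ => ?_
        rw [abs_mul]
        exact mul_le_mul (by simpa using norm_le_pi_norm x i) (by simpa using norm_le_pi_norm v i)
          (abs_nonneg _) (norm_nonneg _)
    _ = (n : ℝ) * ‖x‖ * ‖v‖ := by simp [mul_assoc]

theorem nrm_dot_continuous (x : Fin n → ℝ) : Continuous fun v : Fin n → ℝ => |x ⬝ᵥ v| := by
  unfold dotProduct
  fun_prop

theorem nrm_integrable {μ : Measure (Fin n → ℝ)} (hμ : Integrable (fun v => ‖v‖) μ)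
    (x : Fin n → ℝ) : Integrable (fun v => |x ⬝ᵥ v|) μ := by
  refine (hμ.const_mul ((n : ℝ) * ‖x‖)).mono' (nrm_dot_continuous x).aestronglyMeasurable
    (ae_of_all _ fun v => ?_)
  rw [Real.norm_eq_abs, abs_abs]
  exact nrm_dot_le x v

theorem nrm_add {μ : Measure (Fin n → ℝ)} (hμ : Integrable (fun v => ‖v‖) μ) (x y : Fin n → ℝ) :
    nrm μ (x + y) ≤ nrm μ x + nrm μ y := by
  unfold nrm
  rw [← integral_add (nrm_integrable hμ x) (nrm_integrable hμ y)]
  refine integral_mono (nrm_integrable hμ (x + y))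
    ((nrm_integrable hμ x).add (nrm_integrable hμ y)) fun v => ?_
  simp only [add_dotProduct]
  exact abs_add_le _ _

theorem nrm_le {μ : Measure (Fin n → ℝ)} (hμ : Integrable (fun v => ‖v‖) μ) :
    ∃ C, 0 ≤ C ∧ ∀ x, nrm μ x ≤ C * ‖x‖ := by
  refine ⟨(n : ℝ) * ∫ v, ‖v‖ ∂μ, mul_nonneg (Nat.cast_nonneg _)
    (integral_nonneg fun _ => norm_nonneg _), fun x => ?_⟩
  unfold nrm
  calc ∫ v, |x ⬝ᵥ v| ∂μ ≤ ∫ v, (n : ℝ) * ‖x‖ * ‖v‖ ∂μ :=
        integral_mono (nrm_integrable hμ x) (hμ.const_mul _) fun v => nrm_dot_le x v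
    _ = (n : ℝ) * ‖x‖ * ∫ v, ‖v‖ ∂μ := integral_const_mul _ _
    _ = _ := by ring

theorem nrm_sub_le {μ : Measure (Fin n → ℝ)} (hμ : Integrable (fun v => ‖v‖) μ)
    (x y : Fin n → ℝ) : |nrm μ x - nrm μ y| ≤ nrm μ (x - y) := by
  rw [abs_sub_le_iff]
  constructor
  · have := nrm_add hμ (x - y) y
    rw [sub_add_cancel] at this
    linarith
  · have := nrm_add hμ (y - x) x
    rw [sub_add_cancel] at this
    have h2 := nrm_neg μ (x - y)
    rw [neg_sub] at h2
    linarith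

theorem nrm_continuous {μ : Measure (Fin n → ℝ)} (hμ : Integrable (fun v => ‖v‖) μ) :
    Continuous (nrm μ) := by
  obtain ⟨C, hC0, hC⟩ := nrm_le hμ
  have hlip : LipschitzWith (Real.toNNReal C) (nrm μ) := by
    refine LipschitzWith.of_dist_le_mul fun x y => ?_
    rw [Real.dist_eq, dist_eq_norm, Real.coe_toNNReal C hC0]
    exact (nrm_sub_le hμ x y).trans (hC _)
  exact hlip.continuous

theorem nrm_pos {μ : Measure (Fin n → ℝ)}
    (hK : Bornology.IsBounded {x | nrm μ x ≤ 1}) {x : Fin n → ℝ} (hx : x ≠ 0) : 0 < nrm μ x := by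
  rcases (nrm_nonneg μ x).lt_or_eq with h | h
  · exact h
  · exfalso
    obtain ⟨R, hR⟩ := hK.exists_norm_le
    have hxn : 0 < ‖x‖ := norm_pos_iff.2 hx
    have h1 : ((|R| + 1) / ‖x‖) • x ∈ {x | nrm μ x ≤ 1} := by
      change nrm μ (((|R| + 1) / ‖x‖) • x) ≤ 1
      rw [nrm_smul, ← h, mul_zero]
      exact zero_le_one
    have h2 := hR _ h1
    rw [norm_smul, norm_div, norm_norm, div_mul_cancel₀ _ hxn.ne',
      Real.norm_of_nonneg (by positivity)] at h2
    linarith [le_abs_self R]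

end Vale.Agent.P254.L1
end

section

/-! P254, `L₁` balls, block A2: `∫ e^{-N} = n! |K|`. -/

open MeasureTheory Set
open scoped Matrix

namespace Vale.Agent.P254.L1

variable {n : ℕ}

theorem integral_exp_nrm {μ : Measure (Fin n → ℝ)} (hμ : Integrable (fun v => ‖v‖) μ)
    (hK : Bornology.IsBounded {x | nrm μ x ≤ 1}) :
    ∫ x, Real.exp (-nrm μ x) = n.factorial * (volume {x | nrm μ x ≤ 1}).toReal := by
  have h4 : ∀ {x}, nrm μ x = 0 → x = 0 := by
    intro x hx
    by_contra hne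
    exact (nrm_pos hK hne).ne' hx
  have h5 : ∀ (r : ℝ) (x : Fin n → ℝ), nrm μ (r • x) ≤ |r| * nrm μ x :=
    fun r x => (nrm_smul μ r x).le
  have hlt := MeasureTheory.measure_lt_one_eq_integral_div_gamma
    (volume : Measure (Fin n → ℝ)) (g := nrm μ) (nrm_zero μ) (nrm_neg μ) (nrm_add hμ)
    h4 h5 (p := 1) one_pos
  have hle : volume {x | nrm μ x ≤ 1} = volume {x : Fin n → ℝ | nrm μ x < 1} := by
    rcases Nat.eq_zero_or_pos n with h0 | h0
    · subst h0
      congr 1
      ext x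
      have : x = 0 := Subsingleton.elim _ _
      simp only [mem_ofPred_eq, this, nrm_zero]
      norm_num
    · have : Nonempty (Fin n) := ⟨⟨0, h0⟩⟩
      exact MeasureTheory.measure_le_eq_lt volume (g := nrm μ) (nrm_zero μ) (nrm_neg μ)
        (nrm_add hμ) h4 h5 1
  have hfin : Module.finrank ℝ (Fin n → ℝ) = n := Module.finrank_fin_fun ℝ
  rw [hle, hlt, hfin]
  have hG : Real.Gamma ((n : ℝ) / 1 + 1) = n.factorial := by
    rw [div_one]
    exact Real.Gamma_nat_eq_factorial n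
  rw [hG, ENNReal.toReal_ofReal]
  · simp only [Real.rpow_one]
    field_simp
  · exact div_nonneg (integral_nonneg fun x => (Real.exp_pos _).le) (Nat.cast_nonneg _)

end Vale.Agent.P254.L1
end

section

/-! P254, `L₁` balls, block D: Jensen's inequality. -/

open MeasureTheory Set
open scoped Matrix

namespace Vale.Agent.P254.L1

variable {n : ℕ}

theorem integral_lin (M : Matrix (Fin n) (Fin n) ℝ) (hM : M.det ≠ 0) (g : (Fin n → ℝ) → ℝ) :
    ∫ x, g x = |M.det| * ∫ y, g (M *ᵥ y) := by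
  have hinj : Function.Injective fun y : Fin n → ℝ => M *ᵥ y :=
    Matrix.mulVec_injective_iff_isUnit.2 ((Matrix.isUnit_iff_isUnit_det _).2 (isUnit_iff_ne_zero.2 hM))
  have hder : ∀ x : Fin n → ℝ, HasFDerivAt (fun y : Fin n → ℝ => M *ᵥ y)
      (LinearMap.toContinuousLinearMap (Matrix.toLin' M)) x := by
    intro x
    have h := (LinearMap.toContinuousLinearMap (Matrix.toLin' M)).hasFDerivAt (x := x)
    refine h.congr_of_eventuallyEq (Filter.Eventually.of_forall fun y => ?_)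
    simp
  have h := integral_image_eq_integral_abs_det_fderiv_smul (volume : Measure (Fin n → ℝ))
    (s := univ) MeasurableSet.univ
    (f' := fun _ => LinearMap.toContinuousLinearMap (Matrix.toLin' M))
    (fun x _ => (hder x).hasFDerivWithinAt) hinj.injOn g
  have hsurj : Function.Surjective fun y : Fin n → ℝ => M *ᵥ y :=
    Matrix.mulVec_surjective_iff_isUnit.2 ((Matrix.isUnit_iff_isUnit_det _).2 (isUnit_iff_ne_zero.2 hM))
  rw [image_univ, hsurj.range_eq, setIntegral_univ, setIntegral_univ] at h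
  rw [h]
  have hdet : (LinearMap.toContinuousLinearMap (Matrix.toLin' M)).det = M.det := by
    rw [ContinuousLinearMap.det]
    simp
  simp only [hdet, smul_eq_mul]
  rw [integral_const_mul]

theorem dot_self_nonneg (y : Fin n → ℝ) : 0 ≤ y ⬝ᵥ y :=
  Finset.sum_nonneg fun _ _ => mul_self_nonneg _

theorem integrable_gauss {b : ℝ} (hb : 0 < b) :
    Integrable fun y : Fin n → ℝ => Real.exp (-b * (y ⬝ᵥ y)) := by
  have h : (fun y : Fin n → ℝ => Real.exp (-b * (y ⬝ᵥ y))) =
      fun y : Fin n → ℝ => ∏ i, (fun t : ℝ => Real.exp (-b * t ^ 2)) (y i) := by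
    ext y
    rw [← Real.exp_sum]
    congr 1
    simp only [dotProduct, Finset.mul_sum]
    exact Finset.sum_congr rfl fun i _ => by ring
  rw [h]
  exact Integrable.fintype_prod fun _ => integrable_exp_neg_mul_sq hb

theorem norm_sq_le (y : Fin n → ℝ) : ‖y‖ ^ 2 ≤ y ⬝ᵥ y := by
  have h : ‖y‖ ≤ Real.sqrt (y ⬝ᵥ y) := by
    rw [pi_norm_le_iff_of_nonneg (Real.sqrt_nonneg _)]
    intro i
    rw [Real.norm_eq_abs]
    apply Real.abs_le_sqrt
    rw [sq]
    exact Finset.single_le_sum (f := fun i => y i * y i) (fun j _ => mul_self_nonneg _)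
      (Finset.mem_univ i)
  calc ‖y‖ ^ 2 ≤ (Real.sqrt (y ⬝ᵥ y)) ^ 2 := pow_le_pow_left₀ (norm_nonneg _) h 2
    _ = y ⬝ᵥ y := Real.sq_sqrt (dot_self_nonneg y)

theorem integrable_poly_gauss :
    Integrable fun y : Fin n → ℝ => (1 + y ⬝ᵥ y) * Real.exp (-(y ⬝ᵥ y) / 2) := by
  have h1 := (integrable_gauss (n := n) (b := 1 / 4) (by norm_num)).const_mul 4
  refine h1.mono' (by fun_prop) (Filter.Eventually.of_forall fun y => ?_)
  have h0 := dot_self_nonneg y
  set t := y ⬝ᵥ y
  rw [Real.norm_eq_abs, abs_of_nonneg (by positivity)]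
  have h2 : 1 + t ≤ 4 * Real.exp (t / 4) := by
    have := Real.add_one_le_exp (t / 4)
    linarith
  calc (1 + t) * Real.exp (-t / 2) ≤ 4 * Real.exp (t / 4) * Real.exp (-t / 2) :=
        mul_le_mul_of_nonneg_right h2 (Real.exp_pos _).le
    _ = 4 * Real.exp (-(1 / 4) * t) := by
        rw [mul_assoc, ← Real.exp_add]
        congr 2
        ring

theorem abs_dot_le (x v : Fin n → ℝ) : |x ⬝ᵥ v| ≤ n * ‖x‖ * ‖v‖ := by
  calc |x ⬝ᵥ v| ≤ ∑ i, |x i * v i| := Finset.abs_sum_le_sum_abs _ _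
    _ ≤ ∑ _i : Fin n, ‖x‖ * ‖v‖ := by
        refine Finset.sum_le_sum fun i _ => ?_
        rw [abs_mul]
        exact mul_le_mul (norm_le_pi_norm x i) (norm_le_pi_norm v i) (abs_nonneg _) (norm_nonneg _)
    _ = n * ‖x‖ * ‖v‖ := by simp; ring

theorem integrable_pow_norm_gauss :
    Integrable fun y : Fin n → ℝ => ‖y‖ * Real.exp (-(y ⬝ᵥ y) / 2) := by
  refine (integrable_poly_gauss (n := n)).mono' (by fun_prop) (Filter.Eventually.of_forall fun y => ?_)
  rw [Real.norm_eq_abs, abs_of_nonneg (by positivity)]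
  refine mul_le_mul_of_nonneg_right ?_ (Real.exp_pos _).le
  have h1 := norm_sq_le y
  nlinarith [sq_nonneg (‖y‖ - 1)]

theorem mulVec_bound (A : Matrix (Fin n) (Fin n) ℝ) : ∃ C : ℝ, 0 ≤ C ∧ ∀ y, ‖A *ᵥ y‖ ≤ C * ‖y‖ := by
  refine ⟨‖LinearMap.toContinuousLinearMap (Matrix.toLin' A)‖, norm_nonneg _, fun y => ?_⟩
  have := (LinearMap.toContinuousLinearMap (Matrix.toLin' A)).le_opNorm y
  simpa using this

/-- Fubini: the Gaussian mean of the norm. -/
theorem gauss_nrm {μ : Measure (Fin n → ℝ)} [IsFiniteMeasure μ] (hμ : Integrable (fun v => ‖v‖) μ)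
    (A : Matrix (Fin n) (Fin n) ℝ) :
    ∫ y, nrm μ (A *ᵥ y) * Real.exp (-(y ⬝ᵥ y) / 2) =
      (Real.sqrt (2 / Real.pi) * ∫ v, Real.sqrt ((Aᵀ *ᵥ v) ⬝ᵥ (Aᵀ *ᵥ v)) ∂μ) *
        Real.sqrt (2 * Real.pi) ^ n := by
  obtain ⟨C, hC0, hC⟩ := mulVec_bound A
  have h1 : ∀ y, nrm μ (A *ᵥ y) * Real.exp (-(y ⬝ᵥ y) / 2) =
      ∫ v, |(A *ᵥ y) ⬝ᵥ v| * Real.exp (-(y ⬝ᵥ y) / 2) ∂μ := by
    intro y
    rw [integral_mul_const]
    rfl
  simp_rw [h1]
  have hdot : Continuous fun p : (Fin n → ℝ) × (Fin n → ℝ) => (A *ᵥ p.1) ⬝ᵥ p.2 := by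
    simp only [dotProduct, Matrix.mulVec]
    fun_prop
  have hint : Integrable (Function.uncurry fun (y : Fin n → ℝ) (v : Fin n → ℝ) =>
      |(A *ᵥ y) ⬝ᵥ v| * Real.exp (-(y ⬝ᵥ y) / 2)) (volume.prod μ) := by
    have h2 := ((integrable_pow_norm_gauss (n := n)).mul_prod hμ).const_mul ((n : ℝ) * C)
    refine h2.mono' ?_ (Filter.Eventually.of_forall fun p => ?_)
    · have : Continuous (Function.uncurry fun (y : Fin n → ℝ) (v : Fin n → ℝ) =>
        |(A *ᵥ y) ⬝ᵥ v| * Real.exp (-(y ⬝ᵥ y) / 2)) := by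
        refine Continuous.mul (hdot.abs) ?_
        simp only [dotProduct]
        fun_prop
      exact this.aestronglyMeasurable
    · rcases p with ⟨y, v⟩
      simp only [Function.uncurry]
      rw [Real.norm_eq_abs, abs_of_nonneg (by positivity)]
      have h3 := abs_dot_le (A *ᵥ y) v
      have h4 := hC y
      have h5 : |(A *ᵥ y) ⬝ᵥ v| ≤ (n : ℝ) * (C * ‖y‖) * ‖v‖ := by
        refine h3.trans ?_
        gcongr
      calc |(A *ᵥ y) ⬝ᵥ v| * Real.exp (-(y ⬝ᵥ y) / 2) ≤
          ((n : ℝ) * (C * ‖y‖) * ‖v‖) * Real.exp (-(y ⬝ᵥ y) / 2) :=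
            mul_le_mul_of_nonneg_right h5 (Real.exp_pos _).le
        _ = (n : ℝ) * C * (‖y‖ * Real.exp (-(y ⬝ᵥ y) / 2) * ‖v‖) := by ring
  rw [integral_integral_swap hint]
  have h6 : ∀ v : Fin n → ℝ, ∫ y : Fin n → ℝ, |(A *ᵥ y) ⬝ᵥ v| * Real.exp (-(y ⬝ᵥ y) / 2) =
      Real.sqrt (2 / Real.pi) * Real.sqrt ((Aᵀ *ᵥ v) ⬝ᵥ (Aᵀ *ᵥ v)) *
        Real.sqrt (2 * Real.pi) ^ n := by
    intro v
    rw [← gauss_abs (Aᵀ *ᵥ v)]
    refine integral_congr_ae (Filter.Eventually.of_forall fun y => ?_)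
    have : (A *ᵥ y) ⬝ᵥ v = (Aᵀ *ᵥ v) ⬝ᵥ y := by
      rw [Matrix.mulVec_transpose, ← Matrix.dotProduct_mulVec, dotProduct_comm]
    simp only [this]
  simp_rw [h6]
  rw [integral_mul_const, integral_const_mul]

/-- D: Jensen. -/
theorem jensen {μ : Measure (Fin n → ℝ)} [IsFiniteMeasure μ] (hμ : Integrable (fun v => ‖v‖) μ)
    (hK : Bornology.IsBounded {x | nrm μ x ≤ 1}) (A : Matrix (Fin n) (Fin n) ℝ) (hA : A.det ≠ 0)
    {s : ℝ} (hs : 0 < s) :
    s ^ n * |A.det| * (Real.sqrt (2 * Real.pi) ^ n * Real.exp ((n : ℝ) / 2 -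
      s * Real.sqrt (2 / Real.pi) * ∫ v, Real.sqrt ((Aᵀ *ᵥ v) ⬝ᵥ (Aᵀ *ᵥ v)) ∂μ)) ≤
      ∫ x, Real.exp (-nrm μ x) := by
  set N := nrm μ with hN
  have hNc : Continuous N := nrm_continuous hμ
  have hNn : ∀ x, 0 ≤ N x := fun x => integral_nonneg fun v => abs_nonneg _
  -- positivity of the volume and integrability
  have hvol : 0 < (volume {x | N x ≤ 1}).toReal := by
    have hopen : IsOpen {x | N x < 1} := isOpen_lt hNc continuous_const
    have h0 : (0 : Fin n → ℝ) ∈ {x | N x < 1} := by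
      show N 0 < 1
      rw [hN, nrm_zero]
      exact one_pos
    have h1 : 0 < volume {x | N x < 1} := hopen.measure_pos _ ⟨0, h0⟩
    have h2 : volume {x | N x < 1} ≤ volume {x | N x ≤ 1} := measure_mono fun x (hx : N x < 1) => (le_of_lt hx : N x ≤ 1)
    have h3 : volume {x | N x ≤ 1} < ⊤ := hK.measure_lt_top
    exact ENNReal.toReal_pos (h1.trans_le h2).ne' h3.ne
  have hne : ∫ x, Real.exp (-N x) ≠ 0 := by
    rw [hN, integral_exp_nrm hμ hK]
    exact mul_ne_zero (by exact_mod_cast n.factorial_ne_zero) hvol.ne'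
  have hsA : (s • A).det ≠ 0 := by
    rw [Matrix.det_smul, Fintype.card_fin]
    exact mul_ne_zero (pow_ne_zero _ hs.ne') hA
  have hcv := integral_lin (s • A) hsA (fun x => Real.exp (-N x))
  have hdet : |(s • A).det| = s ^ n * |A.det| := by
    rw [Matrix.det_smul, Fintype.card_fin, abs_mul, abs_of_pos (pow_pos hs n)]
  rw [hdet] at hcv
  have hpos : 0 < s ^ n * |A.det| := mul_pos (pow_pos hs n) (abs_pos.2 hA)
  have hNs : ∀ y, N ((s • A) *ᵥ y) = s * N (A *ᵥ y) := by
    intro y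
    rw [Matrix.smul_mulVec, hN, nrm_smul, abs_of_pos hs]
  simp only [hNs] at hcv
  have hne2 : ∫ y, Real.exp (-(s * N (A *ᵥ y))) ≠ 0 := by
    intro h
    rw [h, mul_zero] at hcv
    exact hne hcv
  have hint : Integrable fun y => Real.exp (-(s * N (A *ᵥ y))) := by
    by_contra h
    exact hne2 (integral_undef h)
  rw [hcv]
  refine mul_le_mul_of_nonneg_left ?_ hpos.le
  set c := Real.sqrt (2 * Real.pi) ^ n with hc
  set E := Real.sqrt (2 / Real.pi) * ∫ v, Real.sqrt ((Aᵀ *ᵥ v) ⬝ᵥ (Aᵀ *ᵥ v)) ∂μ with hE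
  set m := (n : ℝ) / 2 - s * E with hm
  have hmE : (n : ℝ) / 2 - s * Real.sqrt (2 / Real.pi) *
      ∫ v, Real.sqrt ((Aᵀ *ᵥ v) ⬝ᵥ (Aᵀ *ᵥ v)) ∂μ = m := by
    rw [hm, hE]; ring
  rw [hmE]
  -- the three Gaussian integrals
  have g1 : ∫ y : Fin n → ℝ, Real.exp (-(y ⬝ᵥ y) / 2) = c := gauss_one
  have g2 : ∫ y : Fin n → ℝ, (y ⬝ᵥ y) * Real.exp (-(y ⬝ᵥ y) / 2) = n * c := gauss_sq
  have g3 : ∫ y, N (A *ᵥ y) * Real.exp (-(y ⬝ᵥ y) / 2) = E * c := gauss_nrm hμ A
  have i1 : Integrable fun y : Fin n → ℝ => Real.exp (-(y ⬝ᵥ y) / 2) := by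
    have := integrable_gauss (n := n) (b := 1 / 2) (by norm_num)
    refine this.congr (Filter.Eventually.of_forall fun y => ?_)
    show Real.exp (-(1 / 2) * (y ⬝ᵥ y)) = Real.exp (-(y ⬝ᵥ y) / 2)
    congr 1
    ring
  have i2 : Integrable fun y : Fin n → ℝ => (y ⬝ᵥ y) * Real.exp (-(y ⬝ᵥ y) / 2) := by
    have := (integrable_poly_gauss (n := n)).sub i1
    refine this.congr (Filter.Eventually.of_forall fun y => ?_)
    show (1 + y ⬝ᵥ y) * Real.exp (-(y ⬝ᵥ y) / 2) - Real.exp (-(y ⬝ᵥ y) / 2) = _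
    ring
  have i3 : Integrable fun y : Fin n → ℝ => N (A *ᵥ y) * Real.exp (-(y ⬝ᵥ y) / 2) := by
    obtain ⟨C, hC0, hC⟩ := mulVec_bound A
    obtain ⟨D, hD0, hD⟩ := nrm_le hμ
    have h2 := (integrable_pow_norm_gauss (n := n)).const_mul (D * C)
    refine h2.mono' ?_ (Filter.Eventually.of_forall fun y => ?_)
    · have hAc : Continuous fun y : Fin n → ℝ => A *ᵥ y :=
        Continuous.matrix_mulVec continuous_const continuous_id
      have h3 : Continuous fun y : Fin n → ℝ => Real.exp (-(y ⬝ᵥ y) / 2) := by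
        simp only [dotProduct]
        fun_prop
      exact ((hNc.comp hAc).mul h3).aestronglyMeasurable
    · rw [Real.norm_eq_abs, abs_of_nonneg (mul_nonneg (hNn _) (Real.exp_pos _).le)]
      have h4 : N (A *ᵥ y) ≤ D * C * ‖y‖ := by
        refine (hD _).trans ?_
        rw [mul_assoc]
        exact mul_le_mul_of_nonneg_left (hC y) hD0
      calc N (A *ᵥ y) * Real.exp (-(y ⬝ᵥ y) / 2) ≤ (D * C * ‖y‖) * Real.exp (-(y ⬝ᵥ y) / 2) :=
            mul_le_mul_of_nonneg_right h4 (Real.exp_pos _).le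
        _ = D * C * (‖y‖ * Real.exp (-(y ⬝ᵥ y) / 2)) := by ring
  -- the tangent line bound
  set F : (Fin n → ℝ) → ℝ := fun y => Real.exp m * ((1 - m) * Real.exp (-(y ⬝ᵥ y) / 2) +
    (1 / 2) * ((y ⬝ᵥ y) * Real.exp (-(y ⬝ᵥ y) / 2)) -
      s * (N (A *ᵥ y) * Real.exp (-(y ⬝ᵥ y) / 2))) with hF
  have hFi : Integrable F :=
    (((i1.const_mul (1 - m)).add (i2.const_mul (1 / 2))).sub (i3.const_mul s)).const_mul _
  have hFint : ∫ y, F y = c * Real.exp m := by
    have e1 : ∫ y : Fin n → ℝ, ((1 - m) * Real.exp (-(y ⬝ᵥ y) / 2) +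
        (1 / 2) * ((y ⬝ᵥ y) * Real.exp (-(y ⬝ᵥ y) / 2))) = (1 - m) * c + (1 / 2) * (n * c) := by
      rw [integral_add (i1.const_mul (1 - m)) (i2.const_mul (1 / 2)), integral_const_mul,
        integral_const_mul, g1, g2]
    have e2 : ∫ y : Fin n → ℝ, ((1 - m) * Real.exp (-(y ⬝ᵥ y) / 2) +
        (1 / 2) * ((y ⬝ᵥ y) * Real.exp (-(y ⬝ᵥ y) / 2)) -
        s * (N (A *ᵥ y) * Real.exp (-(y ⬝ᵥ y) / 2))) =
        (1 - m) * c + (1 / 2) * (n * c) - s * (E * c) := by
      rw [← e1, ← g3, ← integral_const_mul s]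
      exact integral_sub ((i1.const_mul (1 - m)).add (i2.const_mul (1 / 2))) (i3.const_mul s)
    simp only [hF]
    rw [integral_const_mul, e2, hm]
    ring
  rw [← hFint]
  refine integral_mono hFi hint fun y => ?_
  show F y ≤ Real.exp (-(s * N (A *ᵥ y)))
  have h1 : Real.exp (-(s * N (A *ᵥ y))) = Real.exp m * (Real.exp (-(y ⬝ᵥ y) / 2) *
      Real.exp ((y ⬝ᵥ y) / 2 - s * N (A *ᵥ y) - m)) := by
    rw [← Real.exp_add, ← Real.exp_add]
    congr 1
    ring
  rw [h1, hF]
  refine mul_le_mul_of_nonneg_left ?_ (Real.exp_pos m).le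
  have h2 := Real.add_one_le_exp ((y ⬝ᵥ y) / 2 - s * N (A *ᵥ y) - m)
  have h3 := mul_le_mul_of_nonneg_left h2 (Real.exp_pos (-(y ⬝ᵥ y) / 2)).le
  refine le_trans (le_of_eq ?_) h3
  ring

end Vale.Agent.P254.L1
end

section

/-! P254, block B: a sharp inequality between the first two absolute moments of a linear
functional on a symmetric convex body. -/

open MeasureTheory Set
open scoped Matrix

namespace Vale.Agent.P254.L1

namespace B

variable {n : ℕ}

/-- the functional `x ↦ x ⬝ᵥ v` as a linear map -/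
noncomputable def fn (v : Fin n → ℝ) : (Fin n → ℝ) →ₗ[ℝ] ℝ where
  toFun x := x ⬝ᵥ v
  map_add' x y := add_dotProduct x y v
  map_smul' r x := smul_dotProduct r x v

theorem fn_apply (v x : Fin n → ℝ) : fn v x = x ⬝ᵥ v := rfl

theorem continuous_dot (v : Fin n → ℝ) : Continuous fun x : Fin n → ℝ => x ⬝ᵥ v := by
  unfold dotProduct
  fun_prop

/-- the linear map replacing coordinate `k` by `x ⬝ᵥ v` -/
noncomputable def chg (v : Fin n → ℝ) (k : Fin n) : (Fin n → ℝ) →ₗ[ℝ] (Fin n → ℝ) :=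
  LinearMap.pi fun i => if i = k then fn v else LinearMap.proj i

theorem chg_same (v : Fin n → ℝ) (k : Fin n) (x : Fin n → ℝ) : chg v k x k = x ⬝ᵥ v := by
  simp [chg, fn]

theorem chg_ne (v : Fin n → ℝ) {k i : Fin n} (h : i ≠ k) (x : Fin n → ℝ) :
    chg v k x i = x i := by
  simp [chg, h]

theorem chg_injective {v : Fin n → ℝ} {k : Fin n} (hv : v k ≠ 0) :
    Function.Injective (chg v k) := by
  rw [← LinearMap.ker_eq_bot, LinearMap.ker_eq_bot']
  intro x hx
  have h1 : ∀ i, i ≠ k → x i = 0 := fun i hi => by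
    rw [← chg_ne v hi x, hx]; rfl
  have h2 : x ⬝ᵥ v = 0 := by
    rw [← chg_same v k x, hx]; rfl
  have h3 : x ⬝ᵥ v = x k * v k := by
    unfold dotProduct
    exact Finset.sum_eq_single k (fun i _ hi => by rw [h1 i hi, zero_mul]) (by simp)
  have h4 : x k = 0 := by
    rw [h3] at h2
    exact (mul_eq_zero.1 h2).resolve_right hv
  funext i
  by_cases hi : i = k
  · rw [hi, h4]; rfl
  · exact h1 i hi

theorem chg_det {v : Fin n → ℝ} {k : Fin n} (hv : v k ≠ 0) :
    LinearMap.det (chg v k) ≠ 0 := by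
  intro h
  have := LinearMap.bot_lt_ker_of_det_eq_zero h
  rw [LinearMap.ker_eq_bot.2 (chg_injective hv)] at this
  exact lt_irrefl _ this

theorem image_integral {L : (Fin n → ℝ) →ₗ[ℝ] (Fin n → ℝ)}
    (hi : Function.Injective L) {S : Set (Fin n → ℝ)} (hS : MeasurableSet S)
    (g : (Fin n → ℝ) → ℝ) :
    ∫ x in L '' S, g x = |LinearMap.det L| * ∫ x in S, g (L x) := by
  have h := integral_image_eq_integral_abs_det_fderiv_smul volume hS
    (f := L) (f' := fun _ => LinearMap.toContinuousLinearMap L)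
    (fun x _ => (LinearMap.toContinuousLinearMap L).hasFDerivAt.hasFDerivWithinAt)
    hi.injOn g
  rw [h]
  simp only [smul_eq_mul]
  rw [integral_const_mul]
  rfl

theorem hyperplane_null {v : Fin n → ℝ} (hv : v ≠ 0) :
    volume {x : Fin n → ℝ | x ⬝ᵥ v = 0} = 0 := by
  have h : {x : Fin n → ℝ | x ⬝ᵥ v = 0} = (LinearMap.ker (fn v) : Set (Fin n → ℝ)) := by
    ext x; simp [fn]
  rw [h]
  apply Measure.addHaar_submodule
  intro htop
  apply hv
  have h1 : v ⬝ᵥ v = 0 := by
    have : v ∈ LinearMap.ker (fn v) := by rw [htop]; trivial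
    simpa [fn] using this
  exact dotProduct_self_eq_zero.1 h1

theorem half {v : Fin n → ℝ} (hv : v ≠ 0) {K : Set (Fin n → ℝ)} (hK : IsCompact K)
    (hs : ∀ x ∈ K, -x ∈ K) {g : (Fin n → ℝ) → ℝ} (hg : Continuous g)
    (he : ∀ x, g (-x) = g x) :
    ∫ x in K, g x = 2 * ∫ x in K ∩ {x | 0 ≤ x ⬝ᵥ v}, g x := by
  have hd := continuous_dot v
  have hm1 : MeasurableSet {x : Fin n → ℝ | 0 ≤ x ⬝ᵥ v} :=
    measurableSet_le measurable_const hd.measurable
  have hgi : IntegrableOn g K := hg.continuousOn.integrableOn_compact hK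
  have h1 : ∫ x in K, g x = (∫ x in K ∩ {x | 0 ≤ x ⬝ᵥ v}, g x) +
      ∫ x in K ∩ {x | 0 ≤ x ⬝ᵥ v}ᶜ, g x := by
    rw [← setIntegral_union (Set.disjoint_left.2 fun x hx hy => hy.2 hx.2)
      (hK.measurableSet.inter hm1.compl) (hgi.mono_set inter_subset_left)
      (hgi.mono_set inter_subset_left), Set.inter_union_compl]
  have h2 : ∫ x in K ∩ {x | 0 ≤ x ⬝ᵥ v}ᶜ, g x = ∫ x in K ∩ {x | 0 < x ⬝ᵥ v}, g x := by
    have hp := (Measure.measurePreserving_neg (volume : Measure (Fin n → ℝ)))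
    have h3 := hp.setIntegral_preimage_emb (MeasurableEquiv.neg _).measurableEmbedding g
      (K ∩ {x | 0 < x ⬝ᵥ v})
    rw [← h3]
    have h4 : Neg.neg ⁻¹' (K ∩ {x : Fin n → ℝ | 0 < x ⬝ᵥ v}) = K ∩ {x | 0 ≤ x ⬝ᵥ v}ᶜ := by
      ext x
      simp only [mem_preimage, mem_inter_iff, mem_ofPred_eq, mem_compl_iff, neg_dotProduct,
        not_le, Left.neg_pos_iff]
      constructor
      · rintro ⟨a, b⟩
        exact ⟨by simpa using hs _ a, b⟩
      · rintro ⟨a, b⟩
        exact ⟨hs _ a, b⟩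
    rw [h4]
    simp only [he]
  have h5 : ∫ x in K ∩ {x | 0 < x ⬝ᵥ v}, g x = ∫ x in K ∩ {x | 0 ≤ x ⬝ᵥ v}, g x := by
    apply setIntegral_congr_set
    have h0 := hyperplane_null hv
    have hae : ∀ᵐ x ∂(volume : Measure (Fin n → ℝ)), x ⬝ᵥ v ≠ 0 := by
      rw [ae_iff]; simpa using h0
    filter_upwards [hae] with x hx
    apply propext
    constructor
    · rintro ⟨a, b⟩
      have b' : 0 < x ⬝ᵥ v := b
      exact ⟨a, b'.le⟩
    · rintro ⟨a, b⟩
      have b' : 0 ≤ x ⬝ᵥ v := b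
      exact ⟨a, lt_of_le_of_ne b' (Ne.symm hx)⟩
  rw [h1, h2, h5]; ring

end B

open B in
/-- Berwald's inequality for an even convex body and a linear functional. -/
theorem berwald_even {n : ℕ} (hn : 1 ≤ n) {K : Set (Fin n → ℝ)} (hc : Convex ℝ K)
    (hK : IsCompact K) (hs : ∀ x ∈ K, -x ∈ K) (v : Fin n → ℝ) :
    ((n : ℝ) + 2) * ((volume K).toReal * ∫ x in K, (x ⬝ᵥ v) ^ 2) ≤
      2 * ((n : ℝ) + 1) * (∫ x in K, |x ⬝ᵥ v|) ^ 2 := by
  by_cases hv : v = 0
  · subst hv; simp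
  obtain ⟨k, hk⟩ : ∃ k, v k ≠ 0 := by
    by_contra h
    push Not at h
    exact hv (funext h)
  have hd := continuous_dot v
  set P := K ∩ {x : Fin n → ℝ | 0 ≤ x ⬝ᵥ v} with hP
  have hPc : IsCompact P := hK.inter_right (isClosed_le continuous_const hd)
  have hPv : Convex ℝ P := by
    apply hc.inter
    have := (convex_Ici (𝕜 := ℝ) (0 : ℝ)).linear_preimage (fn v)
    exact this
  set L := chg v k with hL
  have hdet := chg_det hk
  have hinj := chg_injective hk
  have hLc : Continuous L := LinearMap.continuous_of_finiteDimensional L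
  have hb := Unc.berwald (hPv.linear_image L) (hPc.image hLc) k (by
    rintro _ ⟨x, hx, rfl⟩
    rw [chg_same]
    exact hx.2)
  have e2 : ∫ x in L '' P, x k ^ 2 = |LinearMap.det L| * ∫ x in P, (x ⬝ᵥ v) ^ 2 := by
    rw [image_integral hinj hPc.measurableSet]
    simp only [hL, chg_same]
  have e1 : ∫ x in L '' P, x k = |LinearMap.det L| * ∫ x in P, x ⬝ᵥ v := by
    rw [image_integral hinj hPc.measurableSet]
    simp only [hL, chg_same]
  have e0 : (volume (L '' P)).toReal = |LinearMap.det L| * (volume P).toReal := by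
    rw [Measure.addHaar_image_linearMap, ENNReal.toReal_mul, ENNReal.toReal_ofReal (abs_nonneg _)]
  have f1 : ∫ x in P, x ⬝ᵥ v = ∫ x in P, |x ⬝ᵥ v| :=
    setIntegral_congr_fun hPc.measurableSet fun x hx => (abs_of_nonneg hx.2).symm
  have g0 : (volume K).toReal = 2 * (volume P).toReal := by
    have h := half hv hK hs (g := fun _ => (1 : ℝ)) continuous_const (fun _ => rfl)
    simpa [Measure.real, hP] using h
  have g1 : ∫ x in K, |x ⬝ᵥ v| = 2 * ∫ x in P, |x ⬝ᵥ v| :=
    half hv hK hs hd.abs (fun x => by simp [neg_dotProduct])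
  have g2 : ∫ x in K, (x ⬝ᵥ v) ^ 2 = 2 * ∫ x in P, (x ⬝ᵥ v) ^ 2 :=
    half hv hK hs (hd.pow 2) (fun x => by simp [neg_dotProduct])
  rw [e0, e1, e2, f1] at hb
  rw [g0, g1, g2]
  have hD : 0 < |LinearMap.det L| := abs_pos.2 hdet
  set D := |LinearMap.det L|
  set V := (volume P).toReal
  set M1 := ∫ x in P, |x ⬝ᵥ v|
  set M2 := ∫ x in P, (x ⬝ᵥ v) ^ 2
  have hn2 : (0 : ℝ) < (n : ℝ) + 2 := by positivity
  have h5 : V * M2 ≤ 2 * ((n : ℝ) + 1) / (n + 2) * M1 ^ 2 := by
    have h6 : D ^ 2 * (V * M2) ≤ D ^ 2 * (2 * ((n : ℝ) + 1) / (n + 2) * M1 ^ 2) := by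
      calc D ^ 2 * (V * M2) = D * V * (D * M2) := by ring
        _ ≤ _ := hb
        _ = _ := by ring
    exact le_of_mul_le_mul_left h6 (by positivity)
  have h7 : ((n : ℝ) + 2) * (V * M2) ≤ 2 * ((n : ℝ) + 1) * M1 ^ 2 := by
    calc ((n : ℝ) + 2) * (V * M2) ≤ ((n : ℝ) + 2) * (2 * ((n : ℝ) + 1) / (n + 2) * M1 ^ 2) := by
          gcongr
      _ = _ := by field_simp
  nlinarith [h7]

end Vale.Agent.P254.L1
end

section

/-! E1: `c ∫ (v'Σv)^{1/2} dμ ≤ n/(n+1)`, from Berwald's inequality (hypothesis `hB`) and A3. -/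

open MeasureTheory Set
open scoped Matrix

namespace Vale.Agent.P254.L1

variable {n : ℕ}

theorem int_sqrt_le_of (hn : 1 ≤ n) {μ : Measure (Fin n → ℝ)} [IsFiniteMeasure μ]
    (hμ : Integrable (fun v => ‖v‖) μ)
    (hK : Bornology.IsBounded {x | nrm μ x ≤ 1})
    (hB : ∀ v : Fin n → ℝ, ((n : ℝ) + 2) * ((volume {x | nrm μ x ≤ 1}).toReal *
      ∫ x in {x | nrm μ x ≤ 1}, (x ⬝ᵥ v) ^ 2) ≤
      2 * ((n : ℝ) + 1) * (∫ x in {x | nrm μ x ≤ 1}, |x ⬝ᵥ v|) ^ 2) :
    Real.sqrt (((n : ℝ) + 2) / (2 * ((n : ℝ) + 1))) *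
      ∫ v, Real.sqrt ((volume {x | nrm μ x ≤ 1}).toReal⁻¹ *
        ∫ x in {x | nrm μ x ≤ 1}, (x ⬝ᵥ v) ^ 2) ∂μ ≤ (n : ℝ) / ((n : ℝ) + 1) := by
  set K : Set (Fin n → ℝ) := {x | nrm μ x ≤ 1} with hKd
  set V : ℝ := (volume K).toReal with hVd
  have hKm : MeasurableSet K := (isClosed_le (a3_cont hμ) continuous_const).measurableSet
  haveI : IsFiniteMeasure (volume.restrict K) :=
    ⟨by rw [Measure.restrict_apply_univ]; exact hK.measure_lt_top⟩
  have hV0 : 0 ≤ V := ENNReal.toReal_nonneg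
  have hn1 : (0 : ℝ) < (n : ℝ) + 1 := by positivity
  -- bound on K
  obtain ⟨R, hR⟩ : ∃ R : ℝ, ∀ x ∈ K, ‖x‖ ≤ R := hK.exists_norm_le
  -- integrability on the product
  have hprod : Integrable (fun p : (Fin n → ℝ) × (Fin n → ℝ) => |p.1 ⬝ᵥ p.2|)
      ((volume.restrict K).prod μ) := by
    have h1 : Integrable (fun p : (Fin n → ℝ) × (Fin n → ℝ) => ((n : ℝ) * |R|) * ‖p.2‖)
        ((volume.restrict K).prod μ) := (hμ.const_mul ((n : ℝ) * |R|)).comp_snd _
    refine h1.mono' ?_ ?_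
    · have : Continuous fun p : (Fin n → ℝ) × (Fin n → ℝ) => |p.1 ⬝ᵥ p.2| := by
        unfold dotProduct
        fun_prop
      exact this.aestronglyMeasurable
    · have hae : ∀ᵐ p ∂((volume.restrict K).prod μ), p.1 ∈ K := by
        have h2 : ∀ᵐ x ∂(volume.restrict K), x ∈ K := ae_restrict_mem hKm
        exact Measure.quasiMeasurePreserving_fst.ae h2
      filter_upwards [hae] with p hp
      rw [Real.norm_eq_abs, abs_abs]
      refine (a3_abs_dot_le p.1 p.2).trans ?_
      have h3 : ‖p.1‖ ≤ |R| := (hR _ hp).trans (le_abs_self R)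
      gcongr
  have hswap : ∫ v, (∫ x in K, |x ⬝ᵥ v|) ∂μ = ∫ x in K, nrm μ x := by
    unfold nrm
    exact (integral_integral_swap (f := fun x v => |x ⬝ᵥ v|) hprod).symm
  have hgi : Integrable (fun v => ∫ x in K, |x ⬝ᵥ v|) μ := hprod.integral_prod_right
  have hA3 : ((n : ℝ) + 1) * ∫ x in K, nrm μ x = n * V :=
    a3_general (a3_cont hμ) (a3_nonneg μ)
      (fun r x hr => by rw [a3_smul, abs_of_pos hr]) hK
  rcases hV0.eq_or_lt with h0 | hVp
  · rw [← h0]
    simp only [inv_zero, zero_mul, Real.sqrt_zero, integral_zero, mul_zero]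
    positivity
  -- pointwise bound
  have hpt : ∀ v : Fin n → ℝ, Real.sqrt (((n : ℝ) + 2) / (2 * ((n : ℝ) + 1))) *
      Real.sqrt (V⁻¹ * ∫ x in K, (x ⬝ᵥ v) ^ 2) ≤ V⁻¹ * ∫ x in K, |x ⬝ᵥ v| := by
    intro v
    have hI : 0 ≤ ∫ x in K, |x ⬝ᵥ v| := integral_nonneg fun _ => abs_nonneg _
    rw [← Real.sqrt_mul (by positivity)]
    refine Real.sqrt_le_iff.2 ⟨by positivity, ?_⟩
    have h1 := hB v
    rw [div_mul_eq_mul_div, div_le_iff₀ (by positivity)]
    have e1 : (V⁻¹ * ∫ x in K, |x ⬝ᵥ v|) ^ 2 * (2 * ((n : ℝ) + 1)) =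
        (V⁻¹) ^ 2 * (2 * ((n : ℝ) + 1) * (∫ x in K, |x ⬝ᵥ v|) ^ 2) := by ring
    have e2 : ((n : ℝ) + 2) * (V⁻¹ * ∫ x in K, (x ⬝ᵥ v) ^ 2) =
        (V⁻¹) ^ 2 * (((n : ℝ) + 2) * (V * ∫ x in K, (x ⬝ᵥ v) ^ 2)) := by
      field_simp
    rw [e1, e2]
    exact mul_le_mul_of_nonneg_left h1 (by positivity)
  rw [← integral_const_mul]
  calc ∫ v, Real.sqrt (((n : ℝ) + 2) / (2 * ((n : ℝ) + 1))) *
        Real.sqrt (V⁻¹ * ∫ x in K, (x ⬝ᵥ v) ^ 2) ∂μ
      ≤ ∫ v, (V⁻¹ * ∫ x in K, |x ⬝ᵥ v|) ∂μ := by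
        refine integral_mono_of_nonneg (Filter.Eventually.of_forall fun v => by positivity)
          (hgi.const_mul _) (Filter.Eventually.of_forall hpt)
    _ = V⁻¹ * ∫ x in K, nrm μ x := by
        rw [integral_const_mul, hswap]
    _ = (n : ℝ) / ((n : ℝ) + 1) := by
        rw [eq_div_iff hn1.ne']
        have : V⁻¹ * (∫ x in K, nrm μ x) * ((n : ℝ) + 1) =
            V⁻¹ * (((n : ℝ) + 1) * ∫ x in K, nrm μ x) := by ring
        rw [this, hA3]
        field_simp

end Vale.Agent.P254.L1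
end

section

open MeasureTheory Set
open scoped Matrix

namespace Vale.Agent.P254.L1

variable {n : ℕ}

/-- `Σ v·v` lower bound, integrated: `c ∫ (v'Σv)^{1/2} dμ ≤ n/(n+1)`, `c² = (n+2)/(2(n+1))` -/
theorem int_sqrt_le (hn : 1 ≤ n) {μ : Measure (Fin n → ℝ)} [IsFiniteMeasure μ]
    (hμ : Integrable (fun v => ‖v‖) μ)
    (hK : Bornology.IsBounded {x | nrm μ x ≤ 1}) :
    Real.sqrt (((n : ℝ) + 2) / (2 * ((n : ℝ) + 1))) *
      ∫ v, Real.sqrt ((volume {x | nrm μ x ≤ 1}).toReal⁻¹ *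
        ∫ x in {x | nrm μ x ≤ 1}, (x ⬝ᵥ v) ^ 2) ∂μ ≤ (n : ℝ) / ((n : ℝ) + 1) := by
  refine int_sqrt_le_of hn hμ hK fun v => ?_
  have hcl : IsClosed {x | nrm μ x ≤ 1} := isClosed_le (nrm_continuous hμ) continuous_const
  have hcp : IsCompact {x | nrm μ x ≤ 1} := Metric.isCompact_of_isClosed_isBounded hcl hK
  have hcv : Convex ℝ {x | nrm μ x ≤ 1} := by
    intro x hx y hy a b ha hb hab
    simp only [mem_setOf_eq] at hx hy ⊢
    refine (nrm_add hμ _ _).trans ?_
    rw [nrm_smul, nrm_smul, abs_of_nonneg ha, abs_of_nonneg hb]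
    nlinarith
  exact berwald_even hn hcv hcp (fun x hx => by
    simp only [mem_setOf_eq] at hx ⊢
    rwa [nrm_neg]) v

end Vale.Agent.P254.L1
end

section

/-! P254, `L₁` balls, block E: assembly. -/

open MeasureTheory Set Matrix
open scoped Matrix MatrixOrder

namespace Vale.Agent.P254.L1

variable {n : ℕ}

theorem ball_isCompact {μ : Measure (Fin n → ℝ)} (hμ : Integrable (fun v => ‖v‖) μ)
    (hK : Bornology.IsBounded {x | nrm μ x ≤ 1}) : IsCompact {x | nrm μ x ≤ 1} :=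
  Metric.isCompact_of_isClosed_isBounded (isClosed_le (nrm_continuous hμ) continuous_const) hK

theorem ball_centroid {μ : Measure (Fin n → ℝ)} : centroid {x | nrm μ x ≤ 1} = 0 := by
  ext i
  simp only [centroid, Pi.zero_apply]
  have h : ∫ x in {x | nrm μ x ≤ 1}, x i = -∫ x in {x | nrm μ x ≤ 1}, x i := by
    have hmp : MeasurePreserving (fun x : Fin n → ℝ => -x) volume volume :=
      Measure.measurePreserving_neg volume
    have hpre : (fun x : Fin n → ℝ => -x) ⁻¹' {x | nrm μ x ≤ 1} = {x | nrm μ x ≤ 1} := by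
      ext x
      simp only [mem_preimage, mem_ofPred_eq, nrm_neg]
    have h1 := hmp.setIntegral_preimage_emb (MeasurableEquiv.neg (Fin n → ℝ)).measurableEmbedding
      (fun x => x i) {x | nrm μ x ≤ 1}
    rw [hpre] at h1
    calc ∫ x in {x | nrm μ x ≤ 1}, x i = ∫ x in {x | nrm μ x ≤ 1}, (-x) i := h1.symm
      _ = -∫ x in {x | nrm μ x ≤ 1}, x i := by
        rw [← integral_neg]
        rfl
  have h0 : ∫ x in {x | nrm μ x ≤ 1}, x i = 0 := by linarith
  rw [h0, mul_zero]

/-- The bound for the isotropic constant of the unit ball of a subspace of `L₁`. -/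
theorem l1_body (hn : 1 ≤ n) {μ : Measure (Fin n → ℝ)} [IsFiniteMeasure μ]
    (hμ : Integrable (fun v => ‖v‖) μ) (hK : Bornology.IsBounded {x | nrm μ x ≤ 1}) :
    (covMatrix {x | nrm μ x ≤ 1}).det / (volume {x | nrm μ x ≤ 1}).toReal ^ 2 ≤
      (n.factorial : ℝ) ^ 2 *
        (2 * Real.exp 1 / (Real.pi ^ 2 * (((n : ℝ) + 1) * ((n : ℝ) + 2)))) ^ n := by
  set K := {x | nrm μ x ≤ 1} with hKdef
  have hKc : IsCompact K := ball_isCompact hμ hK
  set V := (volume K).toReal with hV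
  have hn0 : (0 : ℝ) < n := by exact_mod_cast hn
  rcases le_or_gt (covMatrix K).det 0 with hd | hd
  · refine (div_nonpos_of_nonpos_of_nonneg hd (sq_nonneg _)).trans ?_
    positivity
  obtain ⟨B, hB⟩ := CStarAlgebra.nonneg_iff_eq_star_mul_self.mp (covMatrix_posSemidef hKc).nonneg
  have hBt : covMatrix K = Bᵀ * B := by
    rw [hB]
    congr 1
  have hdet : (covMatrix K).det = |Bᵀ.det| ^ 2 := by
    rw [hBt, det_mul, det_transpose, sq_abs, sq]
  have hA : Bᵀ.det ≠ 0 := by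
    intro h
    rw [hdet, h] at hd
    simp at hd
  -- the quadratic form
  have hq : ∀ v : Fin n → ℝ, ((Bᵀ)ᵀ *ᵥ v) ⬝ᵥ ((Bᵀ)ᵀ *ᵥ v) = V⁻¹ * ∫ x in K, (x ⬝ᵥ v) ^ 2 := by
    intro v
    have h1 : (B *ᵥ v) ⬝ᵥ (B *ᵥ v) = ∑ i, ∑ j, v i * covMatrix K i j * v j := by
      have h2 : (B *ᵥ v) ⬝ᵥ (B *ᵥ v) = v ⬝ᵥ (covMatrix K *ᵥ v) := by
        rw [hBt, ← mulVec_mulVec, dotProduct_mulVec v, vecMul_transpose]
      rw [h2]
      simp only [dotProduct, mulVec, Finset.mul_sum]
      refine Finset.sum_congr rfl fun i _ => Finset.sum_congr rfl fun j _ => ?_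
      ring
    rw [transpose_transpose, h1, cov_quad hKc, ball_centroid]
    congr 1
    refine integral_congr_ae (Filter.Eventually.of_forall fun x => ?_)
    simp only [Pi.zero_apply, sub_zero, dotProduct]
    congr 1
    exact Finset.sum_congr rfl fun i _ => mul_comm _ _
  set c := Real.sqrt (((n : ℝ) + 2) / (2 * ((n : ℝ) + 1))) with hc
  have hc2 : c ^ 2 = ((n : ℝ) + 2) / (2 * ((n : ℝ) + 1)) := Real.sq_sqrt (by positivity)
  have hc0 : 0 < c := Real.sqrt_pos.2 (by positivity)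
  set I := ∫ v, Real.sqrt (((Bᵀ)ᵀ *ᵥ v) ⬝ᵥ ((Bᵀ)ᵀ *ᵥ v)) ∂μ with hI
  have hI1 : c * I ≤ (n : ℝ) / ((n : ℝ) + 1) := by
    have := int_sqrt_le hn hμ hK
    rw [hI]
    simp_rw [hq]
    exact this
  set s := ((n : ℝ) + 1) * c * Real.sqrt (Real.pi / 2) with hs
  have hs0 : 0 < s := by
    have : 0 < Real.sqrt (Real.pi / 2) := Real.sqrt_pos.2 (by positivity)
    positivity
  have hJ := jensen hμ hK Bᵀ hA hs0
  rw [integral_exp_nrm hμ hK] at hJ
  rw [← hI] at hJ
  have hss : Real.sqrt (Real.pi / 2) * Real.sqrt (2 / Real.pi) = 1 := by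
    rw [← Real.sqrt_mul (by positivity)]
    have : Real.pi / 2 * (2 / Real.pi) = 1 := by field_simp
    rw [this, Real.sqrt_one]
  have hexp : s * Real.sqrt (2 / Real.pi) * I ≤ n := by
    calc s * Real.sqrt (2 / Real.pi) * I =
        ((n : ℝ) + 1) * (c * I) * (Real.sqrt (Real.pi / 2) * Real.sqrt (2 / Real.pi)) := by
          rw [hs]; ring
      _ = ((n : ℝ) + 1) * (c * I) := by rw [hss, mul_one]
      _ ≤ ((n : ℝ) + 1) * ((n : ℝ) / ((n : ℝ) + 1)) :=
          mul_le_mul_of_nonneg_left hI1 (by positivity)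
      _ = n := by field_simp
  have hJ2 : s ^ n * |Bᵀ.det| * (Real.sqrt (2 * Real.pi) ^ n * Real.exp (-(n : ℝ) / 2)) ≤
      n.factorial * V := by
    refine le_trans ?_ hJ
    refine mul_le_mul_of_nonneg_left ?_ (by positivity)
    refine mul_le_mul_of_nonneg_left ?_ (by positivity)
    exact Real.exp_le_exp.2 (by linarith)
  -- square
  have hL0 : 0 ≤ s ^ n * |Bᵀ.det| * (Real.sqrt (2 * Real.pi) ^ n * Real.exp (-(n : ℝ) / 2)) := by
    positivity
  have hsq := pow_le_pow_left₀ hL0 hJ2 2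
  have hleft : (s ^ n * |Bᵀ.det| * (Real.sqrt (2 * Real.pi) ^ n * Real.exp (-(n : ℝ) / 2))) ^ 2 =
      (covMatrix K).det * (Real.pi ^ 2 * (((n : ℝ) + 1) * ((n : ℝ) + 2)) / (2 * Real.exp 1)) ^ n := by
    have e1 : Real.exp (-(n : ℝ) / 2) ^ 2 = (Real.exp 1)⁻¹ ^ n := by
      rw [← Real.exp_neg, ← Real.exp_nat_mul, ← Real.exp_nat_mul]
      congr 1
      push_cast
      ring
    have e2 : s ^ 2 * (2 * Real.pi) * (Real.exp 1)⁻¹ =
        Real.pi ^ 2 * (((n : ℝ) + 1) * ((n : ℝ) + 2)) / (2 * Real.exp 1) := by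
      have e3 : s ^ 2 = ((n : ℝ) + 1) ^ 2 * c ^ 2 * (Real.pi / 2) := by
        rw [hs, mul_pow, mul_pow, Real.sq_sqrt (show (0 : ℝ) ≤ Real.pi / 2 by positivity)]
      rw [e3, hc2]
      have := (Real.exp_pos 1).ne'
      field_simp
    have e4 : (s ^ n) ^ 2 = (s ^ 2) ^ n := by rw [← pow_mul, ← pow_mul, mul_comm]
    have e5 : (Real.sqrt (2 * Real.pi) ^ n) ^ 2 = (2 * Real.pi) ^ n := by
      rw [← pow_mul, mul_comm n 2, pow_mul, Real.sq_sqrt (show (0 : ℝ) ≤ 2 * Real.pi by positivity)]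
    calc (s ^ n * |Bᵀ.det| * (Real.sqrt (2 * Real.pi) ^ n * Real.exp (-(n : ℝ) / 2))) ^ 2 =
        |Bᵀ.det| ^ 2 * ((s ^ n) ^ 2 * (Real.sqrt (2 * Real.pi) ^ n) ^ 2 *
          Real.exp (-(n : ℝ) / 2) ^ 2) := by ring
      _ = (covMatrix K).det * (s ^ 2 * (2 * Real.pi) * (Real.exp 1)⁻¹) ^ n := by
          rw [e1, e4, e5, ← hdet, mul_pow (s ^ 2 * (2 * Real.pi)), mul_pow (s ^ 2)]
      _ = _ := by rw [e2]
  rw [hleft] at hsq
  have hVpos : 0 < V ^ 2 := by
    have h1 : 0 < (covMatrix K).det *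
        (Real.pi ^ 2 * (((n : ℝ) + 1) * ((n : ℝ) + 2)) / (2 * Real.exp 1)) ^ n := by positivity
    have h2 := lt_of_lt_of_le h1 hsq
    rw [mul_pow] at h2
    by_contra h
    have : V ^ 2 = 0 := le_antisymm (not_lt.1 h) (sq_nonneg _)
    rw [this, mul_zero] at h2
    exact lt_irrefl _ h2
  rw [div_le_iff₀ hVpos]
  have h3 : (2 * Real.exp 1 / (Real.pi ^ 2 * (((n : ℝ) + 1) * ((n : ℝ) + 2)))) ^ n =
      ((Real.pi ^ 2 * (((n : ℝ) + 1) * ((n : ℝ) + 2)) / (2 * Real.exp 1)) ^ n)⁻¹ := by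
    rw [← inv_pow, inv_div]
  rw [h3]
  have h4 : 0 < (Real.pi ^ 2 * (((n : ℝ) + 1) * ((n : ℝ) + 2)) / (2 * Real.exp 1)) ^ n := by
    positivity
  rw [mul_assoc, mul_comm (((Real.pi ^ 2 * (((n : ℝ) + 1) * ((n : ℝ) + 2)) / (2 * Real.exp 1)) ^ n)⁻¹),
    ← mul_assoc, ← div_eq_mul_inv, le_div_iff₀ h4]
  calc _ ≤ _ := hsq
    _ = _ := by ring

end Vale.Agent.P254.L1
end
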