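import Mathlib
import Vale.Agent.P254.Bdl.B1
import Vale.Agent.P254.Bdl.B7
import Vale.Agent.P254.Bdl.B5

set_option linter.all false

section

/-! # P227, block LIM, part 1: compactness for uniformly locally Lipschitz sequences -/

open MeasureTheory Set Metric Filter Topology
open scoped ENNReal NNReal

namespace Vale.Agent.P227.M.Lim

/-- Arzela-Ascoli for pointwise convergence of uniformly locally Lipschitz sequences on a separable proper space -/
theorem exists_subseq {E X : Type*} [NormedAddCommGroup E] [NormedSpace ℝ E] [FiniteDimensional ℝ E]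
    [NormedAddCommGroup X] [NormedSpace ℝ X] [FiniteDimensional ℝ X] (F : ℕ → E → X) (B : ℝ)
    (hB : ∀ k, ‖F k 0‖ ≤ B) (L : ℝ → ℝ)
    (hL : ∀ R, ∀ k y y', ‖y‖ ≤ R → ‖y'‖ ≤ R → ‖F k y - F k y'‖ ≤ L R * ‖y - y'‖) :
    ∃ ψ : ℕ → ℕ, StrictMono ψ ∧ ∃ G : E → X, ∀ y, Tendsto (fun k => F (ψ k) y) atTop (𝓝 (G y)) := by
  have : ProperSpace X := FiniteDimensional.proper ℝ X
  have : ProperSpace E := FiniteDimensional.proper ℝ E
  -- pointwise bounds
  have hbd : ∀ y : E, ∀ k, F k y ∈ closedBall (0 : X) (B + |L ‖y‖| * ‖y‖) := by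
    intro y k
    rw [mem_closedBall_zero_iff]
    have h1 := hL ‖y‖ k y 0 le_rfl (by simp)
    rw [sub_zero] at h1
    have h2 : ‖F k y‖ ≤ ‖F k y - F k 0‖ + ‖F k 0‖ := by
      have := norm_add_le (F k y - F k 0) (F k 0)
      rwa [sub_add_cancel] at this
    have h3 : L ‖y‖ * ‖y‖ ≤ |L ‖y‖| * ‖y‖ := mul_le_mul_of_nonneg_right (le_abs_self _) (norm_nonneg _)
    have h4 := hB k
    linarith
  let d : ℕ → E := TopologicalSpace.denseSeq E
  have hK : IsCompact (Set.pi Set.univ (fun i : ℕ => closedBall (0 : X) (B + |L ‖d i‖| * ‖d i‖))) :=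
    isCompact_univ_pi fun i => isCompact_closedBall _ _
  obtain ⟨g, -, ψ, hψ, hg⟩ := hK.tendsto_subseq (x := fun k i => F k (d i)) (fun k i _ => hbd (d i) k)
  rw [tendsto_pi_nhds] at hg
  refine ⟨ψ, hψ, ?_⟩
  have hc : ∀ y, CauchySeq (fun k => F (ψ k) y) := by
    intro y
    rw [Metric.cauchySeq_iff']
    intro ε hε
    set R := ‖y‖ + 1 with hR
    set C := |L R| + 1 with hC
    have hCpos : 0 < C := by positivity
    -- a dense point near y
    have hδ : 0 < min 1 (ε / (4 * C)) := lt_min one_pos (by positivity)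
    obtain ⟨i, hi⟩ := (TopologicalSpace.denseRange_denseSeq E).exists_dist_lt y hδ
    have hi1 : ‖y - d i‖ < 1 := by rw [← dist_eq_norm]; exact hi.trans_le (min_le_left _ _)
    have hi2 : ‖y - d i‖ < ε / (4 * C) := by rw [← dist_eq_norm]; exact hi.trans_le (min_le_right _ _)
    have hyR : ‖y‖ ≤ R := by rw [hR]; linarith
    have hdR : ‖d i‖ ≤ R := by
      have : ‖d i‖ ≤ ‖y‖ + ‖y - d i‖ := by
        have := norm_sub_le y (y - d i)
        rwa [sub_sub_cancel] at this
      rw [hR]; linarith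
    have hcau := (hg i).cauchySeq
    rw [Metric.cauchySeq_iff'] at hcau
    obtain ⟨N, hN⟩ := hcau (ε / 4) (by positivity)
    refine ⟨N, fun k hk => ?_⟩
    have key : ∀ m, ‖F m y - F m (d i)‖ ≤ ε / 4 := by
      intro m
      have h1 := hL R m y (d i) hyR hdR
      have h2 : L R * ‖y - d i‖ ≤ C * (ε / (4 * C)) := by
        have h3 : L R ≤ C := by rw [hC]; linarith [le_abs_self (L R)]
        calc L R * ‖y - d i‖ ≤ C * ‖y - d i‖ := mul_le_mul_of_nonneg_right h3 (norm_nonneg _)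
          _ ≤ C * (ε / (4 * C)) := mul_le_mul_of_nonneg_left hi2.le hCpos.le
      have h4 : C * (ε / (4 * C)) = ε / 4 := by field_simp
      linarith
    have h5 := hN k hk
    simp only [Function.comp_def] at h5
    rw [dist_eq_norm] at h5 ⊢
    have h6 := key (ψ k)
    have h7 := key (ψ N)
    have h8 : F (ψ k) y - F (ψ N) y = (F (ψ k) y - F (ψ k) (d i)) + (F (ψ k) (d i) - F (ψ N) (d i)) - (F (ψ N) y - F (ψ N) (d i)) := by
      abel
    rw [h8]
    calc ‖(F (ψ k) y - F (ψ k) (d i)) + (F (ψ k) (d i) - F (ψ N) (d i)) - (F (ψ N) y - F (ψ N) (d i))‖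
        ≤ ‖(F (ψ k) y - F (ψ k) (d i)) + (F (ψ k) (d i) - F (ψ N) (d i))‖ + ‖F (ψ N) y - F (ψ N) (d i)‖ := norm_sub_le _ _
      _ ≤ ‖F (ψ k) y - F (ψ k) (d i)‖ + ‖F (ψ k) (d i) - F (ψ N) (d i)‖ + ‖F (ψ N) y - F (ψ N) (d i)‖ := by
          gcongr
          exact norm_add_le _ _
      _ < ε := by linarith
  choose G hG using fun y => cauchySeq_tendsto_of_complete (hc y)
  exact ⟨G, hG⟩

end Vale.Agent.P227.M.Lim
end

section

/-! # P227/M/LK: the level-`k` objects (helper750 10513, helper874 10615). -/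

open MeasureTheory

namespace Vale.Agent.P227.M.LK

variable {n : ℕ}

/-- `φ_c(y) = (1/k) log ∫ exp (k⟨x,y⟩ - k c(x)) dx` -/
noncomputable def phiK (k : ℝ) (c : E n → ℝ) (y : E n) : ℝ :=
  1 / k * logLap (fun x => k * c x) (k • y)

/-- `Q_c(x) = log ∫ exp (k⟨x,y⟩ - (k+1) φ_c(y)) dy` -/
noncomputable def QK (k : ℝ) (c : E n → ℝ) (x : E n) : ℝ :=
  logLap (fun y => (k + 1) * phiK k c y) (k • x)

/-- `T(c) = (V + Q_c)/k`, normalised to vanish at `0` -/
noncomputable def TK (k : ℝ) (V c : E n → ℝ) (x : E n) : ℝ :=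
  (V x + QK k c x) / k - (V 0 + QK k c 0) / k

/-- the invariant class of level `k` -/
structure ClassK (k c0 C0 m : ℝ) (c : E n → ℝ) : Prop where
  nice : Nice c (c0 * (k + 1) / k) (C0 * (k + 1) / k)
  sc : SelfConc m c
  zero : c 0 = 0

end Vale.Agent.P227.M.LK
end

section

/-! # Invariance of the level-`k` class under `T` (helper874 10615 (2)). -/

open MeasureTheory
open scoped ContDiff

namespace Vale.Agent.P227.M.LK

variable {n : ℕ}

/-! ### Sums and constants -/

theorem iteratedFDeriv_add' {V W : E n → ℝ} (hV : ContDiff ℝ (⊤ : ℕ∞) V) (hW : ContDiff ℝ (⊤ : ℕ∞) W)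
    (i : ℕ) (x : E n) :
    iteratedFDeriv ℝ i (fun y => V y + W y) x = iteratedFDeriv ℝ i V x + iteratedFDeriv ℝ i W x := by
  have hi : (i : WithTop ℕ∞) ≤ (⊤ : ℕ∞) := by exact_mod_cast le_top
  exact iteratedFDeriv_add_apply (hV.of_le hi).contDiffAt (hW.of_le hi).contDiffAt

theorem qf_add {V W : E n → ℝ} (hV : ContDiff ℝ (⊤ : ℕ∞) V) (hW : ContDiff ℝ (⊤ : ℕ∞) W) (x v : E n) :
    qf (hess (fun y => V y + W y) x) v = qf (hess V x) v + qf (hess W x) v := by
  have h1 : ContDiff ℝ (⊤ : ℕ∞) (fun y => V y + W y) := hV.add hW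
  rw [← iteratedDeriv_two_line h1, ← iteratedDeriv_two_line hV, ← iteratedDeriv_two_line hW,
    iteratedDeriv_line_zero h1, iteratedDeriv_line_zero hV, iteratedDeriv_line_zero hW,
    iteratedFDeriv_add' hV hW]
  rfl

theorem Reg.add {V W : E n → ℝ} {c C c' C' : ℝ} (hV : Reg V c C) (hW : Reg W c' C') :
    Reg (fun y => V y + W y) (c + c') (C + C') where
  c_pos := add_pos hV.c_pos hW.c_pos
  smooth := hV.smooth.add hW.smooth
  lower x v := by
    rw [qf_add hV.smooth hW.smooth, add_mul]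
    exact add_le_add (hV.lower x v) (hW.lower x v)
  upper x v := by
    rw [qf_add hV.smooth hW.smooth, add_mul]
    exact add_le_add (hV.upper x v) (hW.upper x v)
  bdd k hk := by
    obtain ⟨B, hB⟩ := hV.bdd k hk
    obtain ⟨B', hB'⟩ := hW.bdd k hk
    refine ⟨B + B', fun x => ?_⟩
    rw [iteratedFDeriv_add' hV.smooth hW.smooth]
    exact (norm_add_le _ _).trans (add_le_add (hB x) (hB' x))

theorem iteratedFDeriv_sub_const' {V : E n → ℝ} (hV : ContDiff ℝ (⊤ : ℕ∞) V) (r : ℝ) {i : ℕ} (hi0 : i ≠ 0)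
    (x : E n) : iteratedFDeriv ℝ i (fun y => V y - r) x = iteratedFDeriv ℝ i V x := by
  have h1 : (fun y => V y - r) = fun y => V y + (fun _ => -r) y := by funext y; ring
  rw [h1, iteratedFDeriv_add' hV contDiff_const, iteratedFDeriv_const_of_ne hi0]
  simp

theorem qf_sub_const {V : E n → ℝ} (hV : ContDiff ℝ (⊤ : ℕ∞) V) (r : ℝ) (x v : E n) :
    qf (hess (fun y => V y - r) x) v = qf (hess V x) v := by
  have h1 : ContDiff ℝ (⊤ : ℕ∞) (fun y => V y - r) := hV.sub contDiff_const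
  rw [← iteratedDeriv_two_line h1, ← iteratedDeriv_two_line hV,
    iteratedDeriv_line_zero h1, iteratedDeriv_line_zero hV, iteratedFDeriv_sub_const' hV r (by norm_num)]

theorem Reg.sub_const {V : E n → ℝ} {c C : ℝ} (hV : Reg V c C) (r : ℝ) :
    Reg (fun y => V y - r) c C where
  c_pos := hV.c_pos
  smooth := hV.smooth.sub contDiff_const
  lower x v := by rw [qf_sub_const hV.smooth]; exact hV.lower x v
  upper x v := by rw [qf_sub_const hV.smooth]; exact hV.upper x v
  bdd k hk := by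
    obtain ⟨B, hB⟩ := hV.bdd k hk
    refine ⟨B, fun x => ?_⟩
    rw [iteratedFDeriv_sub_const' hV.smooth r (by omega)]
    exact hB x

theorem SelfConc.sub_const {V : E n → ℝ} {c C κ : ℝ} (hV : Reg V c C) (h : SelfConc κ V) (r : ℝ) :
    SelfConc κ (fun y => V y - r) := by
  have hR := Reg.sub_const hV r
  rw [selfConc_iff hR.smooth (qf_nonneg_of_reg hR)]
  rw [selfConc_iff hV.smooth (qf_nonneg_of_reg hV)] at h
  intro x v
  rw [qf_sub_const hV.smooth, iteratedFDeriv_sub_const' hV.smooth r (by norm_num)]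
  exact h x v

theorem Reg.congr_const {V : E n → ℝ} {c C c' C' : ℝ} (hV : Reg V c C) (h1 : c = c') (h2 : C = C') :
    Reg V c' C' := by subst h1; subst h2; exact hV

theorem SelfConc.mono {V : E n → ℝ} {c C κ κ' : ℝ} (hV : Reg V c C) (h : SelfConc κ V) (hκ : κ ≤ κ') :
    SelfConc κ' V := by
  rw [selfConc_iff hV.smooth (qf_nonneg_of_reg hV)] at h ⊢
  intro x v
  refine (h x v).trans ?_
  have : 0 ≤ √(qf (hess V x) v) ^ 3 := by positivity
  nlinarith

/-- regular potentials are self-concordant -/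
theorem Reg.exists_selfConc {V : E n → ℝ} {c C : ℝ} (hV : Reg V c C) : ∃ κ, 0 ≤ κ ∧ SelfConc κ V := by
  obtain ⟨B, hB⟩ := hV.bdd 3 (by norm_num)
  have hc := hV.c_pos
  have hs : 0 < √c := Real.sqrt_pos.2 hc
  refine ⟨|B| / (2 * √c ^ 3), by positivity, ?_⟩
  rw [selfConc_iff hV.smooth (qf_nonneg_of_reg hV)]
  intro x v
  have h1 : |iteratedFDeriv ℝ 3 V x (fun _ => v)| ≤ |B| * ‖v‖ ^ 3 := by
    have h := (iteratedFDeriv ℝ 3 V x).le_opNorm (fun _ => v)
    simp only [Finset.prod_const, Finset.card_univ, Fintype.card_fin, Real.norm_eq_abs] at h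
    exact h.trans (mul_le_mul_of_nonneg_right ((hB x).trans (le_abs_self B)) (by positivity))
  have h2 : √c * ‖v‖ ≤ √(qf (hess V x) v) := by
    rw [show √c * ‖v‖ = √(c * ‖v‖ ^ 2) by
      rw [Real.sqrt_mul hc.le, Real.sqrt_sq (norm_nonneg v)]]
    exact Real.sqrt_le_sqrt (hV.lower x v)
  have h3 : (√c * ‖v‖) ^ 3 ≤ √(qf (hess V x) v) ^ 3 := pow_le_pow_left₀ (by positivity) h2 3
  have h4 : 2 * (|B| / (2 * √c ^ 3)) * (√c * ‖v‖) ^ 3 = |B| * ‖v‖ ^ 3 := by
    field_simp
  calc _ ≤ |B| * ‖v‖ ^ 3 := h1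
    _ = 2 * (|B| / (2 * √c ^ 3)) * (√c * ‖v‖) ^ 3 := h4.symm
    _ ≤ _ := mul_le_mul_of_nonneg_left h3 (by positivity)

/-! ### The log-Laplace transform of an even function is even -/

theorem logLap_neg {W : E n → ℝ} (hW : ∀ x, W (-x) = W x) (y : E n) : logLap W (-y) = logLap W y := by
  unfold logLap
  congr 1
  rw [← integral_neg_eq_self (fun x => Real.exp (inner ℝ x (-y) - W x))]
  refine integral_congr_ae (Filter.Eventually.of_forall fun x => ?_)
  simp [hW]

/-! ### The main arithmetic inequality -/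

theorem sum_ineq {k m MV c0 C0 V2 Q2 V3 Q3 : ℝ} (hk : 0 < k) (hm : 0 ≤ m) (hMV : 0 ≤ MV) (hc0 : 0 < c0)
    (hC0 : 0 ≤ C0)
    (hmV : 2 / 3 * MV * √(C0 / c0) ≤ m) {N : ℝ} (hN : 0 ≤ N) (hV0 : 0 ≤ V2) (hVu : V2 ≤ C0 * N)
    (hQl : k * c0 * N ≤ Q2) (hV3 : |V3| ≤ 2 * MV * √V2 ^ 3) (hQ3 : |Q3| ≤ 2 * (m / √k) * √Q2 ^ 3) :
    |V3 + Q3| ≤ 2 * (m / √k) * √(V2 + Q2) ^ 3 := by
  have hQ0 : 0 ≤ Q2 := le_trans (by positivity) hQl
  set s := √V2 with hs
  set r := √Q2 with hr
  set p := √(V2 + Q2) with hp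
  have hs2 : s ^ 2 = V2 := Real.sq_sqrt hV0
  have hr2 : r ^ 2 = Q2 := Real.sq_sqrt hQ0
  have hp2 : p ^ 2 = V2 + Q2 := Real.sq_sqrt (by positivity)
  have hs0 : 0 ≤ s := Real.sqrt_nonneg _
  have hr0 : 0 ≤ r := Real.sqrt_nonneg _
  have hp0 : 0 ≤ p := Real.sqrt_nonneg _
  have hsk : 0 < √k := Real.sqrt_pos.2 hk
  -- `√k s ≤ √(C0/c0) r`
  have h1 : √k * s ≤ √(C0 / c0) * r := by
    rw [hs, hr, ← Real.sqrt_mul hk.le, ← Real.sqrt_mul (by positivity)]
    refine Real.sqrt_le_sqrt ?_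
    calc k * V2 ≤ k * (C0 * N) := mul_le_mul_of_nonneg_left hVu hk.le
      _ = C0 / c0 * (k * c0 * N) := by field_simp
      _ ≤ C0 / c0 * Q2 := mul_le_mul_of_nonneg_left hQl (by positivity)
  have h2 : MV * √k * s ≤ 3 / 2 * m * r := by
    calc MV * √k * s = MV * (√k * s) := by ring
      _ ≤ MV * (√(C0 / c0) * r) := mul_le_mul_of_nonneg_left h1 hMV
      _ = 3 / 2 * (2 / 3 * MV * √(C0 / c0)) * r := by ring
      _ ≤ 3 / 2 * m * r := by
        refine mul_le_mul_of_nonneg_right ?_ hr0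
        linarith
  -- `p³ ≥ r³ + (3/2) s² r`
  have h3 : r ^ 3 + 3 / 2 * s ^ 2 * r ≤ p ^ 3 := by
    refine abs_le_of_sq_le_sq' ?_ (by positivity) |>.2
    have : p ^ 2 = s ^ 2 + r ^ 2 := by rw [hp2, hs2, hr2]
    have e : (p ^ 3) ^ 2 = (s ^ 2 + r ^ 2) ^ 3 := by rw [← this]; ring
    rw [e]
    nlinarith [sq_nonneg (s ^ 3), sq_nonneg (s ^ 2 * r)]
  have h4 : MV * s ^ 3 ≤ m / √k * (3 / 2 * s ^ 2 * r) := by
    rw [div_mul_eq_mul_div, le_div_iff₀ hsk]
    nlinarith [mul_le_mul_of_nonneg_left h2 (sq_nonneg s)]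
  calc |V3 + Q3| ≤ |V3| + |Q3| := abs_add_le _ _
    _ ≤ 2 * MV * s ^ 3 + 2 * (m / √k) * r ^ 3 := add_le_add hV3 hQ3
    _ ≤ 2 * (m / √k) * (r ^ 3 + 3 / 2 * s ^ 2 * r) := by nlinarith
    _ ≤ 2 * (m / √k) * p ^ 3 := mul_le_mul_of_nonneg_left h3 (by positivity)

/-! ### Level-`k` objects -/

/-- the regularity theorem for the log-Laplace transform, as a hypothesis (helper801: `reg_logLap`) -/
def RegLL : Prop := ∀ (n : ℕ) (W : E n → ℝ) (c C : ℝ), Reg W c C → 0 < C → Reg (logLap W) (1 / C) (1 / c)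

theorem Nice.scale {W : E n → ℝ} {c C : ℝ} (h : Nice W c C) {α β : ℝ} (hα : 0 < α) (hβ : β ≠ 0) :
    Nice (fun y => α * W (β • y)) (α * β ^ 2 * c) (α * β ^ 2 * C) where
  toReg := Reg.scale h.toReg hα hβ
  even x := by rw [smul_neg, h.even]

theorem nice_logLap (hLL : RegLL) {W : E n → ℝ} {c C : ℝ} (h : Nice W c C) (hC : 0 < C) :
    Nice (logLap W) (1 / C) (1 / c) where
  toReg := hLL n W c C h.toReg hC
  even x := logLap_neg h.even x

theorem Nice.congr_const {V : E n → ℝ} {c C c' C' : ℝ} (hV : Nice V c C) (h1 : c = c') (h2 : C = C') :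
    Nice V c' C' := by subst h1; subst h2; exact hV

theorem Nice.mulK {c : E n → ℝ} {a b k : ℝ} (h : Nice c a b) (hk : 0 < k) :
    Nice (fun x => k * c x) (k * a) (k * b) := by
  have := Nice.scale h hk one_ne_zero
  simpa using this

theorem SelfConc.mulK {c : E n → ℝ} {a b k m : ℝ} (h : Reg c a b) (hs : SelfConc m c) (hk : 0 < k) :
    SelfConc (m / √k) (fun x => k * c x) := by
  have := SelfConc.scale h hs hk one_ne_zero
  simpa using this

section
variable {k c0 C0 m : ℝ} {c : E n → ℝ}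

theorem nice_phiK (hLL : RegLL) (hk : 0 < k) (hc0 : 0 < c0) (hC0 : 0 < C0)
    (hc : Nice c (c0 * (k + 1) / k) (C0 * (k + 1) / k)) :
    Nice (phiK k c) (k / ((k + 1) * C0)) (k / ((k + 1) * c0)) := by
  have h1 := Nice.mulK hc hk
  have h2 := nice_logLap hLL h1 (by positivity)
  have h3 := Nice.scale h2 (α := 1 / k) (β := k) (by positivity) hk.ne'
  refine Nice.congr_const h3 ?_ ?_ <;> field_simp

theorem sc_phiK (hSC : StmtSC) (hLL : RegLL) (hk : 0 < k) (hC0 : 0 < C0) (hm : 0 ≤ m)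
    (hmk : m ^ 2 ≤ k) (hc : Nice c (c0 * (k + 1) / k) (C0 * (k + 1) / k)) (hs : SelfConc m c) :
    SelfConc m (phiK k c) := by
  have hsk : 0 < √k := Real.sqrt_pos.2 hk
  have h1 := Nice.mulK hc hk
  have h1s := SelfConc.mulK hc.toReg hs hk
  have h2 := nice_logLap hLL h1 (by positivity)
  have hle : m / √k ≤ 1 := by
    rw [div_le_one hsk]
    exact Real.le_sqrt_of_sq_le hmk
  have h2s := hSC n _ _ _ _ h1.toReg (by positivity) hle h1s
  have h3 := SelfConc.scale h2.toReg h2s (α := 1 / k) (β := k) (by positivity) hk.ne'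
  have h4 : m / √k / √(1 / k) = m := by
    rw [Real.sqrt_div zero_le_one, Real.sqrt_one]
    field_simp
  rw [h4] at h3
  exact h3

theorem nice_QK (hLL : RegLL) (hk : 0 < k) (hc0 : 0 < c0) (hC0 : 0 < C0)
    (hc : Nice c (c0 * (k + 1) / k) (C0 * (k + 1) / k)) :
    Nice (QK k c) (k * c0) (k * C0) := by
  have h1 := nice_phiK hLL hk hc0 hC0 hc
  have h2 := Nice.mulK h1 (k := k + 1) (by positivity)
  have h3 := nice_logLap hLL h2 (by positivity)
  have h4 := Nice.scale h3 (α := 1) (β := k) (by positivity) hk.ne'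
  simp only [one_mul] at h4
  refine Nice.congr_const h4 ?_ ?_ <;> field_simp

theorem sc_QK (hSC : StmtSC) (hLL : RegLL) (hk : 0 < k) (hc0 : 0 < c0) (hC0 : 0 < C0) (hm : 0 ≤ m)
    (hmk : m ^ 2 ≤ k) (hc : Nice c (c0 * (k + 1) / k) (C0 * (k + 1) / k)) (hs : SelfConc m c) :
    SelfConc (m / √k) (QK k c) := by
  have hsk : 0 < √k := Real.sqrt_pos.2 hk
  have hsk1 : 0 < √(k + 1) := Real.sqrt_pos.2 (by positivity)
  have h1 := nice_phiK hLL hk hc0 hC0 hc
  have h1s := sc_phiK hSC hLL hk hC0 hm hmk hc hs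
  have h2 := Nice.mulK h1 (k := k + 1) (by positivity)
  have h2s := SelfConc.mulK h1.toReg h1s (k := k + 1) (by positivity)
  have h3 := nice_logLap hLL h2 (by positivity)
  have hle : m / √(k + 1) ≤ 1 := by
    rw [div_le_one hsk1]
    exact Real.le_sqrt_of_sq_le (by linarith)
  have h3s := hSC n _ _ _ _ h2.toReg (by positivity) hle h2s
  have h4 := Nice.scale h3 (α := 1) (β := k) (by positivity) hk.ne'
  have h4s := SelfConc.scale h3.toReg h3s (α := 1) (β := k) (by positivity) hk.ne'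
  simp only [one_mul, Real.sqrt_one, div_one] at h4 h4s
  refine SelfConc.mono h4.toReg h4s ?_
  exact div_le_div_of_nonneg_left hm hsk (Real.sqrt_le_sqrt (by linarith))

/-- `T` maps the level-`k` class into itself -/
theorem ClassK.TK_mem (hSC : StmtSC) (hLL : RegLL) {V : E n → ℝ} {MV : ℝ} (hV : Nice V c0 C0)
    (hC0 : 0 < C0) (hMV : 0 ≤ MV) (hVs : SelfConc MV V) (hm : 2 / 3 * MV * √(C0 / c0) ≤ m)
    (hk : 0 < k) (hmk : m ^ 2 ≤ k) (hc : ClassK k c0 C0 m c) : ClassK k c0 C0 m (TK k V c) := by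
  have hc0 : 0 < c0 := hV.c_pos
  have hm0 : 0 ≤ m := le_trans (by positivity) hm
  have hsk : 0 < √k := Real.sqrt_pos.2 hk
  have hQ := nice_QK hLL hk hc0 hC0 hc.nice
  have hQs := sc_QK hSC hLL hk hc0 hC0 hm0 hmk hc.nice hc.sc
  -- the sum
  have hS : Reg (fun x => V x + QK k c x) (c0 + k * c0) (C0 + k * C0) := Reg.add hV.toReg hQ.toReg
  have hSs : SelfConc (m / √k) (fun x => V x + QK k c x) := by
    rw [selfConc_iff hS.smooth (qf_nonneg_of_reg hS)]
    rw [selfConc_iff hV.smooth (qf_nonneg_of_reg hV.toReg)] at hVs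
    rw [selfConc_iff hQ.smooth (qf_nonneg_of_reg hQ.toReg)] at hQs
    intro x v
    rw [iteratedFDeriv_add' hV.smooth hQ.smooth, qf_add hV.smooth hQ.smooth]
    exact sum_ineq hk hm0 hMV hc0 hC0.le hm (N := ‖v‖ ^ 2) (by positivity)
      (qf_nonneg_of_reg hV.toReg x v) (hV.upper x v) (hQ.lower x v) (hVs x v) (hQs x v)
  -- divide by `k`
  have hD := Reg.scale hS (α := 1 / k) (β := 1) (by positivity) one_ne_zero
  have hDs := SelfConc.scale hS hSs (α := 1 / k) (β := 1) (by positivity) one_ne_zero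
  simp only [one_smul, one_pow, mul_one] at hD hDs
  have hTeq : TK k V c = fun x => 1 / k * (V x + QK k c x) - (V 0 + QK k c 0) / k := by
    funext x; unfold TK; ring
  have h4 : m / √k / √(1 / k) = m := by
    rw [Real.sqrt_div zero_le_one, Real.sqrt_one]
    field_simp
  rw [h4] at hDs
  refine ⟨⟨?_, ?_⟩, ?_, ?_⟩
  · rw [hTeq]
    refine Reg.congr_const (Reg.sub_const hD _) ?_ ?_ <;> field_simp <;> ring
  · intro x
    simp only [TK, hV.even x, hQ.even x]
  · rw [hTeq]
    exact SelfConc.sub_const hD hDs _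
  · simp [TK]

end

end Vale.Agent.P227.M.LK
end

section

/-! P254, block MC (centred, not even): `C^{2,1}` functions with pinched Hessian and `G 0 = 0`
(copy of P227/M/Lim/L2 without evenness) -/

open MeasureTheory Set Metric Filter Topology
open scoped ENNReal NNReal

namespace Vale.Agent.P254.MC

variable {E : Type*} [NormedAddCommGroup E] [InnerProductSpace ℝ E] [FiniteDimensional ℝ E]

namespace C21c

variable {a b M : ℝ} {φ : E → ℝ} {G : E → E} {H : E → E →L[ℝ] E}

theorem symm (h : C21c a b M φ G H) (y v w : E) : inner ℝ (H y v) w = inner ℝ (H y w) v := by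
  have h1 : ∀ z, HasFDerivAt φ (innerSL ℝ (G z)) z := fun z => (h.grad z).hasFDerivAt
  have h2 : HasFDerivAt (fun z => innerSL ℝ (G z)) ((innerSL ℝ : E →L[ℝ] E →L[ℝ] ℝ).comp (H y)) y :=
    (innerSL ℝ : E →L[ℝ] E →L[ℝ] ℝ).hasFDerivAt.comp y (h.hess y)
  have h3 := second_derivative_symmetric (𝕜 := ℝ) (f := φ) (fun z => h1 z) h2 v w
  simpa using h3

theorem norm_le (h : C21c a b M φ G H) (ha : 0 ≤ a) (hb : 0 ≤ b) (y : E) : ‖H y‖ ≤ b := by
  refine ContinuousLinearMap.opNorm_le_bound _ hb fun v => ?_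
  have hpos : ∀ w, 0 ≤ inner ℝ (H y w) w := fun w => le_trans (by positivity) (h.lower y w)
  -- Cauchy-Schwarz for the form
  have hcs : (inner ℝ (H y v) (H y v) : ℝ) ^ 2 ≤ inner ℝ (H y v) v * inner ℝ (H y (H y v)) (H y v) := by
    set w := H y v with hw
    have hq : ∀ t : ℝ, 0 ≤ inner ℝ (H y v) v + 2 * t * inner ℝ (H y v) w + t ^ 2 * inner ℝ (H y w) w := by
      intro t
      have h1 := hpos (v + t • w)
      have h2 : inner ℝ (H y (v + t • w)) (v + t • w) =
          inner ℝ (H y v) v + 2 * t * inner ℝ (H y v) w + t ^ 2 * inner ℝ (H y w) w := by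
        simp only [map_add, map_smul, inner_add_left, inner_add_right, real_inner_smul_left, real_inner_smul_right]
        rw [h.symm y w v]
        ring
      linarith
    have hd := discrim_le_zero (a := inner ℝ (H y w) w) (b := 2 * inner ℝ (H y v) w) (c := inner ℝ (H y v) v)
      (fun t => by have := hq t; nlinarith [this])
    unfold discrim at hd
    have : (inner ℝ (H y v) w : ℝ) = inner ℝ w w := by rw [hw]
    nlinarith
  have h1 : (inner ℝ (H y v) (H y v) : ℝ) = ‖H y v‖ ^ 2 := real_inner_self_eq_norm_sq _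
  have h2 := h.upper y v
  have h3 := h.upper y (H y v)
  rw [h1] at hcs
  have h4 : (‖H y v‖ ^ 2) ^ 2 ≤ (b * ‖v‖ ^ 2) * (b * ‖H y v‖ ^ 2) :=
    hcs.trans (mul_le_mul h2 h3 (hpos _) (by positivity))
  rcases eq_or_lt_of_le (norm_nonneg (H y v)) with h5 | h5
  · rw [← h5]; positivity
  · have h6 : ‖H y v‖ ^ 2 ≤ (b * ‖v‖) ^ 2 := by
      have h7 : 0 < ‖H y v‖ ^ 2 := by positivity
      have h8 : ‖H y v‖ ^ 2 * ‖H y v‖ ^ 2 ≤ (b * ‖v‖) ^ 2 * ‖H y v‖ ^ 2 := by nlinarith
      exact le_of_mul_le_mul_right h8 h7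
    exact (pow_le_pow_iff_left₀ (norm_nonneg _) (by positivity) two_ne_zero).1 h6

theorem G_lip (h : C21c a b M φ G H) (ha : 0 ≤ a) (hb : 0 ≤ b) (y y' : E) : ‖G y - G y'‖ ≤ b * ‖y - y'‖ :=
  Convex.norm_image_sub_le_of_norm_hasFDerivWithin_le (s := Set.univ) (f := G) (f' := H)
    (fun z _ => (h.hess z).hasFDerivWithinAt) (fun z _ => h.norm_le ha hb z) convex_univ (mem_univ _) (mem_univ _)

theorem G_zero (h : C21c a b M φ G H) : G 0 = 0 := h.zero

theorem G_norm_le (h : C21c a b M φ G H) (ha : 0 ≤ a) (hb : 0 ≤ b) (y : E) : ‖G y‖ ≤ b * ‖y‖ := by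
  have := h.G_lip ha hb y 0
  rwa [h.G_zero, sub_zero, sub_zero] at this

theorem mono (h : C21c a b M φ G H) (y v : E) : a * ‖v‖ ^ 2 ≤ inner ℝ (G (y + v) - G y) v := by
  have hd : ∀ t ∈ Set.Icc (0 : ℝ) 1, HasDerivAt (fun t : ℝ => (inner ℝ (G (y + t • v)) v : ℝ)) (inner ℝ (H (y + t • v) v) v) t := by
    intro t _
    have h1 : HasDerivAt (fun t : ℝ => y + t • v) v t := by
      simpa using ((hasDerivAt_id t).smul_const v).const_add y
    have h2 : HasDerivAt (fun t : ℝ => G (y + t • v)) (H (y + t • v) v) t := (h.hess (y + t • v)).comp_hasDerivAt t h1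
    simpa using h2.inner ℝ (hasDerivAt_const t v)
  obtain ⟨c, -, hc2⟩ := exists_hasDerivAt_eq_slope (fun t : ℝ => (inner ℝ (G (y + t • v)) v : ℝ))
    (fun t => inner ℝ (H (y + t • v) v) v) (zero_lt_one) (fun t ht => (hd t ht).continuousAt.continuousWithinAt)
    (fun t ht => hd t (Ioo_subset_Icc_self ht))
  have h3 := h.lower (y + c • v) v
  rw [hc2] at h3
  simp only [one_smul, zero_smul, add_zero, sub_zero, div_one] at h3
  rw [inner_sub_left]
  exact h3

theorem mono_upper (h : C21c a b M φ G H) (y v : E) : inner ℝ (G (y + v) - G y) v ≤ b * ‖v‖ ^ 2 := by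
  have hd : ∀ t ∈ Set.Icc (0 : ℝ) 1, HasDerivAt (fun t : ℝ => (inner ℝ (G (y + t • v)) v : ℝ)) (inner ℝ (H (y + t • v) v) v) t := by
    intro t _
    have h1 : HasDerivAt (fun t : ℝ => y + t • v) v t := by
      simpa using ((hasDerivAt_id t).smul_const v).const_add y
    have h2 : HasDerivAt (fun t : ℝ => G (y + t • v)) (H (y + t • v) v) t := (h.hess (y + t • v)).comp_hasDerivAt t h1
    simpa using h2.inner ℝ (hasDerivAt_const t v)
  obtain ⟨c, -, hc2⟩ := exists_hasDerivAt_eq_slope (fun t : ℝ => (inner ℝ (G (y + t • v)) v : ℝ))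
    (fun t => inner ℝ (H (y + t • v) v) v) (zero_lt_one) (fun t ht => (hd t ht).continuousAt.continuousWithinAt)
    (fun t ht => hd t (Ioo_subset_Icc_self ht))
  have h3 := h.upper (y + c • v) v
  rw [hc2] at h3
  simp only [one_smul, zero_smul, add_zero, sub_zero, div_one] at h3
  rw [inner_sub_left]
  exact h3

theorem phi_mvt (h : C21c a b M φ G H) (y v : E) : ∃ c ∈ Set.Ioo (0 : ℝ) 1, φ (y + v) - φ y = inner ℝ (G (y + c • v)) v := by
  have hd : ∀ t ∈ Set.Icc (0 : ℝ) 1, HasDerivAt (fun t : ℝ => φ (y + t • v)) (inner ℝ (G (y + t • v)) v) t := by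
    intro t _
    have h1 : HasDerivAt (fun t : ℝ => y + t • v) v t := by
      simpa using ((hasDerivAt_id t).smul_const v).const_add y
    have h2 := (h.grad (y + t • v)).hasFDerivAt.comp_hasDerivAt t h1
    simpa [Function.comp_def] using h2
  obtain ⟨c, hc1, hc2⟩ := exists_hasDerivAt_eq_slope (fun t : ℝ => φ (y + t • v))
    (fun t => inner ℝ (G (y + t • v)) v) (zero_lt_one) (fun t ht => (hd t ht).continuousAt.continuousWithinAt)
    (fun t ht => hd t (Ioo_subset_Icc_self ht))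
  refine ⟨c, hc1, ?_⟩
  rw [hc2]
  simp

theorem phi_lower (h : C21c a b M φ G H) (ha : 0 ≤ a) (y : E) : φ 0 + a / 2 * ‖y‖ ^ 2 ≤ φ y := by
  have hd : ∀ t ∈ Set.Icc (0 : ℝ) 1, HasDerivAt (fun t : ℝ => φ (t • y) - a / 2 * ‖y‖ ^ 2 * t ^ 2)
      (inner ℝ (G (t • y)) y - a * ‖y‖ ^ 2 * t) t := by
    intro t _
    have h1 : HasDerivAt (fun t : ℝ => t • y) y t := by
      simpa using ((hasDerivAt_id t).smul_const y)
    have h2 := (h.grad (t • y)).hasFDerivAt.comp_hasDerivAt t h1
    have h3 : HasDerivAt (fun t : ℝ => a / 2 * ‖y‖ ^ 2 * t ^ 2) (a * ‖y‖ ^ 2 * t) t := by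
      refine ((hasDerivAt_pow 2 t).const_mul (a / 2 * ‖y‖ ^ 2)).congr_deriv ?_
      norm_num
      ring
    have h4 : HasDerivAt (fun t : ℝ => φ (t • y)) (inner ℝ (G (t • y)) y) t := by simpa [Function.comp_def] using h2
    exact h4.sub h3
  obtain ⟨c, hc1, hc2⟩ := exists_hasDerivAt_eq_slope (fun t : ℝ => φ (t • y) - a / 2 * ‖y‖ ^ 2 * t ^ 2)
    (fun t => inner ℝ (G (t • y)) y - a * ‖y‖ ^ 2 * t) (zero_lt_one) (fun t ht => (hd t ht).continuousAt.continuousWithinAt)
    (fun t ht => hd t (Ioo_subset_Icc_self ht))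
  have h3 := h.mono 0 (c • y)
  rw [h.G_zero, zero_add, sub_zero, norm_smul, real_inner_smul_right, mul_pow, Real.norm_eq_abs, sq_abs] at h3
  have h4 : a * ‖y‖ ^ 2 * c ≤ inner ℝ (G (c • y)) y := by
    have hc : 0 < c := hc1.1
    have : c * (a * ‖y‖ ^ 2 * c) ≤ c * inner ℝ (G (c • y)) y := by nlinarith
    exact le_of_mul_le_mul_left this hc
  simp only [one_smul, zero_smul, one_pow, mul_one] at hc2
  have : (0 : ℝ) ≤ φ y - a / 2 * ‖y‖ ^ 2 - (φ 0 - a / 2 * ‖y‖ ^ 2 * 0 ^ 2) := by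
    have h5 : (0 : ℝ) ≤ inner ℝ (G (c • y)) y - a * ‖y‖ ^ 2 * c := by linarith
    rw [hc2] at h5
    simpa using h5
  simp at this
  linarith

theorem phi_upper (h : C21c a b M φ G H) (hb : 0 ≤ b) (y : E) : φ y ≤ φ 0 + b * ‖y‖ ^ 2 := by
  obtain ⟨c, hc1, hc2⟩ := h.phi_mvt 0 y
  have h3 := h.mono_upper 0 (c • y)
  rw [h.G_zero, zero_add, sub_zero, norm_smul, real_inner_smul_right, mul_pow, Real.norm_eq_abs, sq_abs] at h3
  rw [zero_add, zero_add] at hc2
  have hc : 0 < c := hc1.1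
  have h4 : inner ℝ (G (c • y)) y ≤ b * ‖y‖ ^ 2 * c := by
    have : c * inner ℝ (G (c • y)) y ≤ c * (b * ‖y‖ ^ 2 * c) := by nlinarith
    exact le_of_mul_le_mul_left this hc
  have h5 : b * ‖y‖ ^ 2 * c ≤ b * ‖y‖ ^ 2 := by
    have : 0 ≤ b * ‖y‖ ^ 2 := by positivity
    nlinarith [hc1.2]
  linarith

/-- quantitative first order Taylor for the gradient -/
theorem G_taylor (h : C21c a b M φ G H) (y v : E) : ‖G (y + v) - G y - H y v‖ ≤ M * ‖v‖ * ‖v‖ := by
  have h1 := Convex.norm_image_sub_le_of_norm_hasFDerivWithin_le (s := segment ℝ y (y + v)) (f := fun z => G z - H y z)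
    (f' := fun z => H z - H y) (C := M * ‖v‖) (x := y) (y := y + v)
    (fun z _ => ((h.hess z).sub (H y).hasFDerivAt).hasFDerivWithinAt)
    (fun z hz => (h.lip z y).trans ?_) (convex_segment _ _) (left_mem_segment _ _ _) (right_mem_segment _ _ _)
  · have h2 : G (y + v) - H y (y + v) - (G y - H y y) = G (y + v) - G y - H y v := by
      rw [map_add]; abel
    rw [h2, add_sub_cancel_left] at h1
    exact h1
  · have h0 : 0 ≤ M * ‖v‖ := by
      have := h.lip (y + v) y
      rw [add_sub_cancel_left] at this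
      exact (norm_nonneg _).trans this
    rw [segment_eq_image'] at hz
    obtain ⟨t, ht, rfl⟩ := hz
    simp only [add_sub_cancel_left]
    rw [norm_smul, Real.norm_eq_abs, abs_of_nonneg ht.1]
    nlinarith [ht.2]

theorem phi_taylor (h : C21c a b M φ G H) (ha : 0 ≤ a) (hb : 0 ≤ b) (y v : E) : |φ (y + v) - φ y - inner ℝ (G y) v| ≤ b * ‖v‖ * ‖v‖ := by
  obtain ⟨c, hc1, hc2⟩ := h.phi_mvt y v
  rw [hc2, ← inner_sub_left]
  refine (abs_real_inner_le_norm _ _).trans (mul_le_mul_of_nonneg_right ?_ (norm_nonneg _))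
  refine (h.G_lip ha hb _ _).trans (mul_le_mul_of_nonneg_left ?_ hb)
  rw [add_sub_cancel_left, norm_smul, Real.norm_eq_abs, abs_of_pos hc1.1]
  nlinarith [norm_nonneg v, hc1.2]

theorem injective (h : C21c a b M φ G H) (ha : 0 < a) : Function.Injective G := by
  intro y y' hyy
  have h1 := h.mono y' (y - y')
  rw [add_sub_cancel, hyy, sub_self, inner_zero_left] at h1
  have h2 : ‖y - y'‖ ^ 2 ≤ 0 := by
    by_contra hcon
    push Not at hcon
    nlinarith
  have h3 : ‖y - y'‖ = 0 := by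
    have := le_antisymm h2 (sq_nonneg _)
    exact pow_eq_zero_iff two_ne_zero |>.1 this
  exact sub_eq_zero.1 (norm_eq_zero.1 h3)

theorem continuous_phi (h : C21c a b M φ G H) : Continuous φ :=
  continuous_iff_continuousAt.2 fun y => (h.grad y).hasFDerivAt.continuousAt

theorem continuous_G (h : C21c a b M φ G H) : Continuous G :=
  continuous_iff_continuousAt.2 fun y => (h.hess y).continuousAt

theorem continuous_H (h : C21c a b M φ G H) : Continuous H := by
  rw [Metric.continuous_iff]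
  intro y ε hε
  refine ⟨ε / (|M| + 1), by positivity, fun z hz => ?_⟩
  rw [dist_eq_norm] at hz ⊢
  have h1 := h.lip z y
  have h2 : M * ‖z - y‖ ≤ (|M| + 1) * ‖z - y‖ := mul_le_mul_of_nonneg_right (by linarith [le_abs_self M]) (norm_nonneg _)
  have h3 : (|M| + 1) * ‖z - y‖ < (|M| + 1) * (ε / (|M| + 1)) := mul_lt_mul_of_pos_left hz (by positivity)
  have h4 : (|M| + 1) * (ε / (|M| + 1)) = ε := by field_simp
  linarith

theorem surjective (h : C21c a b M φ G H) (ha : 0 < a) : Function.Surjective G := by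
  intro x
  have : ProperSpace E := FiniteDimensional.proper ℝ E
  have hcont : Continuous (fun y => φ y - inner ℝ x y) := h.continuous_phi.sub (by fun_prop)
  have hlim : Tendsto (fun y => φ y - inner ℝ x y) (cocompact E) atTop := by
    have h1 : ∀ y : E, φ 0 - ‖x‖ ^ 2 / a + a / 4 * ‖y‖ ^ 2 ≤ φ y - inner ℝ x y := by
      intro y
      have h2 := h.phi_lower ha.le y
      have h3 := real_inner_le_norm x y
      have h4 : ‖x‖ * ‖y‖ ≤ ‖x‖ ^ 2 / a + a / 4 * ‖y‖ ^ 2 := by
        have : 0 ≤ (‖x‖ - a / 2 * ‖y‖) ^ 2 / a := by positivity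
        have h5 : (‖x‖ - a / 2 * ‖y‖) ^ 2 / a = ‖x‖ ^ 2 / a - ‖x‖ * ‖y‖ + a / 4 * ‖y‖ ^ 2 := by
          field_simp
          ring
        linarith
      linarith
    refine tendsto_atTop_mono h1 ?_
    have h6 : Tendsto (fun y : E => ‖y‖) (cocompact E) atTop := tendsto_norm_cocompact_atTop
    have h7 : Tendsto (fun y : E => a / 4 * ‖y‖ ^ 2) (cocompact E) atTop :=
      ((tendsto_pow_atTop two_ne_zero).comp h6).const_mul_atTop (by positivity)
    exact tendsto_atTop_add_const_left _ _ h7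
  obtain ⟨y, hy⟩ := hcont.exists_forall_le hlim
  refine ⟨y, ?_⟩
  have hmin : IsLocalMin (fun y => φ y - inner ℝ x y) y := Filter.Eventually.of_forall hy
  have hder : HasFDerivAt (fun y => φ y - inner ℝ x y) (innerSL ℝ (G y) - innerSL ℝ x) y :=
    (h.grad y).hasFDerivAt.sub (innerSL ℝ x).hasFDerivAt
  have h0 := hmin.hasFDerivAt_eq_zero hder
  refine ext_inner_right ℝ fun v => ?_
  have := DFunLike.congr_fun h0 v
  simp at this
  linarith

end C21c

end Vale.Agent.P254.MC
end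

section

open Vale.Agent.P227.M.Lim (exists_subseq)

/-! P254, block MC: compactness of the class `C21c` -/

open MeasureTheory Set Metric Filter Topology
open scoped ENNReal NNReal

namespace Vale.Agent.P254.MC

variable {E : Type*} [NormedAddCommGroup E] [InnerProductSpace ℝ E] [FiniteDimensional ℝ E]

theorem M_nonneg_of {a b M : ℝ} {φ : E → ℝ} {G : E → E} {H : E → E →L[ℝ] E} (h : C21c a b M φ G H) (y v : E) :
    0 ≤ M * ‖v‖ := by
  have := h.lip (y + v) y
  rw [add_sub_cancel_left] at this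
  exact (norm_nonneg _).trans this

/-- closedness of the class under pointwise convergence -/
theorem C21c.of_tendsto {a b M : ℝ} (ha : 0 ≤ a) (hb : 0 ≤ b) {φ : ℕ → E → ℝ} {G : ℕ → E → E} {H : ℕ → E → E →L[ℝ] E}
    (h : ∀ k, C21c a b M (φ k) (G k) (H k)) {φ' : E → ℝ} {G' : E → E} {H' : E → E →L[ℝ] E}
    (hφ : ∀ y, Tendsto (fun k => φ k y) atTop (𝓝 (φ' y))) (hG : ∀ y, Tendsto (fun k => G k y) atTop (𝓝 (G' y)))
    (hH : ∀ y, Tendsto (fun k => H k y) atTop (𝓝 (H' y))) : C21c a b M φ' G' H' := by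
  have hM : ∀ v : E, 0 ≤ M * ‖v‖ := fun v => M_nonneg_of (h 0) 0 v
  have hT1 : ∀ y v, ‖G' (y + v) - G' y - H' y v‖ ≤ M * ‖v‖ * ‖v‖ := by
    intro y v
    have h1 : Tendsto (fun k => ‖G k (y + v) - G k y - H k y v‖) atTop (𝓝 ‖G' (y + v) - G' y - H' y v‖) := by
      refine (((hG _).sub (hG _)).sub ?_).norm
      exact ((ContinuousLinearMap.apply ℝ E v).continuous.tendsto _).comp (hH y)
    exact le_of_tendsto' h1 fun k => (h k).G_taylor y v
  have hT2 : ∀ y v, |φ' (y + v) - φ' y - inner ℝ (G' y) v| ≤ b * ‖v‖ * ‖v‖ := by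
    intro y v
    have h1 : Tendsto (fun k => |φ k (y + v) - φ k y - inner ℝ (G k y) v|) atTop
        (𝓝 |φ' (y + v) - φ' y - inner ℝ (G' y) v|) :=
      (((hφ _).sub (hφ _)).sub ((hG y).inner tendsto_const_nhds)).abs
    exact le_of_tendsto' h1 fun k => (h k).phi_taylor ha hb y v
  refine ⟨fun y => ?_, fun y => ?_, fun y v => ?_, fun y v => ?_, fun y y' => ?_, ?_⟩
  · rw [hasGradientAt_iff_hasFDerivAt]
    rw [hasFDerivAt_iff_isLittleO_nhds_zero]
    refine Asymptotics.IsBigO.trans_isLittleO (g := fun v : E => ‖v‖ * ‖v‖) (Asymptotics.IsBigO.of_bound b (Eventually.of_forall fun v => ?_)) ?_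
    · have := hT2 y v
      rw [Real.norm_eq_abs, norm_mul, norm_norm]
      simpa [mul_assoc] using this
    · have h1 : (fun v : E => ‖v‖ * ‖v‖) =o[𝓝 0] fun v : E => ‖v‖ := by
        have h2 : (fun v : E => ‖v‖) =o[𝓝 0] fun _ : E => (1 : ℝ) := by
          rw [Asymptotics.isLittleO_one_iff]
          simpa using (continuous_norm.tendsto (0 : E))
        simpa using h2.mul_isBigO (Asymptotics.isBigO_refl (fun v : E => ‖v‖) (𝓝 0))
      exact h1.of_norm_right
  · rw [hasFDerivAt_iff_isLittleO_nhds_zero]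
    refine Asymptotics.IsBigO.trans_isLittleO (g := fun v : E => ‖v‖ * ‖v‖) (Asymptotics.IsBigO.of_bound M (Eventually.of_forall fun v => ?_)) ?_
    · have := hT1 y v
      rw [norm_mul, norm_norm]
      simpa [mul_assoc] using this
    · have h1 : (fun v : E => ‖v‖ * ‖v‖) =o[𝓝 0] fun v : E => ‖v‖ := by
        have h2 : (fun v : E => ‖v‖) =o[𝓝 0] fun _ : E => (1 : ℝ) := by
          rw [Asymptotics.isLittleO_one_iff]
          simpa using (continuous_norm.tendsto (0 : E))
        simpa using h2.mul_isBigO (Asymptotics.isBigO_refl (fun v : E => ‖v‖) (𝓝 0))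
      exact h1.of_norm_right
  · have h1 : Tendsto (fun k => (inner ℝ (H k y v) v : ℝ)) atTop (𝓝 (inner ℝ (H' y v) v)) :=
      Tendsto.inner (((ContinuousLinearMap.apply ℝ E v).continuous.tendsto _).comp (hH y)) tendsto_const_nhds
    exact ge_of_tendsto' h1 fun k => (h k).lower y v
  · have h1 : Tendsto (fun k => (inner ℝ (H k y v) v : ℝ)) atTop (𝓝 (inner ℝ (H' y v) v)) :=
      Tendsto.inner (((ContinuousLinearMap.apply ℝ E v).continuous.tendsto _).comp (hH y)) tendsto_const_nhds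
    exact le_of_tendsto' h1 fun k => (h k).upper y v
  · exact le_of_tendsto' ((hH y).sub (hH y')).norm fun k => (h k).lip y y'
  · exact tendsto_nhds_unique (hG 0) (by simpa only [(h _).zero] using tendsto_const_nhds)

/-- sequential compactness of the class -/
theorem exists_limit {a b M B : ℝ} (ha : 0 ≤ a) (hb : 0 ≤ b) {φ : ℕ → E → ℝ} {G : ℕ → E → E} {H : ℕ → E → E →L[ℝ] E}
    (h : ∀ k, C21c a b M (φ k) (G k) (H k)) (hB : ∀ k, |φ k 0| ≤ B) :
    ∃ ψ : ℕ → ℕ, StrictMono ψ ∧ ∃ (φ' : E → ℝ) (G' : E → E) (H' : E → E →L[ℝ] E), C21c a b M φ' G' H' ∧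
      (∀ y, Tendsto (fun k => φ (ψ k) y) atTop (𝓝 (φ' y))) ∧ (∀ y, Tendsto (fun k => G (ψ k) y) atTop (𝓝 (G' y))) ∧
      (∀ y, Tendsto (fun k => H (ψ k) y) atTop (𝓝 (H' y))) := by
  let F : ℕ → E → (E →L[ℝ] E) × E × ℝ := fun k y => (H k y, G k y, φ k y)
  obtain ⟨ψ, hψ, F', hF'⟩ := exists_subseq F (max b (max 0 B))
    (fun k => by
      simp only [F, Prod.norm_mk, (h k).G_zero, norm_zero]
      refine max_le_max ((h k).norm_le ha hb 0) (max_le_max le_rfl ?_)
      rw [Real.norm_eq_abs]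
      exact hB k)
    (fun R => max |M| (max b (b * R)))
    (fun R k y y' hy hy' => by
      have hN := norm_nonneg (y - y')
      have h1 : ‖H k y - H k y'‖ ≤ |M| * ‖y - y'‖ :=
        ((h k).lip y y').trans (mul_le_mul_of_nonneg_right (le_abs_self M) hN)
      have h2 : ‖G k y - G k y'‖ ≤ b * ‖y - y'‖ := (h k).G_lip ha hb y y'
      have h3 : ‖φ k y - φ k y'‖ ≤ (b * R) * ‖y - y'‖ := by
        obtain ⟨c, hc1, hc2⟩ := (h k).phi_mvt y' (y - y')
        rw [add_sub_cancel] at hc2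
        rw [hc2, Real.norm_eq_abs]
        refine (abs_real_inner_le_norm _ _).trans (mul_le_mul_of_nonneg_right ?_ hN)
        refine ((h k).G_norm_le ha hb _).trans (mul_le_mul_of_nonneg_left ?_ hb)
        have h4 : y' + c • (y - y') = (1 - c) • y' + c • y := by
          rw [smul_sub, sub_smul, one_smul]; abel
        rw [h4]
        calc ‖(1 - c) • y' + c • y‖ ≤ ‖(1 - c) • y'‖ + ‖c • y‖ := norm_add_le _ _
          _ = (1 - c) * ‖y'‖ + c * ‖y‖ := by
              rw [norm_smul, norm_smul, Real.norm_eq_abs, Real.norm_eq_abs, abs_of_pos hc1.1, abs_of_pos (by linarith [hc1.2])]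
          _ ≤ (1 - c) * R + c * R := by
              have := hc1.1
              have := hc1.2
              gcongr
          _ = R := by ring
      simp only [F, Prod.norm_def, Prod.fst_sub, Prod.snd_sub]
      refine max_le (h1.trans ?_) (max_le (h2.trans ?_) (h3.trans ?_))
      · exact mul_le_mul_of_nonneg_right (le_max_left _ _) hN
      · exact mul_le_mul_of_nonneg_right ((le_max_left _ _).trans (le_max_right _ _)) hN
      · exact mul_le_mul_of_nonneg_right ((le_max_right _ _).trans (le_max_right _ _)) hN)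
  have h1 : ∀ y, Tendsto (fun k => H (ψ k) y) atTop (𝓝 (F' y).1) := fun y => (continuous_fst.tendsto _).comp (hF' y)
  have h2 : ∀ y, Tendsto (fun k => G (ψ k) y) atTop (𝓝 (F' y).2.1) := fun y =>
    ((continuous_fst.comp continuous_snd).tendsto _).comp (hF' y)
  have h3 : ∀ y, Tendsto (fun k => φ (ψ k) y) atTop (𝓝 (F' y).2.2) := fun y =>
    ((continuous_snd.comp continuous_snd).tendsto _).comp (hF' y)
  exact ⟨ψ, hψ, fun y => (F' y).2.2, fun y => (F' y).2.1, fun y => (F' y).1,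
    C21c.of_tendsto ha hb (fun k => h (ψ k)) h3 h2 h1, h3, h2, h1⟩

end Vale.Agent.P254.MC
end

section

/-! P254, block MC: passage to the limit in the push forward identity, Monge-Ampere -/

open MeasureTheory Set Metric Filter Topology
open scoped ENNReal NNReal

namespace Vale.Agent.P254.MC

variable {E : Type*} [NormedAddCommGroup E] [InnerProductSpace ℝ E] [FiniteDimensional ℝ E]

theorem integrable_gauss [MeasurableSpace E] [BorelSpace E] {a : ℝ} (ha : 0 < a) :
    Integrable (fun y : E => Real.exp (-(a * ‖y‖ ^ 2))) := by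
  have h1 := GaussianFourier.integrable_cexp_neg_mul_sq_norm_add (V := E) (b := (a : ℂ)) (by simpa using ha) 0 0
  have h2 := h1.norm
  refine h2.congr (Eventually.of_forall fun y => ?_)
  simp only [Complex.norm_exp]
  congr 1
  simp [← Complex.ofReal_pow]

theorem integral_gauss_pos [MeasurableSpace E] [BorelSpace E] {a : ℝ} (ha : 0 < a) :
    0 < ∫ y : E, Real.exp (-(a * ‖y‖ ^ 2)) := by
  refine (integral_pos_iff_support_of_nonneg (fun y => (Real.exp_pos _).le) (integrable_gauss ha)).2 ?_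
  have : Function.support (fun y : E => Real.exp (-(a * ‖y‖ ^ 2))) = Set.univ := by
    ext y
    simp [Real.exp_ne_zero]
  rw [this]
  exact isOpen_univ.measure_pos volume univ_nonempty

namespace C21c

variable {a b M : ℝ} {φ : E → ℝ} {G : E → E} {H : E → E →L[ℝ] E}

theorem exp_le (h : C21c a b M φ G H) (ha : 0 ≤ a) (y : E) :
    Real.exp (-φ y) ≤ Real.exp (-φ 0) * Real.exp (-(a / 2 * ‖y‖ ^ 2)) := by
  rw [← Real.exp_add]
  refine Real.exp_le_exp.2 ?_
  have := h.phi_lower ha y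
  linarith

theorem le_exp (h : C21c a b M φ G H) (hb : 0 ≤ b) (y : E) :
    Real.exp (-φ 0) * Real.exp (-(b * ‖y‖ ^ 2)) ≤ Real.exp (-φ y) := by
  rw [← Real.exp_add]
  refine Real.exp_le_exp.2 ?_
  have := h.phi_upper hb y
  linarith

theorem integrable [MeasurableSpace E] [BorelSpace E] (h : C21c a b M φ G H) (ha : 0 < a) :
    Integrable (fun y => Real.exp (-φ y)) := by
  refine ((integrable_gauss (E := E) (a := a / 2) (by positivity)).const_mul (Real.exp (-φ 0))).mono'
    ?_ (Eventually.of_forall fun y => ?_)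
  · exact (h.continuous_phi.neg.rexp).aestronglyMeasurable
  · rw [Real.norm_eq_abs, abs_of_pos (Real.exp_pos _)]
    exact h.exp_le ha.le y

end C21c

/-- **Limit theorem.** -/
theorem exists_ma [MeasurableSpace E] [BorelSpace E] {a b M : ℝ} (ha : 0 < a) (hb : 0 < b) {V : E → ℝ} (hV : Continuous V)
    (hVi : Integrable (fun x => Real.exp (-V x))) {φ : ℕ → E → ℝ} {G : ℕ → E → E} {H : ℕ → E → E →L[ℝ] E}
    (h : ∀ k, C21c a b M (φ k) (G k) (H k)) (hint : ∀ k, ∫ y, Real.exp (-φ k y) = ∫ x, Real.exp (-V x))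
    (hpush : ∀ f : E → ℝ, (∃ K, LipschitzWith K f) → (∃ B, ∀ x, |f x| ≤ B) →
      Tendsto (fun k => ∫ y, f (G k y) * Real.exp (-φ k y)) atTop (𝓝 (∫ x, f x * Real.exp (-V x)))) :
    ∃ ψ : ℕ → ℕ, StrictMono ψ ∧ ∃ (φ' : E → ℝ) (G' : E → E) (H' : E → E →L[ℝ] E), C21c a b M φ' G' H' ∧
      (∀ y, Tendsto (fun k => φ (ψ k) y) atTop (𝓝 (φ' y))) ∧ (∀ y, Tendsto (fun k => G (ψ k) y) atTop (𝓝 (G' y))) ∧
      (∀ y, Tendsto (fun k => H (ψ k) y) atTop (𝓝 (H' y))) ∧
      (∀ y, Real.exp (-φ' y) = Real.exp (-V (G' y)) * (H' y).det) := by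
  set Z := ∫ x, Real.exp (-V x) with hZ
  set I1 := ∫ y : E, Real.exp (-(b * ‖y‖ ^ 2)) with hI1
  set I2 := ∫ y : E, Real.exp (-(a / 2 * ‖y‖ ^ 2)) with hI2
  have hI1p : 0 < I1 := integral_gauss_pos hb
  have hI2p : 0 < I2 := integral_gauss_pos (by positivity)
  have hZp : 0 < Z := by
    rw [hZ, integral_pos_iff_support_of_nonneg (fun y => (Real.exp_pos _).le) hVi]
    have : Function.support (fun y : E => Real.exp (-V y)) = Set.univ := by
      ext y
      simp [Real.exp_ne_zero]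
    rw [this]
    exact isOpen_univ.measure_pos volume univ_nonempty
  -- bounds for φ k 0
  have h1 : ∀ k, Real.exp (-φ k 0) * I1 ≤ Z := by
    intro k
    rw [← hint k, hI1, ← integral_const_mul]
    exact integral_mono ((integrable_gauss hb).const_mul _) ((h k).integrable ha) (fun y => (h k).le_exp hb.le y)
  have h2 : ∀ k, Z ≤ Real.exp (-φ k 0) * I2 := by
    intro k
    rw [← hint k, hI2, ← integral_const_mul]
    exact integral_mono ((h k).integrable ha) ((integrable_gauss (by positivity)).const_mul _) (fun y => (h k).exp_le ha.le y)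
  have hB : ∀ k, |φ k 0| ≤ |Real.log (Z / I1)| + |Real.log (Z / I2)| := by
    intro k
    have h3 : -φ k 0 ≤ Real.log (Z / I1) := by
      rw [Real.le_log_iff_exp_le (by positivity), le_div_iff₀ hI1p]
      exact h1 k
    have h4 : Real.log (Z / I2) ≤ -φ k 0 := by
      rw [Real.log_le_iff_le_exp (by positivity), div_le_iff₀ hI2p]
      exact h2 k
    rw [abs_le]
    constructor
    · linarith [le_abs_self (Real.log (Z / I1)), abs_nonneg (Real.log (Z / I2))]
    · linarith [neg_abs_le (Real.log (Z / I2)), abs_nonneg (Real.log (Z / I1))]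
  obtain ⟨ψ, hψ, φ', G', H', hC, hφ, hG, hH⟩ := exists_limit ha.le hb.le h hB
  refine ⟨ψ, hψ, φ', G', H', hC, hφ, hG, hH, fun y => ?_⟩
  set B0 := |Real.log (Z / I1)| + |Real.log (Z / I2)| with hB0
  have hfd : fderiv ℝ G' = H' := funext fun z => (hC.hess z).fderiv
  have hG1 : ContDiff ℝ 1 G' := by
    rw [contDiff_one_iff_fderiv]
    refine ⟨fun z => (hC.hess z).differentiableAt, ?_⟩
    rw [hfd]
    exact hC.continuous_H
  have hm : ∀ x y, a * ‖x - y‖ ^ 2 ≤ inner ℝ (G' x - G' y) (x - y) := by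
    intro x y
    have := hC.mono y (x - y)
    rwa [add_sub_cancel] at this
  have key := Vale.Agent.P227.M.LIM.eq_mul_det_of_integral ha hG1 hm
    (f := fun y => Real.exp (-φ' y)) (h := fun x => Real.exp (-V x)) hC.continuous_phi.neg.rexp hV.neg.rexp ?_ y
  · rw [hfd] at key
    exact key
  · intro F hF hFc
    obtain ⟨K, hK⟩ := hF
    obtain ⟨BF, hBF⟩ := hFc.exists_bound_of_continuous hK.continuous
    have hBF' : ∀ x, |F x| ≤ BF := fun x => by simpa using hBF x
    have hlim1 := (hpush F ⟨K, hK⟩ ⟨BF, hBF'⟩).comp hψ.tendsto_atTop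
    have hlim2 : Tendsto (fun k => ∫ y, F (G (ψ k) y) * Real.exp (-φ (ψ k) y)) atTop
        (𝓝 (∫ y, F (G' y) * Real.exp (-φ' y))) := by
      refine tendsto_integral_of_dominated_convergence
        (fun y => BF * (Real.exp B0 * Real.exp (-(a / 2 * ‖y‖ ^ 2)))) (fun k => ?_) ?_ (fun k => ?_) ?_
      · exact ((hK.continuous.comp (h (ψ k)).continuous_G).mul (h (ψ k)).continuous_phi.neg.rexp).aestronglyMeasurable
      · exact ((integrable_gauss (by positivity)).const_mul _).const_mul _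
      · refine Eventually.of_forall fun y => ?_
        rw [norm_mul, Real.norm_eq_abs, Real.norm_eq_abs, abs_of_pos (Real.exp_pos _)]
        refine mul_le_mul (hBF' _) (((h (ψ k)).exp_le ha.le y).trans ?_) (Real.exp_pos _).le ((abs_nonneg _).trans (hBF' 0))
        refine mul_le_mul_of_nonneg_right (Real.exp_le_exp.2 ?_) (Real.exp_pos _).le
        have := hB (ψ k)
        rw [abs_le] at this
        linarith [this.1]
      · refine Eventually.of_forall fun y => ?_
        have hc : Tendsto (fun k => F (G (ψ k) y)) atTop (𝓝 (F (G' y))) := (hK.continuous.tendsto _).comp (hG y)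
        have he : Tendsto (fun k => Real.exp (-φ (ψ k) y)) atTop (𝓝 (Real.exp (-φ' y))) :=
          (Real.continuous_exp.tendsto _).comp (hφ y).neg
        exact hc.mul he
    exact tendsto_nhds_unique hlim2 hlim1

end Vale.Agent.P254.MC
end

section

/-!
# P227, block LIM: from the push-forward identity to the pointwise Jacobian equation

`E` is any finite-dimensional real inner product space.  If `G : E → E` is `C¹` with
`a‖v‖² ≤ ⟪G' y v, v⟫`, `a > 0`, then `G` is a bijection with `a‖y-y'‖ ≤ ‖G y - G y'‖`, and if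
`∫ g (G y) * f y = ∫ g x * ρ x` for all continuous compactly supported `g` (`f`, `ρ` continuous)
then `f y = ρ (G y) * |det (G' y)|` for ALL `y`.
-/

open MeasureTheory Set Filter Topology
open scoped RealInnerProductSpace

namespace Vale.Agent.P227.M.LIM

section Mono

variable {E : Type*} [NormedAddCommGroup E] [InnerProductSpace ℝ E]

/-- Strong monotonicity along segments. -/
theorem mono716 {G : E → E} {G' : E → E →L[ℝ] E} (hG : ∀ y, HasFDerivAt G (G' y) y)
    {a : ℝ} (hco : ∀ y v : E, a * ‖v‖ ^ 2 ≤ ⟪G' y v, v⟫) (x y : E) :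
    a * ‖x - y‖ ^ 2 ≤ ⟪G x - G y, x - y⟫ := by
  have hder : ∀ t : ℝ, HasDerivAt (fun t : ℝ => ⟪G (y + t • (x - y)), x - y⟫)
      ⟪G' (y + t • (x - y)) (x - y), x - y⟫ t := by
    intro t
    have h1 : HasDerivAt (fun t : ℝ => y + t • (x - y)) (x - y) t := by
      have := ((hasDerivAt_id t).smul_const (x - y)).const_add y
      simpa using this
    have h2 : HasDerivAt (fun t : ℝ => G (y + t • (x - y))) (G' (y + t • (x - y)) (x - y)) t :=
      (hG _).comp_hasDerivAt t h1
    have h3 := h2.inner ℝ (hasDerivAt_const t (x - y))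
    simpa using h3
  obtain ⟨c, -, hc⟩ := exists_hasDerivAt_eq_slope
    (fun t : ℝ => ⟪G (y + t • (x - y)), x - y⟫)
    (fun t : ℝ => ⟪G' (y + t • (x - y)) (x - y), x - y⟫) zero_lt_one
    (fun t _ => (hder t).continuousAt.continuousWithinAt) (fun t _ => hder t)
  have h4 := hco (y + c • (x - y)) (x - y)
  rw [hc] at h4
  simpa [inner_sub_left] using h4

theorem expand716 {G : E → E} {G' : E → E →L[ℝ] E} (hG : ∀ y, HasFDerivAt G (G' y) y)
    {a : ℝ} (hco : ∀ y v : E, a * ‖v‖ ^ 2 ≤ ⟪G' y v, v⟫) (x y : E) :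
    a * ‖x - y‖ ≤ ‖G x - G y‖ := by
  rcases eq_or_ne x y with rfl | hne
  · simp
  · have hpos : 0 < ‖x - y‖ := norm_pos_iff.2 (sub_ne_zero.2 hne)
    have h1 := mono716 hG hco x y
    have h2 := real_inner_le_norm (G x - G y) (x - y)
    have h3 : (a * ‖x - y‖) * ‖x - y‖ ≤ ‖G x - G y‖ * ‖x - y‖ := by nlinarith
    exact le_of_mul_le_mul_right h3 hpos

theorem injective716 {G : E → E} {G' : E → E →L[ℝ] E} (hG : ∀ y, HasFDerivAt G (G' y) y)
    {a : ℝ} (ha : 0 < a) (hco : ∀ y v : E, a * ‖v‖ ^ 2 ≤ ⟪G' y v, v⟫) :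
    Function.Injective G := by
  intro x y h
  have h1 := expand716 hG hco x y
  rw [h, sub_self, norm_zero] at h1
  have h2 : ‖x - y‖ ≤ 0 := by
    by_contra hcon
    push Not at hcon
    have := mul_pos ha hcon
    linarith
  exact sub_eq_zero.1 (norm_le_zero_iff.1 h2)

variable [FiniteDimensional ℝ E]

theorem surjective716 {G : E → E} {G' : E → E →L[ℝ] E} (hG : ∀ y, HasFDerivAt G (G' y) y)
    (hG' : Continuous G') {a : ℝ} (ha : 0 < a)
    (hco : ∀ y v : E, a * ‖v‖ ^ 2 ≤ ⟪G' y v, v⟫) :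
    Function.Surjective G ∧ IsOpenMap G := by
  have : CompleteSpace E := FiniteDimensional.complete ℝ E
  have hcont : Continuous G := continuous_iff_continuousAt.2 fun y => (hG y).continuousAt
  have hopen : IsOpenMap G := by
    refine isOpenMap_iff_nhds_le.2 fun y => ?_
    have hs : HasStrictFDerivAt G (G' y) y :=
      hasStrictFDerivAt_of_hasFDerivAt_of_continuousAt (Eventually.of_forall hG)
        hG'.continuousAt
    have hinj : Function.Injective (G' y : E →ₗ[ℝ] E) := by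
      refine (injective_iff_map_eq_zero _).2 fun v hv => ?_
      have h1 := hco y v
      have h2 : G' y v = 0 := hv
      rw [h2, inner_zero_left] at h1
      have h3 : ‖v‖ ^ 2 ≤ 0 := by
        by_contra hcon
        push Not at hcon
        have := mul_pos ha hcon
        linarith
      have h4 : ‖v‖ = 0 := by
        have : ‖v‖ ^ 2 = 0 := le_antisymm h3 (by positivity)
        simpa using this
      exact norm_eq_zero.1 h4
    have hsur : Function.Surjective (G' y : E →ₗ[ℝ] E) :=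
      LinearMap.injective_iff_surjective.1 hinj
    exact (hs.map_nhds_eq_of_surj (LinearMap.range_eq_top.2 hsur)).ge
  refine ⟨?_, hopen⟩
  have hclosed : IsClosed (range G) := by
    refine IsSeqClosed.isClosed ?_
    intro z z₀ hz hlim
    choose y hy using hz
    have hcz : CauchySeq z := hlim.cauchySeq
    have hcy : CauchySeq y := by
      rw [Metric.cauchySeq_iff] at hcz ⊢
      intro ε hε
      obtain ⟨N, hN⟩ := hcz (a * ε) (mul_pos ha hε)
      refine ⟨N, fun m hm n hn => ?_⟩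
      have h1 := hN m hm n hn
      have h2 := expand716 hG hco (y m) (y n)
      rw [hy, hy] at h2
      rw [dist_eq_norm] at h1 ⊢
      exact lt_of_mul_lt_mul_left (lt_of_le_of_lt h2 h1) ha.le
    obtain ⟨y₀, hy₀⟩ := cauchySeq_tendsto_of_complete hcy
    refine ⟨y₀, ?_⟩
    have h3 : Tendsto (fun n => G (y n)) atTop (𝓝 (G y₀)) := (hcont.tendsto y₀).comp hy₀
    have h4 : (fun n => G (y n)) = z := funext hy
    rw [h4] at h3
    exact tendsto_nhds_unique h3 hlim
  have hclopen : IsClopen (range G) := ⟨hclosed, hopen.isOpen_range⟩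
  have huniv : range G = univ := by
    refine hclopen.eq_univ (range_nonempty G)
  exact range_eq_univ.1 huniv

end Mono

section CV

variable {E : Type*} [NormedAddCommGroup E] [InnerProductSpace ℝ E] [FiniteDimensional ℝ E]
  [MeasurableSpace E] [BorelSpace E]

/-- Global change of variables for a strongly monotone `C¹` map. -/
theorem integral_cv716 {G : E → E} {G' : E → E →L[ℝ] E} (hG : ∀ y, HasFDerivAt G (G' y) y)
    (hG' : Continuous G') {a : ℝ} (ha : 0 < a)
    (hco : ∀ y v : E, a * ‖v‖ ^ 2 ≤ ⟪G' y v, v⟫) (h : E → ℝ) :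
    ∫ x, h x = ∫ y, |(G' y).det| * h (G y) := by
  have hsur := (surjective716 hG hG' ha hco).1
  have hinj := injective716 hG ha hco
  have h1 := integral_image_eq_integral_abs_det_fderiv_smul (volume : Measure E)
    (MeasurableSet.univ (α := E)) (fun y _ => (hG y).hasFDerivWithinAt) (hinj.injOn (s := univ)) h
  rw [image_univ, hsur.range_eq, Measure.restrict_univ] at h1
  simpa [smul_eq_mul] using h1

/-- **(MA)** Push-forward identity against `C_c` test functions implies the pointwise Jacobian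
equation. -/
theorem ma716 {G : E → E} {G' : E → E →L[ℝ] E} (hG : ∀ y, HasFDerivAt G (G' y) y)
    (hG' : Continuous G') {a : ℝ} (ha : 0 < a)
    (hco : ∀ y v : E, a * ‖v‖ ^ 2 ≤ ⟪G' y v, v⟫)
    {f ρ : E → ℝ} (hf : Continuous f) (hρ : Continuous ρ)
    (hpush : ∀ g : E → ℝ, Continuous g → HasCompactSupport g →
      ∫ y, g (G y) * f y = ∫ x, g x * ρ x) :
    Function.Bijective G ∧ (∀ y y', ‖y - y'‖ ≤ a⁻¹ * ‖G y - G y'‖) ∧
      ∀ y, f y = ρ (G y) * |(G' y).det| := by
  have hcont : Continuous G := continuous_iff_continuousAt.2 fun y => (hG y).continuousAt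
  obtain ⟨hsur, hopen⟩ := surjective716 hG hG' ha hco
  have hinj := injective716 hG ha hco
  refine ⟨⟨hinj, hsur⟩, fun y y' => ?_, ?_⟩
  · have h1 := expand716 hG hco y y'
    rw [inv_mul_eq_div, le_div_iff₀ ha]
    linarith
  -- the homeomorphism
  let e : E ≃ₜ E := (Equiv.ofBijective G ⟨hinj, hsur⟩).toHomeomorphOfContinuousOpen hcont hopen
  have he : ∀ y, e y = G y := fun y => rfl
  have hdet : Continuous fun y => |(G' y).det| :=
    (ContinuousLinearMap.continuous_det.comp hG').abs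
  have hr : Continuous fun y => ρ (G y) * |(G' y).det| := (hρ.comp hcont).mul hdet
  have hae : ∀ᵐ y ∂(volume : Measure E), f y = ρ (G y) * |(G' y).det| := by
    refine ae_eq_of_integral_contDiff_smul_eq hf.locallyIntegrable hr.locallyIntegrable ?_
    intro ψ hψ hψs
    have hg1 : Continuous (fun x => ψ (e.symm x)) := hψ.continuous.comp e.symm.continuous
    have hg2 : HasCompactSupport (fun x => ψ (e.symm x)) := hψs.comp_homeomorph e.symm
    have h1 := hpush _ hg1 hg2
    have h2 := integral_cv716 hG hG' ha hco (fun x => ψ (e.symm x) * ρ x)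
    have h3 : ∀ y, e.symm (G y) = y := fun y => e.symm_apply_apply y
    simp only [h3] at h1 h2
    simp only [smul_eq_mul]
    rw [h1, h2]
    refine integral_congr_ae (Eventually.of_forall fun y => ?_)
    simp only
    ring
  have heq : f = fun y => ρ (G y) * |(G' y).det| :=
    (Continuous.ae_eq_iff_eq (volume : Measure E) hf hr).1 hae
  intro y
  exact congrFun heq y

end CV

end Vale.Agent.P227.M.LIM
end

section

/-! # P254/MC, block DUAL without evenness: from the moment map potential in `y`-space to `x`-space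

`φ` with gradient `g`, `g` with derivative `T` (symmetric, elliptic, Lipschitz) and the Jacobian
equation `exp (-φ y) = exp (-V (g y)) * |det T y|` give all fields of `MM ψ V c C M` but `even`, with
`ψ x = ⟪x, h x⟫ - φ (h x)`, `h = g⁻¹`. -/

open scoped RealInnerProductSpace Topology
open Filter Vale.Agent.P227.M

namespace Vale.Agent.P254.MC.D575

variable {n : ℕ}

private theorem inj575 {T : E n →L[ℝ] E n} {a : ℝ} (ha : 0 < a)
    (hlo : ∀ v : E n, a * ‖v‖ ^ 2 ≤ ⟪T v, v⟫) : Function.Injective (T : E n →ₗ[ℝ] E n) := by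
  refine (injective_iff_map_eq_zero _).2 fun v hv => ?_
  have h1 := hlo v
  have h2 : T v = 0 := hv
  rw [h2, inner_zero_left] at h1
  have h3 : ‖v‖ ^ 2 ≤ 0 := by
    by_contra hcon
    push Not at hcon
    have := mul_pos ha hcon
    linarith
  have h4 : ‖v‖ = 0 := by
    have : ‖v‖ ^ 2 = 0 := le_antisymm h3 (by positivity)
    simpa using this
  exact norm_eq_zero.1 h4

/-- the inverse of a coercive operator as a continuous linear equivalence -/
private noncomputable def eqv (T : E n →L[ℝ] E n) (h : Function.Injective (T : E n →ₗ[ℝ] E n)) :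
    E n ≃L[ℝ] E n :=
  (LinearEquiv.ofInjectiveEndo (T : E n →ₗ[ℝ] E n) h).toContinuousLinearEquiv

private theorem eqv_apply (T : E n →L[ℝ] E n) (h : Function.Injective (T : E n →ₗ[ℝ] E n))
    (v : E n) : eqv T h v = T v := rfl

private theorem eqv_coe (T : E n →L[ℝ] E n) (h : Function.Injective (T : E n →ₗ[ℝ] E n)) :
    (eqv T h : E n →L[ℝ] E n) = T := by
  ext v; rfl

/-- the data of the dual side -/
structure Inv (T S : E n →L[ℝ] E n) : Prop where
  ts : ∀ v, T (S v) = v
  st : ∀ v, S (T v) = v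

private theorem norm_inv_le {T S : E n →L[ℝ] E n} (hI : Inv T S) {C : ℝ} (hC : 0 < C)
    (hlo : ∀ v : E n, C⁻¹ * ‖v‖ ^ 2 ≤ ⟪T v, v⟫) (w : E n) : ‖S w‖ ≤ C * ‖w‖ := by
  have h1 := hlo (S w)
  rw [hI.ts] at h1
  have h2 := real_inner_le_norm w (S w)
  rcases eq_or_lt_of_le (norm_nonneg (S w)) with h0 | h0
  · rw [← h0]; positivity
  · have h3 : (C⁻¹ * ‖S w‖) * ‖S w‖ ≤ ‖w‖ * ‖S w‖ := by nlinarith
    have h4 : C⁻¹ * ‖S w‖ ≤ ‖w‖ := le_of_mul_le_mul_right h3 h0
    have h5 := mul_le_mul_of_nonneg_left h4 hC.le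
    rwa [← mul_assoc, mul_inv_cancel₀ hC.ne', one_mul] at h5

private theorem lower_inv {T S : E n →L[ℝ] E n} (hI : Inv T S) {c : ℝ} (hc : 0 < c)
    (hs : ∀ v w : E n, ⟪T v, w⟫ = ⟪v, T w⟫) (hpos : ∀ v : E n, 0 ≤ ⟪T v, v⟫)
    (hup : ∀ v : E n, ⟪T v, v⟫ ≤ c⁻¹ * ‖v‖ ^ 2) (w : E n) : c * ‖w‖ ^ 2 ≤ ⟪S w, w⟫ := by
  have key : ∀ v : E n, c * ‖T v‖ ^ 2 ≤ ⟪T v, v⟫ := by
    intro v
    have h1 := hpos (v - c • T v)
    have h2 := hup (T v)
    have h3 : ⟪T (T v), v⟫ = ‖T v‖ ^ 2 := by
      rw [hs (T v) v, real_inner_self_eq_norm_sq]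
    have h4 : ⟪T v, T v⟫ = ‖T v‖ ^ 2 := real_inner_self_eq_norm_sq _
    simp only [map_sub, map_smul, inner_sub_left, inner_sub_right, inner_smul_left,
      inner_smul_right, h3, h4, RCLike.conj_to_real] at h1
    have h5 : c * (c * ⟪T (T v), T v⟫) ≤ c * ‖T v‖ ^ 2 := by
      have h6 : c * ⟪T (T v), T v⟫ ≤ c * (c⁻¹ * ‖T v‖ ^ 2) := mul_le_mul_of_nonneg_left h2 hc.le
      rw [← mul_assoc, mul_inv_cancel₀ hc.ne', one_mul] at h6
      exact mul_le_mul_of_nonneg_left h6 hc.le
    linarith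
  have h := key (S w)
  rw [hI.ts] at h
  rwa [real_inner_comm]

private theorem inner_ei (x : E n) (i : Fin n) : ⟪x, ei i⟫ = x i := by
  simp [ei, EuclideanSpace.inner_single_right]

private theorem sum_ei (v : E n) : v = ∑ i, v i • ei i := by
  have h := (EuclideanSpace.basisFun (Fin n) ℝ).sum_repr v
  conv_lhs => rw [← h]
  simp [ei]

private theorem inner_sum575 (v w : E n) : ⟪v, w⟫ = ∑ i, v i * w i := by
  simp [PiLp.inner_apply, mul_comm]

/-- all fields of `MM ψ V c C M'` except `even` -/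
theorem mmc_of_dual {V φ : E n → ℝ} {g : E n → E n} {T : E n → E n →L[ℝ] E n} {c C M : ℝ}
    (hc : 0 < c) (hC : 0 < C) (hM : 0 ≤ M)
    (hφ : ∀ y, HasGradientAt φ (g y) y) (hg : ∀ y, HasFDerivAt g (T y) y)
    (hs : ∀ y v w, ⟪T y v, w⟫ = ⟪v, T y w⟫)
    (hlo : ∀ y v, C⁻¹ * ‖v‖ ^ 2 ≤ ⟪T y v, v⟫) (hup : ∀ y v, ⟪T y v, v⟫ ≤ c⁻¹ * ‖v‖ ^ 2)
    (hLip : ∀ y y', ‖T y - T y'‖ ≤ M * ‖y - y'‖)
    (hMA : ∀ y, Real.exp (-φ y) = Real.exp (-V (g y)) * |(T y).det|) :
    ∃ (ψ : E n → ℝ) (M' : ℝ), 0 < c ∧ ContDiff ℝ 2 ψ ∧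
      (∀ x v, c * ‖v‖ ^ 2 ≤ qf (hess ψ x) v) ∧ (∀ x v, qf (hess ψ x) v ≤ C * ‖v‖ ^ 2) ∧
      (∀ i j x y, |hess ψ x i j - hess ψ y i j| ≤ M' * ‖x - y‖) ∧
      (∀ x, V x = (∑ i, x i * pd i ψ x) - ψ x - Real.log (hess ψ x).det) := by
  have hTc : Continuous T := by
    refine continuous_iff_continuousAt.2 fun y => ?_
    rw [ContinuousAt, tendsto_iff_norm_sub_tendsto_zero]
    have h1 : Tendsto (fun z : E n => M * ‖z - y‖) (𝓝 y) (𝓝 0) := by
      have h2 : Continuous fun z : E n => M * ‖z - y‖ := by fun_prop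
      have h3 := h2.tendsto y
      simpa using h3
    exact squeeze_zero (fun _ => norm_nonneg _) (fun z => hLip z y) h1
  have hCi : 0 < C⁻¹ := inv_pos.2 hC
  have hinj : ∀ y, Function.Injective (T y : E n →ₗ[ℝ] E n) := fun y => inj575 hCi (hlo y)
  have gi := Vale.Agent.P227.M.LIM.injective716 hg hCi hlo
  have gs := (Vale.Agent.P227.M.LIM.surjective716 hg hTc hCi hlo).1
  let e : E n ≃ E n := Equiv.ofBijective g ⟨gi, gs⟩
  let h : E n → E n := fun x => e.symm x
  have gh : ∀ x, g (h x) = x := fun x => e.apply_symm_apply x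
  have hgg : ∀ y, h (g y) = y := fun y => e.symm_apply_apply y
  let S : E n → E n →L[ℝ] E n := fun x => ((eqv (T (h x)) (hinj (h x))).symm : E n →L[ℝ] E n)
  have hI : ∀ x, Inv (T (h x)) (S x) := fun x =>
    ⟨fun v => (eqv (T (h x)) (hinj (h x))).apply_symm_apply v,
      fun v => (eqv (T (h x)) (hinj (h x))).symm_apply_apply v⟩
  have hhL : ∀ x x', ‖h x - h x'‖ ≤ C * ‖x - x'‖ := by
    intro x x'
    have h1 := Vale.Agent.P227.M.LIM.expand716 hg hlo (h x) (h x')
    rw [gh, gh] at h1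
    have h5 := mul_le_mul_of_nonneg_left h1 hC.le
    rwa [← mul_assoc, mul_inv_cancel₀ hC.ne', one_mul] at h5
  have hhc : Continuous h := by
    refine continuous_iff_continuousAt.2 fun y => ?_
    rw [ContinuousAt, tendsto_iff_norm_sub_tendsto_zero]
    have h1 : Tendsto (fun z : E n => C * ‖z - y‖) (𝓝 y) (𝓝 0) := by
      have h2 : Continuous fun z : E n => C * ‖z - y‖ := by fun_prop
      have h3 := h2.tendsto y
      simpa using h3
    exact squeeze_zero (fun _ => norm_nonneg _) (fun z => hhL z y) h1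
  have hh : ∀ x, HasFDerivAt h (S x) x := by
    intro x
    have h1 : HasFDerivAt g (eqv (T (h x)) (hinj (h x)) : E n →L[ℝ] E n) (h x) := by
      rw [eqv_coe]; exact hg (h x)
    exact HasFDerivAt.of_local_left_inverse hhc.continuousAt h1 (Eventually.of_forall gh)
  have hSn : ∀ x w, ‖S x w‖ ≤ C * ‖w‖ := fun x w => norm_inv_le (hI x) hC (hlo (h x)) w
  have hSnorm : ∀ x, ‖S x‖ ≤ C := fun x => (S x).opNorm_le_bound hC.le (hSn x)
  have hSL : ∀ x x', ‖S x - S x'‖ ≤ C * (M * C) * C * ‖x - x'‖ := by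
    intro x x'
    have h1 : S x - S x' = (S x).comp ((T (h x') - T (h x)).comp (S x')) := by
      ext1 v
      simp only [sub_apply, ContinuousLinearMap.comp_apply, map_sub,
        (hI x').ts, (hI x).st]
    have h2 : ‖S x - S x'‖ ≤ ‖S x‖ * (‖T (h x') - T (h x)‖ * ‖S x'‖) := by
      rw [h1]
      exact (ContinuousLinearMap.opNorm_comp_le _ _).trans
        (mul_le_mul_of_nonneg_left (ContinuousLinearMap.opNorm_comp_le _ _) (norm_nonneg _))
    have h3 : ‖T (h x') - T (h x)‖ ≤ M * (C * ‖x - x'‖) := by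
      refine (hLip _ _).trans (mul_le_mul_of_nonneg_left ?_ hM)
      rw [norm_sub_rev]; exact hhL x x'
    have h4 : ‖S x‖ * (‖T (h x') - T (h x)‖ * ‖S x'‖) ≤ C * ((M * (C * ‖x - x'‖)) * C) := by
      have h5 : ‖T (h x') - T (h x)‖ * ‖S x'‖ ≤ (M * (C * ‖x - x'‖)) * C :=
        mul_le_mul h3 (hSnorm x') (norm_nonneg _) (by positivity)
      exact mul_le_mul (hSnorm x) h5 (by positivity) hC.le
    calc ‖S x - S x'‖ ≤ _ := h2
      _ ≤ _ := h4
      _ = C * (M * C) * C * ‖x - x'‖ := by ring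
  have hSc : Continuous S := by
    refine continuous_iff_continuousAt.2 fun y => ?_
    rw [ContinuousAt, tendsto_iff_norm_sub_tendsto_zero]
    have h1 : Tendsto (fun z : E n => C * (M * C) * C * ‖z - y‖) (𝓝 y) (𝓝 0) := by
      have h2 : Continuous fun z : E n => C * (M * C) * C * ‖z - y‖ := by fun_prop
      have h3 := h2.tendsto y
      simpa using h3
    exact squeeze_zero (fun _ => norm_nonneg _) (fun z => hSL z y) h1
  let ψ : E n → ℝ := fun x => ⟪x, h x⟫ - φ (h x)
  have hψ : ∀ x, HasFDerivAt ψ (innerSL ℝ (h x)) x := by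
    intro x
    have h1 := (hasFDerivAt_id x).inner ℝ (hh x)
    have h2 : HasFDerivAt (fun x => φ (h x)) _ x := ((hφ (h x)).hasFDerivAt).comp x (hh x)
    have h3 := h1.sub h2
    refine h3.congr_fderiv ?_
    ext v
    simp only [gh, sub_apply, ContinuousLinearMap.comp_apply, id_eq,
      innerSL_apply_apply, InnerProductSpace.toDual_apply_apply,
      ContinuousLinearMap.prod_apply, fderivInnerCLM_apply, ContinuousLinearMap.id_apply]
    rw [real_inner_comm v (h x)]
    ring
  have hfψ : fderiv ℝ ψ = fun x => innerSL ℝ (h x) := funext fun x => (hψ x).fderiv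
  have hpd : ∀ i x, pd i ψ x = (h x) i := by
    intro i x
    rw [pd, hfψ]
    simp only [innerSL_apply_apply]
    exact inner_ei _ _
  have hhess : ∀ x i j, hess ψ x i j = (S x (ei i)) j := by
    intro x i j
    have h1 : pd j ψ = fun x => (h x) j := funext fun x => hpd j x
    have h2 : HasFDerivAt (fun x => (h x) j)
        ((EuclideanSpace.proj j : E n →L[ℝ] ℝ).comp (S x)) x :=
      ((EuclideanSpace.proj j : E n →L[ℝ] ℝ).hasFDerivAt).comp x (hh x)
    simp only [hess, h1, pd]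
    rw [h2.fderiv]
    rfl
  have hqf : ∀ x v, qf (hess ψ x) v = ⟪S x v, v⟫ := by
    intro x v
    have h1 : S x v = ∑ i, v i • S x (ei i) := by
      conv_lhs => rw [sum_ei v]
      rw [map_sum]
      exact Finset.sum_congr rfl fun i _ => map_smul _ _ _
    rw [h1, _root_.sum_inner]
    simp only [qf, hhess]
    refine Finset.sum_congr rfl fun i _ => ?_
    rw [real_inner_smul_left, inner_sum575, Finset.mul_sum]
    exact Finset.sum_congr rfl fun j _ => by ring
  have hdet : ∀ x, (hess ψ x).det = (S x).det := by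
    intro x
    have h1 : hess ψ x = (LinearMap.toMatrix (EuclideanSpace.basisFun (Fin n) ℝ).toBasis
        (EuclideanSpace.basisFun (Fin n) ℝ).toBasis (S x : E n →ₗ[ℝ] E n)).transpose := by
      ext i j
      rw [hhess, Matrix.transpose_apply, LinearMap.toMatrix_apply]
      simp [ei]
    rw [h1, Matrix.det_transpose, LinearMap.det_toMatrix]
  have hSdet : ∀ x, (S x).det * (T (h x)).det = 1 := by
    intro x
    have h1 : ((S x : E n →ₗ[ℝ] E n).comp (T (h x) : E n →ₗ[ℝ] E n)) = LinearMap.id := by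
      ext1 v
      exact (hI x).st v
    have h2 := congrArg LinearMap.det h1
    rw [LinearMap.det_comp, LinearMap.det_id] at h2
    exact h2
  refine ⟨ψ, C * (M * C) * C, ?_⟩
  refine ⟨hc, ?_, ?_, ?_, ?_, ?_⟩
  · have h1 : ContDiff ℝ 1 h := by
      rw [contDiff_one_iff_fderiv]
      refine ⟨fun x => (hh x).differentiableAt, ?_⟩
      have h2 : fderiv ℝ h = S := funext fun x => (hh x).fderiv
      rw [h2]; exact hSc
    have h3 : ContDiff ℝ 1 (fderiv ℝ ψ) := by
      rw [hfψ]
      exact (innerSL ℝ : E n →L[ℝ] E n →L[ℝ] ℝ).contDiff.comp h1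
    have h4 : ContDiff ℝ (1 + 1) ψ := by
      rw [contDiff_succ_iff_fderiv]
      exact ⟨fun x => (hψ x).differentiableAt, by simp, h3⟩
    exact h4
  · intro x v
    rw [hqf]
    exact lower_inv (hI x) hc (hs (h x))
      (fun w => le_trans (by positivity) (hlo (h x) w)) (hup (h x)) v
  · intro x v
    rw [hqf]
    calc ⟪S x v, v⟫ ≤ ‖S x v‖ * ‖v‖ := real_inner_le_norm _ _
      _ ≤ (C * ‖v‖) * ‖v‖ := mul_le_mul_of_nonneg_right (hSn x v) (norm_nonneg _)
      _ = C * ‖v‖ ^ 2 := by ring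
  · intro i j x y
    rw [hhess, hhess]
    have h1 : (S x (ei i)) j - (S y (ei i)) j = ⟪(S x - S y) (ei i), ei j⟫ := by
      rw [inner_ei]; simp
    rw [h1]
    calc |⟪(S x - S y) (ei i), ei j⟫| ≤ ‖(S x - S y) (ei i)‖ * ‖(ei j : E n)‖ :=
          abs_real_inner_le_norm _ _
      _ ≤ (‖S x - S y‖ * ‖(ei i : E n)‖) * ‖(ei j : E n)‖ :=
          mul_le_mul_of_nonneg_right ((S x - S y).le_opNorm _) (norm_nonneg _)
      _ = ‖S x - S y‖ := by simp [ei]
      _ ≤ _ := hSL x y
  · intro x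
    have h1 := hMA (h x)
    rw [gh] at h1
    have hTd : |(T (h x)).det| = Real.exp (V x - φ (h x)) := by
      have h2 : Real.exp (V x - φ (h x)) = Real.exp (V x) * Real.exp (-φ (h x)) := by
        rw [← Real.exp_add]; ring_nf
      rw [h2, h1, ← mul_assoc, ← Real.exp_add]
      simp
    have hSd : |(S x).det| = Real.exp (-(V x - φ (h x))) := by
      have h3 : |(S x).det| * |(T (h x)).det| = 1 := by rw [← abs_mul, hSdet]; simp
      rw [hTd] at h3
      rw [Real.exp_neg]
      exact eq_inv_of_mul_eq_one_left h3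
    rw [hdet, ← Real.log_abs, hSd, Real.log_exp]
    have h4 : (∑ i, x i * pd i ψ x) = ⟪x, h x⟫ := by
      rw [inner_sum575]
      exact Finset.sum_congr rfl fun i _ => by rw [hpd]
    rw [h4]
    simp only [ψ]
    ring

end Vale.Agent.P254.MC.D575
end

section

/-! P254, block MC, right half: `StmtLKc → StmtMMc` (helper343; after helper811's LIM811) -/

open MeasureTheory Filter
open scoped Topology

namespace Vale.Agent.P254.MC

open Vale.Agent.P227.M


/-- output of LIM: the `C^{2,1}` moment map in `y`-space -/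
def StmtLIMc : Prop := ∀ (n : ℕ), 0 < n → ∀ (V : E n → ℝ) (c₀ C₀ : ℝ), Reg V c₀ C₀ → Centred V →
  ∃ (M : ℝ) (φ : E n → ℝ) (G : E n → E n) (H : E n → E n →L[ℝ] E n),
    C21c C₀⁻¹ c₀⁻¹ M φ G H ∧ ∀ y, Real.exp (-φ y) = Real.exp (-V (G y)) * |(H y).det|

theorem stmtLIMc_of (h : StmtLKc) : StmtLIMc := by
  intro n hn V c₀ C₀ hV hV0
  obtain ⟨M, hM⟩ := h n hn V c₀ C₀ hV hV0
  have hc : 0 < c₀ := hV.c_pos
  have hC : 0 < C₀ := hc.trans_le (MM.nice_le hn hV)
  have he : ∀ j : ℕ, (0 : ℝ) < 1 / ((j : ℝ) + 2) ∧ 1 / ((j : ℝ) + 2) ≤ 1 / 2 := by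
    intro j
    have : (0 : ℝ) ≤ j := Nat.cast_nonneg j
    constructor
    · positivity
    · exact one_div_le_one_div_of_le two_pos (by linarith)
  choose φ G H hC21c hint hF using fun j : ℕ => hM (1 / ((j : ℝ) + 2)) (he j).1 (by linarith [(he j).2])
  have he0 : Tendsto (fun j : ℕ => 1 / ((j : ℝ) + 2)) atTop (𝓝 0) := by
    have h1 : Tendsto (fun j : ℕ => ((j : ℝ) + 2)) atTop atTop :=
      tendsto_atTop_add_const_right _ _ tendsto_natCast_atTop_atTop
    simpa [one_div, Function.comp_def] using tendsto_inv_atTop_zero.comp h1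
  have ha : 0 < 1 / 2 * C₀⁻¹ := by positivity
  have hb : 0 < c₀⁻¹ := by positivity
  have hC' : ∀ j, C21c (1 / 2 * C₀⁻¹) c₀⁻¹ M (φ j) (G j) (H j) := by
    intro j
    refine ⟨(hC21c j).grad, (hC21c j).hess, fun y v => ?_, (hC21c j).upper, (hC21c j).lip, (hC21c j).zero⟩
    refine le_trans ?_ ((hC21c j).lower y v)
    have h1 : 1 / 2 * C₀⁻¹ ≤ (1 - 1 / ((j : ℝ) + 2)) * C₀⁻¹ :=
      mul_le_mul_of_nonneg_right (by linarith [(he j).2]) (by positivity)
    exact mul_le_mul_of_nonneg_right h1 (by positivity)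
  have hVc : Continuous V := hV.smooth.continuous
  have hVi : Integrable (fun x => Real.exp (-V x)) := by
    by_contra hcon
    have h0 := integral_undef hcon
    have h1 := hint 0
    rw [h0] at h1
    have h2 : 0 < ∫ y, Real.exp (-φ 0 y) := by
      rw [integral_pos_iff_support_of_nonneg (fun y => (Real.exp_pos _).le) ((hC' 0).integrable ha)]
      have : Function.support (fun y : E n => Real.exp (-φ 0 y)) = Set.univ := by
        ext y
        simp [Real.exp_ne_zero]
      rw [this]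
      exact isOpen_univ.measure_pos volume Set.univ_nonempty
    exact h2.ne' h1
  obtain ⟨ψ, hψ, φ', G', H', hC2, -, -, hH, hma⟩ := exists_ma ha hb hVc hVi hC' hint (by
    intro f hfK hfB
    obtain ⟨K, hK⟩ := hfK
    obtain ⟨B, hB⟩ := hfB
    have hB0 : 0 ≤ B := (abs_nonneg _).trans (hB 0)
    set l : ℝ := K + B + 1 with hl
    have hl0 : 0 < l := by positivity
    -- the rescaled function
    have h1 : LipschitzWith 1 (fun x => l⁻¹ * f x) := by
      refine LipschitzWith.of_dist_le_mul fun x y => ?_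
      rw [Real.dist_eq, ← mul_sub, abs_mul, abs_of_pos (by positivity : 0 < l⁻¹)]
      have h2 := hK.dist_le_mul x y
      rw [Real.dist_eq] at h2
      have h3 : (K : ℝ) * dist x y ≤ l * dist x y := mul_le_mul_of_nonneg_right (by linarith) dist_nonneg
      rw [inv_mul_le_iff₀ hl0]
      simpa using h2.trans h3
    have h2 : ∀ x, |l⁻¹ * f x| ≤ 1 := by
      intro x
      rw [abs_mul, abs_of_pos (by positivity : 0 < l⁻¹), inv_mul_le_iff₀ hl0, mul_one]
      have := hB x
      have hK0 : (0 : ℝ) ≤ K := K.2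
      linarith
    rw [tendsto_iff_dist_tendsto_zero]
    refine squeeze_zero (fun _ => dist_nonneg) (g := fun j : ℕ => l * (1 / ((j : ℝ) + 2))) (fun j => ?_) ?_
    · have h3 := hF j (fun x => l⁻¹ * f x) h1 h2
      have h4 : (∫ y, l⁻¹ * f (G j y) * Real.exp (-φ j y)) = l⁻¹ * ∫ y, f (G j y) * Real.exp (-φ j y) := by
        rw [← integral_const_mul]
        refine integral_congr_ae (Eventually.of_forall fun y => ?_)
        simp only
        ring
      have h5 : (∫ x, l⁻¹ * f x * Real.exp (-V x)) = l⁻¹ * ∫ x, f x * Real.exp (-V x) := by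
        rw [← integral_const_mul]
        refine integral_congr_ae (Eventually.of_forall fun y => ?_)
        simp only
        ring
      rw [h4, h5, ← mul_sub, abs_mul, abs_of_pos (by positivity : 0 < l⁻¹), inv_mul_le_iff₀ hl0] at h3
      rw [Real.dist_eq]
      exact h3
    · simpa using he0.const_mul l)
  refine ⟨M, φ', G', H', ⟨hC2.grad, hC2.hess, fun y v => ?_, hC2.upper, hC2.lip, hC2.zero⟩, fun y => ?_⟩
  · have h1 : Tendsto (fun j => (inner ℝ (H (ψ j) y v) v : ℝ)) atTop (𝓝 (inner ℝ (H' y v) v)) :=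
      Tendsto.inner (((ContinuousLinearMap.apply ℝ (E n) v).continuous.tendsto _).comp (hH y)) tendsto_const_nhds
    have h2 : Tendsto (fun j => (1 - 1 / (((ψ j : ℕ) : ℝ) + 2)) * C₀⁻¹ * ‖v‖ ^ 2) atTop (𝓝 ((1 - 0) * C₀⁻¹ * ‖v‖ ^ 2)) :=
      (((he0.comp hψ.tendsto_atTop).const_sub 1).mul_const _).mul_const _
    have h3 := le_of_tendsto_of_tendsto' h2 h1 fun j => (hC21c (ψ j)).lower y v
    simpa using h3
  · rw [hma y]
    have h1 : 0 < (H' y).det := Vale.Agent.P227.M.LIM.det_pos_of_coercive ha (H' y) (fun v => hC2.lower y v)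
    rw [abs_of_pos h1]

theorem mmc_zero {V : E 0 → ℝ} {c C : ℝ} (h : Reg V c C) : MMc (fun x => -V x) V c C 0 := by
  have hz : ∀ v : E 0, ‖v‖ = 0 := fun v => by rw [Subsingleton.elim v 0, norm_zero]
  refine ⟨h.c_pos, ?_, fun x v => ?_, fun x v => ?_, fun i => i.elim0, fun x => ?_⟩
  · exact_mod_cast contDiff_infty.1 h.smooth.neg 2
  · simp [qf, hz]
  · simp [qf, hz]
  · simp

theorem stmtMMc_of_lim (h1 : StmtLIMc) : StmtMMc := by
  intro n V c C hV hV0
  rcases Nat.eq_zero_or_pos n with rfl | hn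
  · exact ⟨_, _, mmc_zero hV⟩
  · obtain ⟨M, φ, G, H, hC, hma⟩ := h1 n hn V c C hV hV0
    have hc : 0 < c := hV.c_pos
    have hC0 : 0 < C := hc.trans_le (MM.nice_le hn hV)
    have hM : 0 ≤ M := by
      have h2 := M_nonneg_of hC 0 (ei ⟨0, hn⟩)
      have h3 : ‖(ei ⟨0, hn⟩ : E n)‖ = 1 := by simp [ei]
      rwa [h3, mul_one] at h2
    obtain ⟨ψ, M', h0, h2, h3, h4, h5, h6⟩ := D575.mmc_of_dual hc hC0 hM hC.grad hC.hess
      (fun y v w => by rw [hC.symm, real_inner_comm]) hC.lower hC.upper hC.lip hma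
    exact ⟨ψ, M', h0, h2, h3, h4, h5, h6⟩

/-- **right half of the existence of the moment map, no evenness** -/
theorem stmtMMc_of_lk (h : StmtLKc) : StmtMMc := stmtMMc_of_lim (stmtLIMc_of h)

end Vale.Agent.P254.MC
end

section

open MeasureTheory Set
open scoped NNReal

namespace Vale.Agent.P254.Unc

variable {n : ℕ}

theorem d3x_sq_mid (a b : unitInterval) :
    ((a : ℝ) ^ 2 + (b : ℝ) ^ 2) / 2 - ((mid1 a b : unitInterval) : ℝ) ^ 2 = ((a : ℝ) - b) ^ 2 / 4 := by
  have : ((mid1 a b : unitInterval) : ℝ) = ((a : ℝ) + b) / 2 := rfl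
  rw [this]; ring

theorem d3x_lip_sq (k : Fin n) :
    LipschitzWith 2 (fun x : X n => ((x k : unitInterval) : ℝ) ^ 2) := by
  apply LipschitzWith.of_dist_le_mul
  intro x y
  have h1 : dist (x k) (y k) ≤ dist x y := dist_le_pi_dist x y k
  have h2 : dist (x k) (y k) = |((x k : unitInterval) : ℝ) - y k| := by
    rw [Subtype.dist_eq, Real.dist_eq]
  rw [Real.dist_eq]
  have h3 : ((x k : unitInterval) : ℝ) ^ 2 - ((y k : unitInterval) : ℝ) ^ 2
      = (((x k : unitInterval) : ℝ) - y k) * (((x k : unitInterval) : ℝ) + y k) := by ring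
  rw [h3, abs_mul]
  have h4 : |((x k : unitInterval) : ℝ) + y k| ≤ 2 := by
    have a1 := (x k).2.1; have a2 := (x k).2.2; have a3 := (y k).2.1; have a4 := (y k).2.2
    rw [abs_of_nonneg (by linarith)]; linarith
  have h5 : (0 : ℝ) ≤ |((x k : unitInterval) : ℝ) - y k| := abs_nonneg _
  have : ((2 : ℝ≥0) : ℝ) = 2 := rfl
  rw [this]
  calc |((x k : unitInterval) : ℝ) - y k| * |((x k : unitInterval) : ℝ) + y k|
      ≤ |((x k : unitInterval) : ℝ) - y k| * 2 := by gcongr
    _ ≤ 2 * dist x y := by rw [← h2]; linarith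

theorem d3x_lip_sum : LipschitzWith (2 * (n : ℝ≥0)) (fun x : X n => ∑ k, ((x k : unitInterval) : ℝ) ^ 2) := by
  apply LipschitzWith.of_dist_le_mul
  intro x y
  rw [Real.dist_eq, ← Finset.sum_sub_distrib]
  calc |∑ k, (((x k : unitInterval) : ℝ) ^ 2 - ((y k : unitInterval) : ℝ) ^ 2)|
      ≤ ∑ k, |((x k : unitInterval) : ℝ) ^ 2 - ((y k : unitInterval) : ℝ) ^ 2| :=
        Finset.abs_sum_le_sum_abs _ _
    _ ≤ ∑ _k : Fin n, 2 * dist x y := by
        apply Finset.sum_le_sum
        intro k _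
        have := (d3x_lip_sq k).dist_le_mul x y
        rw [Real.dist_eq] at this
        exact this
    _ = _ := by simp; ring

/-- D3: remove strong concavity and normalisation -/
theorem cx_of_cxs (n : ℕ) (h : CXs n) : CX n := by
  intro ρ G K M hanti h0 hlip hG hR
  have hρc : Continuous ρ := hlip.continuous
  have hGc : Continuous G := hG.continuous
  have hint : ∀ F : X n → ℝ, Continuous F → Integrable F := fun F hF =>
    hF.integrable_of_hasCompactSupport (HasCompactSupport.of_compactSpace F)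
  set c : ℝ := ∫ x, ρ x with hc
  have hc0 : 0 ≤ c := integral_nonneg h0
  rcases hc0.eq_or_lt with hc0 | hcpos
  · -- ρ = 0 a.e.
    have hz : ρ =ᵐ[volume] 0 := (integral_eq_zero_iff_of_nonneg h0 (hint ρ hρc)).1 hc0.symm
    have h1 : ∫ x, G x * ρ x = 0 := by
      rw [← integral_zero (X n) ℝ]
      apply integral_congr_ae
      filter_upwards [hz] with x hx
      simp only [Pi.zero_apply] at hx
      rw [hx, mul_zero]
    rw [h1, ← hc0]
    simp
  · set σ : X n → ℝ := fun x => ρ x / c with hσ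
    have hD : Dens n σ := by
      refine ⟨?_, ?_, ?_, ?_⟩
      · intro x y hxy
        exact div_le_div_of_nonneg_right (hanti hxy) hcpos.le
      · intro x; exact div_nonneg (h0 x) hcpos.le
      · refine ⟨Real.toNNReal c⁻¹ * K, ?_⟩
        apply LipschitzWith.of_dist_le_mul
        intro x y
        have := hlip.dist_le_mul x y
        rw [Real.dist_eq] at this ⊢
        have e : σ x - σ y = c⁻¹ * (ρ x - ρ y) := by simp only [hσ]; ring
        rw [e, abs_mul, abs_of_pos (inv_pos.2 hcpos)]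
        push_cast
        calc c⁻¹ * |ρ x - ρ y| ≤ c⁻¹ * (K * dist x y) := by gcongr
          _ = _ := by rw [Real.coe_toNNReal _ (inv_nonneg.2 hcpos.le)]; ring
      · rw [integral_div]; exact div_self hcpos.ne'
    set A : ℝ := ∫ x, G x * σ x with hA
    set B : ℝ := ∫ x, (∑ k, ((x k : unitInterval) : ℝ) ^ 2) * σ x with hB
    set P : ℝ := ∏ k : Fin n, (2 * ∫ x, ((x k : unitInterval) : ℝ) * σ x) with hP
    have hσc : Continuous σ := hρc.div_const c
    have hsc : Continuous (fun x : X n => ∑ k, ((x k : unitInterval) : ℝ) ^ 2) := d3x_lip_sum.continuous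
    have key : ∀ ε : ℝ, 0 < ε → (A - ε * B) * P ≤ ∫ x, max (G x) 0 := by
      intro ε hε
      have h1 := h σ (fun x => G x - ε * ∑ k, ((x k : unitInterval) : ℝ) ^ 2)
        (M + Real.toNNReal ε * (2 * (n : ℝ≥0))) (ε / 4) (by positivity) hD
        (by
          apply LipschitzWith.of_dist_le_mul
          intro x y
          have e1 := hG.dist_le_mul x y
          have e2 := (d3x_lip_sum (n := n)).dist_le_mul x y
          rw [Real.dist_eq] at e1 e2 ⊢
          have e : (G x - ε * ∑ k, ((x k : unitInterval) : ℝ) ^ 2) - (G y - ε * ∑ k, ((y k : unitInterval) : ℝ) ^ 2)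
            = (G x - G y) - ε * ((∑ k, ((x k : unitInterval) : ℝ) ^ 2) - ∑ k, ((y k : unitInterval) : ℝ) ^ 2) := by ring
          rw [e]
          refine (abs_sub _ _).trans ?_
          rw [abs_mul, abs_of_pos hε]
          push_cast at e2 ⊢
          rw [Real.coe_toNNReal _ hε.le]
          calc _ ≤ (M : ℝ) * dist x y + ε * (2 * (n : ℝ) * dist x y) := by gcongr
            _ = _ := by ring)
        (by
          intro x y
          have e1 := hR x y
          have e2 : (∑ k, ((x k : unitInterval) : ℝ) ^ 2 + ∑ k, ((y k : unitInterval) : ℝ) ^ 2) / 2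
              - ∑ k, ((mid x y k : unitInterval) : ℝ) ^ 2 = (∑ k, (((x k : unitInterval) : ℝ) - y k) ^ 2) / 4 := by
            rw [← Finset.sum_add_distrib, Finset.sum_div, Finset.sum_div, ← Finset.sum_sub_distrib]
            apply Finset.sum_congr rfl
            intro k _
            exact d3x_sq_mid (x k) (y k)
          nlinarith [e1, e2])
      have h2 : ∫ x, (G x - ε * ∑ k, ((x k : unitInterval) : ℝ) ^ 2) * σ x = A - ε * B := by
        have e : ∀ x : X n, (G x - ε * ∑ k, ((x k : unitInterval) : ℝ) ^ 2) * σ x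
          = G x * σ x - ε * ((∑ k, ((x k : unitInterval) : ℝ) ^ 2) * σ x) := by intro x; ring
        simp_rw [e]
        have i1 : Integrable (fun x : X n => G x * σ x) := hint _ (hGc.mul hσc)
        have i2 : Integrable (fun x : X n => ε * ((∑ k, ((x k : unitInterval) : ℝ) ^ 2) * σ x)) :=
          (hint _ (hsc.mul hσc)).const_mul ε
        rw [integral_sub i1 i2, integral_const_mul]
      rw [h2] at h1
      refine h1.trans ?_
      apply integral_mono
      · apply hint; exact ((hGc.sub (hsc.const_mul ε)).max continuous_const)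
      · apply hint; exact (hGc.max continuous_const)
      · intro x
        have : 0 ≤ ε * ∑ k, ((x k : unitInterval) : ℝ) ^ 2 := by positivity
        exact max_le_max (by linarith) le_rfl
    have key2 : A * P ≤ ∫ x, max (G x) 0 := by
      by_contra hcon
      push Not at hcon
      set δ := A * P - ∫ x, max (G x) 0 with hδ
      have hδpos : 0 < δ := by rw [hδ]; linarith
      have h3 := key (δ / (2 * (|B * P| + 1))) (by positivity)
      have h4 : δ / (2 * (|B * P| + 1)) * (B * P) ≤ δ / 2 := by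
        rw [div_mul_eq_mul_div, div_le_div_iff₀ (by positivity) (by norm_num)]
        have := le_abs_self (B * P)
        nlinarith
      nlinarith
    -- unnormalise
    have hA' : ∫ x, G x * ρ x = c * A := by
      rw [hA, ← integral_const_mul]
      apply integral_congr_ae
      refine Filter.Eventually.of_forall (fun x => ?_)
      simp only [hσ]
      field_simp
    have hP' : ∏ k : Fin n, (2 * ∫ x, ((x k : unitInterval) : ℝ) * ρ x) = c ^ n * P := by
      have e0 : c ^ n = ∏ _k : Fin n, c := by simp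
      rw [hP, e0, ← Finset.prod_mul_distrib]
      apply Finset.prod_congr rfl
      intro k _
      have : ∫ x : X n, ((x k : unitInterval) : ℝ) * ρ x = c * ∫ x : X n, ((x k : unitInterval) : ℝ) * σ x := by
        rw [← integral_const_mul]
        apply integral_congr_ae
        refine Filter.Eventually.of_forall (fun x => ?_)
        simp only [hσ]
        field_simp
      rw [this]; ring
    rw [hA', hP']
    calc c * A * (c ^ n * P) = c ^ (n + 1) * (A * P) := by ring
      _ ≤ _ := by gcongr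

end Vale.Agent.P254.Unc
end
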