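import Mathlib
import Vale.Agent.P254.Bdl.B1
import Vale.Agent.P254.Bdl.B5
import Vale.Agent.P254.Bdl.B7
import Vale.Agent.P254.Bdl.B4

set_option linter.all false

section

/-! P227, block Lap/LL: `logLap W` is smooth; line derivatives
of order 1, 2, 3 are mean, variance and third central moment of the tilted measure. -/

set_option linter.all false
set_option autoImplicit false

open MeasureTheory Filter Topology

namespace Vale.Agent.P227.M.Lap

universe u

section abstractBound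

variable {E : Type*} [NormedAddCommGroup E] [NormedSpace ℝ E] [MeasurableSpace E] [BorelSpace E]
  [SecondCountableTopology E]
variable {E' : Type u} [NormedAddCommGroup E'] [NormedSpace ℝ E']

theorem norm_lap_le {G : Type u} [NormedAddCommGroup G] [NormedSpace ℝ G] {μ : Measure E}
    (B : E →L[ℝ] E' →L[ℝ] ℝ) {g : E → G} {ρ : E → ℝ} {y : E'}
    (hle : ∀ x, ‖g x‖ ≤ ρ x) (hi : Integrable (fun x => Real.exp (B x y) * ρ x) μ) :
    ‖lap B μ g y‖ ≤ ∫ x, Real.exp (B x y) * ρ x ∂μ := by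
  unfold lap
  refine norm_integral_le_of_norm_le hi (Eventually.of_forall fun x => ?_)
  rw [norm_smul, Real.norm_of_nonneg (Real.exp_pos _).le]
  exact mul_le_mul_of_nonneg_left (hle x) (Real.exp_pos _).le

theorem norm_iteratedFDeriv_lap_le {μ : Measure E} (B : E →L[ℝ] E' →L[ℝ] ℝ) (ρ : E → ℝ) (y : E')
    (hi : ∀ k : ℕ, Integrable (fun x => Real.exp (B x y) * ((‖B‖ * ‖x‖) ^ k * ρ x)) μ) (i : ℕ) :
    ∀ {G : Type u} [NormedAddCommGroup G] [NormedSpace ℝ G] {g : E → G} (m : ℕ), Expo μ g →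
      (∀ x, ‖g x‖ ≤ (‖B‖ * ‖x‖) ^ m * ρ x) →
      ‖iteratedFDeriv ℝ i (lap B μ g) y‖ ≤
        ∫ x, Real.exp (B x y) * ((‖B‖ * ‖x‖) ^ (m + i) * ρ x) ∂μ := by
  induction i with
  | zero =>
    intro G _ _ g m hg hle
    rw [norm_iteratedFDeriv_zero]
    exact norm_lap_le B hle (hi m)
  | succ i ih =>
    intro G _ _ g m hg hle
    rw [← norm_iteratedFDeriv_fderiv, show fderiv ℝ (lap B μ g) = lap B μ (fun x => (B x).smulRight (g x))
      from funext fun y => (hasFDerivAt_lap hg B y).fderiv]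
    have := ih (g := fun x => (B x).smulRight (g x)) (m + 1) (hg.smulRight B) (fun x => by
      rw [ContinuousLinearMap.norm_smulRight_apply]
      calc ‖B x‖ * ‖g x‖ ≤ (‖B‖ * ‖x‖) * ((‖B‖ * ‖x‖) ^ m * ρ x) := by
            gcongr
            · exact B.le_opNorm x
            · exact hle x
        _ = _ := by ring)
    rw [show m + (i + 1) = m + 1 + i by ring]
    exact this

end abstractBound

/-- all derivatives of `log` up to order `k` are bounded on compact subsets of `(0,∞)` -/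
theorem log_deriv_bound (k : ℕ) (a b : ℝ) (ha : 0 < a) :
    ∃ C : ℝ, ∀ i ≤ k, ∀ r ∈ Set.Icc a b, ‖iteratedFDerivWithin ℝ i Real.log (Set.Ioi 0) r‖ ≤ C := by
  have hc : ContDiffOn ℝ (⊤ : ℕ∞) Real.log (Set.Ioi 0) := fun x hx =>
    ((Real.contDiffAt_log (n := ((⊤ : ℕ∞) : WithTop ℕ∞))).2 (ne_of_gt hx)).contDiffWithinAt
  have h1 : ∀ i : ℕ, ∃ C : ℝ, ∀ r ∈ Set.Icc a b,
      ‖iteratedFDerivWithin ℝ i Real.log (Set.Ioi 0) r‖ ≤ C := by
    intro i
    have h2 : ContinuousOn (fun r => iteratedFDerivWithin ℝ i Real.log (Set.Ioi 0) r) (Set.Ioi 0) :=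
      hc.continuousOn_iteratedFDerivWithin (by exact_mod_cast le_top) (uniqueDiffOn_Ioi 0)
    have h3 : ContinuousOn (fun r => ‖iteratedFDerivWithin ℝ i Real.log (Set.Ioi 0) r‖) (Set.Icc a b) :=
      (h2.mono fun r hr => lt_of_lt_of_le ha hr.1).norm
    obtain ⟨C, hC⟩ := (isCompact_Icc (a := a) (b := b)).exists_bound_of_continuousOn h3
    refine ⟨C, fun r hr => ?_⟩
    have := hC r hr
    rwa [norm_norm] at this
  choose C hC using h1
  refine ⟨∑ i ∈ Finset.range (k + 1), |C i|, fun i hi r hr => ?_⟩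
  calc _ ≤ C i := hC i r hr
    _ ≤ |C i| := le_abs_self _
    _ ≤ _ := Finset.single_le_sum (f := fun i => |C i|) (fun j _ => abs_nonneg _)
      (Finset.mem_range.2 (by omega))

/-- Hessian form: `qf (hess W x) v = D²W(x)(v,v)` -/
theorem qf_hess {n : ℕ} {W : E n → ℝ} (hW : ContDiff ℝ 2 W) (x v : E n) :
    qf (hess W x) v = fderiv ℝ (fderiv ℝ W) x v v := by
  have hd : Differentiable ℝ (fderiv ℝ W) := (hW.fderiv_right (m := 1) (by norm_num)).differentiable (by norm_num)
  have hv : v = ∑ i, v i • (ei i : E n) := by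
    have := ((EuclideanSpace.basisFun (Fin n) ℝ).sum_repr v).symm
    simpa [ei, EuclideanSpace.basisFun_apply, EuclideanSpace.basisFun_repr] using this
  have h1 : ∀ i j, hess W x i j = fderiv ℝ (fderiv ℝ W) x (ei i) (ei j) := by
    intro i j
    unfold hess pd
    have : (fun x => fderiv ℝ W x (ei j)) = fun x => (ContinuousLinearMap.apply ℝ ℝ (ei j : E n)) (fderiv ℝ W x) := rfl
    rw [this, fderiv_comp' x (ContinuousLinearMap.differentiableAt _) (hd x)]
    simp
  have h2 : fderiv ℝ (fderiv ℝ W) x v v = ∑ i, ∑ j, v i * (v j * fderiv ℝ (fderiv ℝ W) x (ei i) (ei j)) := by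
    conv_lhs => rw [hv]
    simp only [map_sum, map_smul, ContinuousLinearMap.sum_apply, ContinuousLinearMap.smul_apply,
      smul_eq_mul, Finset.mul_sum]
    rw [Finset.sum_comm]
    refine Finset.sum_congr rfl fun i _ => Finset.sum_congr rfl fun j _ => ?_
    ring
  rw [h2]
  unfold qf
  refine Finset.sum_congr rfl fun i _ => Finset.sum_congr rfl fun j _ => ?_
  rw [h1]; ring

/-- second order bounds along lines -/
theorem taylor_bounds {n : ℕ} {W : E n → ℝ} {c C : ℝ} (h : Reg W c C) (x z : E n) :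
    c / 2 * ‖z‖ ^ 2 ≤ W (x + z) - W x - fderiv ℝ W x z ∧
      W (x + z) - W x - fderiv ℝ W x z ≤ C / 2 * ‖z‖ ^ 2 := by
  have hW2 : ContDiff ℝ 2 W := h.smooth.of_le (WithTop.coe_le_coe.2 (le_top : (2 : ℕ∞) ≤ ⊤))
  have hd : Differentiable ℝ W := hW2.differentiable (by norm_num)
  have hd2 : Differentiable ℝ (fderiv ℝ W) := (hW2.fderiv_right (m := 1) (by norm_num)).differentiable (by norm_num)
  have hl : ∀ t : ℝ, HasDerivAt (fun t : ℝ => x + t • z) z t := fun t => by
    simpa using ((hasDerivAt_id t).smul_const z).const_add x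
  have d1 : ∀ t : ℝ, HasDerivAt (fun t : ℝ => W (x + t • z)) (fderiv ℝ W (x + t • z) z) t := fun t =>
    (hd (x + t • z)).hasFDerivAt.comp_hasDerivAt t (hl t)
  have d2 : ∀ t : ℝ, HasDerivAt (fun t : ℝ => fderiv ℝ W (x + t • z) z)
      (fderiv ℝ (fderiv ℝ W) (x + t • z) z z) t := fun t => by
    have := (hd2 (x + t • z)).hasFDerivAt.comp_hasDerivAt t (hl t)
    exact ((ContinuousLinearMap.apply ℝ ℝ z).hasFDerivAt (x := fderiv ℝ W (x + t • z))).comp_hasDerivAt t this
  -- monotonicity of `t ↦ W (x + t z) - t D W z - (c/2) t² |z|²` etc.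
  have key : ∀ (a : ℝ) (s : ℝ), (∀ t : ℝ, 0 ≤ s * (fderiv ℝ (fderiv ℝ W) (x + t • z) z z - a)) →
      0 ≤ s * (W (x + z) - W x - fderiv ℝ W x z - a / 2) := by
    intro a s hs
    -- first derivative
    have m1 : Monotone (fun t : ℝ => s * (fderiv ℝ W (x + t • z) z - a * t)) := by
      apply monotone_of_deriv_nonneg
      · exact fun t => (((d2 t).sub ((hasDerivAt_id t).const_mul a)).const_mul s).differentiableAt
      · intro t
        have := (((d2 t).sub ((hasDerivAt_id t).const_mul a)).const_mul s).deriv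
        simp only [mul_one, id] at this
        have e : deriv (fun t : ℝ => s * (fderiv ℝ W (x + t • z) z - a * t)) t
          = s * (fderiv ℝ (fderiv ℝ W) (x + t • z) z z - a) := this
        rw [e]; exact hs t
    have m2 : MonotoneOn (fun t : ℝ => s * (W (x + t • z) - t * fderiv ℝ W x z - a / 2 * t ^ 2)) (Set.Icc 0 1) := by
      have hD : ∀ t : ℝ, HasDerivAt (fun t : ℝ => s * (W (x + t • z) - t * fderiv ℝ W x z - a / 2 * t ^ 2))
          (s * (fderiv ℝ W (x + t • z) z - a * t) - s * (fderiv ℝ W x z)) t := by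
        intro t
        have h3 := ((((d1 t).sub ((hasDerivAt_id t).mul_const (fderiv ℝ W x z))).sub
          (((hasDerivAt_id t).pow 2).const_mul (a / 2))).const_mul s)
        refine HasDerivAt.congr_deriv h3 ?_
        simp
        ring
      apply monotoneOn_of_deriv_nonneg (convex_Icc 0 1)
      · exact fun t _ => (hD t).continuousAt.continuousWithinAt
      · exact fun t _ => (hD t).differentiableAt.differentiableWithinAt
      · intro t ht
        rw [interior_Icc] at ht
        rw [(hD t).deriv]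
        have := m1 ht.1.le
        simp only [zero_smul, add_zero, mul_zero, sub_zero] at this
        linarith
    have := m2 (Set.left_mem_Icc.2 zero_le_one) (Set.right_mem_Icc.2 zero_le_one) zero_le_one
    simp only [zero_smul, add_zero, one_smul] at this
    nlinarith [this]
  have q := fun t : ℝ => qf_hess hW2 (x + t • z) z
  constructor
  · have := key (c * ‖z‖ ^ 2) 1 (fun t => by
      have := h.lower (x + t • z) z
      rw [q t] at this
      linarith)
    linarith
  · have := key (C * ‖z‖ ^ 2) (-1) (fun t => by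
      have := h.upper (x + t • z) z
      rw [q t] at this
      linarith)
    linarith

/-- the pairing -/
noncomputable abbrev BB (n : ℕ) : E n →L[ℝ] E n →L[ℝ] ℝ := innerSL ℝ

theorem BB_apply {n : ℕ} (x y : E n) : (BB n) x y = inner ℝ x y := rfl

theorem integrable_gauss {n : ℕ} {c : ℝ} (hc : 0 < c) (R : ℝ) :
    Integrable (fun x : E n => Real.exp (R * ‖x‖) * Real.exp (-(c / 2 * ‖x‖ ^ 2))) volume := by
  have h1 : Integrable (fun x : E n => Real.exp (-(c / 4) * ‖x‖ ^ 2)) volume := by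
    have := (GaussianFourier.integrable_cexp_neg_mul_sq_norm_add (V := E n) (b := ((c / 4 : ℝ) : ℂ))
      (by simpa using (by positivity : (0:ℝ) < c / 4)) 0 0).norm
    refine this.congr (Eventually.of_forall fun x => ?_)
    simp [Complex.norm_exp, ← Complex.ofReal_pow, ← Complex.ofReal_mul, ← Complex.ofReal_neg]
  refine Integrable.mono' (h1.const_mul (Real.exp (R ^ 2 / c))) (by fun_prop) ?_
  refine Eventually.of_forall fun x => ?_
  rw [Real.norm_of_nonneg (by positivity), ← Real.exp_add, ← Real.exp_add]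
  apply Real.exp_le_exp.2
  have : 0 ≤ (R - c / 2 * ‖x‖) ^ 2 / c := by positivity
  have e : (R - c / 2 * ‖x‖) ^ 2 / c = R ^ 2 / c - R * ‖x‖ + c / 4 * ‖x‖ ^ 2 := by
    field_simp; ring
  nlinarith

theorem expo_of_le {n : ℕ} {c : ℝ} (hc : 0 < c) {g : E n → ℝ} (hg : Continuous g) (K R0 : ℝ)
    (hle : ∀ x, |g x| ≤ K * (Real.exp (R0 * ‖x‖) * Real.exp (-(c / 2 * ‖x‖ ^ 2)))) :
    Expo volume g := by
  refine ⟨hg.aestronglyMeasurable, fun R => ?_⟩
  refine Integrable.mono' ((integrable_gauss hc (R + R0)).const_mul K) (by fun_prop) ?_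
  refine Eventually.of_forall fun x => ?_
  rw [Real.norm_of_nonneg (by positivity), Real.norm_eq_abs, add_mul, Real.exp_add]
  calc Real.exp (R * ‖x‖) * |g x|
      ≤ Real.exp (R * ‖x‖) * (K * (Real.exp (R0 * ‖x‖) * Real.exp (-(c / 2 * ‖x‖ ^ 2)))) :=
        mul_le_mul_of_nonneg_left (hle x) (Real.exp_pos _).le
    _ = _ := by ring

/-- `exp (-W)` has all exponential moments -/
theorem expo_exp_neg {n : ℕ} {W : E n → ℝ} {c C : ℝ} (h : Reg W c C) :
    Expo volume (fun x => Real.exp (-W x)) := by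
  have hcont : Continuous W := h.smooth.continuous
  refine expo_of_le h.c_pos (by fun_prop) (Real.exp (-W 0)) ‖fderiv ℝ W 0‖ fun x => ?_
  rw [abs_of_pos (Real.exp_pos _), ← Real.exp_add, ← Real.exp_add]
  apply Real.exp_le_exp.2
  have h1 := (taylor_bounds h 0 x).1
  rw [zero_add] at h1
  have h2 : |fderiv ℝ W 0 x| ≤ ‖fderiv ℝ W 0‖ * ‖x‖ := by
    simpa using (fderiv ℝ W 0).le_opNorm x
  have h3 := neg_abs_le (fderiv ℝ W 0 x)
  linarith

theorem logLap_eq {n : ℕ} (W : E n → ℝ) (y : E n) :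
    logLap W y = Real.log (lap (BB n) volume (fun x => Real.exp (-W x)) y) := by
  unfold logLap lap
  congr 1
  refine integral_congr_ae (Eventually.of_forall fun x => ?_)
  simp only [smul_eq_mul, BB_apply]
  rw [← Real.exp_add, sub_eq_add_neg]

theorem lap_exp_pos {n : ℕ} {W : E n → ℝ} {c C : ℝ} (h : Reg W c C) (y : E n) :
    0 < lap (BB n) volume (fun x => Real.exp (-W x)) y := by
  refine lap_pos (expo_exp_neg h) (fun x => (Real.exp_pos _).le) ?_ y
  have : {x : E n | Real.exp (-W x) ≠ 0} = Set.univ := by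
    ext x; simp [(Real.exp_pos _).ne']
  rw [this]
  exact (Measure.measure_univ_ne_zero).2 (NeZero.ne _)

theorem contDiff_logLap {n : ℕ} {W : E n → ℝ} {c C : ℝ} (h : Reg W c C) :
    ContDiff ℝ (⊤ : ℕ∞) (logLap W) := by
  rw [funext (logLap_eq W)]
  exact contDiff_log_lap (expo_exp_neg h) (lap_exp_pos h)

/-- mean of `⟨x, v⟩` under `exp (⟨x,y⟩ - W x)` -/
noncomputable def tmean {n : ℕ} (W : E n → ℝ) (y v : E n) : ℝ :=
  (∫ x : E n, inner ℝ x v * Real.exp (inner ℝ x y - W x)) / ∫ x : E n, Real.exp (inner ℝ x y - W x)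

/-- `j`-th central moment of `⟨x, v⟩` under `exp (⟨x,y⟩ - W x)` -/
noncomputable def tmom {n : ℕ} (W : E n → ℝ) (y v : E n) (j : ℕ) : ℝ :=
  (∫ x : E n, (inner ℝ x v - tmean W y v) ^ j * Real.exp (inner ℝ x y - W x)) /
    ∫ x : E n, Real.exp (inner ℝ x y - W x)

theorem mean_eq {n : ℕ} (W : E n → ℝ) (y v : E n) :
    mean (BB n) volume (fun x => Real.exp (-W x)) v y = tmean W y v := by
  unfold mean tmean lap
  simp only [smul_eq_mul, BB_apply, sub_eq_add_neg, Real.exp_add]
  congr 1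
  refine integral_congr_ae (Eventually.of_forall fun x => ?_)
  simp only
  ring

theorem cmom_eq {n : ℕ} (W : E n → ℝ) (y v : E n) (j : ℕ) :
    cmom (BB n) volume (fun x => Real.exp (-W x)) v y j = tmom W y v j := by
  unfold cmom tmom
  rw [mean_eq]
  unfold lap
  simp only [smul_eq_mul, BB_apply, sub_eq_add_neg, Real.exp_add]
  congr 1
  refine integral_congr_ae (Eventually.of_forall fun x => ?_)
  simp only
  ring

theorem hasDerivAt_logLap {n : ℕ} {W : E n → ℝ} {c C : ℝ} (h : Reg W c C) (y v : E n) (t : ℝ) :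
    HasDerivAt (fun t : ℝ => logLap W (y + t • v)) (tmean W (y + t • v) v) t := by
  have := hasDerivAt_log (expo_exp_neg h) (lap_exp_pos h) y v t
  rw [mean_eq] at this
  simpa only [logLap_eq] using this

theorem hasDerivAt_tmean {n : ℕ} {W : E n → ℝ} {c C : ℝ} (h : Reg W c C) (y v : E n) (t : ℝ) :
    HasDerivAt (fun t : ℝ => tmean W (y + t • v) v) (tmom W (y + t • v) v 2) t := by
  have := hasDerivAt_mean (expo_exp_neg h) (lap_exp_pos h) y v t
  simpa only [mean_eq, cmom_eq] using this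

theorem hasDerivAt_tmom_two {n : ℕ} {W : E n → ℝ} {c C : ℝ} (h : Reg W c C) (y v : E n) (t : ℝ) :
    HasDerivAt (fun t : ℝ => tmom W (y + t • v) v 2) (tmom W (y + t • v) v 3) t := by
  have := hasDerivAt_cmom_two (expo_exp_neg h) (lap_exp_pos h) y v t
  simpa only [cmom_eq] using this

/-- (LD) second line derivative = variance -/
theorem iteratedDeriv_two_logLap {n : ℕ} {W : E n → ℝ} {c C : ℝ} (h : Reg W c C) (y v : E n) (t : ℝ) :
    iteratedDeriv 2 (fun t : ℝ => logLap W (y + t • v)) t = tmom W (y + t • v) v 2 := by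
  rw [iteratedDeriv_succ', show deriv (fun t : ℝ => logLap W (y + t • v)) = fun t : ℝ => tmean W (y + t • v) v
    from funext fun t => (hasDerivAt_logLap h y v t).deriv, iteratedDeriv_one]
  exact (hasDerivAt_tmean h y v t).deriv

/-- (LD) third line derivative = third central moment -/
theorem iteratedDeriv_three_logLap {n : ℕ} {W : E n → ℝ} {c C : ℝ} (h : Reg W c C) (y v : E n) (t : ℝ) :
    iteratedDeriv 3 (fun t : ℝ => logLap W (y + t • v)) t = tmom W (y + t • v) v 3 := by
  rw [iteratedDeriv_succ', show deriv (fun t : ℝ => logLap W (y + t • v)) = fun t : ℝ => tmean W (y + t • v) v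
    from funext fun t => (hasDerivAt_logLap h y v t).deriv, iteratedDeriv_succ',
    show deriv (fun t : ℝ => tmean W (y + t • v) v) = fun t : ℝ => tmom W (y + t • v) v 2
    from funext fun t => (hasDerivAt_tmean h y v t).deriv, iteratedDeriv_one]
  exact (hasDerivAt_tmom_two h y v t).deriv

end Vale.Agent.P227.M.Lap
end

section

/-! P227, block Lap/LL: the derivatives of `logLap W` of order `≥ 2` are bounded. -/

set_option linter.all false
set_option autoImplicit false

open MeasureTheory Filter Topology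

namespace Vale.Agent.P227.M.Lap

/-- the gradient is onto -/
theorem exists_grad {n : ℕ} {W : E n → ℝ} {c C : ℝ} (h : Reg W c C) (y : E n) :
    ∃ x0 : E n, ∀ z, fderiv ℝ W x0 z = inner ℝ z y := by
  have hcont : Continuous W := h.smooth.continuous
  have hd : Differentiable ℝ W := h.smooth.differentiable (by simp)
  set R := ‖fderiv ℝ W 0‖ + ‖y‖ with hR
  have hc := h.c_pos
  have hlim : Tendsto (fun x : E n => W x - (innerSL ℝ y) x) (cocompact (E n)) atTop := by
    have h1 : Tendsto (fun t : ℝ => t * (c / 2 * t - R) + W 0) atTop atTop := by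
      apply tendsto_atTop_add_const_right
      apply Tendsto.atTop_mul_atTop₀ tendsto_id
      apply tendsto_atTop_add_const_right
      exact tendsto_id.const_mul_atTop (by positivity)
    refine tendsto_atTop_mono (fun x => ?_) (h1.comp (tendsto_norm_cocompact_atTop (E := E n)))
    have h2 := (taylor_bounds h 0 x).1
    rw [zero_add] at h2
    have h3 : |fderiv ℝ W 0 x| ≤ ‖fderiv ℝ W 0‖ * ‖x‖ := by
      simpa using (fderiv ℝ W 0).le_opNorm x
    have h4 : |(innerSL ℝ y) x| ≤ ‖y‖ * ‖x‖ := by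
      simpa using abs_real_inner_le_norm y x
    have h5 := neg_abs_le (fderiv ℝ W 0 x)
    have h6 := le_abs_self ((innerSL ℝ y) x)
    simp only [Function.comp]
    nlinarith
  obtain ⟨x0, hx0⟩ := (hcont.sub (innerSL ℝ y).continuous).exists_forall_le hlim
  refine ⟨x0, fun z => ?_⟩
  have hmin : IsLocalMin (fun x : E n => W x - (innerSL ℝ y) x) x0 :=
    Eventually.of_forall fun x => hx0 x
  have hf : HasFDerivAt (fun x : E n => W x - (innerSL ℝ y) x) (fderiv ℝ W x0 - innerSL ℝ y) x0 :=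
    (hd x0).hasFDerivAt.sub (innerSL ℝ y).hasFDerivAt
  have := hmin.fderiv_eq_zero
  rw [hf.fderiv, sub_eq_zero] at this
  rw [this, innerSL_apply_apply, real_inner_comm]

/-- the density seen from the minimiser -/
noncomputable def gsh {n : ℕ} (W : E n → ℝ) (x0 y z : E n) : ℝ :=
  Real.exp (-(W (x0 + z) - W x0 - inner ℝ z y))

theorem gsh_pos {n : ℕ} (W : E n → ℝ) (x0 y z : E n) : 0 < gsh W x0 y z := Real.exp_pos _

theorem gsh_le {n : ℕ} {W : E n → ℝ} {c C : ℝ} (h : Reg W c C) {x0 y : E n}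
    (h0 : ∀ z, fderiv ℝ W x0 z = inner ℝ z y) (z : E n) :
    gsh W x0 y z ≤ Real.exp (-(c / 2 * ‖z‖ ^ 2)) := by
  apply Real.exp_le_exp.2
  have := (taylor_bounds h x0 z).1
  rw [h0] at this
  linarith

theorem le_gsh {n : ℕ} {W : E n → ℝ} {c C : ℝ} (h : Reg W c C) {x0 y : E n}
    (h0 : ∀ z, fderiv ℝ W x0 z = inner ℝ z y) (z : E n) :
    Real.exp (-(C / 2 * ‖z‖ ^ 2)) ≤ gsh W x0 y z := by
  apply Real.exp_le_exp.2
  have := (taylor_bounds h x0 z).2
  rw [h0] at this
  linarith

theorem continuous_gsh {n : ℕ} {W : E n → ℝ} {c C : ℝ} (h : Reg W c C) (x0 y : E n) :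
    Continuous (gsh W x0 y) := by
  have hcont : Continuous W := h.smooth.continuous
  unfold gsh
  fun_prop

theorem expo_gsh {n : ℕ} {W : E n → ℝ} {c C : ℝ} (h : Reg W c C) {x0 y : E n}
    (h0 : ∀ z, fderiv ℝ W x0 z = inner ℝ z y) : Expo volume (gsh W x0 y) := by
  refine expo_of_le h.c_pos (continuous_gsh h x0 y) 1 0 fun z => ?_
  rw [abs_of_pos (gsh_pos W x0 y z)]
  simpa using gsh_le h h0 z

theorem lap_gsh_pos {n : ℕ} {W : E n → ℝ} {c C : ℝ} (h : Reg W c C) {x0 y : E n}
    (h0 : ∀ z, fderiv ℝ W x0 z = inner ℝ z y) (t : E n) : 0 < lap (BB n) volume (gsh W x0 y) t := by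
  refine lap_pos (expo_gsh h h0) (fun x => (Real.exp_pos _).le) ?_ t
  have : {x : E n | gsh W x0 y x ≠ 0} = Set.univ := by
    ext x; simp [gsh, (Real.exp_pos _).ne']
  rw [this]
  exact (Measure.measure_univ_ne_zero).2 (NeZero.ne _)

theorem logLap_shift {n : ℕ} {W : E n → ℝ} {c C : ℝ} (h : Reg W c C) {x0 y : E n}
    (h0 : ∀ z, fderiv ℝ W x0 z = inner ℝ z y) (t : E n) :
    logLap W (y + t) = (inner ℝ x0 y - W x0) + inner ℝ x0 t
      + Real.log (lap (BB n) volume (gsh W x0 y) t) := by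
  have e : ∫ x, Real.exp (inner ℝ x (y + t) - W x)
      = Real.exp ((inner ℝ x0 y - W x0) + inner ℝ x0 t) * lap (BB n) volume (gsh W x0 y) t := by
    rw [← integral_add_left_eq_self (μ := (volume : Measure (E n)))
      (fun x => Real.exp (inner ℝ x (y + t) - W x)) x0]
    unfold lap
    rw [← integral_const_mul]
    refine integral_congr_ae (Eventually.of_forall fun z => ?_)
    simp only [gsh, smul_eq_mul, BB_apply]
    rw [← Real.exp_add, ← Real.exp_add]
    congr 1
    simp only [inner_add_left, inner_add_right]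
    ring
  unfold logLap
  rw [e, Real.log_mul (Real.exp_pos _).ne' (lap_gsh_pos h h0 t).ne', Real.log_exp]

theorem norm_iteratedFDeriv_add_affine {n : ℕ} {f : E n → ℝ} (hf : ContDiff ℝ (⊤ : ℕ∞) f)
    (a : ℝ) (w : E n) (m : ℕ) (t : E n) :
    ‖iteratedFDeriv ℝ (m + 2) (fun t => a + inner ℝ w t + f t) t‖ = ‖iteratedFDeriv ℝ (m + 2) f t‖ := by
  have hd : Differentiable ℝ f := hf.differentiable (by simp)
  rw [← norm_iteratedFDeriv_fderiv, ← norm_iteratedFDeriv_fderiv (n := m + 1),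
    ← norm_iteratedFDeriv_fderiv, ← norm_iteratedFDeriv_fderiv (n := m)]
  have e : fderiv ℝ (fun t => a + inner ℝ w t + f t) = fun t => innerSL ℝ w + fderiv ℝ f t := by
    funext t
    have h1 : HasFDerivAt (fun t : E n => a + (innerSL ℝ w) t + f t) (innerSL ℝ w + fderiv ℝ f t) t :=
      ((innerSL ℝ w).hasFDerivAt.const_add a).add (hd t).hasFDerivAt
    exact h1.fderiv
  rw [e]
  have e2 : fderiv ℝ (fun t => innerSL ℝ w + fderiv ℝ f t) = fderiv ℝ (fderiv ℝ f) := by
    funext t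
    exact fderiv_const_add _
  rw [e2]

/-- derivatives of order `≥ 2` of `logLap W` are bounded -/
theorem logLap_bdd {n : ℕ} {W : E n → ℝ} {c C : ℝ} (h : Reg W c C) :
    ∀ k : ℕ, 2 ≤ k → ∃ B : ℝ, ∀ y, ‖iteratedFDeriv ℝ k (logLap W) y‖ ≤ B := by
  intro k hk
  set A : ℕ → ℝ := fun i => ∫ x : E n, (‖BB n‖ * ‖x‖) ^ i * Real.exp (-(c / 2 * ‖x‖ ^ 2)) with hA
  -- integrability of the moments
  have hint : ∀ i : ℕ, Integrable (fun x : E n => (‖BB n‖ * ‖x‖) ^ i * Real.exp (-(c / 2 * ‖x‖ ^ 2))) volume := by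
    intro i
    refine Integrable.mono' ((integrable_gauss h.c_pos (i : ℝ)).const_mul (‖BB n‖ ^ i)) (by fun_prop) ?_
    refine Eventually.of_forall fun x => ?_
    rw [Real.norm_of_nonneg (by positivity), mul_pow, mul_assoc]
    have h1 : ‖x‖ ^ i ≤ Real.exp ((i : ℝ) * ‖x‖) := by
      rw [Real.exp_nat_mul]
      exact pow_le_pow_left₀ (norm_nonneg _) (by linarith [Real.add_one_le_exp ‖x‖]) i
    gcongr
  -- bounds of the total mass
  set Zl : ℝ := ∫ x : E n, min (Real.exp (-(C / 2 * ‖x‖ ^ 2))) (Real.exp (-(c / 2 * ‖x‖ ^ 2))) with hZl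
  have hintm : Integrable (fun x : E n => min (Real.exp (-(C / 2 * ‖x‖ ^ 2))) (Real.exp (-(c / 2 * ‖x‖ ^ 2)))) volume := by
    refine Integrable.mono' (hint 0) (by fun_prop) (Eventually.of_forall fun x => ?_)
    rw [Real.norm_of_nonneg (by positivity)]
    simpa using min_le_right _ _
  have hZlpos : 0 < Zl := by
    rw [hZl, integral_pos_iff_support_of_nonneg (fun x => by positivity) hintm]
    have : Function.support (fun x : E n => min (Real.exp (-(C / 2 * ‖x‖ ^ 2))) (Real.exp (-(c / 2 * ‖x‖ ^ 2)))) = Set.univ := by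
      ext x
      simp only [Function.mem_support, Set.mem_univ, iff_true]
      exact (lt_min (Real.exp_pos _) (Real.exp_pos _)).ne'
    rw [this]
    exact pos_iff_ne_zero.2 ((Measure.measure_univ_ne_zero).2 (NeZero.ne _))
  obtain ⟨K, hK⟩ := log_deriv_bound k Zl (A 0) hZlpos
  set D : ℝ := 1 + ∑ i ∈ Finset.range (k + 1), |A i| with hD
  have hD1 : 1 ≤ D := by
    have : 0 ≤ ∑ i ∈ Finset.range (k + 1), |A i| := Finset.sum_nonneg fun i _ => abs_nonneg _
    linarith
  refine ⟨(k.factorial : ℝ) * K * D ^ k, fun y => ?_⟩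
  obtain ⟨x0, h0⟩ := exists_grad h y
  have hexpo := expo_gsh h h0
  have hF : ContDiff ℝ (⊤ : ℕ∞) (lap (BB n) volume (gsh W x0 y)) := contDiff_lap (BB n) hexpo
  have hpos := lap_gsh_pos h h0
  -- the value at 0
  have hval : lap (BB n) volume (gsh W x0 y) 0 = ∫ z, gsh W x0 y z := by
    unfold lap
    simp
  have hgi : Integrable (gsh W x0 y) volume := by
    have := integrable_lap hexpo (BB n) (0 : E n)
    simpa using this
  have hv1 : Zl ≤ lap (BB n) volume (gsh W x0 y) 0 := by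
    rw [hval]
    exact integral_mono hintm hgi fun z => (min_le_left _ _).trans (le_gsh h h0 z)
  have hv2 : lap (BB n) volume (gsh W x0 y) 0 ≤ A 0 := by
    rw [hval, hA]
    refine integral_mono hgi (hint 0) fun z => ?_
    simpa using gsh_le h h0 z
  -- derivative bounds at 0
  have hder : ∀ i, 1 ≤ i → i ≤ k → ‖iteratedFDeriv ℝ i (lap (BB n) volume (gsh W x0 y)) 0‖ ≤ D ^ i := by
    intro i hi1 hik
    have h1 := norm_iteratedFDeriv_lap_le (μ := (volume : Measure (E n))) (BB n)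
      (fun x : E n => Real.exp (-(c / 2 * ‖x‖ ^ 2))) (0 : E n)
      (fun j => by simpa using hint j) i (g := gsh W x0 y) 0 hexpo
      (fun x => by
        rw [pow_zero, one_mul, Real.norm_of_nonneg (gsh_pos W x0 y x).le]
        exact gsh_le h h0 x)
    have h2 : (∫ x : E n, Real.exp ((BB n) x 0) * ((‖BB n‖ * ‖x‖) ^ (0 + i) * Real.exp (-(c / 2 * ‖x‖ ^ 2)))) = A i := by
      rw [hA]; simp
    rw [h2] at h1
    have h3 : A i ≤ D := by
      have := Finset.single_le_sum (f := fun i => |A i|) (s := Finset.range (k + 1))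
        (fun j _ => abs_nonneg _) (Finset.mem_range.2 (Nat.lt_succ_of_le hik))
      have h4 := le_abs_self (A i)
      linarith
    exact h1.trans (h3.trans (le_self_pow₀ hD1 (by omega)))
  -- composition with `log`
  have hcomp : ‖iteratedFDeriv ℝ k (fun t => Real.log (lap (BB n) volume (gsh W x0 y) t)) 0‖
      ≤ (k.factorial : ℝ) * K * D ^ k := by
    rw [← iteratedFDerivWithin_univ]
    have hlog : ContDiffOn ℝ (⊤ : ℕ∞) Real.log (Set.Ioi 0) := fun x hx =>
      ((Real.contDiffAt_log (n := ((⊤ : ℕ∞) : WithTop ℕ∞))).2 (ne_of_gt hx)).contDiffWithinAt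
    refine norm_iteratedFDerivWithin_comp_le (N := ((⊤ : ℕ∞) : WithTop ℕ∞)) hlog hF.contDiffOn
      (by exact_mod_cast le_top) (uniqueDiffOn_Ioi 0) uniqueDiffOn_univ (fun t _ => hpos t)
      (Set.mem_univ _) (fun i hi => hK i hi _ ⟨hv1, hv2⟩) (fun i h1 h2 => ?_)
    rw [iteratedFDerivWithin_univ]
    exact hder i h1 h2
  have hsmooth : ContDiff ℝ (⊤ : ℕ∞) (fun t => Real.log (lap (BB n) volume (gsh W x0 y) t)) :=
    hF.log fun t => (hpos t).ne'
  have e1 : iteratedFDeriv ℝ k (logLap W) y = iteratedFDeriv ℝ k (fun t => logLap W (y + t)) 0 := by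
    have := iteratedFDeriv_comp_add_left (𝕜 := ℝ) (f := logLap W) k y (0 : E n)
    rw [this, add_zero]
  rw [e1, show (fun t => logLap W (y + t)) = fun t => (inner ℝ x0 y - W x0) + inner ℝ x0 t
      + Real.log (lap (BB n) volume (gsh W x0 y) t) from funext fun t => logLap_shift h h0 t]
  obtain ⟨m, rfl⟩ : ∃ m, k = m + 2 := ⟨k - 2, by omega⟩
  rw [norm_iteratedFDeriv_add_affine hsmooth]
  exact hcomp

end Vale.Agent.P227.M.Lap
end

section

/-! P227, block LL: bounds of the iterated derivatives of Laplace integrals. -/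

set_option autoImplicit false

open MeasureTheory Filter Topology

namespace Vale.Agent.P227.M.LL

open Lap

universe u

section gen

variable {E : Type*} [NormedAddCommGroup E] [NormedSpace ℝ E] [MeasurableSpace E] [BorelSpace E]
  [SecondCountableTopology E]
variable {E' : Type u} [NormedAddCommGroup E'] [NormedSpace ℝ E']

/-- norm bound of all derivatives of a Laplace integral -/
theorem norm_iterated_lap {μ : Measure E} (B : E →L[ℝ] E' →L[ℝ] ℝ) (j : ℕ) :
    ∀ {G : Type u} [NormedAddCommGroup G] [NormedSpace ℝ G] {g : E → G}, Expo μ g → ∀ y : E',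
      ‖iteratedFDeriv ℝ j (lap B μ g) y‖ ≤ ∫ x, Real.exp (B x y) * (‖B x‖ ^ j * ‖g x‖) ∂μ := by
  induction j with
  | zero =>
    intro G _ _ g hg y
    rw [norm_iteratedFDeriv_zero]
    unfold lap
    refine (norm_integral_le_integral_norm _).trans (le_of_eq ?_)
    refine integral_congr_ae (Eventually.of_forall fun x => ?_)
    change ‖Real.exp (B x y) • g x‖ = Real.exp (B x y) * (‖B x‖ ^ 0 * ‖g x‖)
    rw [norm_smul, Real.norm_of_nonneg (Real.exp_pos _).le, pow_zero, one_mul]
  | succ j ih =>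
    intro G _ _ g hg y
    rw [← norm_iteratedFDeriv_fderiv]
    have : fderiv ℝ (lap B μ g) = lap B μ (fun x => (B x).smulRight (g x)) := by
      funext y
      exact (hasFDerivAt_lap hg B y).fderiv
    rw [this]
    refine (ih (hg.smulRight B) y).trans (le_of_eq ?_)
    refine integral_congr_ae (Eventually.of_forall fun x => ?_)
    change Real.exp (B x y) * (‖B x‖ ^ j * ‖(B x).smulRight (g x)‖) =
      Real.exp (B x y) * (‖B x‖ ^ (j + 1) * ‖g x‖)
    rw [ContinuousLinearMap.norm_smulRight_apply, pow_succ]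
    ring

end gen

/-- bounds of the derivatives of `log ∘ G` from bounds of the derivatives of `G` -/
theorem norm_iterated_log_comp {E : Type*} [NormedAddCommGroup E] [NormedSpace ℝ E] (k : ℕ)
    {g0 m0 : ℝ} (hg0 : 0 < g0) (D : ℝ) :
    ∃ K : ℝ, ∀ (G : E → ℝ), ContDiff ℝ (⊤ : ℕ∞) G → (∀ y, 0 < G y) → ∀ y, g0 ≤ G y → G y ≤ m0 →
      (∀ i, 1 ≤ i → i ≤ k → ‖iteratedFDeriv ℝ i G y‖ ≤ D ^ i) →
      ‖iteratedFDeriv ℝ k (fun z => Real.log (G z)) y‖ ≤ K := by
  have hlog : ContDiffOn ℝ (⊤ : ℕ∞) Real.log (Set.Ioi 0) := by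
    intro x hx
    exact (Real.contDiffAt_log.2 (ne_of_gt hx)).contDiffWithinAt
  have hbd : ∀ i : ℕ, ∃ c : ℝ, ∀ t ∈ Set.Icc g0 m0,
      ‖iteratedFDerivWithin ℝ i Real.log (Set.Ioi 0) t‖ ≤ c := by
    intro i
    have hc : ContinuousOn (iteratedFDerivWithin ℝ i Real.log (Set.Ioi 0)) (Set.Icc g0 m0) :=
      (hlog.continuousOn_iteratedFDerivWithin (by exact_mod_cast le_top)
        (uniqueDiffOn_Ioi 0)).mono fun t ht => hg0.trans_le ht.1
    exact isCompact_Icc.exists_bound_of_continuousOn hc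
  choose c hc using hbd
  refine ⟨k.factorial * (∑ i ∈ Finset.range (k + 1), |c i|) * D ^ k, ?_⟩
  intro G hG hpos y h1 h2 hD
  have := norm_iteratedFDerivWithin_comp_le (𝕜 := ℝ) (g := Real.log) (f := G) (n := k)
    (s := Set.univ) (t := Set.Ioi 0) (x := y) (N := (⊤ : ℕ∞)) hlog hG.contDiffOn
    (by exact_mod_cast le_top) (uniqueDiffOn_Ioi 0) uniqueDiffOn_univ (fun z _ => hpos z)
    (Set.mem_univ y) (C := ∑ i ∈ Finset.range (k + 1), |c i|) (D := D) (by
      intro i hi
      refine (hc i (G y) ⟨h1, h2⟩).trans ((le_abs_self _).trans ?_)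
      exact Finset.single_le_sum (f := fun i => |c i|) (fun i _ => abs_nonneg _)
        (Finset.mem_range.2 (Nat.lt_succ_of_le hi))) (by
      intro i hi1 hi2
      rw [iteratedFDerivWithin_univ]
      exact hD i hi1 hi2)
  rw [iteratedFDerivWithin_univ] at this
  exact this

end Vale.Agent.P227.M.LL
end

section

/-! # P254/S5: the potential of a tilted nice weight is `Reg` (helper669) -/

open MeasureTheory Matrix Filter Topology

namespace Vale.Agent.P254.S5.R669

open Vale.Agent.P227.M (Reg hess qf pd ei)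
open Vale.Agent.P227.M.Lap (lap Expo contDiff_lap lap_pos integrable_lap contDiff_log_lap qf_hess)
open Vale.Agent.P227.M.LL (norm_iterated_lap norm_iterated_log_comp)

variable {n : ℕ}

abbrev EE (n : ℕ) := Vale.Agent.P227.M.E n

section affine

/-- bilinear form of a matrix -/
noncomputable def bil (A : Matrix (Fin n) (Fin n) ℝ) : EE n →L[ℝ] EE n →L[ℝ] ℝ :=
  ∑ i, ∑ j, A i j • (EuclideanSpace.proj i : EE n →L[ℝ] ℝ).smulRight
    (EuclideanSpace.proj j : EE n →L[ℝ] ℝ)

theorem bil_apply (A : Matrix (Fin n) (Fin n) ℝ) (x y : EE n) :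
    bil A x y = x.ofLp ⬝ᵥ A *ᵥ y.ofLp := by
  unfold bil
  simp only [_root_.sum_apply, _root_.smul_apply,
    ContinuousLinearMap.smulRight_apply, smul_eq_mul, dotProduct, mulVec]
  refine Finset.sum_congr rfl fun i _ => ?_
  rw [Finset.mul_sum]
  refine Finset.sum_congr rfl fun j _ => ?_
  simp
  ring

/-- linear form of a vector -/
noncomputable def lin (c : Fin n → ℝ) : EE n →L[ℝ] ℝ :=
  ∑ i, c i • (EuclideanSpace.proj i : EE n →L[ℝ] ℝ)

theorem lin_apply (c : Fin n → ℝ) (x : EE n) : lin c x = c ⬝ᵥ x.ofLp := by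
  unfold lin
  simp [dotProduct]

/-- quadratic functions -/
noncomputable def qd (T : EE n →L[ℝ] EE n →L[ℝ] ℝ) (l : EE n →L[ℝ] ℝ) (x : EE n) : ℝ :=
  1 / 2 * T x x - l x

theorem fderiv_qd (T : EE n →L[ℝ] EE n →L[ℝ] ℝ) (l : EE n →L[ℝ] ℝ) :
    fderiv ℝ (qd T l) = fun x => ((1 / 2 : ℝ) • (T + T.flip)) x - l := by
  funext x
  have h1 : HasFDerivAt (fun x : EE n => T x x) (T x + T.flip x) x := by
    have h := (T.hasFDerivAt (x := x)).clm_apply (hasFDerivAt_id x)
    refine h.congr_fderiv ?_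
    ext v
    simp
  have h2 : HasFDerivAt (qd T l) (((1 / 2 : ℝ) • (T x + T.flip x)) - l) x :=
    (h1.const_mul (1 / 2)).sub l.hasFDerivAt
  exact h2.fderiv

theorem contDiff_qd (T : EE n →L[ℝ] EE n →L[ℝ] ℝ) (l : EE n →L[ℝ] ℝ) :
    ContDiff ℝ (⊤ : ℕ∞) (qd T l) := by
  unfold qd
  fun_prop

theorem fderiv2_qd (T : EE n →L[ℝ] EE n →L[ℝ] ℝ) (l : EE n →L[ℝ] ℝ) :
    fderiv ℝ (fderiv ℝ (qd T l)) = fun _ => (1 / 2 : ℝ) • (T + T.flip) := by
  rw [fderiv_qd]
  funext x
  exact ((((1 / 2 : ℝ) • (T + T.flip)).hasFDerivAt (x := x)).sub_const l).fderiv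

theorem bdd_qd (T : EE n →L[ℝ] EE n →L[ℝ] ℝ) (l : EE n →L[ℝ] ℝ) (k : ℕ) (hk : 2 ≤ k) :
    ∃ B : ℝ, ∀ x, ‖iteratedFDeriv ℝ k (qd T l) x‖ ≤ B := by
  obtain ⟨j, rfl⟩ : ∃ j, k = j + 1 + 1 := ⟨k - 2, by omega⟩
  refine ⟨‖(1 / 2 : ℝ) • (T + T.flip)‖, fun x => ?_⟩
  rw [← norm_iteratedFDeriv_fderiv, ← norm_iteratedFDeriv_fderiv, fderiv2_qd]
  rcases Nat.eq_zero_or_pos j with rfl | hj
  · rw [norm_iteratedFDeriv_zero]
  · rw [iteratedFDeriv_const_of_ne (by omega), Pi.zero_apply, norm_zero]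
    exact norm_nonneg ((1 / 2 : ℝ) • (T + T.flip))

theorem qf_qd (T : EE n →L[ℝ] EE n →L[ℝ] ℝ) (l : EE n →L[ℝ] ℝ) (x v : EE n) :
    qf (hess (qd T l) x) v = T v v := by
  rw [qf_hess ((contDiff_qd T l).of_le (WithTop.coe_le_coe.2 (le_top : (2 : ℕ∞) ≤ ⊤))), fderiv2_qd]
  change (1 / 2 : ℝ) * (T v v + T v v) = T v v
  ring

end affine

end Vale.Agent.P254.S5.R669

namespace Vale.Agent.P254.S5.R669

open Vale.Agent.P227.M (Reg hess qf pd ei)
open Vale.Agent.P227.M.Lap (lap Expo contDiff_lap lap_pos integrable_lap contDiff_log_lap qf_hess)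
open Vale.Agent.P227.M.LL (norm_iterated_lap norm_iterated_log_comp)

variable {n : ℕ}

section lapl

variable {X : Type} [NormedAddCommGroup X] [NormedSpace ℝ X] [MeasurableSpace X] [BorelSpace X]
  [SecondCountableTopology X]

/-- continuous densities on a compact set have all exponential moments -/
theorem expo_compact {μ : Measure X} [IsFiniteMeasureOnCompacts μ] {K : Set X} (hK : IsCompact K)
    {g : X → ℝ} (hg : Continuous g) : Expo (μ.restrict K) g := by
  refine ⟨hg.aestronglyMeasurable, fun R => ?_⟩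
  exact (Continuous.continuousOn (by fun_prop)).integrableOn_compact hK

/-- bounded derivatives of the log-Laplace transform of a compactly supported density -/
theorem log_lap_bdd {μ : Measure X} [IsFiniteMeasureOnCompacts μ] {K : Set X} (hK : IsCompact K)
    (B : X →L[ℝ] EE n →L[ℝ] ℝ) {g : X → ℝ} (hg : Continuous g) (h0 : ∀ x, 0 ≤ g x)
    (hpos : ∀ y, 0 < lap B (μ.restrict K) g y) (k : ℕ) (hk : 2 ≤ k) :
    ∃ C : ℝ, ∀ y, ‖iteratedFDeriv ℝ k (fun y => Real.log (lap B (μ.restrict K) g y)) y‖ ≤ C := by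
  obtain ⟨R, hR⟩ := hK.exists_bound_of_continuousOn (f := fun x => B x) (by fun_prop)
  set D : ℝ := max R 0 with hD
  have hD0 : 0 ≤ D := le_max_right _ _
  have hDB : ∀ x ∈ K, ‖B x‖ ≤ D := fun x hx => (hR x hx).trans (le_max_left _ _)
  obtain ⟨C, hC⟩ := norm_iterated_log_comp (E := EE n) k (g0 := 1) (m0 := 1) one_pos D
  refine ⟨C, fun y => ?_⟩
  set Z : ℝ := lap B (μ.restrict K) g y with hZ
  have hZ0 : 0 < Z := hpos y
  set gy : X → ℝ := fun x => Real.exp (B x y) * g x / Z with hgy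
  have hgyc : Continuous gy := by
    have : Continuous fun x => Real.exp (B x y) := by fun_prop
    exact (this.mul hg).div_const Z
  have hgy0 : ∀ x, 0 ≤ gy x := fun x => div_nonneg (mul_nonneg (Real.exp_pos _).le (h0 x)) hZ0.le
  have hE : Expo (μ.restrict K) gy := expo_compact hK hgyc
  -- the shifted function
  have hsh : ∀ t, lap B (μ.restrict K) g (y + t) = Z * lap B (μ.restrict K) gy t := by
    intro t
    unfold lap
    rw [← integral_const_mul]
    refine integral_congr_ae (Eventually.of_forall fun x => ?_)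
    simp only [hgy, map_add, Real.exp_add, smul_eq_mul]
    field_simp
  have hposy : ∀ t, 0 < lap B (μ.restrict K) gy t := by
    intro t
    have h1 := hpos (y + t)
    rw [hsh] at h1
    exact (mul_pos_iff_of_pos_left hZ0).1 h1
  have hone : lap B (μ.restrict K) gy 0 = 1 := by
    have h1 := hsh 0
    rw [add_zero, ← hZ] at h1
    have h2 : Z * 1 = Z * lap B (μ.restrict K) gy 0 := by rw [mul_one]; exact h1
    exact (mul_left_cancel₀ hZ0.ne' h2).symm
  have hsm : ContDiff ℝ (⊤ : ℕ∞) (lap B (μ.restrict K) gy) := contDiff_lap B hE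
  have hder : ∀ i, 1 ≤ i → i ≤ k → ‖iteratedFDeriv ℝ i (lap B (μ.restrict K) gy) 0‖ ≤ D ^ i := by
    intro i _ _
    refine (norm_iterated_lap B i hE 0).trans ?_
    have e1 : D ^ i = ∫ x in K, D ^ i * gy x ∂μ := by
      rw [integral_const_mul]
      have h3 : (∫ x in K, gy x ∂μ) = 1 := by
        rw [← hone]
        unfold lap
        refine integral_congr_ae (Eventually.of_forall fun x => ?_)
        simp
      rw [h3, mul_one]
    rw [e1]
    refine setIntegral_mono_on ?_ ?_ hK.measurableSet fun x hx => ?_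
    · have : Continuous fun x => Real.exp (B x 0) * (‖B x‖ ^ i * ‖gy x‖) := by fun_prop
      exact this.continuousOn.integrableOn_compact hK
    · have : Continuous fun x => D ^ i * gy x := by fun_prop
      exact this.continuousOn.integrableOn_compact hK
    · rw [map_zero, Real.exp_zero, one_mul, Real.norm_of_nonneg (hgy0 x)]
      exact mul_le_mul_of_nonneg_right (pow_le_pow_left₀ (norm_nonneg _) (hDB x hx) i) (hgy0 x)
  have h5 := hC (lap B (μ.restrict K) gy) hsm hposy 0 hone.ge hone.le hder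
  have e1 : iteratedFDeriv ℝ k (fun y => Real.log (lap B (μ.restrict K) g y)) y
      = iteratedFDeriv ℝ k (fun t => Real.log (lap B (μ.restrict K) g (y + t))) 0 := by
    have := iteratedFDeriv_comp_add_left (𝕜 := ℝ)
      (f := fun y => Real.log (lap B (μ.restrict K) g y)) k y (0 : EE n)
    rw [this, add_zero]
  have e2 : (fun t => Real.log (lap B (μ.restrict K) g (y + t)))
      = fun t => Real.log Z + inner ℝ (0 : EE n) t + Real.log (lap B (μ.restrict K) gy t) := by
    funext t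
    rw [hsh, Real.log_mul hZ0.ne' (hposy t).ne', inner_zero_left, add_zero]
  rw [e1, e2]
  obtain ⟨m, rfl⟩ : ∃ m, k = m + 2 := ⟨k - 2, by omega⟩
  rw [Vale.Agent.P227.M.Lap.norm_iteratedFDeriv_add_affine (hsm.log fun t => (hposy t).ne')]
  exact h5

end lapl

end Vale.Agent.P254.S5.R669
end

section

/-! P227, block Lap/LL: `Reg W c C → Reg (logLap W) (1/C) (1/c)`. -/

set_option linter.all false
set_option autoImplicit false

open MeasureTheory Filter Topology Set

namespace Vale.Agent.P227.M.Lap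

/-- nonnegative second derivatives on all lines imply convexity -/
theorem convexOn_of_line {n : ℕ} {f : E n → ℝ} (f1 f2 : E n → E n → ℝ → ℝ)
    (h1 : ∀ x v t, HasDerivAt (fun t : ℝ => f (x + t • v)) (f1 x v t) t)
    (h2 : ∀ x v t, HasDerivAt (f1 x v) (f2 x v t) t)
    (h0 : ∀ x v t, 0 ≤ f2 x v t) : ConvexOn ℝ univ f := by
  refine ⟨convex_univ, fun x _ y _ a b ha hb hab => ?_⟩
  have hc : ConvexOn ℝ univ (fun t : ℝ => f (x + t • (y - x))) := by
    have e1 : deriv (fun t : ℝ => f (x + t • (y - x))) = f1 x (y - x) :=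
      funext fun t => (h1 x (y - x) t).deriv
    apply convexOn_univ_of_deriv2_nonneg
    · exact fun t => (h1 x (y - x) t).differentiableAt
    · rw [e1]; exact fun t => (h2 x (y - x) t).differentiableAt
    · intro t
      rw [show (deriv^[2] (fun t : ℝ => f (x + t • (y - x)))) t
        = deriv (deriv (fun t : ℝ => f (x + t • (y - x)))) t from rfl, e1, (h2 x (y - x) t).deriv]
      exact h0 _ _ _
  have := hc.2 (mem_univ (0 : ℝ)) (mem_univ (1 : ℝ)) ha hb hab
  simp only [smul_eq_mul, mul_zero, mul_one, zero_add, zero_smul, add_zero, one_smul] at this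
  have e : x + b • (y - x) = a • x + b • y := by
    rw [show a = 1 - b by linarith, smul_sub, sub_smul, one_smul]; abel
  rw [e] at this
  have e2 : x + (y - x) = y := by abel
  rw [e2] at this
  simpa using this

/-- convexity implies nonnegative second derivatives on lines -/
theorem line_of_convexOn {n : ℕ} {f : E n → ℝ} (hf : ConvexOn ℝ univ f) (x v : E n)
    (f1 : ℝ → ℝ) (f2 : ℝ) (h1 : ∀ t, HasDerivAt (fun t : ℝ => f (x + t • v)) (f1 t) t)
    (h2 : HasDerivAt f1 f2 0) : 0 ≤ f2 := by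
  have hc : ConvexOn ℝ univ (fun t : ℝ => f (x + t • v)) := by
    refine ⟨convex_univ, fun s _ t _ a b ha hb hab => ?_⟩
    have := hf.2 (mem_univ (x + s • v)) (mem_univ (x + t • v)) ha hb hab
    have e : a • (x + s • v) + b • (x + t • v) = x + (a • s + b • t) • v := by
      have : x = a • x + b • x := by rw [← add_smul, hab, one_smul]
      conv_rhs => rw [this]
      simp only [smul_add, smul_smul, add_smul, smul_eq_mul]
      abel
    rw [e] at this
    exact this
  have hm : Monotone f1 := by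
    have h3 : MonotoneOn (deriv (fun t : ℝ => f (x + t • v))) univ :=
      hc.monotoneOn_deriv (fun t _ => (h1 t).differentiableAt)
    have e1 : deriv (fun t : ℝ => f (x + t • v)) = f1 := funext fun t => (h1 t).deriv
    rw [e1] at h3
    exact monotoneOn_univ.1 h3
  rw [← h2.deriv]
  exact hm.deriv_nonneg

theorem hasDerivAt_line_id {n : ℕ} (x z : E n) (t : ℝ) : HasDerivAt (fun t : ℝ => x + t • z) z t := by
  simpa using ((hasDerivAt_id t).smul_const z).const_add x

theorem hasDerivAt_sq {n : ℕ} (a : ℝ) (x z : E n) (t : ℝ) :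
    HasDerivAt (fun t : ℝ => a * ‖x + t • z‖ ^ 2) (a * (2 * inner ℝ (x + t • z) z)) t :=
  ((hasDerivAt_line_id x z t).norm_sq).const_mul a

theorem hasDerivAt_sq2 {n : ℕ} (a : ℝ) (x z : E n) (t : ℝ) :
    HasDerivAt (fun t : ℝ => a * (2 * inner ℝ (x + t • z) z)) (a * (2 * ‖z‖ ^ 2)) t := by
  have h := (((hasDerivAt_line_id x z t).inner ℝ (hasDerivAt_const t z)).const_mul 2).const_mul a
  refine HasDerivAt.congr_deriv h ?_
  rw [inner_zero_right, zero_add, real_inner_self_eq_norm_sq]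

theorem line1 {n : ℕ} {W : E n → ℝ} (hW : ContDiff ℝ (⊤ : ℕ∞) W) (x z : E n) (t : ℝ) :
    HasDerivAt (fun t : ℝ => W (x + t • z)) (fderiv ℝ W (x + t • z) z) t := by
  have hd : Differentiable ℝ W := hW.differentiable (by simp)
  exact (hd (x + t • z)).hasFDerivAt.comp_hasDerivAt t (hasDerivAt_line_id x z t)

theorem line2 {n : ℕ} {W : E n → ℝ} (hW : ContDiff ℝ (⊤ : ℕ∞) W) (x z : E n) (t : ℝ) :
    HasDerivAt (fun t : ℝ => fderiv ℝ W (x + t • z) z) (qf (hess W (x + t • z)) z) t := by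
  have hW2 : ContDiff ℝ 2 W := hW.of_le (WithTop.coe_le_coe.2 (le_top : (2 : ℕ∞) ≤ ⊤))
  have hd2 : Differentiable ℝ (fderiv ℝ W) := (hW2.fderiv_right (m := 1) (by norm_num)).differentiable (by norm_num)
  have := (hd2 (x + t • z)).hasFDerivAt.comp_hasDerivAt t (hasDerivAt_line_id x z t)
  rw [qf_hess hW2]
  exact ((ContinuousLinearMap.apply ℝ ℝ z).hasFDerivAt (x := fderiv ℝ W (x + t • z))).comp_hasDerivAt t this

theorem reg_logLap {n : ℕ} {W : E n → ℝ} {c C : ℝ} (h : Reg W c C) (hC : 0 < C) :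
    Reg (logLap W) (1 / C) (1 / c) := by
  have hc := h.c_pos
  have hsm := contDiff_logLap h
  -- convexity of `W - c/2|x|²` and `C/2|x|² - W`
  have c1 : ConvexOn ℝ univ (fun x : E n => W x - c / 2 * ‖x‖ ^ 2) := by
    refine convexOn_of_line
      (fun x v t => fderiv ℝ W (x + t • v) v - c / 2 * (2 * inner ℝ (x + t • v) v))
      (fun x v t => qf (hess W (x + t • v)) v - c / 2 * (2 * ‖v‖ ^ 2)) ?_ ?_ ?_
    · exact fun x v t => (line1 h.smooth x v t).sub (hasDerivAt_sq _ x v t)
    · exact fun x v t => (line2 h.smooth x v t).sub (hasDerivAt_sq2 _ x v t)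
    · intro x v t
      have := h.lower (x + t • v) v
      linarith
  have c2 : ConvexOn ℝ univ (fun x : E n => C / 2 * ‖x‖ ^ 2 - W x) := by
    refine convexOn_of_line
      (fun x v t => C / 2 * (2 * inner ℝ (x + t • v) v) - fderiv ℝ W (x + t • v) v)
      (fun x v t => C / 2 * (2 * ‖v‖ ^ 2) - qf (hess W (x + t • v)) v) ?_ ?_ ?_
    · exact fun x v t => (hasDerivAt_sq _ x v t).sub (line1 h.smooth x v t)
    · exact fun x v t => (hasDerivAt_sq2 _ x v t).sub (line2 h.smooth x v t)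
    · intro x v t
      have := h.upper (x + t • v) v
      linarith
  have e : LKE.Lap 1 W = logLap W := by
    funext y
    unfold LKE.Lap logLap
    simp only [one_mul]
  have u := LKE.lap_upper hc c1 1
  have l := LKE.lap_lower hC c2 1 (fun y => LKE.integrable_lap hc c1 1 y)
  rw [e] at u l
  refine ⟨by positivity, hsm, fun y v => ?_, fun y v => ?_, logLap_bdd h⟩
  · have := line_of_convexOn l y v
      (fun t => fderiv ℝ (logLap W) (y + t • v) v - 1 ^ 2 / (2 * C) * (2 * inner ℝ (y + t • v) v))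
      (qf (hess (logLap W) (y + (0:ℝ) • v)) v - 1 ^ 2 / (2 * C) * (2 * ‖v‖ ^ 2))
      (fun t => (line1 hsm y v t).sub (hasDerivAt_sq _ y v t))
      ((line2 hsm y v 0).sub (hasDerivAt_sq2 _ y v 0))
    rw [zero_smul, add_zero] at this
    have e1 : 1 ^ 2 / (2 * C) * (2 * ‖v‖ ^ 2) = 1 / C * ‖v‖ ^ 2 := by field_simp
    linarith
  · have := line_of_convexOn u y v
      (fun t => 1 ^ 2 / (2 * c) * (2 * inner ℝ (y + t • v) v) - fderiv ℝ (logLap W) (y + t • v) v)
      (1 ^ 2 / (2 * c) * (2 * ‖v‖ ^ 2) - qf (hess (logLap W) (y + (0:ℝ) • v)) v)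
      (fun t => (hasDerivAt_sq _ y v t).sub (line1 hsm y v t))
      ((hasDerivAt_sq2 _ y v 0).sub (line2 hsm y v 0))
    rw [zero_smul, add_zero] at this
    have e1 : 1 ^ 2 / (2 * c) * (2 * ‖v‖ ^ 2) = 1 / c * ‖v‖ ^ 2 := by field_simp
    linarith

/-- the form used by `LK.RegLL` -/
theorem regLL : ∀ (n : ℕ) (W : E n → ℝ) (c C : ℝ), Reg W c C → 0 < C →
    Reg (logLap W) (1 / C) (1 / c) := fun _ _ _ _ h hC => reg_logLap h hC

end Vale.Agent.P227.M.Lap
end

section

/-! # P227/M, block MM: `StmtLK` from invariance, start, descent and the conversion to `C21`. -/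

open MeasureTheory Filter
open scoped Topology

namespace Vale.Agent.P227.M.MM

open Lim

/-- integrability of `exp (-V)` for nice `V` -/
def StmtInt : Prop := ∀ (n : ℕ) (V : E n → ℝ) (c C : ℝ), Nice V c C → Integrable (fun x => Real.exp (-V x))

theorem C21.weaken {n : ℕ} {a b M a' b' M' : ℝ} {φ : E n → ℝ} {G : E n → E n} {H : E n → E n →L[ℝ] E n}
    (h : C21 a b M φ G H) (ha : a' ≤ a) (hb : b ≤ b') (hM : M ≤ M') : C21 a' b' M' φ G H where
  grad := h.grad
  hess := h.hess
  lower := fun y v => (mul_le_mul_of_nonneg_right ha (sq_nonneg _)).trans (h.lower y v)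
  upper := fun y v => (h.upper y v).trans (mul_le_mul_of_nonneg_right hb (sq_nonneg _))
  lip := fun y y' => (h.lip y y').trans (mul_le_mul_of_nonneg_right hM (norm_nonneg _))
  even := h.even

theorem C21.add_const {n : ℕ} {a b M : ℝ} {φ : E n → ℝ} {G : E n → E n} {H : E n → E n →L[ℝ] E n}
    (h : C21 a b M φ G H) (s : ℝ) : C21 a b M (fun y => φ y + s) G H where
  grad := fun y => by
    have h1 := (h.grad y).hasFDerivAt.add_const s
    exact h1
  hess := h.hess
  lower := h.lower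
  upper := h.upper
  lip := h.lip
  even := fun y => by rw [h.even]

theorem integrable_gauss {n : ℕ} {a : ℝ} (ha : 0 < a) : Integrable (fun x : E n => Real.exp (-(a * ‖x‖ ^ 2))) := by
  have h := GaussianFourier.integrable_cexp_neg_mul_sq_norm_add (V := E n) (b := (a : ℂ)) (by simpa using ha) 0 0
  have h2 := h.norm
  refine h2.congr (ae_of_all _ fun x => ?_)
  simp only [Complex.norm_exp]
  congr 1
  simp [← Complex.ofReal_pow]

theorem C21.integrable {n : ℕ} {a b M : ℝ} (ha : 0 < a) {φ : E n → ℝ} {G : E n → E n} {H : E n → E n →L[ℝ] E n}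
    (h : C21 a b M φ G H) : Integrable (fun x => Real.exp (-φ x)) := by
  have h1 := (integrable_gauss (n := n) (half_pos ha)).const_mul (Real.exp (-φ 0))
  refine h1.mono' ((Real.continuous_exp.comp h.continuous_phi.neg).aestronglyMeasurable) (ae_of_all _ fun x => ?_)
  rw [Real.norm_eq_abs, abs_of_pos (Real.exp_pos _), ← Real.exp_add]
  apply Real.exp_le_exp.2
  have := h.phi_lower ha.le x
  linarith

theorem itK_cls {n : ℕ} {k c₀ C₀ m : ℝ} {V : E n → ℝ} (h0 : Cls k c₀ C₀ m (fun x : E n => c₀ * (k + 1) / k / 2 * ‖x‖ ^ 2))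
    (hT : ∀ c : E n → ℝ, Cls k c₀ C₀ m c → Cls k c₀ C₀ m (TK k V c)) : ∀ i, Cls k c₀ C₀ m (itK k c₀ V i)
  | 0 => h0
  | i + 1 => hT _ (itK_cls h0 hT i)

theorem stmtLK_of (h1 : StmtInv) (h2 : StmtStart) (h3 : StmtDesc) (h4 : StmtToC21) (h5 : StmtInt) : StmtLK := by
  intro n hn V c₀ C₀ hV
  have hc : 0 < c₀ := hV.c_pos
  have hcC : c₀ ≤ C₀ := nice_le hn hV.toReg
  have hC : 0 < C₀ := hc.trans_le hcC
  obtain ⟨m, K₀, hm, hK₀, hinv⟩ := h1 n hn V c₀ C₀ hV
  refine ⟨18 * m * (c₀⁻¹) ^ ((3 : ℝ) / 2), fun ε hε hε1 => ?_⟩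
  have hVi := h5 n V c₀ C₀ hV
  have hZ : 0 < ∫ x, Real.exp (-V x) := integral_exp_pos hVi
  set Z := ∫ x, Real.exp (-V x) with hZdef
  -- choice of `k`
  set δ := ε / (2 * Z) with hδ
  have hδ0 : 0 < δ := by positivity
  obtain ⟨k, hk⟩ : ∃ k : ℝ, K₀ ≤ k ∧ 1 / ε ≤ k ∧ (n : ℝ) / (c₀ * δ ^ 2) ≤ k :=
    ⟨max K₀ (max (1 / ε) ((n : ℝ) / (c₀ * δ ^ 2))), le_max_left _ _, (le_max_left _ _).trans (le_max_right _ _),
      (le_max_right _ _).trans (le_max_right _ _)⟩
  obtain ⟨hk1, hk2, hk3⟩ := hk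
  have hk0 : 1 ≤ k := hK₀.trans hk1
  have hkpos : 0 < k := by linarith
  obtain ⟨hT, hphi⟩ := hinv k hk1
  have hcls : ∀ i, Cls k c₀ C₀ m (itK k c₀ V i) := itK_cls (h2 n hn k c₀ C₀ m hkpos hc hcC hm) hT
  obtain ⟨i, hi⟩ := h3 n hn V c₀ C₀ m k hV hm hk0 hcls (fun i => (hphi _ (hcls i)).1) δ hδ0
  obtain ⟨hN, hS⟩ := hphi _ (hcls i)
  set φ₀ := phiK k (itK k c₀ V i) with hφ₀
  obtain ⟨H, hH⟩ := h4 n hn φ₀ _ _ m hN hm hS
  -- bounds
  have hkk : 1 - ε ≤ k / (k + 1) := by
    rw [le_div_iff₀ (by linarith)]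
    have : 1 ≤ ε * k := by
      rw [div_le_iff₀ hε] at hk2
      linarith
    nlinarith
  have hkk1 : k / (k + 1) ≤ 1 := by
    rw [div_le_one (by linarith)]
    linarith
  have e1 : k / ((k + 1) * C₀) = k / (k + 1) * C₀⁻¹ := by
    field_simp
  have e2 : k / ((k + 1) * c₀) = k / (k + 1) * c₀⁻¹ := by
    field_simp
  have hb1 : (1 - ε) * C₀⁻¹ ≤ k / ((k + 1) * C₀) := by
    rw [e1]
    exact mul_le_mul_of_nonneg_right hkk (by positivity)
  have hb2 : k / ((k + 1) * c₀) ≤ c₀⁻¹ := by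
    rw [e2]
    exact mul_le_of_le_one_left (by positivity) hkk1
  have hb20 : 0 ≤ k / ((k + 1) * c₀) := by positivity
  have hM : 18 * m * (k / ((k + 1) * c₀)) ^ ((3 : ℝ) / 2) ≤ 18 * m * (c₀⁻¹) ^ ((3 : ℝ) / 2) :=
    mul_le_mul_of_nonneg_left (Real.rpow_le_rpow hb20 hb2 (by norm_num)) (by positivity)
  have hH' := C21.weaken hH hb1 hb2 hM
  have ha' : 0 < (1 - ε) * C₀⁻¹ := mul_pos (by linarith) (by positivity)
  have hφi : Integrable (fun x => Real.exp (-φ₀ x)) := C21.integrable ha' hH'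
  have hZ0 : 0 < ∫ x, Real.exp (-φ₀ x) := integral_exp_pos hφi
  set Z₀ := ∫ x, Real.exp (-φ₀ x) with hZ0def
  have hexp : ∀ y, Real.exp (-(φ₀ y + Real.log (Z₀ / Z))) = (Z / Z₀) * Real.exp (-φ₀ y) := by
    intro y
    rw [neg_add, Real.exp_add, ← Real.log_inv, Real.exp_log (by positivity), inv_div, mul_comm]
  refine ⟨fun y => φ₀ y + Real.log (Z₀ / Z), gradient φ₀, H, C21.add_const hH' _, ?_, ?_⟩
  · simp only [hexp]
    rw [integral_const_mul, ← hZ0def]
    field_simp
  · intro F hF hF1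
    have h6 := hi F hF hF1
    simp only [hexp]
    have e3 : ∀ y, F (gradient φ₀ y) * (Z / Z₀ * Real.exp (-φ₀ y)) =
        Z / Z₀ * (F (gradient φ₀ y) * Real.exp (-φ₀ y)) := fun y => by ring
    simp only [e3]
    rw [integral_const_mul]
    set A := ∫ y, F (gradient φ₀ y) * Real.exp (-φ₀ y) with hA
    set B := ∫ x, F x * Real.exp (-V x) with hB
    have e4 : Z / Z₀ * A - B = Z * (A / Z₀ - B / Z) := by
      field_simp
    rw [e4, abs_mul, abs_of_pos hZ]
    have hs : Real.sqrt ((n : ℝ) / (c₀ * k)) ≤ δ := by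
      apply Real.sqrt_le_iff.2
      refine ⟨hδ0.le, ?_⟩
      rw [div_le_iff₀ (by positivity)]
      rw [div_le_iff₀ (by positivity)] at hk3
      nlinarith
    have h7 : |A / Z₀ - B / Z| ≤ 2 * δ := by linarith
    calc Z * |A / Z₀ - B / Z| ≤ Z * (2 * δ) := mul_le_mul_of_nonneg_left h7 hZ.le
      _ = ε := by rw [hδ]; field_simp

end Vale.Agent.P227.M.MM
end

section

/-! # P227/M/SC2: lower bound of the second derivative of `heat` on a line orthogonal to the noise
(helper204). -/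

open MeasureTheory Filter Topology

namespace Vale.Agent.P227.M.HL

variable {n : ℕ}

/-- strong convexity of a regular potential -/
theorem reg_convex {U : E n → ℝ} {c C : ℝ} (h : Reg U c C) {s t : ℝ} (hs : 0 ≤ s) (ht : 0 ≤ t)
    (hst : s + t = 1) (a b : E n) :
    U (s • a + t • b) + c / 2 * (s * t) * ‖a - b‖ ^ 2 ≤ s * U a + t * U b := by
  set x := s • a + t • b with hx
  have h1 := (Lap.taylor_bounds h x (a - x)).1
  have h2 := (Lap.taylor_bounds h x (b - x)).1
  rw [add_sub_cancel] at h1 h2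
  have hs1 : s = 1 - t := by linarith
  have e1 : a - x = t • (a - b) := by
    rw [hx, hs1, sub_smul, one_smul, smul_sub]; abel
  have e2 : b - x = (-s) • (a - b) := by
    have : t = 1 - s := by linarith
    rw [hx, this, sub_smul, one_smul, neg_smul, smul_sub]; abel
  rw [e1, map_smul, norm_smul, smul_eq_mul, Real.norm_eq_abs, mul_pow, sq_abs] at h1
  rw [e2, map_smul, norm_smul, smul_eq_mul, Real.norm_eq_abs, mul_pow, sq_abs] at h2
  have h3 := mul_le_mul_of_nonneg_left h1 hs
  have h4 := mul_le_mul_of_nonneg_left h2 ht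
  have e5 : s * (c / 2 * (t ^ 2 * ‖a - b‖ ^ 2)) + t * (c / 2 * ((-s) ^ 2 * ‖a - b‖ ^ 2))
      = c / 2 * (s * t) * ‖a - b‖ ^ 2 * (s + t) := by ring
  rw [hst, mul_one] at e5
  have e6 : s * (U a - U x - t * (fderiv ℝ U x) (a - b)) + t * (U b - U x - -s * (fderiv ℝ U x) (a - b))
      = s * U a + t * U b - (s + t) * U x := by ring
  rw [hst, one_mul] at e6
  linarith

theorem monotone_deriv_nonneg {F : ℝ → ℝ} (hF : Monotone F) {d x : ℝ} (hd : HasDerivAt F d x) :
    0 ≤ d := by
  have h1 := hd.tendsto_slope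
  refine ge_of_tendsto h1 ?_
  filter_upwards [self_mem_nhdsWithin] with y hy
  rcases lt_or_gt_of_ne hy with h | h
  · rw [slope_def_field]
    exact div_nonneg_of_nonpos (by linarith [hF h.le]) (by linarith)
  · rw [slope_def_field]
    exact div_nonneg (by linarith [hF h.le]) (by linarith)

theorem second_nonneg_of_convex {F F1 : ℝ → ℝ} (hc : ConvexOn ℝ Set.univ F)
    (h1 : ∀ t, HasDerivAt F (F1 t) t) {d t : ℝ} (h2 : HasDerivAt F1 d t) : 0 ≤ d := by
  refine monotone_deriv_nonneg ?_ h2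
  intro x y hxy
  rcases hxy.eq_or_lt with rfl | hlt
  · exact le_rfl
  have a1 := hc.le_slope_of_hasDerivAt (Set.mem_univ x) (Set.mem_univ y) hlt (h1 x)
  have a2 := hc.slope_le_of_hasDerivAt (Set.mem_univ x) (Set.mem_univ y) hlt (h1 y)
  exact a1.trans a2

theorem w2_lower {U : E n → ℝ} {c C : ℝ} (h : Reg U c C) (u : E n) (Q : E n →L[ℝ] E n)
    (hQ : ∀ z, inner ℝ u (Q z) = 0) (t : ℝ) : c * ‖u‖ ^ 2 ≤ w2 U u Q (t • u) := by
  have hcp := h.c_pos
  have hUc := h.cont
  set F : ℝ → E n → ℝ := fun t z => U (t • u + Q z) + ‖z‖ ^ 2 / 2 - c / 2 * (t ^ 2 * ‖u‖ ^ 2) with hF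
  have hconv : ∀ y0 y1 x0 x1, ∀ s t : ℝ, 0 < s → 0 < t → s + t = 1 →
      F (s • y0 + t • y1) (s • x0 + t • x1) ≤ s * F y0 x0 + t * F y1 x1 := by
    intro y0 y1 x0 x1 s t hs ht hst
    have e1 : (s • y0 + t • y1) • u + Q (s • x0 + t • x1)
        = s • (y0 • u + Q x0) + t • (y1 • u + Q x1) := by
      simp only [smul_eq_mul, map_add, map_smul, smul_add, add_smul, smul_smul]; abel
    have h1 := reg_convex h hs.le ht.le hst (y0 • u + Q x0) (y1 • u + Q x1)
    have e2 : (y0 • u + Q x0) - (y1 • u + Q x1) = (y0 - y1) • u + Q (x0 - x1) := by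
      rw [sub_smul, map_sub]; abel
    have h2 : (y0 - y1) ^ 2 * ‖u‖ ^ 2 ≤ ‖(y0 • u + Q x0) - (y1 • u + Q x1)‖ ^ 2 := by
      rw [e2, norm_add_sq_real, inner_smul_left, hQ, norm_smul, mul_pow, Real.norm_eq_abs, sq_abs]
      simp only [mul_zero, add_zero]
      nlinarith [sq_nonneg ‖Q (x0 - x1)‖]
    have h3 : ‖s • x0 + t • x1‖ ^ 2 ≤ s * ‖x0‖ ^ 2 + t * ‖x1‖ ^ 2 := by
      have h31 : ‖s • x0 + t • x1‖ ≤ s * ‖x0‖ + t * ‖x1‖ := by
        refine (norm_add_le _ _).trans ?_
        rw [norm_smul, norm_smul, Real.norm_of_nonneg hs.le, Real.norm_of_nonneg ht.le]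
      have h32 : ‖s • x0 + t • x1‖ ^ 2 ≤ (s * ‖x0‖ + t * ‖x1‖) ^ 2 :=
        pow_le_pow_left₀ (norm_nonneg _) h31 2
      have h33 : s * ‖x0‖ ^ 2 + t * ‖x1‖ ^ 2 - (s * ‖x0‖ + t * ‖x1‖) ^ 2
          = s * t * (‖x0‖ - ‖x1‖) ^ 2 := by
        have : s = 1 - t := by linarith
        rw [this]; ring
      nlinarith [mul_nonneg (mul_nonneg hs.le ht.le) (sq_nonneg (‖x0‖ - ‖x1‖))]
    simp only [hF]
    rw [e1]
    have h5 : s * y0 ^ 2 + t * y1 ^ 2 - (s • y0 + t • y1) ^ 2 = s * t * (y0 - y1) ^ 2 := by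
      have : s = 1 - t := by linarith
      simp only [smul_eq_mul]
      rw [this]; ring
    have h6 := mul_le_mul_of_nonneg_left h2 (show 0 ≤ c / 2 * (s * t) by positivity)
    have h7 : c / 2 * ((s • y0 + t • y1) ^ 2 * ‖u‖ ^ 2)
        = c / 2 * ((s * y0 ^ 2 + t * y1 ^ 2 - s * t * (y0 - y1) ^ 2) * ‖u‖ ^ 2) := by
      rw [← h5]; ring
    rw [h7]
    nlinarith [h1, h6, h3]
  have hcF : ∀ y, Continuous (F y) := by
    intro y
    simp only [hF]
    fun_prop
  have hexp : ∀ y z, Real.exp (-F y z)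
      = Real.exp (c / 2 * (y ^ 2 * ‖u‖ ^ 2)) * (f U u 0 (y • u + Q z) * Real.exp (-‖z‖ ^ 2 / 2)) := by
    intro y z
    simp only [hF, f, q_zero, one_mul]
    rw [← Real.exp_add, ← Real.exp_add]
    congr 1
    ring
  have hint : ∀ y, Integrable (fun z => Real.exp (-F y z)) := by
    intro y
    simp only [hexp]
    exact (integrable_H h u Q 0 (y • u)).const_mul _
  have hP := LKE.convexOn_neg_log_integral_exp_neg F hconv (fun y => (hcF y).measurable) hint
  have hval : (fun y : ℝ => -Real.log (∫ z, Real.exp (-F y z)))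
      = fun y : ℝ => heat U Q (0 + y • u) - c / 2 * (y ^ 2 * ‖u‖ ^ 2) := by
    funext y
    simp only [hexp]
    rw [integral_const_mul, Real.log_mul (Real.exp_ne_zero _), Real.log_exp, heat_eq U u Q, zero_add]
    · unfold H
      ring
    · have := H_zero_pos h u Q (y • u)
      unfold H at this
      exact this.ne'
  rw [hval] at hP
  have d1 : ∀ t : ℝ, HasDerivAt (fun y : ℝ => heat U Q (0 + y • u) - c / 2 * (y ^ 2 * ‖u‖ ^ 2))
      (w1 U u Q (0 + t • u) - c * ‖u‖ ^ 2 * t) t := by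
    intro t
    have := (hasDerivAt_heat h u Q 0 t).sub ((((hasDerivAt_id t).pow 2).mul_const (‖u‖ ^ 2)).const_mul
      (c / 2))
    refine HasDerivAt.congr_deriv (f := fun y : ℝ => heat U Q (0 + y • u) - c / 2 * (y ^ 2 * ‖u‖ ^ 2))
      this ?_
    simp
    ring
  have d2 : HasDerivAt (fun t : ℝ => w1 U u Q (0 + t • u) - c * ‖u‖ ^ 2 * t)
      (w2 U u Q (0 + t • u) - c * ‖u‖ ^ 2) t := by
    have := (hasDerivAt_w1 h u Q 0 t).sub ((hasDerivAt_id t).const_mul (c * ‖u‖ ^ 2))
    refine HasDerivAt.congr_deriv (f := fun t : ℝ => w1 U u Q (0 + t • u) - c * ‖u‖ ^ 2 * t) this ?_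
    simp
  have := second_nonneg_of_convex hP d1 d2
  rw [zero_add] at this
  linarith

end Vale.Agent.P227.M.HL
end

section

/-! P254, one free direction, L9: the inequality for a half of the body (helper678). -/

open MeasureTheory Set
open scoped ENNReal

namespace Vale.Agent.P254.FV1

open Unc Unc.BerH

namespace Half

variable {d : ℕ}

/-- The set where the section function of `K` is above the cone. -/
theorem exists_T {K : Set (Fin (d + 1) → ℝ)} (hK : Convex ℝ K) (hc : IsCompact K)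
    (k : Fin (d + 1)) (hk : ∀ x ∈ K, 0 ≤ x k) {c b : ℝ} (hcp : 0 < c) (hbp : 0 < b) :
    ∃ (R : ℝ) (T : Set ℝ), T ⊆ Icc 0 R ∧ T.OrdConnected ∧
      (∀ t ∈ T, cone d c b t ≤ volume.real (slice K k t)) ∧
      (∀ t, 0 ≤ t → t ∉ T → volume.real (slice K k t) ≤ cone d c b t) ∧
      ∀ t, 0 ≤ t → t < b → cone d c b t ≤ volume.real (slice K k t) → t ∈ T := by
  obtain ⟨R, hR⟩ : ∃ R : ℝ, ∀ x ∈ K, x k ≤ R := by
    obtain ⟨R, hR⟩ := (hc.image (continuous_apply k)).bddAbove
    exact ⟨R, fun x hx => hR ⟨x, hx, rfl⟩⟩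
  have hle : ∀ t, (slice K k t).Nonempty → t ≤ R := by
    rintro t ⟨y, hy⟩
    have := hR _ hy
    simpa using this
  have hge : ∀ t, (slice K k t).Nonempty → 0 ≤ t := by
    rintro t ⟨y, hy⟩
    have := hk _ hy
    simpa using this
  have hfin : ∀ t, volume (slice K k t) ≠ ∞ := by
    intro t
    have hb : Bornology.IsBounded (slice K k t) := by
      obtain ⟨r, hr⟩ := hc.isBounded.exists_norm_le
      refine (Metric.isBounded_iff_subset_closedBall 0).2 ⟨r, fun y hy => ?_⟩
      rw [mem_closedBall_zero_iff]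
      have h1 := hr _ hy
      have h0 : 0 ≤ r := (norm_nonneg _).trans h1
      rw [pi_norm_le_iff_of_nonneg h0] at h1 ⊢
      intro i
      simpa using h1 (k.succAbove i)
    exact hb.measure_lt_top.ne
  have hcone : ∀ t, 0 ≤ t → t < b → cone d c b t = c * (1 - t / b) ^ d := fun t h1 h2 => by
    unfold cone; rw [indicator_of_mem (show t ∈ Ico 0 b from ⟨h1, h2⟩)]
  have hcone' : ∀ t, b ≤ t → cone d c b t = 0 := fun t h1 => by
    unfold cone; rw [indicator_of_notMem (fun h => absurd h.2 (not_lt.2 h1))]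
  have hpos : ∀ t, 0 ≤ t → t < b → 0 < 1 - t / b := fun t _ h2 => by
    rw [sub_pos, div_lt_one hbp]; exact h2
  have hmem : ∀ t, 0 ≤ t → t < b → cone d c b t ≤ volume.real (slice K k t) →
      ENNReal.ofReal (c * (1 - t / b) ^ d) ≤ volume (slice K k t) := by
    intro t h1 h2 h3
    rw [hcone t h1 h2] at h3
    exact ENNReal.ofReal_le_of_le_toReal h3
  have hmem' : ∀ t, 0 ≤ t → t < b → ENNReal.ofReal (c * (1 - t / b) ^ d) ≤ volume (slice K k t) →
      cone d c b t ≤ volume.real (slice K k t) := by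
    intro t h1 h2 h3
    rw [hcone t h1 h2]
    exact (ENNReal.ofReal_le_iff_le_toReal (hfin t)).1 h3
  have hne : ∀ t, 0 ≤ t → t < b → cone d c b t ≤ volume.real (slice K k t) →
      (slice K k t).Nonempty := by
    intro t h1 h2 h3
    rw [nonempty_iff_ne_empty]
    intro h
    have := hmem t h1 h2 h3
    rw [h, measure_empty, nonpos_iff_eq_zero, ENNReal.ofReal_eq_zero] at this
    have h4 := hpos t h1 h2
    have : 0 < c * (1 - t / b) ^ d := by positivity
    linarith
  refine ⟨R, {t | (0 ≤ t ∧ t < b ∧ cone d c b t ≤ volume.real (slice K k t)) ∨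
    (b ≤ t ∧ (slice K k t).Nonempty)}, ?_, ?_, ?_, ?_, fun t h0 h1 h2 => Or.inl ⟨h0, h1, h2⟩⟩
  · rintro t (⟨h1, h2, h3⟩ | ⟨h1, h2⟩)
    · exact ⟨h1, hle t (hne t h1 h2 h3)⟩
    · exact ⟨hbp.le.trans h1, hle t h2⟩
  · rw [ordConnected_iff]
    intro s hs t ht _ u hu
    rcases hu.1.eq_or_lt with rfl | hsu
    · exact hs
    rcases hu.2.eq_or_lt with rfl | hut
    · exact ht
    have hst : s < t := hsu.trans hut
    have hts : 0 < t - s := sub_pos.2 hst
    set l := (t - u) / (t - s) with hl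
    set m := (u - s) / (t - s) with hm
    have hl0 : 0 < l := div_pos (sub_pos.2 hut) hts
    have hm0 : 0 < m := div_pos (sub_pos.2 hsu) hts
    have hlm : l + m = 1 := by rw [hl, hm]; field_simp; ring
    have hu' : l * s + m * t = u := by rw [hl, hm]; field_simp; ring
    have hsne : (slice K k s).Nonempty := by
      rcases hs with ⟨h1, h2, h3⟩ | ⟨h1, h2⟩
      · exact hne s h1 h2 h3
      · exact h2
    have htne : (slice K k t).Nonempty := by
      rcases ht with ⟨h1, h2, h3⟩ | ⟨h1, h2⟩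
      · exact hne t h1 h2 h3
      · exact h2
    have hs0 : 0 ≤ s := hge s hsne
    have hu0 : 0 ≤ u := hs0.trans hsu.le
    have hune : (slice K k u).Nonempty := by
      obtain ⟨x, hx⟩ := hsne
      obtain ⟨y, hy⟩ := htne
      exact ⟨_, hu' ▸ slice_conv hK k hl0.le hm0.le hlm hx hy⟩
    rcases le_or_gt b u with hbu | hub
    · exact Or.inr ⟨hbu, hune⟩
    refine Or.inl ⟨hu0, hub, hmem' u hu0 hub ?_⟩
    have hs3 : cone d c b s ≤ volume.real (slice K k s) := by
      rcases hs with ⟨h1, h2, h3⟩ | ⟨h1, h2⟩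
      · exact h3
      · linarith
    have hsb : s < b := hsu.trans hub
    have hS := hmem s hs0 hsb hs3
    rcases le_or_gt b t with hbt | htb
    · obtain ⟨y, hy⟩ := htne
      have := bm_point (A := slice K k s) (C := slice K k u) (m := m) hl0 (y := y)
        (fun x hx => hu' ▸ slice_conv hK k hl0.le hm0.le hlm hx hy)
      refine le_trans ?_ this
      refine le_trans ?_ (mul_le_mul_right hS _)
      rw [← ENNReal.ofReal_mul (by positivity)]
      apply ENNReal.ofReal_le_ofReal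
      have h1 : 1 - u / b ≤ l * (1 - s / b) := by
        have e : 1 - u / b = l * (1 - s / b) + m * (1 - t / b) := by
          rw [← hu']
          have : (1 : ℝ) = l + m := hlm.symm
          field_simp
          linear_combination (b : ℝ) * this
        have h2 : m * (1 - t / b) ≤ 0 := by
          apply mul_nonpos_of_nonneg_of_nonpos hm0.le
          rw [sub_nonpos, one_le_div hbp]
          exact hbt
        linarith
      have h2 := hpos u hu0 hub
      calc c * (1 - u / b) ^ d ≤ c * (l * (1 - s / b)) ^ d := by gcongr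
        _ = _ := by rw [mul_pow]; ring
    · have ht0 : 0 ≤ t := hge t htne
      have ht3 : cone d c b t ≤ volume.real (slice K k t) := by
        rcases ht with ⟨h1, h2, h3⟩ | ⟨h1, h2⟩
        · exact h3
        · linarith
      have := bm_scaled (measurableSet_slice hc k s) (measurableSet_slice hc k t)
        (measurableSet_slice hc k u) (hpos s hs0 hsb) (hpos t ht0 htb) hcp hl0 hm0
        (fun x hx y hy => hu' ▸ slice_conv hK k hl0.le hm0.le hlm hx hy) hS (hmem t ht0 htb ht3)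
      convert this using 4
      rw [← hu']
      have : (1 : ℝ) = l + m := hlm.symm
      field_simp
      linear_combination (b : ℝ) * this
  · rintro t (⟨h1, h2, h3⟩ | ⟨h1, h2⟩)
    · exact h3
    · rw [hcone' t h1]; exact measureReal_nonneg
  · intro t h0 ht
    rcases lt_or_ge t b with h | h
    · by_contra hcon
      exact ht (Or.inl ⟨h0, h, (not_le.1 hcon).le⟩)
    · have : slice K k t = ∅ := by
        rw [← not_nonempty_iff_eq_empty]
        exact fun h' => ht (Or.inr ⟨h, h'⟩)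
      rw [this, hcone' t h]
      simp

theorem half_slice {K : Set (Fin (d + 1) → ℝ)} (hK : Convex ℝ K) (hc : IsCompact K)
    (k : Fin (d + 1)) (hk : ∀ x ∈ K, 0 ≤ x k) :
    ((d : ℝ) + 2) * volume.real (slice K k 0) * ∫ x in K, x k ≤
      ((d : ℝ) + 1) * volume.real K ^ 2 := by
  rcases measureReal_nonneg (μ := volume) (s := slice K k 0) |>.eq_or_lt with h0 | hcp
  · rw [← h0, mul_zero, zero_mul]
    positivity
  rcases measureReal_nonneg (μ := volume) (s := K) |>.eq_or_lt with hv0 | hv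
  · have hz : volume K = 0 := by
      rcases (ENNReal.toReal_eq_zero_iff _).1 hv0.symm with h | h
      · exact h
      · exact absurd h hc.measure_lt_top.ne
    rw [Measure.restrict_eq_zero.2 hz, integral_zero_measure, mul_zero]
    positivity
  obtain ⟨i0, f0⟩ := fubini_slice hc k (φ := fun _ => 1) continuous_const
  obtain ⟨i1, f1⟩ := fubini_slice hc k (φ := fun t => t) continuous_id
  simp only [one_mul] at i0 f0
  have f0' : ∫ x in K, (1 : ℝ) = volume.real K := by simp
  rw [f0'] at f0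
  have hneg : ∀ t, t < 0 → slice K k t = ∅ := by
    intro t ht
    ext y
    simp only [slice, mem_ofPred_eq, mem_empty_iff_false, iff_false]
    intro h
    have := hk _ h
    simp at this
    linarith
  set F : ℝ → ℝ := fun t => volume.real (slice K k t) with hF
  set c : ℝ := F 0 with hcdef
  set M0 : ℝ := volume.real K with hM0
  have hdp : (0 : ℝ) < (d : ℝ) + 1 := by positivity
  set b : ℝ := ((d : ℝ) + 1) * M0 / c with hb
  have hbp : 0 < b := by positivity
  obtain ⟨R, T, hT1, hT2, hT3, hT4, hT5⟩ := exists_T hK hc k hk hcp hbp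
  have hcone0 : cone d c b 0 = c := by
    unfold cone
    rw [indicator_of_mem (show (0 : ℝ) ∈ Ico 0 b from ⟨le_rfl, hbp⟩)]
    simp
  have h0T : (0 : ℝ) ∈ T := hT5 0 le_rfl hbp (by rw [hcone0])
  have hba : BddAbove T := ⟨R, fun t ht => (hT1 ht).2⟩
  set β := sSup T
  have key : ∀ t, (t - β) * (F t - cone d c b t) ≤ 0 := by
    intro t
    rcases lt_or_ge t 0 with h0 | h0
    · have h1 : F t = 0 := by
        rw [hF]
        dsimp only
        rw [hneg t h0]
        simp
      rw [h1]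
      unfold cone
      rw [indicator_of_notMem (fun h => absurd h.1 (not_le.2 h0))]
      simp
    · by_cases ht : t ∈ T
      · have h2 : t ≤ β := le_csSup hba ht
        have h3 := hT3 t ht
        exact mul_nonpos_of_nonpos_of_nonneg (by linarith) (by rw [hF]; dsimp only; linarith)
      · have h3 := hT4 t h0 ht
        have h4 : β ≤ t := by
          refine csSup_le ⟨0, h0T⟩ fun s hs => ?_
          by_contra hcon
          push Not at hcon
          exact ht (hT2.out h0T hs ⟨h0, hcon.le⟩)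
        exact mul_nonpos_of_nonneg_of_nonpos (by linarith) (by rw [hF]; dsimp only; linarith)
  have hint : ∫ t, (t - β) * (F t - cone d c b t) ≤ 0 := integral_nonpos key
  obtain ⟨j0, g0⟩ := cone_integral d 0 c hbp
  obtain ⟨j1, g1⟩ := cone_integral d 1 c hbp
  rw [cone0] at g0
  rw [cone1] at g1
  simp only [pow_zero, one_mul, pow_one, zero_add] at j0 j1 g0 g1
  have hexp : ∫ t, (t - β) * (F t - cone d c b t) =
      ((∫ t, t * F t) - ∫ t, t * cone d c b t) - β * ((∫ t, F t) - ∫ t, cone d c b t) := by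
    have e1 : ∀ t, (t - β) * (F t - cone d c b t) =
        (t * F t - t * cone d c b t) - β * (F t - cone d c b t) := fun t => by ring
    simp only [e1]
    have k1 : Integrable (fun t => t * F t - t * cone d c b t) := i1.sub j1
    have k0 : Integrable (fun t => β * (F t - cone d c b t)) := (i0.sub j0).const_mul _
    rw [integral_sub k1 k0, integral_const_mul, integral_sub i1 j1, integral_sub i0 j0]
  rw [hexp, g0, g1, ← f0, ← f1] at hint
  have hcp' : 0 < c := hcp
  have hcb : c * b = ((d : ℝ) + 1) * M0 := by rw [hb, mul_div_cancel₀ _ hcp'.ne']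
  have h0 : c * b * (1 / ((d : ℝ) + 1)) = M0 := by rw [hcb]; field_simp
  rw [h0, sub_self, mul_zero, sub_zero] at hint
  have h1 : ((d : ℝ) + 2) * c * (c * b ^ (1 + 1) * (1 / (((d : ℝ) + 1) * (d + 2)))) =
      ((d : ℝ) + 1) * M0 ^ 2 := by
    have e : c * (c * b ^ (1 + 1)) = (((d : ℝ) + 1) * M0) ^ 2 := by
      rw [← hcb]
      ring
    have hd2 : (0 : ℝ) < (d : ℝ) + 2 := by positivity
    calc ((d : ℝ) + 2) * c * (c * b ^ (1 + 1) * (1 / (((d : ℝ) + 1) * (d + 2)))) =
        ((d : ℝ) + 2) * (c * (c * b ^ (1 + 1))) * (1 / (((d : ℝ) + 1) * (d + 2))) := by ring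
      _ = _ := by rw [e]; field_simp
  rw [← h1]
  refine mul_le_mul_of_nonneg_left (by linarith) (by positivity)

end Half

theorem half_ineq {d : ℕ} {K : Set (Fin (d + 1) → ℝ)} (hK : Convex ℝ K) (hc : IsCompact K)
    (hk : ∀ x ∈ K, 0 ≤ x 0) :
    ((d : ℝ) + 2) * (volume (sl K 0)).toReal * ∫ x in K, x 0 ≤
      ((d : ℝ) + 1) * (volume K).toReal ^ 2 := by
  have h := Half.half_slice hK hc 0 hk
  have e : slice K 0 0 = sl K 0 := by
    unfold slice sl
    simp only [Fin.insertNth_zero']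
  rw [e] at h
  exact h

end Vale.Agent.P254.FV1
end

section

/-! P254, one free direction: the variance of the free coordinate against the central section. -/

open MeasureTheory Set
open scoped Pointwise

namespace Vale.Agent.P254.FV1

open Unc

/-- Statement of `half_ineq`. -/
def HalfSt : Prop := ∀ {d : ℕ} {K : Set (Fin (d + 1) → ℝ)}, Convex ℝ K → IsCompact K →
    (∀ x ∈ K, 0 ≤ x 0) →
    ((d : ℝ) + 2) * (volume (sl K 0)).toReal * ∫ x in K, x 0 ≤
      ((d : ℝ) + 1) * (volume K).toReal ^ 2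

variable {d : ℕ}

/-- Splitting of an integral at `x_0 = 0`. -/
lemma split_neg {P : Set (Fin (d + 1) → ℝ)} (hc : IsCompact P)
    {g : (Fin (d + 1) → ℝ) → ℝ} (hg : Continuous g) :
    ∫ x in P, g x = (∫ x in P ∩ {x | 0 ≤ x 0}, g x) + ∫ x in (-P) ∩ {x | 0 ≤ x 0}, g (-x) := by
  have hint : IntegrableOn g P := hg.continuousOn.integrableOn_compact hc
  have hm : MeasurableSet {x : Fin (d + 1) → ℝ | 0 ≤ x 0} :=
    measurableSet_le measurable_const (measurable_pi_apply 0)
  have h1 : ∫ x in P, g x =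
      (∫ x in P ∩ {x | 0 ≤ x 0}, g x) + ∫ x in P \ {x | 0 ≤ x 0}, g x :=
    (integral_inter_add_sdiff hm hint).symm
  have h2 : ∫ x in P \ {x | 0 ≤ x 0}, g x = ∫ x in P ∩ {x | x 0 ≤ 0}, g x := by
    refine setIntegral_congr_set ?_
    have hnull : volume {x : Fin (d + 1) → ℝ | x 0 = 0} = 0 := by
      rw [volume_pi]
      exact Measure.pi_hyperplane _ _ _
    have hae : ∀ᵐ x : Fin (d + 1) → ℝ, x 0 ≠ 0 := by
      rw [ae_iff]
      simpa using hnull
    filter_upwards [hae] with x hx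
    apply propext
    constructor
    · rintro ⟨h3, h4⟩
      have h5 : ¬ 0 ≤ x 0 := h4
      exact ⟨h3, (not_le.1 h5).le⟩
    · rintro ⟨h3, h4⟩
      exact ⟨h3, fun h5 => hx (le_antisymm h4 h5)⟩
  have h3 : ∫ x in P ∩ {x | x 0 ≤ 0}, g x = ∫ x in (-P) ∩ {x | 0 ≤ x 0}, g (-x) := by
    have hmp : MeasurePreserving (fun x : Fin (d + 1) → ℝ => -x) volume volume :=
      Measure.measurePreserving_neg volume
    have he : MeasurableEmbedding (fun x : Fin (d + 1) → ℝ => -x) :=
      (MeasurableEquiv.neg _).measurableEmbedding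
    rw [← hmp.setIntegral_preimage_emb he g (P ∩ {x | x 0 ≤ 0})]
    have e : (fun x : Fin (d + 1) → ℝ => -x) ⁻¹' (P ∩ {x | x 0 ≤ 0}) =
        (-P) ∩ {x | 0 ≤ x 0} := by
      ext x
      simp
    rw [e]
  rw [h1, h2, h3]

lemma real_ineq {S m c κ a b A : ℝ} (hS : 0 ≤ S) (hm : 0 ≤ m) (hc : 0 ≤ c) (hκ : 0 ≤ κ)
    (ha : 0 ≤ a) (h1 : S * m ≤ c * a ^ 2) (h2 : S * m ≤ c * b ^ 2)
    (h3 : a * A ≤ κ * m ^ 2) (h0 : a = 0 → A = 0) : S ^ 2 * A ≤ κ * c ^ 2 * (a * b ^ 2) := by
  rcases eq_or_lt_of_le ha with h | h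
  · rw [h0 h.symm, ← h]
    simp
  · have h4 : (S * m) ^ 2 ≤ (c * a ^ 2) * (c * b ^ 2) := by
      rw [pow_two]
      exact mul_le_mul h1 h2 (by positivity) (by positivity)
    have h5 : a * (S ^ 2 * A) ≤ a * (κ * c ^ 2 * (a * b ^ 2)) := by
      calc a * (S ^ 2 * A) = S ^ 2 * (a * A) := by ring
        _ ≤ S ^ 2 * (κ * m ^ 2) := mul_le_mul_of_nonneg_left h3 (by positivity)
        _ = κ * (S * m) ^ 2 := by ring
        _ ≤ κ * ((c * a ^ 2) * (c * b ^ 2)) := mul_le_mul_of_nonneg_left h4 hκ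
        _ = _ := by ring
    exact le_of_mul_le_mul_left h5 h

/-- The centred case. -/
lemma var_zero (hhalf : HalfSt) {P : Set (Fin (d + 1) → ℝ)} (hP : Convex ℝ P) (hc : IsCompact P)
    (h0 : ∫ x in P, x 0 = 0) :
    (volume (sl P 0)).toReal ^ 2 * ∫ x in P, (x 0) ^ 2 ≤
      ((d : ℝ) + 1) ^ 2 / (2 * ((d : ℝ) + 2) * ((d : ℝ) + 3)) * (volume P).toReal ^ 3 := by
  have hc0 : Continuous fun x : Fin (d + 1) → ℝ => x 0 := continuous_apply 0
  have hcl : IsClosed {x : Fin (d + 1) → ℝ | 0 ≤ x 0} := isClosed_le continuous_const hc0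
  have hcv : Convex ℝ {x : Fin (d + 1) → ℝ | 0 ≤ x 0} := by
    intro x hx y hy a b ha hb _
    have h1 : 0 ≤ x 0 := hx
    have h2 : 0 ≤ y 0 := hy
    show 0 ≤ a * x 0 + b * y 0
    positivity
  set P1 := P ∩ {x : Fin (d + 1) → ℝ | 0 ≤ x 0} with hP1
  set P2 := (-P) ∩ {x : Fin (d + 1) → ℝ | 0 ≤ x 0} with hP2
  have hc1 : IsCompact P1 := hc.inter_right hcl
  have hc2 : IsCompact P2 := hc.neg.inter_right hcl
  have hv1 : Convex ℝ P1 := hP.inter hcv
  have hv2 : Convex ℝ P2 := hP.neg.inter hcv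
  have hn1 : ∀ x ∈ P1, 0 ≤ x 0 := fun x hx => hx.2
  have hn2 : ∀ x ∈ P2, 0 ≤ x 0 := fun x hx => hx.2
  -- the sections
  have hs1 : sl P1 0 = sl P 0 := by
    ext y
    simp [sl, hP1]
  have hs2 : sl P2 0 = -(sl P 0) := by
    ext y
    have e : -(Fin.cons 0 y : Fin (d + 1) → ℝ) = Fin.cons 0 (-y) := by
      funext i
      refine Fin.cases ?_ (fun k => ?_) i
      · simp
      · simp
    simp only [sl, hP2, mem_ofPred_eq, mem_inter_iff, mem_neg, Fin.cons_zero, le_refl, and_true]
    rw [e]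
  have hS2 : (volume (sl P2 0)).toReal = (volume (sl P 0)).toReal := by
    rw [hs2, Measure.measure_neg]
  -- the splittings
  have hvol := split_neg hc (g := fun _ => (1 : ℝ)) continuous_const
  have hmom := split_neg hc (g := fun x => x 0) hc0
  have hsq := split_neg hc (g := fun x => x 0 ^ 2) (by fun_prop)
  simp only [setIntegral_const, smul_eq_mul, mul_one, Measure.real] at hvol
  simp only [Pi.neg_apply, integral_neg, neg_sq] at hmom hsq
  rw [h0] at hmom
  rw [← hP1, ← hP2] at hvol hmom hsq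
  set S := (volume (sl P 0)).toReal with hS
  set a := (volume P1).toReal with ha
  set b := (volume P2).toReal with hb
  have hm12 : ∫ x in P2, x 0 = ∫ x in P1, x 0 := by linarith
  set m := ∫ x in P1, x 0 with hm
  have hS0 : 0 ≤ S := ENNReal.toReal_nonneg
  have ha0 : 0 ≤ a := ENNReal.toReal_nonneg
  have hb0 : 0 ≤ b := ENNReal.toReal_nonneg
  have hm0 : 0 ≤ m := setIntegral_nonneg hc1.measurableSet hn1
  have f1 := hhalf hv1 hc1 hn1
  have f2 := hhalf hv2 hc2 hn2
  rw [hs1] at f1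
  rw [hS2, hm12] at f2
  have g1 := berwald hv1 hc1 0 hn1
  have g2 := berwald hv2 hc2 0 hn2
  rw [hm12] at g2
  push_cast at g1 g2
  have hd : (0 : ℝ) ≤ d := Nat.cast_nonneg d
  set c : ℝ := ((d : ℝ) + 1) / (d + 2) with hcdef
  set κ : ℝ := 2 * ((d : ℝ) + 1 + 1) / ((d : ℝ) + 1 + 2) with hκ
  have k1 : S * m ≤ c * a ^ 2 := by
    rw [hcdef, div_mul_eq_mul_div, le_div_iff₀ (by positivity)]
    linarith
  have k2 : S * m ≤ c * b ^ 2 := by
    rw [hcdef, div_mul_eq_mul_div, le_div_iff₀ (by positivity)]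
    linarith
  have z1 : a = 0 → ∫ x in P1, x 0 ^ 2 = 0 := by
    intro h
    have h' : volume P1 = 0 := by
      rcases (ENNReal.toReal_eq_zero_iff _).1 h with h | h
      · exact h
      · exact absurd h hc1.measure_lt_top.ne
    rw [Measure.restrict_eq_zero.2 h', integral_zero_measure]
  have z2 : b = 0 → ∫ x in P2, x 0 ^ 2 = 0 := by
    intro h
    have h' : volume P2 = 0 := by
      rcases (ENNReal.toReal_eq_zero_iff _).1 h with h | h
      · exact h
      · exact absurd h hc2.measure_lt_top.ne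
    rw [Measure.restrict_eq_zero.2 h', integral_zero_measure]
  have r1 := real_ineq hS0 hm0 (c := c) (κ := κ) (by positivity) (by positivity) ha0 k1 k2 g1 z1
  have r2 := real_ineq hS0 hm0 (c := c) (κ := κ) (by positivity) (by positivity) hb0 k2 k1 g2 z2
  rw [hvol, hsq]
  have e : ((d : ℝ) + 1) ^ 2 / (2 * ((d : ℝ) + 2) * ((d : ℝ) + 3)) = κ * c ^ 2 / 4 := by
    rw [hκ, hcdef]
    field_simp
    ring
  rw [e]
  have hk0 : 0 ≤ κ * c ^ 2 := by positivity
  have hab : a * b ^ 2 + b * a ^ 2 ≤ (a + b) ^ 3 / 4 := by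
    nlinarith [mul_nonneg (add_nonneg ha0 hb0) (sq_nonneg (a - b))]
  calc S ^ 2 * ((∫ x in P1, x 0 ^ 2) + ∫ x in P2, x 0 ^ 2)
      = S ^ 2 * (∫ x in P1, x 0 ^ 2) + S ^ 2 * ∫ x in P2, x 0 ^ 2 := by ring
    _ ≤ κ * c ^ 2 * (a * b ^ 2) + κ * c ^ 2 * (b * a ^ 2) := add_le_add r1 r2
    _ = κ * c ^ 2 * (a * b ^ 2 + b * a ^ 2) := by ring
    _ ≤ κ * c ^ 2 * ((a + b) ^ 3 / 4) := mul_le_mul_of_nonneg_left hab hk0
    _ = _ := by ring

theorem var_ineq_of_half (hhalf : HalfSt) {K : Set (Fin (d + 1) → ℝ)} (hK : Convex ℝ K)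
    (hc : IsCompact K) (T : ℝ) (hT : T * (volume K).toReal = ∫ x in K, x 0) :
    (volume (sl K T)).toReal ^ 2 * ∫ x in K, (x 0 - T) ^ 2 ≤
      ((d : ℝ) + 1) ^ 2 / (2 * ((d : ℝ) + 2) * ((d : ℝ) + 3)) * (volume K).toReal ^ 3 := by
  set c : Fin (d + 1) → ℝ := Fin.cons T 0 with hcdef
  set P : Set (Fin (d + 1) → ℝ) := (fun x => x + c) ⁻¹' K with hPdef
  have hmp : MeasurePreserving (fun x : Fin (d + 1) → ℝ => x + c) volume volume :=
    measurePreserving_add_right volume c
  have he : MeasurableEmbedding (fun x : Fin (d + 1) → ℝ => x + c) :=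
    measurableEmbedding_addRight c
  have hPc : IsCompact P := (Homeomorph.addRight c).isCompact_preimage.2 hc
  have hPv : Convex ℝ P := hK.translate_preimage_left c
  have hvol : volume P = volume K := hmp.measure_preimage_emb he K
  have hint : ∀ g : (Fin (d + 1) → ℝ) → ℝ, ∫ x in P, g (x + c) = ∫ x in K, g x :=
    fun g => hmp.setIntegral_preimage_emb he g K
  have hsl : sl P 0 = sl K T := by
    ext y
    have e : (Fin.cons 0 y : Fin (d + 1) → ℝ) + c = Fin.cons T y := by
      funext i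
      refine Fin.cases ?_ (fun k => ?_) i
      · simp [hcdef]
      · simp [hcdef]
    simp only [sl, hPdef, mem_ofPred_eq, mem_preimage]
    rw [e]
  have hc0 : Continuous fun x : Fin (d + 1) → ℝ => x 0 := continuous_apply 0
  have hcc : c 0 = T := by simp [hcdef]
  have h0 : ∫ x in P, x 0 = 0 := by
    have h1 := hint (fun x => x 0 - T)
    simp only [Pi.add_apply, hcc, add_sub_cancel_right] at h1
    rw [h1, integral_sub (hc0.continuousOn.integrableOn_compact hc)
      (continuous_const.continuousOn.integrableOn_compact hc), setIntegral_const, smul_eq_mul,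
      Measure.real, ← hT]
    ring
  have h2 : ∫ x in P, (x 0) ^ 2 = ∫ x in K, (x 0 - T) ^ 2 := by
    have h1 := hint (fun x => (x 0 - T) ^ 2)
    simpa only [Pi.add_apply, hcc, add_sub_cancel_right] using h1
  have h3 := var_zero hhalf hPv hPc h0
  rwa [hsl, h2, hvol] at h3

theorem var_ineq {d : ℕ} {K : Set (Fin (d + 1) → ℝ)} (hK : Convex ℝ K) (hc : IsCompact K)
    (_hv : 0 < (volume K).toReal) (T : ℝ) (hT : T * (volume K).toReal = ∫ x in K, x 0) :
    (volume (sl K T)).toReal ^ 2 * ∫ x in K, (x 0 - T) ^ 2 ≤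
      ((d : ℝ) + 1) ^ 2 / (2 * ((d : ℝ) + 2) * ((d : ℝ) + 3)) * (volume K).toReal ^ 3 :=
  var_ineq_of_half (fun hK hc hk => half_ineq hK hc hk) hK hc T hT

end Vale.Agent.P254.FV1
end

section

/-!
P254, one free direction: from the volume inequality `FUNCR` and the variance inequality to the
bound of `det Cov / |K| ^ 2`.
-/

open MeasureTheory Set

namespace Vale.Agent.P254.FV1

open Unc

/-- `K` is invariant under the changes of sign of all coordinates except `x_0`. -/
def Sym1 {d : ℕ} (K : Set (Fin (d + 1) → ℝ)) : Prop :=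
  ∀ x ∈ K, ∀ y : Fin (d + 1) → ℝ, y 0 = x 0 → (∀ k : Fin d, |y k.succ| = |x k.succ|) → y ∈ K

namespace Bd

open FB

variable {d : ℕ} {K : Set (Fin (d + 1) → ℝ)}

lemma refl_mem (hu : Sym1 K) (k : Fin d) {x : Fin (d + 1) → ℝ} (hx : x ∈ K) :
    refl k.succ x ∈ K :=
  hu x hx _ (refl_ne (Fin.succ_ne_zero k).symm x) fun i => refl_abs k.succ i.succ x

lemma sym_refl (hu : Sym1 K) (k : Fin d) : refl k.succ ⁻¹' K = K := by
  ext x
  constructor
  · intro h
    have := refl_mem hu k h
    rwa [refl_refl] at this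
  · intro h
    exact refl_mem hu k h

lemma reduct1 (hu : Sym1 K) {f : (Fin (d + 1) → ℝ) → ℝ} (hf : IntegrableOn f K)
    (hfs : ∀ (k : Fin d) x, f (refl k.succ x) = f x) (S : Finset (Fin d)) :
    ∫ x in K, f x = 2 ^ S.card * ∫ x in K ∩ {x | ∀ i ∈ S, 0 ≤ x i.succ}, f x := by
  classical
  induction S using Finset.induction_on with
  | empty => simp
  | insert j S hj ih =>
    rw [ih, Finset.card_insert_of_notMem hj]
    have hinv : refl j.succ ⁻¹' (K ∩ {x | ∀ i ∈ S, 0 ≤ x i.succ}) =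
        K ∩ {x | ∀ i ∈ S, 0 ≤ x i.succ} := by
      ext x
      have hx : refl j.succ x ∈ K ↔ x ∈ K := by
        rw [← mem_preimage, sym_refl hu]
      simp only [mem_preimage, mem_inter_iff, hx, mem_ofPred_eq]
      refine and_congr_right fun _ => forall₂_congr fun i hi => ?_
      have hne : i.succ ≠ j.succ := by
        intro h
        exact hj (Fin.succ_injective d h ▸ hi)
      rw [refl_ne hne]
    have h1 := half j.succ hinv (hf.mono_set inter_subset_left) (hfs j)
    rw [h1]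
    have e : K ∩ {x : Fin (d + 1) → ℝ | ∀ i ∈ S, 0 ≤ x i.succ} ∩ {x | 0 ≤ x j.succ} =
        K ∩ {x | ∀ i ∈ insert j S, 0 ≤ x i.succ} := by
      ext x
      simp only [mem_inter_iff, mem_ofPred_eq, Finset.forall_mem_insert]
      tauto
    rw [e]
    ring

lemma update_mem1 (hc : Convex ℝ K) (hu : Sym1 K) {x : Fin (d + 1) → ℝ} (hx : x ∈ K)
    (k : Fin d) {t : ℝ} (ht : |t| ≤ |x k.succ|) : Function.update x k.succ t ∈ K := by
  set j := k.succ with hj
  by_cases h0 : x j = 0
  · rw [h0, abs_zero, abs_nonpos_iff] at ht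
    rw [ht, ← h0, Function.update_eq_self]
    exact hx
  · set s : ℝ := t / x j with hs
    have hs1 : |s| ≤ 1 := by
      rw [hs, abs_div]
      exact div_le_one_of_le₀ ht (abs_nonneg _)
    rw [abs_le] at hs1
    have hr : refl j x ∈ K := refl_mem hu k hx
    have h := hc hx hr (a := (1 + s) / 2) (b := (1 - s) / 2) (by linarith) (by linarith) (by ring)
    have e : ((1 + s) / 2) • x + ((1 - s) / 2) • refl j x = Function.update x j t := by
      funext i
      by_cases hi : i = j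
      · rw [hi, Pi.add_apply, Pi.smul_apply, Pi.smul_apply, refl_self, Function.update_self,
          smul_eq_mul, smul_eq_mul]
        have : s * x j = t := by rw [hs]; field_simp
        linear_combination this
      · rw [Pi.add_apply, Pi.smul_apply, Pi.smul_apply, refl_ne hi, Function.update_of_ne hi,
          smul_eq_mul, smul_eq_mul]
        ring
    rwa [e] at h

lemma solid1 (hc : Convex ℝ K) (hu : Sym1 K) {x : Fin (d + 1) → ℝ} (hx : x ∈ K)
    {y : Fin (d + 1) → ℝ} (h0 : y 0 = x 0) (hy : ∀ k : Fin d, |y k.succ| ≤ |x k.succ|) : y ∈ K := by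
  classical
  have h : ∀ S : Finset (Fin d), (fun i : Fin (d + 1) => if ∃ k ∈ S, k.succ = i then y i else x i) ∈ K := by
    intro S
    induction S using Finset.induction_on with
    | empty => simpa using hx
    | insert j S hj ih =>
      have hnj : ¬ ∃ k ∈ S, k.succ = j.succ := by
        rintro ⟨k, hk, hkj⟩
        exact hj (Fin.succ_injective d hkj ▸ hk)
      have h1 := update_mem1 hc hu ih j (t := y j.succ) (by simp only [hnj, if_false]; exact hy j)
      have e : Function.update (fun i : Fin (d + 1) => if ∃ k ∈ S, k.succ = i then y i else x i)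
          j.succ (y j.succ) = fun i => if ∃ k ∈ insert j S, k.succ = i then y i else x i := by
        funext i
        by_cases hi : i = j.succ
        · subst hi
          simp
        · rw [Function.update_of_ne hi]
          have : (∃ k ∈ insert j S, k.succ = i) ↔ ∃ k ∈ S, k.succ = i := by
            constructor
            · rintro ⟨k, hk, hki⟩
              rcases Finset.mem_insert.1 hk with rfl | hk
              · exact absurd hki.symm hi
              · exact ⟨k, hk, hki⟩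
            · rintro ⟨k, hk, hki⟩
              exact ⟨k, Finset.mem_insert_of_mem hk, hki⟩
          simp only [this]
      rwa [e] at h1
  have h1 := h Finset.univ
  have e : (fun i : Fin (d + 1) => if ∃ k ∈ (Finset.univ : Finset (Fin d)), k.succ = i then y i
      else x i) = y := by
    funext i
    induction i using Fin.cases with
    | zero =>
      have : ¬ ∃ k ∈ (Finset.univ : Finset (Fin d)), k.succ = (0 : Fin (d + 1)) := by
        rintro ⟨k, _, hk⟩
        exact Fin.succ_ne_zero k hk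
      simp only [this, if_false]
      exact h0.symm
    | succ k =>
      have : ∃ l ∈ (Finset.univ : Finset (Fin d)), l.succ = k.succ := ⟨k, Finset.mem_univ _, rfl⟩
      simp only [this, if_true]
  rwa [e] at h1

lemma orth1_closed : IsClosed {x : Fin (d + 1) → ℝ | ∀ k : Fin d, 0 ≤ x k.succ} := by
  have : {x : Fin (d + 1) → ℝ | ∀ k : Fin d, 0 ≤ x k.succ} = ⋂ k : Fin d, {x | 0 ≤ x k.succ} := by
    ext x; simp
  rw [this]
  exact isClosed_iInter fun i => isClosed_le continuous_const (continuous_apply i.succ)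

lemma orth1_convex : Convex ℝ {x : Fin (d + 1) → ℝ | ∀ k : Fin d, 0 ≤ x k.succ} := by
  intro x hx y hy a b ha hb _ k
  have h1 := hx k
  have h2 := hy k
  simp only [Pi.add_apply, Pi.smul_apply, smul_eq_mul]
  positivity

lemma reduct_univ1 (hu : Sym1 K) {f : (Fin (d + 1) → ℝ) → ℝ} (hf : IntegrableOn f K)
    (hfs : ∀ (k : Fin d) x, f (refl k.succ x) = f x) :
    ∫ x in K, f x = 2 ^ d * ∫ x in K ∩ {x | ∀ k : Fin d, 0 ≤ x k.succ}, f x := by
  have h := reduct1 hu hf hfs Finset.univ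
  simpa using h

lemma int_odd1 (hu : Sym1 K) (k : Fin d) {f : (Fin (d + 1) → ℝ) → ℝ}
    (hfs : ∀ x, f (refl k.succ x) = -f x) : ∫ x in K, f x = 0 := by
  have h := refl_int k.succ K f
  rw [sym_refl hu k] at h
  simp_rw [hfs] at h
  rw [integral_neg] at h
  linarith

/-- the diagonal of the covariance matrix -/
lemma cov_diag1 (hu : Sym1 K) :
    covMatrix K = Matrix.diagonal (Fin.cons ((volume K).toReal⁻¹ * ∫ x in K, (x 0 - centroid K 0) ^ 2)
      fun k : Fin d => (volume K).toReal⁻¹ * ∫ x in K, x k.succ ^ 2) := by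
  have hc : ∀ k : Fin d, centroid K k.succ = 0 := by
    intro k
    rw [centroid, int_odd1 hu k (f := fun x => x k.succ) (refl_self k.succ), mul_zero]
  ext i j
  rw [covMatrix, Matrix.diagonal_apply]
  induction i using Fin.cases with
  | zero =>
    induction j using Fin.cases with
    | zero => simp only [if_true, Fin.cons_zero, pow_two]
    | succ k =>
      rw [if_neg (Fin.succ_ne_zero k).symm]
      simp only [hc, sub_zero]
      rw [int_odd1 hu k (f := fun x => (x 0 - centroid K 0) * x k.succ), mul_zero]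
      intro x
      rw [refl_self, refl_ne (Fin.succ_ne_zero k).symm]
      ring
  | succ i =>
    induction j using Fin.cases with
    | zero =>
      rw [if_neg (Fin.succ_ne_zero i)]
      simp only [hc, sub_zero]
      rw [int_odd1 hu i (f := fun x => x i.succ * (x 0 - centroid K 0)), mul_zero]
      intro x
      rw [refl_self, refl_ne (Fin.succ_ne_zero i).symm]
      ring
    | succ j =>
      simp only [hc, sub_zero]
      by_cases hij : i = j
      · subst hij
        simp only [if_true, pow_two, Fin.cons_succ]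
      · have hij' : i.succ ≠ j.succ := fun h => hij (Fin.succ_injective d h)
        rw [if_neg hij', int_odd1 hu i (f := fun x => x i.succ * x j.succ), mul_zero]
        intro x
        rw [refl_self, refl_ne (Ne.symm hij')]
        ring

end Bd

open Bd FB in
theorem fv_body_of {d : ℕ}
    (hvar : ∀ {K : Set (Fin (d + 1) → ℝ)}, Convex ℝ K → IsCompact K → 0 < (volume K).toReal →
      ∀ T : ℝ, T * (volume K).toReal = ∫ x in K, x 0 →
      (volume (sl K T)).toReal ^ 2 * ∫ x in K, (x 0 - T) ^ 2 ≤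
        ((d : ℝ) + 1) ^ 2 / (2 * ((d : ℝ) + 2) * ((d : ℝ) + 3)) * (volume K).toReal ^ 3)
    (h : FUNCR d) {K : Set (Fin (d + 1) → ℝ)} (hK : IsConvexBody K) (hs : Sym1 K) :
    (covMatrix K).det / (volume K).toReal ^ 2 ≤
      ((d : ℝ) + 1) ^ 2 / (2 * ((d : ℝ) + 2) * ((d : ℝ) + 3)) *
        (((d : ℝ) + 2) / (8 * ((d : ℝ) + 3))) ^ d := by
  obtain ⟨hc, hcp, hint⟩ := hK
  have hfin : volume K ≠ ⊤ := hcp.measure_lt_top.ne
  have hV : 0 < (volume K).toReal := by
    refine ENNReal.toReal_pos ?_ hfin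
    have h1 := isOpen_interior.measure_pos volume hint
    exact (h1.trans_le (measure_mono interior_subset)).ne'
  set P : Set (Fin (d + 1) → ℝ) := K ∩ {x | ∀ k : Fin d, 0 ≤ x k.succ} with hP
  have hPc : Convex ℝ P := hc.inter orth1_convex
  have hPk : IsCompact P := hcp.inter_right orth1_closed
  have hVP : (volume K).toReal = 2 ^ d * (volume P).toReal := by
    have h := reduct_univ1 hs (f := fun _ => (1 : ℝ)) (integrableOn_const hfin) (fun _ _ => rfl)
    rw [setIntegral_const, setIntegral_const] at h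
    simpa [Measure.real] using h
  have hI : ∀ f : (Fin (d + 1) → ℝ) → ℝ, Continuous f → (∀ (k : Fin d) x, f (refl k.succ x) = f x) →
      ∫ x in K, f x = 2 ^ d * ∫ x in P, f x := fun f hf hfs =>
    reduct_univ1 hs (hf.continuousOn.integrableOn_compact hcp) hfs
  set T : ℝ := centroid K 0 with hT
  have h2n : (0 : ℝ) < 2 ^ d := by positivity
  have hVp : 0 < (volume P).toReal := by
    rw [hVP] at hV
    exact pos_of_mul_pos_right hV h2n.le
  have hPne : P.Nonempty := by
    rw [nonempty_iff_ne_empty]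
    intro h
    rw [h, measure_empty, ENNReal.toReal_zero] at hVp
    exact lt_irrefl _ hVp
  have hr0 : ∀ (k : Fin d) (x : Fin (d + 1) → ℝ), refl k.succ x 0 = x 0 := fun k x =>
    refl_ne (Fin.succ_ne_zero k).symm x
  have hT1 : T * (volume P).toReal = ∫ x in P, x 0 := by
    have h1 : T * (volume K).toReal = ∫ x in K, x 0 := by
      rw [hT, centroid]
      field_simp
    rw [hI (fun x => x 0) (continuous_apply 0) (fun k x => hr0 k x), hVP] at h1
    have h2 : 2 ^ d * (T * (volume P).toReal) = 2 ^ d * ∫ x in P, x 0 := by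
      rw [← h1]; ring
    exact mul_left_cancel₀ h2n.ne' h2
  have hB : ∫ x in K, (x 0 - T) ^ 2 = 2 ^ d * ∫ x in P, (x 0 - T) ^ 2 :=
    hI (fun x => (x 0 - T) ^ 2) (by fun_prop) (fun k x => by rw [hr0 k x])
  have hA : ∀ k : Fin d, ∫ x in K, x k.succ ^ 2 = 2 ^ d * ∫ x in P, x k.succ ^ 2 := fun k =>
    hI (fun x => x k.succ ^ 2) (by fun_prop) (fun j x => by rw [← sq_abs, refl_abs, sq_abs])
  have hv1 := hvar hPc hPk hVp T hT1
  have hf1 := h P hPk hPc hPne (fun x hx k => hx.2 k)
    (fun x hx y h0 hy => ⟨solid1 hc hs hx.1 h0 (fun k => by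
      rw [abs_of_nonneg (hy k).1, abs_of_nonneg (hx.2 k)]; exact (hy k).2), fun k => (hy k).1⟩) T hT1
  have hb1 : ∀ k : Fin d, (volume P).toReal * ∫ x in P, x k.succ ^ 2 ≤
      2 * ((d : ℝ) + 2) / ((d : ℝ) + 3) * (∫ x in P, x k.succ) ^ 2 := by
    intro k
    have h := berwald hPc hPk k.succ (fun x hx => hx.2 k)
    push_cast at h
    have e1 : ((d : ℝ) + 1 + 1) = (d : ℝ) + 2 := by ring
    have e2 : ((d : ℝ) + 1 + 2) = (d : ℝ) + 3 := by ring
    rw [e1, e2] at h
    exact h
  set v : ℝ := (volume P).toReal with hv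
  set s : ℝ := (volume (sl P T)).toReal with hsd
  set B : ℝ := ∫ x in P, (x 0 - T) ^ 2 with hBd
  set A : Fin d → ℝ := fun k => ∫ x in P, x k.succ ^ 2 with hAd
  set M : Fin d → ℝ := fun k => ∫ x in P, x k.succ with hMd
  have hs0 : 0 ≤ s := ENNReal.toReal_nonneg
  have hB0 : 0 ≤ B := integral_nonneg fun x => sq_nonneg _
  have hA0 : ∀ k, 0 ≤ A k := fun k => integral_nonneg fun x => sq_nonneg _
  have hM0 : ∀ k, 0 ≤ M k := fun k =>
    setIntegral_nonneg hPk.measurableSet fun x hx => hx.2 k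
  set c : ℝ := ((d : ℝ) + 1) ^ 2 / (2 * ((d : ℝ) + 2) * ((d : ℝ) + 3)) with hcd
  have hc0 : 0 ≤ c := by positivity
  set q : ℝ := ((d : ℝ) + 2) / ((d : ℝ) + 3) with hq
  have hq0 : 0 ≤ q := by positivity
  have hb2 : ∀ k, A k / v ≤ 2 * q * (M k / v) ^ 2 := by
    intro k
    have h1 : v * A k ≤ 2 * q * M k ^ 2 := by
      have := hb1 k
      rw [hq]
      calc v * A k ≤ 2 * ((d : ℝ) + 2) / ((d : ℝ) + 3) * M k ^ 2 := this
        _ = _ := by ring
    rw [div_pow, ← mul_div_assoc, div_le_div_iff₀ hVp (by positivity)]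
    nlinarith
  have hdet : (covMatrix K).det = (B / v) * ∏ k, (A k / v) := by
    rw [cov_diag1 hs, Matrix.det_diagonal, Fin.prod_univ_succ]
    simp only [Fin.cons_zero, Fin.cons_succ]
    rw [hB, hVP]
    congr 1
    · field_simp
    · refine Finset.prod_congr rfl fun k _ => ?_
      rw [hA k]
      simp only [hAd]
      field_simp
  have hU : (∏ k, (M k / v)) ≤ s / 2 ^ d := by
    have h1 : ∏ k, (2 * M k) ≤ v ^ d * s := hf1
    rw [Finset.prod_mul_distrib, Finset.prod_const, Finset.card_univ, Fintype.card_fin] at h1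
    rw [Finset.prod_div_distrib, Finset.prod_const, Finset.card_univ, Fintype.card_fin,
      div_le_div_iff₀ (by positivity) h2n]
    linarith
  have hU0 : 0 ≤ ∏ k, (M k / v) := Finset.prod_nonneg fun i _ => div_nonneg (hM0 i) hVp.le
  have h1 : ∏ k, (A k / v) ≤ ∏ k : Fin d, (2 * q * (M k / v) ^ 2) :=
    Finset.prod_le_prod (fun i _ => div_nonneg (hA0 i) hVp.le) fun i _ => hb2 i
  have h2 : ∏ k : Fin d, (2 * q * (M k / v) ^ 2) = (2 * q) ^ d * (∏ k, (M k / v)) ^ 2 := by
    rw [Finset.prod_mul_distrib, Finset.prod_const, Finset.card_univ, Fintype.card_fin,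
      Finset.prod_pow]
  have h3 : (∏ k, (M k / v)) ^ 2 ≤ (s / 2 ^ d) ^ 2 := pow_le_pow_left₀ hU0 hU 2
  have h4 : ∏ k, (A k / v) ≤ (2 * q) ^ d * (s / 2 ^ d) ^ 2 :=
    h1.trans (h2.le.trans (mul_le_mul_of_nonneg_left h3 (by positivity)))
  have h5 : s ^ 2 * B / v ^ 3 ≤ c := by
    rw [div_le_iff₀ (by positivity)]
    exact hv1
  rw [hdet, hVP]
  calc (B / v * ∏ k, (A k / v)) / (2 ^ d * v) ^ 2
      ≤ B / v * ((2 * q) ^ d * (s / 2 ^ d) ^ 2) / (2 ^ d * v) ^ 2 := by
        gcongr
    _ = (s ^ 2 * B / v ^ 3) * (q / 8) ^ d := by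
        have e1 : (2 * q) ^ d = (q / 8) ^ d * 16 ^ d := by
          rw [← mul_pow]; congr 1; ring
        have e2 : (16 : ℝ) ^ d = 2 ^ d * 2 ^ d * (2 ^ d * 2 ^ d) := by
          rw [← mul_pow, ← mul_pow]; norm_num
        rw [e1, e2]
        field_simp
    _ ≤ c * (q / 8) ^ d := by gcongr
    _ = c * (((d : ℝ) + 2) / (8 * ((d : ℝ) + 3))) ^ d := by
        rw [hq, div_div, mul_comm (8 : ℝ)]

/-- The bound of `det Cov / |K| ^ 2` for convex bodies with one free coordinate. -/
theorem fv_body {d : ℕ} (h : FUNCR d) {K : Set (Fin (d + 1) → ℝ)} (hK : IsConvexBody K)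
    (hs : Sym1 K) :
    (covMatrix K).det / (volume K).toReal ^ 2 ≤
      ((d : ℝ) + 1) ^ 2 / (2 * ((d : ℝ) + 2) * ((d : ℝ) + 3)) *
        (((d : ℝ) + 2) / (8 * ((d : ℝ) + 3))) ^ d :=
  fv_body_of (fun hK hc _ T hT => var_ineq_of_half
    (fun {_} {_} h1 h2 h3 => half_ineq h1 h2 h3) hK hc T hT) h hK hs

end Vale.Agent.P254.FV1
end
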