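import Mathlib
import Vale.Agent.P254.Bdl.B6
import Vale.Agent.P254.Bdl.B3
import Vale.Agent.P254.Bdl.B7
import Vale.Agent.P254.Bdl.B1

set_option linter.all false

section

/-!
P254, frame block (b) (helper829): the Gaussian weight.
-/

open MeasureTheory Filter Topology Matrix

namespace Vale.Agent.P254.Fr

variable {n : ℕ}

/-- Gaussian weight -/
noncomputable def gw (M : ℝ) (x : E n) : ℝ := Real.exp (-(M / 2) * (x ⬝ᵥ x))

theorem wt_gw {M : ℝ} (hM : 0 < M) : Wt (gw (n := n) M) M (1 + M / 2) where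
  m_pos := hM
  meas := by
    unfold gw dotProduct
    fun_prop
  pos x := Real.exp_pos _
  le x := by
    unfold gw
    have := Real.exp_pos (-(M / 2) * (x ⬝ᵥ x))
    nlinarith
  log_le x := by
    unfold gw
    have h := dot_self_nonneg x
    rw [Real.log_exp, abs_mul, abs_neg, abs_of_pos (half_pos hM), abs_of_nonneg h]
    nlinarith

/-- the precision matrix -/
noncomputable def HF (B : Mt n) (M : ℝ) : Mt n := B + M • (1 : Mt n)

/-- the covariance matrix of the Gaussian -/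
noncomputable def GF (B : Mt n) (M : ℝ) : Mt n := (HF B M)⁻¹

section alg

variable {B : Mt n} {M : ℝ}

theorem HF_posDef (hM : 0 < M) (hB : B.PosSemidef) : (HF B M).PosDef :=
  Matrix.PosDef.posSemidef_add hB (Matrix.PosDef.one.smul hM)

theorem GF_posDef (hM : 0 < M) (hB : B.PosSemidef) : (GF B M).PosDef := (HF_posDef hM hB).inv

theorem symm_of_posDef {G : Mt n} (hG : G.PosDef) : G.IsSymm := isSymm_of_psd hG.posSemidef

theorem HF_mul_GF (hM : 0 < M) (hB : B.PosSemidef) : HF B M * GF B M = 1 :=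
  Matrix.mul_nonsing_inv _ ((Matrix.isUnit_iff_isUnit_det _).1 (HF_posDef hM hB).isUnit)

theorem GF_mul_HF (hM : 0 < M) (hB : B.PosSemidef) : GF B M * HF B M = 1 :=
  Matrix.nonsing_inv_mul _ ((Matrix.isUnit_iff_isUnit_det _).1 (HF_posDef hM hB).isUnit)

theorem quad_symm {G : Mt n} (hG : G.IsSymm) (x y : E n) : x ⬝ᵥ G *ᵥ y = y ⬝ᵥ G *ᵥ x := by
  rw [dotProduct_mulVec, dotProduct_comm, ← Matrix.mulVec_transpose, hG]

theorem quad_add {G : Mt n} (hG : G.IsSymm) (x y : E n) :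
    (x + y) ⬝ᵥ G *ᵥ (x + y) = x ⬝ᵥ G *ᵥ x + 2 * (y ⬝ᵥ G *ᵥ x) + y ⬝ᵥ G *ᵥ y := by
  rw [Matrix.mulVec_add, add_dotProduct, dotProduct_add, dotProduct_add, quad_symm hG x y]
  ring

theorem quad_line {G : Mt n} (hG : G.IsSymm) (x e : E n) (t : ℝ) :
    (x + t • e) ⬝ᵥ G *ᵥ (x + t • e)
      = x ⬝ᵥ G *ᵥ x + 2 * t * (e ⬝ᵥ G *ᵥ x) + t ^ 2 * (e ⬝ᵥ G *ᵥ e) := by
  rw [quad_add hG, Matrix.mulVec_smul, smul_dotProduct, smul_dotProduct, dotProduct_smul,
    smul_eq_mul, smul_eq_mul, smul_eq_mul]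
  ring

theorem tl_gw (B : Mt n) (M : ℝ) (a x : E n) :
    tl B a x * gw M x = Real.exp (a ⬝ᵥ x - (1 / 2) * (x ⬝ᵥ HF B M *ᵥ x)) := by
  unfold tl gw HF
  rw [← Real.exp_add, Matrix.add_mulVec, Matrix.smul_mulVec, Matrix.one_mulVec, dotProduct_add,
    dotProduct_smul, smul_eq_mul]
  congr 1
  ring

/-- translation -/
theorem gI (hM : 0 < M) (hB : B.PosSemidef) (a : E n) :
    I (gw M) B a (fun _ => 1)
      = Real.exp ((1 / 2) * (a ⬝ᵥ GF B M *ᵥ a)) * I (gw M) B 0 (fun _ => 1) := by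
  have hs := symm_of_posDef (HF_posDef hM hB)
  unfold I
  rw [← integral_const_mul, ← integral_add_right_eq_self _ (GF B M *ᵥ a)]
  congr 1
  funext z
  rw [one_mul, one_mul, tl_gw, tl_gw, ← Real.exp_add]
  congr 1
  have h1 : HF B M *ᵥ (GF B M *ᵥ a) = a := by
    rw [Matrix.mulVec_mulVec, HF_mul_GF hM hB, Matrix.one_mulVec]
  rw [quad_add hs, quad_symm hs (GF B M *ᵥ a) z, h1, dotProduct_add, zero_dotProduct,
    dotProduct_comm z a, dotProduct_comm (GF B M *ᵥ a) a]
  ring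

theorem g_dot (hM : 0 < M) (hB : B.PosSemidef) (a e : E n) :
    Ev (gw M) B a (fun x => e ⬝ᵥ x) = e ⬝ᵥ GF B M *ᵥ a := by
  have hw := wt_gw (n := n) hM
  have hG := symm_of_posDef (GF_posDef hM hB)
  have h1 := hasDerivAt_I hw (nonneg_of_psd hB) 0 a e (Pg.const (n := n) 1)
  simp only [smul_zero, add_zero, one_mul] at h1
  have hpos := I_one_pos hw (adm_of_posSemidef hM hB) a
  have h2 : HasDerivAt (fun t : ℝ => Real.exp ((1 / 2) * (a ⬝ᵥ GF B M *ᵥ a
      + 2 * t * (e ⬝ᵥ GF B M *ᵥ a) + t ^ 2 * (e ⬝ᵥ GF B M *ᵥ e))) * I (gw M) B 0 (fun _ => 1))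
      ((e ⬝ᵥ GF B M *ᵥ a) * I (gw M) B a (fun _ => 1)) 0 := by
    have a1 : HasDerivAt (fun t : ℝ => (1 / 2) * (a ⬝ᵥ GF B M *ᵥ a
        + 2 * t * (e ⬝ᵥ GF B M *ᵥ a) + t ^ 2 * (e ⬝ᵥ GF B M *ᵥ e)))
        (e ⬝ᵥ GF B M *ᵥ a) 0 := by
      have b1 : HasDerivAt (fun t : ℝ => 2 * t * (e ⬝ᵥ GF B M *ᵥ a)) (2 * (e ⬝ᵥ GF B M *ᵥ a)) 0 := by
        simpa using ((hasDerivAt_id (0 : ℝ)).const_mul 2).mul_const (e ⬝ᵥ GF B M *ᵥ a)
      have b2 : HasDerivAt (fun t : ℝ => t ^ 2 * (e ⬝ᵥ GF B M *ᵥ e)) 0 0 := by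
        simpa using ((hasDerivAt_id (0 : ℝ)).pow 2).mul_const (e ⬝ᵥ GF B M *ᵥ e)
      have b3 := (((b1.const_add (a ⬝ᵥ GF B M *ᵥ a)).add b2).const_mul (1 / 2))
      refine b3.congr_deriv ?_
      ring
    have a2 := a1.exp.mul_const (I (gw M) B 0 (fun _ => 1))
    refine a2.congr_deriv ?_
    rw [gI hM hB a]
    ring_nf
  have h3 : HasDerivAt (fun t : ℝ => I (gw M) B (a + t • e) (fun _ => 1))
      ((e ⬝ᵥ GF B M *ᵥ a) * I (gw M) B a (fun _ => 1)) 0 := by
    refine h2.congr_of_eventuallyEq (Eventually.of_forall fun t => ?_)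
    show I (gw M) B (a + t • e) (fun _ => 1) = _
    rw [gI hM hB, quad_line hG]
  have h4 := h1.unique h3
  rw [pt_zero] at h4
  unfold Ev
  rw [h4, mul_div_assoc, div_self hpos.ne', mul_one]

theorem g_co (hM : 0 < M) (hB : B.PosSemidef) (a : E n) (i : Fin n) :
    Ev (gw M) B a (co i) = (GF B M *ᵥ a) i := by
  have h := g_dot hM hB a (Pi.single i 1)
  simp only [single_dotProduct, one_mul] at h
  exact h

theorem g_cov (hM : 0 < M) (hB : B.PosSemidef) (a : E n) (i j : Fin n) :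
    c2 (gw M) B a (co i) (co j) = GF B M i j := by
  have hw := wt_gw (n := n) hM
  have h1 := dmu hw B hB a (Pi.single j 1) i 0
  have h2 : HasDerivAt (fun t : ℝ => muF (gw M) B (a + t • Pi.single j 1) i) (GF B M i j) 0 := by
    have e1 : ∀ t : ℝ, muF (gw M) B (a + t • Pi.single j 1) i = (GF B M *ᵥ a) i + t * GF B M i j := by
      intro t
      unfold muF
      rw [g_co hM hB, Matrix.mulVec_add, Matrix.mulVec_smul]
      simp
    have e2 : (fun t : ℝ => muF (gw M) B (a + t • Pi.single j 1) i)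
        = fun t : ℝ => (GF B M *ᵥ a) i + t * GF B M i j := funext e1
    rw [e2]
    simpa using ((hasDerivAt_id (0 : ℝ)).mul_const (GF B M i j)).const_add ((GF B M *ᵥ a) i)
  have h3 := h1.unique h2
  simp only [zero_smul, add_zero] at h3
  rw [← h3]
  simp [AF_apply, Pi.single_apply]

theorem g_c3 (hM : 0 < M) (hB : B.PosSemidef) (a : E n) (i j k : Fin n) :
    c3 (gw M) B a (co i) (co j) (co k) = 0 := by
  have hw := wt_gw (n := n) hM
  have h1 := dA hw B hB a (Pi.single k 1) i j 0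
  have h2 : HasDerivAt (fun t : ℝ => AF (gw M) B (a + t • Pi.single k 1) i j) 0 0 := by
    have e2 : (fun t : ℝ => AF (gw M) B (a + t • Pi.single k 1) i j) = fun _ => GF B M i j := by
      funext t
      exact g_cov hM hB _ i j
    rw [e2]
    exact hasDerivAt_const _ _
  have h3 := h1.unique h2
  simp only [zero_smul, add_zero] at h3
  rw [← h3]
  simp [TF, Pi.single_apply]

/-- second moments -/
theorem g_2 (hM : 0 < M) (hB : B.PosSemidef) (a : E n) (i j : Fin n) :
    Ev (gw M) B a (fun x => co i x * co j x)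
      = GF B M i j + (GF B M *ᵥ a) i * (GF B M *ᵥ a) j := by
  rw [Ev_prod, g_cov hM hB, g_co hM hB, g_co hM hB]

/-- third moments -/
theorem g_3 (hM : 0 < M) (hB : B.PosSemidef) (a : E n) (i j k : Fin n) :
    Ev (gw M) B a (fun x => co i x * co j x * co k x)
      = GF B M i k * (GF B M *ᵥ a) j + GF B M j k * (GF B M *ᵥ a) i
        + GF B M i j * (GF B M *ᵥ a) k
        + (GF B M *ᵥ a) i * (GF B M *ᵥ a) j * (GF B M *ᵥ a) k := by
  have h := g_c3 hM hB a i j k
  unfold c3 at h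
  rw [g_cov hM hB, g_cov hM hB, g_co hM hB, g_co hM hB] at h
  have h2 : Ev (gw M) B a (fun x => co i x * co j x * co k x)
      = c2 (gw M) B a (fun x => co i x * co j x) (co k)
        + Ev (gw M) B a (fun x => co i x * co j x) * Ev (gw M) B a (co k) := by
    unfold c2
    ring
  rw [h2, g_2 hM hB, g_co hM hB]
  linear_combination h

end alg

section sqrt

open scoped MatrixOrder

theorem exists_factor {H : Mt n} (hH : H.PosSemidef) : ∃ R : Mt n, H = Rᵀ * R := by
  obtain ⟨R, hR⟩ := CStarAlgebra.nonneg_iff_eq_star_mul_self.mp hH.nonneg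
  refine ⟨R, ?_⟩
  rw [hR, Matrix.star_eq_conjTranspose, Matrix.conjTranspose_eq_transpose_of_trivial]

end sqrt

/-- the Gaussian integral of a positive definite form -/
theorem gauss_int {H : Mt n} (hH : H.PosDef) :
    ∫ x : E n, Real.exp (-(1 / 2) * (x ⬝ᵥ H *ᵥ x))
      = Real.exp ((n : ℝ) / 2 * Real.log (2 * Real.pi) - 1 / 2 * Real.log H.det) := by
  obtain ⟨R, hR⟩ := exists_factor hH.posSemidef
  have hdet : H.det = R.det ^ 2 := by
    rw [hR, Matrix.det_mul, Matrix.det_transpose]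
    ring
  have hHd : 0 < H.det := hH.det_pos
  have hRd : R.det ≠ 0 := by
    intro h
    rw [hdet, h] at hHd
    simp at hHd
  have h1 : ∀ x : E n, x ⬝ᵥ H *ᵥ x = (R *ᵥ x) ⬝ᵥ (R *ᵥ x) := by
    intro x
    rw [hR, ← Matrix.mulVec_mulVec, dotProduct_mulVec, Matrix.vecMul_transpose]
  have h2 := Real.map_matrix_volume_pi_eq_smul_volume_pi (M := R) hRd
  have hcont : Continuous fun x : E n => Real.exp (-(1 / 2) * (x ⬝ᵥ x)) := by
    unfold dotProduct
    fun_prop
  have h3 : ∫ x : E n, Real.exp (-(1 / 2) * ((R *ᵥ x) ⬝ᵥ (R *ᵥ x)))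
      = |R.det|⁻¹ * ∫ x : E n, Real.exp (-(1 / 2) * (x ⬝ᵥ x)) := by
    have h4 : ∫ x : E n, Real.exp (-(1 / 2) * (x ⬝ᵥ x))
        ∂(Measure.map (⇑(Matrix.toLin' R)) (volume : Measure (E n)))
        = ∫ x : E n, Real.exp (-(1 / 2) * ((R *ᵥ x) ⬝ᵥ (R *ᵥ x))) := by
      rw [integral_map]
      · rfl
      · exact (LinearMap.continuous_on_pi (Matrix.toLin' R)).measurable.aemeasurable
      · exact hcont.aestronglyMeasurable
    rw [← h4, h2, integral_smul_measure, ENNReal.toReal_ofReal (abs_nonneg _), abs_inv,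
      smul_eq_mul]
  have h5 : ∫ x : E n, Real.exp (-(1 / 2) * (x ⬝ᵥ x)) = (√(2 * Real.pi)) ^ n := by
    have e1 : (fun x : E n => Real.exp (-(1 / 2) * (x ⬝ᵥ x)))
        = fun x : E n => ∏ i, Real.exp (-(1 / 2) * x i ^ 2) := by
      funext x
      rw [← Real.exp_sum]
      congr 1
      unfold dotProduct
      rw [Finset.mul_sum]
      exact Finset.sum_congr rfl fun i _ => by ring
    rw [e1, integral_fintype_prod_volume_eq_pow (fun t : ℝ => Real.exp (-(1 / 2) * t ^ 2)),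
      integral_gaussian]
    rw [Fintype.card_fin]
    congr 2
    field_simp
  have h6 : (fun x : E n => Real.exp (-(1 / 2) * (x ⬝ᵥ H *ᵥ x)))
      = fun x : E n => Real.exp (-(1 / 2) * ((R *ᵥ x) ⬝ᵥ (R *ᵥ x))) := by
    funext x
    rw [h1 x]
  rw [h6, h3, h5, Real.exp_sub]
  have h7 : Real.exp ((n : ℝ) / 2 * Real.log (2 * Real.pi)) = (√(2 * Real.pi)) ^ n := by
    have hp : 0 < 2 * Real.pi := by positivity
    have e1 : Real.exp ((n : ℝ) / 2 * Real.log (2 * Real.pi))
        = Real.exp ((n : ℝ) * Real.log (√(2 * Real.pi))) := by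
      congr 1
      rw [Real.log_sqrt hp.le]
      ring
    rw [e1, ← Real.log_pow, Real.exp_log (pow_pos (Real.sqrt_pos.2 hp) n)]
  have h8 : Real.exp (1 / 2 * Real.log H.det) = |R.det| := by
    have e1 : 1 / 2 * Real.log H.det = Real.log |R.det| := by
      rw [hdet, Real.log_pow, Real.log_abs]
      push_cast
      ring
    rw [e1, Real.exp_log (abs_pos.2 hRd)]
  rw [h7, h8, div_eq_inv_mul]

theorem gI_zero {B : Mt n} {M : ℝ} (hM : 0 < M) (hB : B.PosSemidef) :
    I (gw M) B 0 (fun _ => 1)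
      = Real.exp ((n : ℝ) / 2 * Real.log (2 * Real.pi) - 1 / 2 * Real.log (HF B M).det) := by
  rw [← gauss_int (HF_posDef hM hB)]
  unfold I
  congr 1
  funext x
  rw [one_mul, tl_gw, zero_dotProduct]
  congr 1
  ring

/-- entropy of a Gaussian -/
theorem g_ent {B : Mt n} {M : ℝ} (hM : 0 < M) (hB : B.PosSemidef) (a : E n) :
    EntF (gw M) B a = (n : ℝ) / 2 * Real.log (2 * Real.pi * Real.exp 1)
      - 1 / 2 * Real.log (HF B M).det := by
  have hw := wt_gw (n := n) hM
  have hadm := adm_of_posSemidef hM hB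
  have hG := symm_of_posDef (GF_posDef hM hB)
  unfold EntF
  rw [gI hM hB a, gI_zero hM hB, ← Real.exp_add, Real.log_exp]
  have e1 : ps (gw M) B a = fun x => (1 / 2) * (x ⬝ᵥ HF B M *ᵥ x) - a ⬝ᵥ x := by
    funext x
    unfold ps gw HF
    rw [Real.log_exp, Matrix.add_mulVec, Matrix.smul_mulVec, Matrix.one_mulVec, dotProduct_add,
      dotProduct_smul, smul_eq_mul]
    ring
  rw [e1, Ev_sub hw hadm a ((Pg.quad _).const_mul _) (Pg.dot a), Ev_const_mul, g_dot hM hB,
    (lin_Ev hw hadm a).quad]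
  have e2 : ∀ k l, Ev (gw M) B a (fun x => x k * x l)
      = GF B M k l + (GF B M *ᵥ a) k * (GF B M *ᵥ a) l := g_2 hM hB a
  simp only [e2]
  have e3 : ∑ k, ∑ l, HF B M k l * (GF B M k l + (GF B M *ᵥ a) k * (GF B M *ᵥ a) l)
      = n + a ⬝ᵥ GF B M *ᵥ a := by
    have e4 : ∑ k, ∑ l, HF B M k l * GF B M k l = n := by
      have e5 : (HF B M * GF B M).trace = n := by
        rw [HF_mul_GF hM hB, Matrix.trace_one, Fintype.card_fin]
      rw [← e5, Matrix.trace]
      refine Finset.sum_congr rfl fun k _ => ?_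
      rw [Matrix.diag_apply, Matrix.mul_apply]
      refine Finset.sum_congr rfl fun l _ => ?_
      rw [hG.apply]
    have e6 : ∑ k, ∑ l, HF B M k l * ((GF B M *ᵥ a) k * (GF B M *ᵥ a) l)
        = (GF B M *ᵥ a) ⬝ᵥ HF B M *ᵥ (GF B M *ᵥ a) := by
      have e8 : ∀ b : E n, b ⬝ᵥ HF B M *ᵥ b = ∑ k, ∑ l, HF B M k l * (b k * b l) := by
        intro b
        rw [dotProduct]
        refine Finset.sum_congr rfl fun k _ => ?_
        rw [Matrix.mulVec, dotProduct, Finset.mul_sum]
        exact Finset.sum_congr rfl fun l _ => by ring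
      exact (e8 _).symm
    have e7 : HF B M *ᵥ (GF B M *ᵥ a) = a := by
      rw [Matrix.mulVec_mulVec, HF_mul_GF hM hB, Matrix.one_mulVec]
    rw [e7] at e6
    simp only [mul_add, Finset.sum_add_distrib]
    rw [e4, e6, dotProduct_comm]
  rw [e3, Real.log_mul (by positivity) (Real.exp_pos 1).ne', Real.log_exp]
  ring

end Vale.Agent.P254.Fr
end

section

/-!
P254, frame block (b) (helper829): the nice weights `wK` and the mixture representation of their
tilts.
-/

open MeasureTheory Filter Topology Matrix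

namespace Vale.Agent.P254.Fr

open R304 (IY EY)

variable {n : ℕ}

/-- heat-flowed indicator -/
noncomputable def gau (K : Set (E n)) (ε : ℝ) (x : E n) : ℝ :=
  ∫ y in K, Real.exp (-(1 / (2 * ε)) * ((x - y) ⬝ᵥ (x - y)))

/-- the nice weights -/
noncomputable def wK (K : Set (E n)) (ε m : ℝ) (x : E n) : ℝ :=
  gau K ε x * Real.exp (-(m / 2) * (x ⬝ᵥ x))

section weight

variable {K : Set (E n)} {ε m : ℝ}

theorem cont_dot : Continuous fun x : E n => x ⬝ᵥ x := by
  unfold dotProduct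
  fun_prop

theorem cont_sub_dot : Continuous fun p : E n × E n => (p.1 - p.2) ⬝ᵥ (p.1 - p.2) := by
  unfold dotProduct
  fun_prop

theorem vol_pos (hK : IsCompact K) (hi : (interior K).Nonempty) : 0 < (volume K).toReal :=
  ENNReal.toReal_pos
    ((isOpen_interior.measure_pos _ hi).trans_le (measure_mono interior_subset)).ne'
    hK.measure_lt_top.ne

theorem int_kernel (hK : IsCompact K) (x : E n) :
    IntegrableOn (fun y => Real.exp (-(1 / (2 * ε)) * ((x - y) ⬝ᵥ (x - y)))) K := by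
  have hc : Continuous fun y : E n => Real.exp (-(1 / (2 * ε)) * ((x - y) ⬝ᵥ (x - y))) := by
    unfold dotProduct
    fun_prop
  exact hc.continuousOn.integrableOn_compact hK

theorem meas_gau (K : Set (E n)) (ε : ℝ) : Measurable (gau K ε) := by
  have h : StronglyMeasurable (Function.uncurry fun x y : E n =>
      Real.exp (-(1 / (2 * ε)) * ((x - y) ⬝ᵥ (x - y)))) := by
    refine Continuous.stronglyMeasurable ?_
    exact Real.continuous_exp.comp (continuous_const.mul cont_sub_dot)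
  exact (h.integral_prod_right (ν := volume.restrict K)).measurable

theorem gau_le (hK : IsCompact K) (hε : 0 < ε) (x : E n) : gau K ε x ≤ (volume K).toReal := by
  unfold gau
  calc ∫ y in K, Real.exp (-(1 / (2 * ε)) * ((x - y) ⬝ᵥ (x - y)))
      ≤ ∫ _y in K, (1 : ℝ) := by
        refine setIntegral_mono_on (int_kernel hK x) (integrableOn_const hK.measure_lt_top.ne)
          hK.measurableSet fun y _ => ?_
        rw [Real.exp_le_one_iff]
        have h1 := dot_self_nonneg (x - y)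
        have h2 : 0 < 1 / (2 * ε) := by positivity
        nlinarith
    _ = _ := by
        rw [setIntegral_const, smul_eq_mul, mul_one, Measure.real]

theorem dot_sub_le (x y : E n) : (x - y) ⬝ᵥ (x - y) ≤ 2 * (x ⬝ᵥ x) + 2 * (y ⬝ᵥ y) := by
  unfold dotProduct
  rw [Finset.mul_sum, Finset.mul_sum, ← Finset.sum_add_distrib]
  refine Finset.sum_le_sum fun i _ => ?_
  simp only [Pi.sub_apply]
  nlinarith [sq_nonneg (x i + y i)]

theorem dot_le_norm (y : E n) : y ⬝ᵥ y ≤ n * ‖y‖ ^ 2 := by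
  unfold dotProduct
  calc ∑ i, y i * y i ≤ ∑ _i : Fin n, ‖y‖ ^ 2 := by
        refine Finset.sum_le_sum fun i _ => ?_
        have h := norm_le_pi_norm y i
        rw [Real.norm_eq_abs] at h
        nlinarith [sq_abs (y i), abs_nonneg (y i), norm_nonneg y]
    _ = _ := by simp

/-- `K` is bounded -/
theorem exists_bd (hK : IsCompact K) : ∃ D : ℝ, 0 ≤ D ∧ ∀ y ∈ K, y ⬝ᵥ y ≤ D := by
  obtain ⟨D, hD⟩ := (hK.image_of_continuousOn cont_dot.continuousOn).bddAbove
  refine ⟨max D 0, le_max_right _ _, fun y hy => (hD ⟨y, hy, rfl⟩).trans (le_max_left _ _)⟩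

theorem le_gau (hK : IsCompact K) (hε : 0 < ε) {D : ℝ} (hD : ∀ y ∈ K, y ⬝ᵥ y ≤ D) (x : E n) :
    (volume K).toReal * Real.exp (-(1 / ε) * (x ⬝ᵥ x + D)) ≤ gau K ε x := by
  unfold gau
  calc (volume K).toReal * Real.exp (-(1 / ε) * (x ⬝ᵥ x + D))
      = ∫ _y in K, Real.exp (-(1 / ε) * (x ⬝ᵥ x + D)) := by
        rw [setIntegral_const, smul_eq_mul, Measure.real]
    _ ≤ _ := by
        refine setIntegral_mono_on (integrableOn_const hK.measure_lt_top.ne) (int_kernel hK x)
          hK.measurableSet fun y hy => ?_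
        refine Real.exp_le_exp.2 ?_
        have h1 := dot_sub_le x y
        have h2 := hD y hy
        have h3 : 1 / (2 * ε) * ((x - y) ⬝ᵥ (x - y)) ≤ 1 / (2 * ε) * (2 * (x ⬝ᵥ x + D)) :=
          mul_le_mul_of_nonneg_left (by linarith) (by positivity)
        have h4 : 1 / (2 * ε) * (2 * (x ⬝ᵥ x + D)) = 1 / ε * (x ⬝ᵥ x + D) := by
          field_simp
        rw [h4] at h3
        linarith

theorem gau_pos (hK : IsCompact K) (hi : (interior K).Nonempty) (hε : 0 < ε) (x : E n) :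
    0 < gau K ε x := by
  obtain ⟨D, _, hD⟩ := exists_bd hK
  exact (mul_pos (vol_pos hK hi) (Real.exp_pos _)).trans_le (le_gau hK hε hD x)

theorem wt_wK (hK : IsCompact K) (hi : (interior K).Nonempty) (hε : 0 < ε) (hm : 0 < m) :
    ∃ C, Wt (wK K ε m) m C := by
  obtain ⟨D, hD0, hD⟩ := exists_bd hK
  set V := (volume K).toReal with hV
  have hV0 : 0 < V := vol_pos hK hi
  refine ⟨V + |Real.log V| + (1 / ε) * (1 + D) + m / 2, hm, ?_, fun x => ?_, fun x => ?_,
    fun x => ?_⟩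
  · unfold wK
    refine (meas_gau K ε).mul (Measurable.exp (Measurable.const_mul ?_ _))
    exact cont_dot.measurable
  · exact mul_pos (gau_pos hK hi hε x) (Real.exp_pos _)
  · unfold wK
    refine mul_le_mul_of_nonneg_right ?_ (Real.exp_pos _).le
    have h1 := gau_le hK hε x
    have h2 : 0 ≤ |Real.log V| := abs_nonneg _
    have h3 : 0 ≤ (1 / ε) * (1 + D) := by positivity
    linarith
  · have hg := gau_pos hK hi hε x
    have hxx := dot_self_nonneg x
    unfold wK
    rw [Real.log_mul hg.ne' (Real.exp_pos _).ne', Real.log_exp]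
    have h1 : Real.log (gau K ε x) ≤ Real.log V := Real.log_le_log hg (gau_le hK hε x)
    have h2 : Real.log V - (1 / ε) * (x ⬝ᵥ x + D) ≤ Real.log (gau K ε x) := by
      have h3 := Real.log_le_log (mul_pos hV0 (Real.exp_pos _)) (le_gau hK hε hD x)
      rw [Real.log_mul hV0.ne' (Real.exp_pos _).ne', Real.log_exp] at h3
      linarith
    have h4 := abs_le.1 (le_refl |Real.log V|)
    have h5 : 0 ≤ (1 / ε) * D := by positivity
    have h6 : 0 ≤ (1 / ε) := by positivity
    have h7 : 0 ≤ V * (x ⬝ᵥ x) := by positivity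
    have h8 : 0 ≤ |Real.log V| * (x ⬝ᵥ x) := by positivity
    have h9 : 0 ≤ (1 / ε) * D * (x ⬝ᵥ x) := by positivity
    have h10 : 0 ≤ (1 / ε) * (x ⬝ᵥ x) := by positivity
    rw [abs_le]
    constructor
    · nlinarith
    · nlinarith

end weight

section mixture

variable {K : Set (E n)} {ε m : ℝ}

theorem kernel_id (hε : 0 < ε) (m : ℝ) (B : Mt n) (c x y : E n) :
    tl B c x * (Real.exp (-(1 / (2 * ε)) * ((x - y) ⬝ᵥ (x - y))) * gw m x)
      = Real.exp (-(1 / (2 * ε)) * (y ⬝ᵥ y))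
        * (tl B (c + (1 / ε) • y) x * gw (m + 1 / ε) x) := by
  unfold tl gw
  rw [← Real.exp_add, ← Real.exp_add, ← Real.exp_add, ← Real.exp_add]
  congr 1
  rw [add_dotProduct, smul_dotProduct, smul_eq_mul, sub_dotProduct, dotProduct_sub,
    dotProduct_sub, dotProduct_comm x y]
  field_simp
  ring

/-- Fubini -/
theorem I_wK (hK : IsCompact K) (hε : 0 < ε) (hm : 0 < m) {B : Mt n} (hB : B.PosSemidef)
    (c : E n) {φ : E n → ℝ} (hφ : Pg φ) :
    I (wK K ε m) B c φ = ∫ y in K, Real.exp (-(1 / (2 * ε)) * (y ⬝ᵥ y))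
      * I (gw (m + 1 / ε)) B (c + (1 / ε) • y) φ := by
  have hw := wt_gw (n := n) hm
  set F : E n → E n → ℝ := fun x y =>
    φ x * (tl B c x * (Real.exp (-(1 / (2 * ε)) * ((x - y) ⬝ᵥ (x - y))) * gw m x)) with hF
  have h1 : I (wK K ε m) B c φ = ∫ x, ∫ y in K, F x y := by
    unfold I
    congr 1
    funext x
    simp only [hF]
    rw [integral_const_mul, integral_const_mul, integral_mul_const]
    rfl
  have hint0 := integrable_I hw (adm_of_posSemidef hm hB) c hφ
  haveI : IsFiniteMeasure (volume.restrict K) := ⟨by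
    rw [Measure.restrict_apply_univ]; exact hK.measure_lt_top⟩
  have hint : Integrable (Function.uncurry F) (volume.prod (volume.restrict K)) := by
    refine (hint0.comp_fst (volume.restrict K)).mono ?_ (Eventually.of_forall fun p => ?_)
    · refine Measurable.aestronglyMeasurable ?_
      show Measurable fun p : E n × E n => F p.1 p.2
      simp only [hF]
      refine (hφ.1.comp measurable_fst).mul (((measurable_tl B c).comp measurable_fst).mul
        (Measurable.mul ?_ (hw.meas.comp measurable_fst)))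
      exact (Real.continuous_exp.comp (continuous_const.mul cont_sub_dot)).measurable
    · show ‖F p.1 p.2‖ ≤ ‖φ p.1 * (tl B c p.1 * gw m p.1)‖
      simp only [hF]
      have h3 : Real.exp (-(1 / (2 * ε)) * ((p.1 - p.2) ⬝ᵥ (p.1 - p.2))) ≤ 1 := by
        rw [Real.exp_le_one_iff]
        have h1 := dot_self_nonneg (p.1 - p.2)
        have h2 : 0 < 1 / (2 * ε) := by positivity
        nlinarith
      rw [norm_mul, norm_mul (φ p.1)]
      refine mul_le_mul_of_nonneg_left ?_ (norm_nonneg _)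
      rw [norm_mul, norm_mul (tl B c p.1)]
      refine mul_le_mul_of_nonneg_left ?_ (norm_nonneg _)
      rw [norm_mul, Real.norm_eq_abs, abs_of_pos (Real.exp_pos _)]
      exact mul_le_of_le_one_left (norm_nonneg _) h3
  rw [h1, integral_integral_swap hint]
  congr 1
  funext y
  unfold I
  rw [← integral_const_mul]
  congr 1
  funext x
  simp only [hF]
  rw [kernel_id hε]
  ring

/-- the tilt vector of the mixing variable -/
noncomputable def vF (B : Mt n) (ε m : ℝ) (c : E n) : E n := (1 / ε) • (GF B (m + 1 / ε) *ᵥ c)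

/-- the quadratic part of the mixing variable -/
noncomputable def NF (B : Mt n) (ε m : ℝ) : Mt n :=
  (1 / ε) • (1 : Mt n) - (1 / ε ^ 2) • GF B (m + 1 / ε)

theorem mix_exp (hε : 0 < ε) (hm : 0 < m) {B : Mt n} (hB : B.PosSemidef) (c y : E n) :
    Real.exp (-(1 / (2 * ε)) * (y ⬝ᵥ y))
      * Real.exp ((1 / 2) * ((c + (1 / ε) • y) ⬝ᵥ GF B (m + 1 / ε) *ᵥ (c + (1 / ε) • y)))
    = Real.exp ((1 / 2) * (c ⬝ᵥ GF B (m + 1 / ε) *ᵥ c))
      * Real.exp (vF B ε m c ⬝ᵥ y - (1 / 2) * (y ⬝ᵥ NF B ε m *ᵥ y)) := by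
  have hG := symm_of_posDef (GF_posDef (add_pos hm (by positivity : (0:ℝ) < 1 / ε)) hB)
  rw [← Real.exp_add, ← Real.exp_add]
  congr 1
  rw [quad_line hG]
  unfold vF NF
  rw [Matrix.sub_mulVec, Matrix.smul_mulVec, Matrix.smul_mulVec, Matrix.one_mulVec,
    dotProduct_sub, dotProduct_smul, dotProduct_smul, smul_dotProduct, smul_eq_mul, smul_eq_mul,
    smul_eq_mul, dotProduct_comm (GF B (m + 1 / ε) *ᵥ c) y]
  field_simp
  ring

/-- the mixture representation -/
theorem I_mix (hK : IsCompact K) (hε : 0 < ε) (hm : 0 < m) {B : Mt n} (hB : B.PosSemidef)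
    (c : E n) {φ : E n → ℝ} (hφ : Pg φ) :
    I (wK K ε m) B c φ = I (gw (m + 1 / ε)) B 0 (fun _ => 1)
      * Real.exp ((1 / 2) * (c ⬝ᵥ GF B (m + 1 / ε) *ᵥ c))
      * IY K (NF B ε m) (vF B ε m c) (fun y => Ev (gw (m + 1 / ε)) B (c + (1 / ε) • y) φ) := by
  have hM : 0 < m + 1 / ε := add_pos hm (by positivity)
  rw [I_wK hK hε hm hB c hφ]
  unfold IY
  rw [← integral_const_mul]
  congr 1
  funext y
  have h1 : I (gw (m + 1 / ε)) B (c + (1 / ε) • y) φ
      = Ev (gw (m + 1 / ε)) B (c + (1 / ε) • y) φ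
        * I (gw (m + 1 / ε)) B (c + (1 / ε) • y) (fun _ => 1) := by
    unfold Ev
    rw [div_mul_cancel₀]
    exact (I_one_pos (wt_gw hM) (adm_of_posSemidef hM hB) _).ne'
  rw [h1, gI hM hB]
  have h2 := mix_exp hε hm hB c y
  linear_combination (Ev (gw (m + 1 / ε)) B (c + (1 / ε) • y) φ
    * I (gw (m + 1 / ε)) B 0 (fun _ => 1)) * h2

theorem I_mix_one (hK : IsCompact K) (hε : 0 < ε) (hm : 0 < m) {B : Mt n} (hB : B.PosSemidef)
    (c : E n) :
    I (wK K ε m) B c (fun _ => 1) = I (gw (m + 1 / ε)) B 0 (fun _ => 1)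
      * Real.exp ((1 / 2) * (c ⬝ᵥ GF B (m + 1 / ε) *ᵥ c))
      * IY K (NF B ε m) (vF B ε m c) (fun _ => 1) := by
  have hM : 0 < m + 1 / ε := add_pos hm (by positivity)
  rw [I_mix hK hε hm hB c (Pg.const 1)]
  congr 2
  funext y
  exact Ev_one (wt_gw hM) (adm_of_posSemidef hM hB) _

theorem Ev_mix (hK : IsCompact K) (hi : (interior K).Nonempty) (hε : 0 < ε) (hm : 0 < m)
    {B : Mt n} (hB : B.PosSemidef) (c : E n) {φ : E n → ℝ} (hφ : Pg φ) :
    Ev (wK K ε m) B c φ = EY K (NF B ε m) (vF B ε m c)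
      (fun y => Ev (gw (m + 1 / ε)) B (c + (1 / ε) • y) φ) := by
  have hM : 0 < m + 1 / ε := add_pos hm (by positivity)
  have h1 := I_one_pos (wt_gw (n := n) hM) (adm_of_posSemidef hM hB) 0
  have h2 : 0 < IY K (NF B ε m) (vF B ε m c) (fun _ => 1) := R304.IY_one_pos hK hi
  have h3 := Real.exp_pos ((1 / 2) * (c ⬝ᵥ GF B (m + 1 / ε) *ᵥ c))
  unfold EY
  have h4 : Ev (wK K ε m) B c φ = I (wK K ε m) B c φ / I (wK K ε m) B c (fun _ => 1) := rfl
  rw [h4, I_mix hK hε hm hB c hφ, I_mix_one hK hε hm hB c]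
  exact mul_div_mul_left _ _ (mul_pos h1 h3).ne'

end mixture

end Vale.Agent.P254.Fr
end

section

/-!
P254, frame block (b) (helper829): covariance and third cumulant of the tilts of a nice weight.
-/

open MeasureTheory Filter Topology Matrix

namespace Vale.Agent.P254.Fr

open R304 (IY EY)
open L (Mat Ten NN N3 frT)

variable {n : ℕ}

section linEY

variable {K : Set (E n)} {N : Mt n} {v : E n}

theorem int_pg (hK : IsCompact K) {φ : E n → ℝ} (hφ : Pg φ) :
    IntegrableOn (fun y => φ y * Real.exp (v ⬝ᵥ y - (1 / 2) * (y ⬝ᵥ N *ᵥ y))) K := by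
  obtain ⟨C, k, hC, h⟩ := hφ.exists_pos
  obtain ⟨D, hD0, hD⟩ := exists_bd hK
  have h1 : IntegrableOn (fun y => Real.exp (v ⬝ᵥ y - (1 / 2) * (y ⬝ᵥ N *ᵥ y))) K :=
    (R304.wcont N v).continuousOn.integrableOn_compact hK
  refine Integrable.mono' (h1.const_mul (C * (1 + D) ^ k)) ?_ ?_
  · exact (hφ.1.aestronglyMeasurable).mul (R304.wcont N v).aestronglyMeasurable
  · refine (ae_restrict_iff' hK.measurableSet).2 (Eventually.of_forall fun y hy => ?_)
    rw [norm_mul, Real.norm_eq_abs, Real.norm_eq_abs, abs_of_pos (Real.exp_pos _)]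
    refine mul_le_mul_of_nonneg_right ((h y).trans ?_) (Real.exp_pos _).le
    refine mul_le_mul_of_nonneg_left ?_ hC
    exact pow_le_pow_left₀ (by have := dot_self_nonneg y; linarith)
      (by have := hD y hy; linarith) k

theorem lin_EY (hK : IsCompact K) (N : Mt n) (v : E n) : Lin (EY K N v) where
  add p q hp hq := by
    unfold EY
    rw [← add_div]
    congr 1
    unfold IY
    rw [← integral_add (int_pg hK hp) (int_pg hK hq)]
    congr 1
    funext y
    ring
  cmul r p _ := R304.EY_const_mul p r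

theorem EY_nonneg (hK : IsCompact K) (hi : (interior K).Nonempty) {φ : E n → ℝ}
    (h : ∀ y, 0 ≤ φ y) : 0 ≤ EY K N v φ := by
  unfold EY
  refine div_nonneg ?_ (R304.IY_one_pos hK hi).le
  exact integral_nonneg fun y => mul_nonneg (h y) (Real.exp_pos _).le

theorem Lin.two {L : (E n → ℝ) → ℝ} (h : Lin L) (α β : Fin n → ℝ) {f : Fin n → E n → ℝ}
    (hf : ∀ a, Pg (f a)) :
    L (fun x => (∑ a, α a * f a x) * (∑ b, β b * f b x))
      = ∑ a, ∑ b, α a * β b * L (fun x => f a x * f b x) := by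
  have hs : ∀ γ : Fin n → ℝ, Pg (fun x => ∑ a, γ a * f a x) := fun γ =>
    Pg.sum _ fun a _ => (hf a).const_mul _
  have h1 := (h.comp (hs α)).sum Finset.univ β f fun a _ => hf a
  rw [h1, Finset.sum_comm]
  refine Finset.sum_congr rfl fun b _ => ?_
  have h2 := (h.comp (hf b)).sum Finset.univ α f fun a _ => hf a
  have h3 : L (fun x => (∑ a, α a * f a x) * f b x) = L (fun x => f b x * ∑ a, α a * f a x) := by
    congr 1
    funext x
    ring
  rw [h3, h2, Finset.mul_sum]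
  refine Finset.sum_congr rfl fun a _ => ?_
  have h4 : L (fun x => f b x * f a x) = L (fun x => f a x * f b x) := by
    congr 1
    funext x
    ring
  rw [h4]
  ring

theorem Lin.three {L : (E n → ℝ) → ℝ} (h : Lin L) (α β γ : Fin n → ℝ) {f : Fin n → E n → ℝ}
    (hf : ∀ a, Pg (f a)) :
    L (fun x => (∑ a, α a * f a x) * (∑ b, β b * f b x) * (∑ c, γ c * f c x))
      = ∑ a, ∑ b, ∑ c, α a * β b * γ c * L (fun x => f a x * f b x * f c x) := by
  have hs : ∀ γ : Fin n → ℝ, Pg (fun x => ∑ a, γ a * f a x) := fun γ =>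
    Pg.sum _ fun a _ => (hf a).const_mul _
  have h1 := (h.comp ((hs α).mul (hs β))).sum Finset.univ γ f fun a _ => hf a
  rw [h1]
  have h2 : ∀ c, L (fun x => (∑ a, α a * f a x) * (∑ b, β b * f b x) * f c x)
      = ∑ a, ∑ b, α a * β b * L (fun x => f a x * f b x * f c x) := by
    intro c
    have h3 := (h.comp (hf c)).two α β hf
    have h4 : L (fun x => (∑ a, α a * f a x) * (∑ b, β b * f b x) * f c x)
        = L (fun x => f c x * ((∑ a, α a * f a x) * (∑ b, β b * f b x))) := by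
      congr 1
      funext x
      ring
    rw [h4, h3]
    refine Finset.sum_congr rfl fun a _ => Finset.sum_congr rfl fun b _ => ?_
    congr 2
    funext x
    ring
  simp only [h2]
  have h5 : ∀ c, γ c * ∑ a, ∑ b, α a * β b * L (fun x => f a x * f b x * f c x)
      = ∑ a, ∑ b, α a * β b * γ c * L (fun x => f a x * f b x * f c x) := by
    intro c
    simp only [Finset.mul_sum]
    refine Finset.sum_congr rfl fun a _ => Finset.sum_congr rfl fun b _ => ?_
    ring
  simp only [h5]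
  rw [Finset.sum_comm]
  refine Finset.sum_congr rfl fun a _ => ?_
  rw [Finset.sum_comm]

end linEY

section defs

variable (K : Set (E n)) (N : Mt n) (v : E n)

/-- covariance of the mixing variable -/
noncomputable def SF : Mt n := Matrix.of fun i j =>
  EY K N v (fun y => (y i - EY K N v (fun z => z i)) * (y j - EY K N v (fun z => z j)))

/-- third cumulant of the mixing variable -/
noncomputable def tauF (i j k : Fin n) : ℝ :=
  EY K N v (fun y => (y i - EY K N v (fun z => z i)) * (y j - EY K N v (fun z => z j))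
    * (y k - EY K N v (fun z => z k)))

end defs

section moments

variable {K : Set (E n)} {ε m : ℝ}

/-- conditional mean -/
noncomputable def uF (B : Mt n) (ε m : ℝ) (c : E n) (i : Fin n) (y : E n) : ℝ :=
  (GF B (m + 1 / ε) *ᵥ (c + (1 / ε) • y)) i

/-- the linear map `G / ε` -/
noncomputable def WF (B : Mt n) (ε m : ℝ) : Mt n := (1 / ε) • GF B (m + 1 / ε)

theorem uF_eq (B : Mt n) (ε m : ℝ) (c : E n) (i : Fin n) (y : E n) :
    uF B ε m c i y = (GF B (m + 1 / ε) *ᵥ c) i + (WF B ε m i) ⬝ᵥ y := by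
  unfold uF WF
  rw [Matrix.mulVec_add, Pi.add_apply, Matrix.mulVec_smul, Pi.smul_apply, smul_eq_mul]
  congr 1
  unfold mulVec dotProduct
  rw [Finset.mul_sum]
  refine Finset.sum_congr rfl fun a _ => ?_
  rw [Matrix.smul_apply, smul_eq_mul]
  ring

theorem pg_uF (B : Mt n) (ε m : ℝ) (c : E n) (i : Fin n) : Pg (uF B ε m c i) := by
  have h : uF B ε m c i = fun y => (GF B (m + 1 / ε) *ᵥ c) i + (WF B ε m i) ⬝ᵥ y := by
    funext y
    exact uF_eq B ε m c i y
  rw [h]
  exact (Pg.const _).add (Pg.dot _)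

theorem EY_uF (hK : IsCompact K) (hi : (interior K).Nonempty) (N : Mt n) (v : E n) (B : Mt n)
    (ε m : ℝ) (c : E n) (i : Fin n) :
    EY K N v (uF B ε m c i) = (GF B (m + 1 / ε) *ᵥ c) i
      + ∑ a, WF B ε m i a * EY K N v (fun z => z a) := by
  have h : uF B ε m c i = fun y => (GF B (m + 1 / ε) *ᵥ c) i + (WF B ε m i) ⬝ᵥ y := by
    funext y
    exact uF_eq B ε m c i y
  rw [h, (lin_EY hK N v).add _ _ (Pg.const _) (Pg.dot _), R304.EY_const hK hi,
    (lin_EY hK N v).dot]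

theorem uF_centre (hK : IsCompact K) (hi : (interior K).Nonempty) (N : Mt n) (v : E n) (B : Mt n)
    (ε m : ℝ) (c : E n) (i : Fin n) (y : E n) :
    uF B ε m c i y - EY K N v (uF B ε m c i)
      = ∑ a, WF B ε m i a * (y a - EY K N v (fun z => z a)) := by
  rw [EY_uF hK hi, uF_eq]
  unfold dotProduct
  simp only [mul_sub, Finset.sum_sub_distrib]
  ring

theorem Ev_co (hK : IsCompact K) (hi : (interior K).Nonempty) (hε : 0 < ε) (hm : 0 < m)
    {B : Mt n} (hB : B.PosSemidef) (c : E n) (i : Fin n) :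
    Ev (wK K ε m) B c (co i) = EY K (NF B ε m) (vF B ε m c) (uF B ε m c i) := by
  have hM : 0 < m + 1 / ε := add_pos hm (by positivity)
  rw [Ev_mix hK hi hε hm hB c (pg_co i)]
  congr 1
  funext y
  exact g_co hM hB _ i

theorem Ev_co2 (hK : IsCompact K) (hi : (interior K).Nonempty) (hε : 0 < ε) (hm : 0 < m)
    {B : Mt n} (hB : B.PosSemidef) (c : E n) (i j : Fin n) :
    Ev (wK K ε m) B c (fun x => co i x * co j x) = GF B (m + 1 / ε) i j
      + EY K (NF B ε m) (vF B ε m c) (fun y => uF B ε m c i y * uF B ε m c j y) := by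
  have hM : 0 < m + 1 / ε := add_pos hm (by positivity)
  rw [Ev_mix hK hi hε hm hB c ((pg_co i).mul (pg_co j))]
  have h1 : (fun y => Ev (gw (m + 1 / ε)) B (c + (1 / ε) • y) (fun x => co i x * co j x))
      = fun y => GF B (m + 1 / ε) i j + uF B ε m c i y * uF B ε m c j y := by
    funext y
    exact g_2 hM hB _ i j
  rw [h1, (lin_EY hK _ _).add _ _ (Pg.const _) ((pg_uF _ _ _ _ _).mul (pg_uF _ _ _ _ _)),
    R304.EY_const hK hi]

theorem Ev_co3 (hK : IsCompact K) (hi : (interior K).Nonempty) (hε : 0 < ε) (hm : 0 < m)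
    {B : Mt n} (hB : B.PosSemidef) (c : E n) (i j k : Fin n) :
    Ev (wK K ε m) B c (fun x => co i x * co j x * co k x)
      = GF B (m + 1 / ε) i k * EY K (NF B ε m) (vF B ε m c) (uF B ε m c j)
        + GF B (m + 1 / ε) j k * EY K (NF B ε m) (vF B ε m c) (uF B ε m c i)
        + GF B (m + 1 / ε) i j * EY K (NF B ε m) (vF B ε m c) (uF B ε m c k)
        + EY K (NF B ε m) (vF B ε m c)
          (fun y => uF B ε m c i y * uF B ε m c j y * uF B ε m c k y) := by
  have hM : 0 < m + 1 / ε := add_pos hm (by positivity)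
  have hl := lin_EY hK (NF B ε m) (vF B ε m c)
  rw [Ev_mix hK hi hε hm hB c (((pg_co i).mul (pg_co j)).mul (pg_co k))]
  have h1 : (fun y => Ev (gw (m + 1 / ε)) B (c + (1 / ε) • y)
      (fun x => co i x * co j x * co k x))
      = fun y => GF B (m + 1 / ε) i k * uF B ε m c j y + GF B (m + 1 / ε) j k * uF B ε m c i y
        + GF B (m + 1 / ε) i j * uF B ε m c k y
        + uF B ε m c i y * uF B ε m c j y * uF B ε m c k y := by
    funext y
    exact g_3 hM hB _ i j k
  have p := fun i => pg_uF B ε m c i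
  rw [h1, hl.add _ _ ((((p j).const_mul _).add ((p i).const_mul _)).add ((p k).const_mul _))
      (((p i).mul (p j)).mul (p k)),
    hl.add _ _ (((p j).const_mul _).add ((p i).const_mul _)) ((p k).const_mul _),
    hl.add _ _ ((p j).const_mul _) ((p i).const_mul _), hl.cmul _ _ (p j), hl.cmul _ _ (p i),
    hl.cmul _ _ (p k)]

/-- the covariance matrix -/
theorem AF_eq (hK : IsCompact K) (hi : (interior K).Nonempty) (hε : 0 < ε) (hm : 0 < m)
    {B : Mt n} (hB : B.PosSemidef) (c : E n) :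
    AF (wK K ε m) B c = GF B (m + 1 / ε)
      + WF B ε m * SF K (NF B ε m) (vF B ε m c) * (WF B ε m)ᵀ := by
  ext i j
  set L := EY K (NF B ε m) (vF B ε m c) with hL
  have hl : Lin L := lin_EY hK _ _
  have p := fun i => pg_uF B ε m c i
  have h1 : AF (wK K ε m) B c i j = GF B (m + 1 / ε) i j
      + L (fun y => (uF B ε m c i y - L (uF B ε m c i)) * (uF B ε m c j y - L (uF B ε m c j))) := by
    rw [AF_apply]
    unfold c2
    rw [Ev_co2 hK hi hε hm hB, Ev_co hK hi hε hm hB, Ev_co hK hi hε hm hB]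
    have h2 : (fun y => (uF B ε m c i y - L (uF B ε m c i)) * (uF B ε m c j y - L (uF B ε m c j)))
        = fun y => (uF B ε m c i y * uF B ε m c j y
          + (-(L (uF B ε m c j)) * uF B ε m c i y + -(L (uF B ε m c i)) * uF B ε m c j y))
          + L (uF B ε m c i) * L (uF B ε m c j) := by
      funext y
      ring
    have h3 : L (fun y => (uF B ε m c i y - L (uF B ε m c i))
        * (uF B ε m c j y - L (uF B ε m c j)))
        = L (fun y => uF B ε m c i y * uF B ε m c j y) - L (uF B ε m c i) * L (uF B ε m c j) := by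
      rw [h2, hl.add _ _ (((p i).mul (p j)).add (((p i).const_mul _).add ((p j).const_mul _)))
        (Pg.const _), hl.add _ _ ((p i).mul (p j)) (((p i).const_mul _).add ((p j).const_mul _)),
        hl.add _ _ ((p i).const_mul _) ((p j).const_mul _), hl.cmul _ _ (p i), hl.cmul _ _ (p j)]
      have h4 : L (fun _ => L (uF B ε m c i) * L (uF B ε m c j))
          = L (uF B ε m c i) * L (uF B ε m c j) := R304.EY_const hK hi _
      rw [h4]
      ring
    rw [h3]
    ring
  rw [h1, Matrix.add_apply]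
  congr 1
  have h5 : (fun y => (uF B ε m c i y - L (uF B ε m c i)) * (uF B ε m c j y - L (uF B ε m c j)))
      = fun y => (∑ a, WF B ε m i a * (y a - L (fun z => z a)))
        * (∑ a, WF B ε m j a * (y a - L (fun z => z a))) := by
    funext y
    rw [← uF_centre hK hi, ← uF_centre hK hi]
  rw [h5, hl.two _ _ (f := fun a y => y a - L (fun z => z a))
    fun a => (Pg.coord a).sub (Pg.const _)]
  rw [Matrix.mul_apply, Finset.sum_comm]
  refine Finset.sum_congr rfl fun b _ => ?_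
  rw [Matrix.mul_apply, Finset.sum_mul]
  refine Finset.sum_congr rfl fun a _ => ?_
  rw [Matrix.transpose_apply]
  show WF B ε m i a * WF B ε m j b * SF K (NF B ε m) (vF B ε m c) a b = _
  ring

/-- the third cumulant -/
theorem TF_eq (hK : IsCompact K) (hi : (interior K).Nonempty) (hε : 0 < ε) (hm : 0 < m)
    {B : Mt n} (hB : B.PosSemidef) (c : E n) :
    TF (wK K ε m) B c = frT (WF B ε m) (tauF K (NF B ε m) (vF B ε m c)) := by
  funext i j k
  set L := EY K (NF B ε m) (vF B ε m c) with hL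
  have hl : Lin L := lin_EY hK _ _
  have p := fun i => pg_uF B ε m c i
  have h1 : TF (wK K ε m) B c i j k = L (fun y => (uF B ε m c i y - L (uF B ε m c i))
      * (uF B ε m c j y - L (uF B ε m c j)) * (uF B ε m c k y - L (uF B ε m c k))) := by
    have h2 : (fun y => (uF B ε m c i y - L (uF B ε m c i))
        * (uF B ε m c j y - L (uF B ε m c j)) * (uF B ε m c k y - L (uF B ε m c k)))
        = fun y => ((uF B ε m c i y * uF B ε m c j y * uF B ε m c k y
          + (-(L (uF B ε m c k)) * (uF B ε m c i y * uF B ε m c j y)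
            + (-(L (uF B ε m c j)) * (uF B ε m c i y * uF B ε m c k y)
              + -(L (uF B ε m c i)) * (uF B ε m c j y * uF B ε m c k y))))
          + (L (uF B ε m c j) * L (uF B ε m c k) * uF B ε m c i y
            + (L (uF B ε m c i) * L (uF B ε m c k) * uF B ε m c j y
              + L (uF B ε m c i) * L (uF B ε m c j) * uF B ε m c k y)))
          + -(L (uF B ε m c i) * L (uF B ε m c j) * L (uF B ε m c k)) := by
      funext y
      ring
    have q3 := ((p i).mul (p j)).mul (p k)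
    have q2 := fun (r : ℝ) i j => ((p i).mul (p j)).const_mul r
    have q1 := fun (r : ℝ) i => (p i).const_mul r
    have h3 : L (fun y => (uF B ε m c i y - L (uF B ε m c i))
        * (uF B ε m c j y - L (uF B ε m c j)) * (uF B ε m c k y - L (uF B ε m c k)))
        = L (fun y => uF B ε m c i y * uF B ε m c j y * uF B ε m c k y)
          - L (fun y => uF B ε m c i y * uF B ε m c j y) * L (uF B ε m c k)
          - L (fun y => uF B ε m c i y * uF B ε m c k y) * L (uF B ε m c j)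
          - L (fun y => uF B ε m c j y * uF B ε m c k y) * L (uF B ε m c i)
          + 2 * (L (uF B ε m c i) * L (uF B ε m c j) * L (uF B ε m c k)) := by
      rw [h2, hl.add _ _ ((q3.add ((q2 _ i j).add ((q2 _ i k).add (q2 _ j k)))).add
          ((q1 _ i).add ((q1 _ j).add (q1 _ k)))) (Pg.const _),
        hl.add _ _ (q3.add ((q2 _ i j).add ((q2 _ i k).add (q2 _ j k))))
          ((q1 _ i).add ((q1 _ j).add (q1 _ k))),
        hl.add _ _ q3 ((q2 _ i j).add ((q2 _ i k).add (q2 _ j k))),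
        hl.add _ _ (q2 _ i j) ((q2 _ i k).add (q2 _ j k)), hl.add _ _ (q2 _ i k) (q2 _ j k),
        hl.add _ _ (q1 _ i) ((q1 _ j).add (q1 _ k)), hl.add _ _ (q1 _ j) (q1 _ k),
        hl.cmul _ _ ((p i).mul (p j)), hl.cmul _ _ ((p i).mul (p k)),
        hl.cmul _ _ ((p j).mul (p k)), hl.cmul _ _ (p i), hl.cmul _ _ (p j), hl.cmul _ _ (p k)]
      have h4 : L (fun _ => -(L (uF B ε m c i) * L (uF B ε m c j) * L (uF B ε m c k)))
          = -(L (uF B ε m c i) * L (uF B ε m c j) * L (uF B ε m c k)) := R304.EY_const hK hi _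
      rw [h4]
      ring
    rw [h3]
    unfold TF c3 c2
    rw [Ev_co3 hK hi hε hm hB, Ev_co2 hK hi hε hm hB, Ev_co2 hK hi hε hm hB,
      Ev_co2 hK hi hε hm hB, Ev_co hK hi hε hm hB, Ev_co hK hi hε hm hB, Ev_co hK hi hε hm hB]
    ring
  rw [h1]
  have h5 : (fun y => (uF B ε m c i y - L (uF B ε m c i))
      * (uF B ε m c j y - L (uF B ε m c j)) * (uF B ε m c k y - L (uF B ε m c k)))
      = fun y => (∑ a, WF B ε m i a * (y a - L (fun z => z a)))
        * (∑ a, WF B ε m j a * (y a - L (fun z => z a)))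
        * (∑ a, WF B ε m k a * (y a - L (fun z => z a))) := by
    funext y
    rw [← uF_centre hK hi, ← uF_centre hK hi, ← uF_centre hK hi]
  rw [h5, hl.three _ _ _ (f := fun a y => y a - L (fun z => z a))
    fun a => (Pg.coord a).sub (Pg.const _)]
  rfl

theorem SF_psd (hK : IsCompact K) (hi : (interior K).Nonempty) (N : Mt n) (v : E n) :
    (SF K N v).PosSemidef := by
  have hl : Lin (EY K N v) := lin_EY hK _ _
  refine Matrix.PosSemidef.of_dotProduct_mulVec_nonneg ?_ fun x => ?_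
  · rw [Matrix.IsHermitian, Matrix.conjTranspose_eq_transpose_of_trivial]
    ext i j
    simp only [SF, Matrix.transpose_apply, Matrix.of_apply]
    congr 1
    funext y
    ring
  · rw [star_trivial]
    have h1 := hl.two x x (f := fun a y => y a - EY K N v (fun z => z a))
      fun a => (Pg.coord a).sub (Pg.const _)
    have h2 : x ⬝ᵥ SF K N v *ᵥ x = ∑ a, ∑ b, x a * x b *
        EY K N v (fun y => (y a - EY K N v (fun z => z a)) * (y b - EY K N v (fun z => z b))) := by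
      unfold dotProduct mulVec dotProduct
      refine Finset.sum_congr rfl fun a _ => ?_
      rw [Finset.mul_sum]
      refine Finset.sum_congr rfl fun b _ => ?_
      simp only [SF, Matrix.of_apply]
      ring
    rw [h2, ← h1]
    exact EY_nonneg hK hi fun y => mul_self_nonneg _

end moments

end Vale.Agent.P254.Fr
end

section

/-!
P254, frame block (b) (helper829): two-sided bounds of the covariance matrix, bounds and limits of
the third cumulant.
-/

open MeasureTheory Filter Topology Matrix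

namespace Vale.Agent.P254.Fr

open R304 (IY EY)
open L (Mat Ten NN N3 frT)

variable {n : ℕ}

section alg

variable {B : Mt n} {M : ℝ}

theorem G_id (hM : 0 < M) (hB : B.PosSemidef) (b : ℝ) :
    GF B M - (b + M) • (GF B M * GF B M) = GF B M * (B - b • (1 : Mt n)) * GF B M := by
  have h1 : B - b • (1 : Mt n) = HF B M - (b + M) • (1 : Mt n) := by
    unfold HF
    rw [add_smul]
    abel
  rw [h1, Matrix.mul_sub, Matrix.sub_mul, GF_mul_HF hM hB, Matrix.one_mul, Matrix.mul_smul,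
    Matrix.mul_one, Matrix.smul_mul]

theorem psd_conj {X : Mt n} (hX : X.PosSemidef) {G : Mt n} (hG : G.IsSymm) :
    (G * X * G).PosSemidef := by
  have h := hX.mul_mul_conjTranspose_same G
  rwa [Matrix.conjTranspose_eq_transpose_of_trivial, hG] at h

theorem G_sub_psd (hM : 0 < M) (hB : B.PosSemidef) {b : ℝ} (hb : (B - b • (1 : Mt n)).PosSemidef) :
    (GF B M - (b + M) • (GF B M * GF B M)).PosSemidef := by
  rw [G_id hM hB]
  exact psd_conj hb (symm_of_posDef (GF_posDef hM hB))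

theorem one_sub_G (hM : 0 < M) (hB : B.PosSemidef) : (1 - M • GF B M).PosSemidef := by
  have hG := symm_of_posDef (GF_posDef hM hB)
  have h1 : (1 : Mt n) - M • GF B M = GF B M * (B * B + M • B) * GF B M := by
    have h2 : B * B + M • B = B * HF B M := by
      unfold HF
      rw [Matrix.mul_add, Matrix.mul_smul, Matrix.mul_one]
    have h3 : B = HF B M - M • (1 : Mt n) := by
      unfold HF
      abel
    have h4 : GF B M * B = 1 - M • GF B M := by
      have h5 : GF B M * B = GF B M * (HF B M - M • (1 : Mt n)) := by rw [← h3]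
      rw [h5, Matrix.mul_sub, GF_mul_HF hM hB, Matrix.mul_smul, Matrix.mul_one]
    rw [h2, ← Matrix.mul_assoc, Matrix.mul_assoc _ (HF B M), HF_mul_GF hM hB, Matrix.mul_one, h4]
  rw [h1]
  refine psd_conj (Matrix.PosSemidef.add ?_ (hB.smul hM.le)) hG
  have h5 := Matrix.posSemidef_conjTranspose_mul_self B
  rwa [hB.isHermitian.eq] at h5

theorem G_entry_le (hM : 0 < M) (hB : B.PosSemidef) (i j : Fin n) : |GF B M i j| ≤ 1 / M := by
  refine R304.psd_entry_le (GF_posDef hM hB).posSemidef ?_ i j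
  have h := (one_sub_G hM hB).smul (show 0 ≤ 1 / M by positivity)
  have e : (1 / M) • (1 - M • GF B M) = (1 / M) • (1 : Mt n) - GF B M := by
    rw [smul_sub, smul_smul, one_div_mul_cancel hM.ne', one_smul]
  rwa [e] at h

theorem inv_anti {A G : Mt n} (hA : A.PosDef) (hG : G.PosDef) (h : (A - G).PosSemidef) :
    (G⁻¹ - A⁻¹).PosSemidef := by
  refine Matrix.PosSemidef.of_dotProduct_mulVec_nonneg (hG.inv.isHermitian.sub hA.inv.isHermitian)
    fun x => ?_
  rw [star_trivial]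
  set y := A⁻¹ *ᵥ x with hy
  set g := G⁻¹ *ᵥ x with hg
  have hGs := symm_of_posDef hG
  have h1 : G *ᵥ g = x := by
    rw [hg, Matrix.mulVec_mulVec, Matrix.mul_nonsing_inv _
      ((Matrix.isUnit_iff_isUnit_det _).1 hG.isUnit), Matrix.one_mulVec]
  have h2 : A *ᵥ y = x := by
    rw [hy, Matrix.mulVec_mulVec, Matrix.mul_nonsing_inv _
      ((Matrix.isUnit_iff_isUnit_det _).1 hA.isUnit), Matrix.one_mulVec]
  have h3 := nonneg_of_psd hG.posSemidef (g + (-1 : ℝ) • y)
  rw [quad_line hGs, h1] at h3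
  have h4 := nonneg_of_psd h y
  rw [Matrix.sub_mulVec, dotProduct_sub, h2] at h4
  rw [Matrix.sub_mulVec, dotProduct_sub, ← hy, ← hg, dotProduct_comm x g, dotProduct_comm x y]
  linarith

end alg

section structural

variable {K : Set (E n)} {ε m : ℝ}

theorem WF_symm (hε : 0 < ε) (hm : 0 < m) {B : Mt n} (hB : B.PosSemidef) :
    (WF B ε m).IsSymm := by
  have hG := symm_of_posDef (GF_posDef (M := m + 1 / ε) (by positivity) hB)
  unfold WF
  rw [Matrix.IsSymm, Matrix.transpose_smul, hG]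

theorem A_sub_G (hK : IsCompact K) (hi : (interior K).Nonempty) (hε : 0 < ε) (hm : 0 < m)
    {B : Mt n} (hB : B.PosSemidef) (c : E n) :
    (AF (wK K ε m) B c - GF B (m + 1 / ε)).PosSemidef := by
  rw [AF_eq hK hi hε hm hB, add_sub_cancel_left, WF_symm hε hm hB]
  exact psd_conj (SF_psd hK hi _ _) (WF_symm hε hm hB)

theorem posA (hK : IsCompact K) (hi : (interior K).Nonempty) (hε : 0 < ε) (hm : 0 < m)
    (B : Mt n) (hB : B.PosSemidef) (c : E n) : (AF (wK K ε m) B c).PosDef := by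
  have h := (GF_posDef (M := m + 1 / ε) (by positivity) hB).add_posSemidef
    (A_sub_G hK hi hε hm hB c)
  rwa [add_sub_cancel] at h

theorem lo (hK : IsCompact K) (hi : (interior K).Nonempty) (hε : 0 < ε) (hm : 0 < m)
    (B : Mt n) (hB : B.PosSemidef) (c : E n) :
    ((B + (m + 1 / ε) • (1 : Mt n)) - (AF (wK K ε m) B c)⁻¹).PosSemidef := by
  have hM : 0 < m + 1 / ε := by positivity
  have h := inv_anti (posA hK hi hε hm B hB c) (GF_posDef hM hB) (A_sub_G hK hi hε hm hB c)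
  have e : (GF B (m + 1 / ε))⁻¹ = B + (m + 1 / ε) • (1 : Mt n) :=
    Matrix.nonsing_inv_nonsing_inv _ ((Matrix.isUnit_iff_isUnit_det _).1 (HF_posDef hM hB).isUnit)
  rwa [e] at h

/-- trace estimate for the pulled back test matrix -/
theorem trace_W (hK : IsCompact K) (hi : (interior K).Nonempty) (hε : 0 < ε) (hm : 0 < m)
    {B : Mt n} (hB : B.PosSemidef) {b : ℝ} (hb : 0 ≤ b) (hbB : (B - b • (1 : Mt n)).PosSemidef)
    (c : E n) {P : Mt n} (hP : P.PosSemidef) :
    ((WF B ε m)ᵀ * P * WF B ε m).trace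
      ≤ (1 / ε ^ 2) * (1 / (b + (m + 1 / ε))) * (AF (wK K ε m) B c * P).trace := by
  have hM : 0 < m + 1 / ε := by positivity
  have h1 := trace_mul_nonneg (G_sub_psd hM hB hbB) hP
  have h2 := trace_mul_nonneg (A_sub_G hK hi hε hm hB c) hP
  rw [Matrix.sub_mul, Matrix.trace_sub, Matrix.smul_mul, Matrix.trace_smul, smul_eq_mul] at h1
  rw [Matrix.sub_mul, Matrix.trace_sub] at h2
  have h3 : ((WF B ε m)ᵀ * P * WF B ε m).trace
      = (1 / ε ^ 2) * (GF B (m + 1 / ε) * GF B (m + 1 / ε) * P).trace := by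
    rw [WF_symm hε hm hB, Matrix.trace_mul_comm, ← Matrix.mul_assoc]
    unfold WF
    rw [Matrix.smul_mul, Matrix.mul_smul, Matrix.smul_mul, Matrix.smul_mul, Matrix.trace_smul,
      Matrix.trace_smul, smul_eq_mul, smul_eq_mul]
    ring
  rw [h3]
  have h4 : (GF B (m + 1 / ε) * GF B (m + 1 / ε) * P).trace
      ≤ 1 / (b + (m + 1 / ε)) * (AF (wK K ε m) B c * P).trace := by
    rw [one_div_mul_eq_div, le_div_iff₀ (by positivity)]
    linarith
  calc (1 / ε ^ 2) * (GF B (m + 1 / ε) * GF B (m + 1 / ε) * P).trace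
      ≤ (1 / ε ^ 2) * (1 / (b + (m + 1 / ε)) * (AF (wK K ε m) B c * P).trace) :=
        mul_le_mul_of_nonneg_left h4 (by positivity)
    _ = _ := by ring

/-- the third cumulant of the mixing variable is bounded -/
theorem exists_tau_bd (hK : IsCompact K) (hi : (interior K).Nonempty) :
    ∃ b : ℝ, 0 ≤ b ∧ ∀ (N : Mt n) (v : E n) i j k, |tauF K N v i j k| ≤ b := by
  obtain ⟨D, hDpos, hD⟩ := hK.isBounded.exists_pos_norm_le
  refine ⟨(2 * D) ^ 3, by positivity, fun N v i j k => ?_⟩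
  have hcoord : ∀ i, Continuous fun y : Fin n → ℝ => y i := fun i => continuous_apply i
  have haD : ∀ i, |EY K N v (fun z => z i)| ≤ D := by
    intro i
    refine (R304.abs_EY_le hK hi _).trans ?_
    refine (R304.EY_mono hK hi (hcoord i).abs continuous_const (ψ := fun _ => D)
      fun y hy => ?_).trans (R304.EY_const hK hi D).le
    exact (norm_le_pi_norm y i).trans (hD y hy)
  have hdiff : ∀ i, ∀ y ∈ K, |y i - EY K N v (fun z => z i)| ≤ 2 * D := by
    intro i y hy
    have h1 : |y i| ≤ D := (norm_le_pi_norm y i).trans (hD y hy)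
    calc |y i - EY K N v (fun z => z i)| ≤ |y i| + |EY K N v (fun z => z i)| := abs_sub _ _
      _ ≤ D + D := add_le_add h1 (haD i)
      _ = 2 * D := by ring
  unfold tauF
  refine (R304.abs_EY_le hK hi _).trans ?_
  refine (R304.EY_mono hK hi (ψ := fun _ => (2 * D) ^ 3) (by fun_prop) continuous_const
    fun y hy => ?_).trans (R304.EY_const hK hi _).le
  rw [abs_mul, abs_mul]
  have h3 := hdiff i y hy
  have h4 := hdiff j y hy
  have h5 := hdiff k y hy
  calc |y i - EY K N v (fun z => z i)| * |y j - EY K N v (fun z => z j)|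
        * |y k - EY K N v (fun z => z k)| ≤ (2 * D) * (2 * D) * (2 * D) := by gcongr
    _ = (2 * D) ^ 3 := by ring

/-- bound of `NN P T T` from a bound of the third cumulant of the mixing variable -/
theorem NN_T_le (hK : IsCompact K) (hi : (interior K).Nonempty) (hε : 0 < ε) (hm : 0 < m)
    {B : Mt n} (hB : B.PosSemidef) {b : ℝ} (hb : 0 ≤ b) (hbB : (B - b • (1 : Mt n)).PosSemidef)
    (c : E n) {P : Mt n} (hP : P.PosSemidef) {δ : ℝ} (hδ : 0 ≤ δ)
    (hT : ∀ i j k, |tauF K (NF B ε m) (vF B ε m c) i j k| ≤ δ) :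
    NN P (TF (wK K ε m) B c) (TF (wK K ε m) B c)
      ≤ (n : ℝ) ^ 6 * δ ^ 2 / ε ^ 6 / (b + (m + 1 / ε)) ^ 3
        * (AF (wK K ε m) B c * P).trace ^ 3 := by
  have hM : 0 < m + 1 / ε := by positivity
  rw [TF_eq hK hi hε hm hB, NN_frT]
  have hQ : ((WF B ε m)ᵀ * P * WF B ε m).PosSemidef := by
    have h := hP.mul_mul_conjTranspose_same (WF B ε m)ᵀ
    rwa [Matrix.conjTranspose_eq_transpose_of_trivial, Matrix.transpose_transpose] at h
  refine (NN_le hQ hδ hT).trans ?_
  have h1 := trace_W hK hi hε hm hB hb hbB c hP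
  have h2 : 0 ≤ ((WF B ε m)ᵀ * P * WF B ε m).trace := hQ.trace_nonneg
  calc (n : ℝ) ^ 6 * δ ^ 2 * ((WF B ε m)ᵀ * P * WF B ε m).trace ^ 3
      ≤ (n : ℝ) ^ 6 * δ ^ 2 * ((1 / ε ^ 2) * (1 / (b + (m + 1 / ε)))
          * (AF (wK K ε m) B c * P).trace) ^ 3 := by gcongr
    _ = _ := by
      field_simp

theorem bT (hK : IsCompact K) (hi : (interior K).Nonempty) (hε : 0 < ε) (hm : 0 < m) :
    ∃ CT : ℝ, 0 ≤ CT ∧ ∀ B : Mt n, B.PosSemidef → ∀ b : ℝ, 0 ≤ b →
      (B - b • (1 : Mt n)).PosSemidef → ∀ c, ∀ P : Mt n, P.PosSemidef →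
      NN P (TF (wK K ε m) B c) (TF (wK K ε m) B c)
        ≤ CT / (b + (m + 1 / ε)) ^ 3 * (AF (wK K ε m) B c * P).trace ^ 3 := by
  obtain ⟨δ, hδ, h⟩ := exists_tau_bd hK hi
  exact ⟨(n : ℝ) ^ 6 * δ ^ 2 / ε ^ 6, by positivity, fun B hB b hb hbB c P hP =>
    NN_T_le hK hi hε hm hB hb hbB c hP hδ fun i j k => h _ _ i j k⟩

/-- `N` is bounded -/
theorem NF_entry_le (hε : 0 < ε) (hm : 0 < m) {B : Mt n} (hB : B.PosSemidef) (i j : Fin n) :
    |NF B ε m i j| ≤ 1 / ε := by
  have hM : 0 < m + 1 / ε := by positivity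
  refine R304.psd_entry_le ?_ ?_ i j
  · have h1 := (one_sub_G hM hB).smul (show 0 ≤ 1 / (ε ^ 2 * (m + 1 / ε)) by positivity)
    have h2 : (0 : ℝ) ≤ 1 / ε - 1 / (ε ^ 2 * (m + 1 / ε)) := by
      have : 1 / ε - 1 / (ε ^ 2 * (m + 1 / ε)) = m / (ε * (m + 1 / ε)) := by
        field_simp
        ring
      rw [this]
      positivity
    have h3 := h1.add ((Matrix.PosSemidef.one (n := Fin n) (R := ℝ)).smul h2)
    have e : (1 / (ε ^ 2 * (m + 1 / ε))) • (1 - (m + 1 / ε) • GF B (m + 1 / ε))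
        + (1 / ε - 1 / (ε ^ 2 * (m + 1 / ε))) • (1 : Mt n) = NF B ε m := by
      unfold NF
      rw [smul_sub, smul_smul, sub_smul]
      have e2 : 1 / (ε ^ 2 * (m + 1 / ε)) * (m + 1 / ε) = 1 / ε ^ 2 := by
        field_simp
      rw [e2]
      abel
    rwa [e] at h3
  · have h1 := (GF_posDef hM hB).posSemidef.smul (show 0 ≤ 1 / ε ^ 2 by positivity)
    have e : (1 / ε) • (1 : Mt n) - NF B ε m = (1 / ε ^ 2) • GF B (m + 1 / ε) := by
      unfold NF
      abel
    rw [e]
    exact h1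

/-- the tilt vector of the mixing variable tends to infinity -/
theorem vF_large (hε : 0 < ε) (hm : 0 < m) (b R : ℝ) : ∃ ρ : ℝ, ∀ B : Mt n, B.PosSemidef →
    (b • (1 : Mt n) - B).PosSemidef → ∀ c : E n, ρ ≤ ‖c‖ → R ≤ ‖vF B ε m c‖ := by
  have hM : 0 < m + 1 / ε := by positivity
  refine ⟨ε * ((n + 1) * (|b| + (m + 1 / ε))) * (|R| + 1), fun B hB hbB c hc => ?_⟩
  have h1 : c = ε • (HF B (m + 1 / ε) *ᵥ vF B ε m c) := by
    unfold vF
    rw [Matrix.mulVec_smul, Matrix.mulVec_mulVec, HF_mul_GF hM hB, Matrix.one_mulVec, smul_smul,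
      mul_one_div_cancel hε.ne', one_smul]
  have h2 : ∀ i j, |HF B (m + 1 / ε) i j| ≤ |b| + (m + 1 / ε) := by
    refine R304.psd_entry_le (HF_posDef hM hB).posSemidef ?_
    have e : (|b| + (m + 1 / ε)) • (1 : Mt n) - HF B (m + 1 / ε)
        = (|b| - b) • (1 : Mt n) + (b • (1 : Mt n) - B) := by
      unfold HF
      rw [add_smul, sub_smul]
      abel
    rw [e]
    exact (Matrix.PosSemidef.one.smul (sub_nonneg.2 (le_abs_self b))).add hbB
  have h3 : ‖HF B (m + 1 / ε) *ᵥ vF B ε m c‖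
      ≤ (n + 1) * (|b| + (m + 1 / ε)) * ‖vF B ε m c‖ := by
    rw [pi_norm_le_iff_of_nonneg (by positivity)]
    intro i
    rw [Real.norm_eq_abs]
    simp only [mulVec, dotProduct]
    calc |∑ j, HF B (m + 1 / ε) i j * vF B ε m c j|
        ≤ ∑ j, |HF B (m + 1 / ε) i j * vF B ε m c j| := Finset.abs_sum_le_sum_abs _ _
      _ ≤ ∑ _j : Fin n, (|b| + (m + 1 / ε)) * ‖vF B ε m c‖ := by
          refine Finset.sum_le_sum fun j _ => ?_
          rw [abs_mul]
          exact mul_le_mul (h2 i j) (norm_le_pi_norm (vF B ε m c) j) (abs_nonneg _) (by positivity)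
      _ = n * (|b| + (m + 1 / ε)) * ‖vF B ε m c‖ := by simp [mul_assoc]
      _ ≤ (n + 1) * (|b| + (m + 1 / ε)) * ‖vF B ε m c‖ := by
          have : (n : ℝ) ≤ n + 1 := by linarith
          gcongr
  have h4 : ‖c‖ ≤ ε * ((n + 1) * (|b| + (m + 1 / ε)) * ‖vF B ε m c‖) := by
    calc ‖c‖ = ε * ‖HF B (m + 1 / ε) *ᵥ vF B ε m c‖ := by
          conv_lhs => rw [h1]
          rw [norm_smul, Real.norm_eq_abs, abs_of_pos hε]
      _ ≤ _ := by gcongr
  have h5 : ε * ((n + 1) * (|b| + (m + 1 / ε))) * (|R| + 1)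
      ≤ ε * ((n + 1) * (|b| + (m + 1 / ε))) * ‖vF B ε m c‖ := by
    calc _ ≤ ‖c‖ := hc
      _ ≤ _ := h4
      _ = _ := by ring
  have h6 : 0 < ε * ((n + 1) * (|b| + (m + 1 / ε))) := by positivity
  have h7 := le_of_mul_le_mul_left h5 h6
  have h8 := le_abs_self R
  linarith

theorem vT (hK : IsCompact K) (hs : StrictConvex ℝ K) (hi : (interior K).Nonempty) (hε : 0 < ε)
    (hm : 0 < m) (b η : ℝ) (hη : 0 < η) : ∃ ρ : ℝ, ∀ B : Mt n, B.PosSemidef →
    (b • (1 : Mt n) - B).PosSemidef → ∀ c : E n, ρ ≤ ‖c‖ → ∀ P : Mt n, P.PosSemidef →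
      NN P (TF (wK K ε m) B c) (TF (wK K ε m) B c) ≤ η * (AF (wK K ε m) B c * P).trace ^ 3 := by
  have hM : 0 < m + 1 / ε := by positivity
  set δ : ℝ := Real.sqrt (η * (m + 1 / ε) ^ 3 * ε ^ 6 / (n ^ 6 + 1)) with hδ
  have hδ0 : 0 < δ := Real.sqrt_pos.2 (by positivity)
  have hδ2 : δ ^ 2 = η * (m + 1 / ε) ^ 3 * ε ^ 6 / (n ^ 6 + 1) := Real.sq_sqrt (by positivity)
  obtain ⟨R, hR⟩ := R304.moments_small hK hs hi (1 / ε) hδ0
  obtain ⟨ρ, hρ⟩ := vF_large (n := n) hε hm b R
  refine ⟨ρ, fun B hB hbB c hc P hP => ?_⟩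
  have h1 := (hR (NF B ε m) (NF_entry_le hε hm hB) (vF B ε m c) (hρ B hB hbB c hc)).2
  have hB0 : (B - (0 : ℝ) • (1 : Mt n)).PosSemidef := by simpa using hB
  refine (NN_T_le hK hi hε hm hB le_rfl hB0 c hP hδ0.le h1).trans ?_
  have h2 : 0 ≤ (AF (wK K ε m) B c * P).trace :=
    trace_mul_nonneg (posA hK hi hε hm B hB c).posSemidef hP
  refine mul_le_mul_of_nonneg_right ?_ (by positivity)
  rw [hδ2, zero_add]
  have h3 : (n : ℝ) ^ 6 * (η * (m + 1 / ε) ^ 3 * ε ^ 6 / (n ^ 6 + 1)) / ε ^ 6 / (m + 1 / ε) ^ 3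
      = η * ((n : ℝ) ^ 6 / (n ^ 6 + 1)) := by
    have : (0 : ℝ) < (n : ℝ) ^ 6 + 1 := by positivity
    have hM' : m + 1 / ε ≠ 0 := hM.ne'
    generalize m + 1 / ε = M at hM'
    field_simp
  rw [h3]
  have h4 : (n : ℝ) ^ 6 / (n ^ 6 + 1) ≤ 1 := by
    rw [div_le_one (by positivity)]
    linarith
  calc η * ((n : ℝ) ^ 6 / (n ^ 6 + 1)) ≤ η * 1 := mul_le_mul_of_nonneg_left h4 hη.le
    _ = η := mul_one _

theorem det_small (η : ℝ) (hη : 0 < η) : ∃ δ : ℝ, 0 < δ ∧ ∀ X : Mt n, (∀ i j, |X i j| ≤ δ) →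
    (1 + X).det < Real.exp η := by
  have hc : Continuous fun F : Fin n → Fin n → ℝ => ((1 : Mt n) + Matrix.of F).det := by
    refine Continuous.matrix_det ?_
    refine continuous_const.add ?_
    exact continuous_id
  have h1 : ((1 : Mt n) + Matrix.of (0 : Fin n → Fin n → ℝ)).det < Real.exp η := by
    have : (1 : Mt n) + Matrix.of (0 : Fin n → Fin n → ℝ) = 1 := by
      ext i j
      simp
    rw [this, Matrix.det_one]
    exact Real.one_lt_exp_iff.2 hη
  have h2 := hc.continuousAt.eventually (gt_mem_nhds h1)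
  obtain ⟨δ, hδ, h3⟩ := Metric.eventually_nhds_iff.1 h2
  refine ⟨δ / 2, by positivity, fun X hX => ?_⟩
  refine h3 (y := fun i j => X i j) ?_
  have h4 : dist (fun i j => X i j) (0 : Fin n → Fin n → ℝ) ≤ δ / 2 := by
    rw [dist_zero_right, pi_norm_le_iff_of_nonneg (by positivity)]
    intro i
    rw [pi_norm_le_iff_of_nonneg (by positivity)]
    intro j
    exact hX i j
  linarith

theorem vA (hK : IsCompact K) (hs : StrictConvex ℝ K) (hi : (interior K).Nonempty) (hε : 0 < ε)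
    (hm : 0 < m) (b η : ℝ) (hη : 0 < η) : ∃ ρ : ℝ, ∀ B : Mt n, B.PosSemidef →
    (b • (1 : Mt n) - B).PosSemidef → ∀ c : E n, ρ ≤ ‖c‖ →
      Real.log (AF (wK K ε m) B c).det ≤ - Real.log (B + (m + 1 / ε) • (1 : Mt n)).det + η := by
  have hM : 0 < m + 1 / ε := by positivity
  obtain ⟨δ, hδ, hdet⟩ := det_small (n := n) η hη
  set δ' : ℝ := δ * (ε ^ 2 * (m + 1 / ε)) / (n + 1) with hδ'
  have hδ'0 : 0 < δ' := by positivity
  obtain ⟨R, hR⟩ := R304.moments_small hK hs hi (1 / ε) hδ'0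
  obtain ⟨ρ, hρ⟩ := vF_large (n := n) hε hm b R
  refine ⟨ρ, fun B hB hbB c hc => ?_⟩
  have h1 := (hR (NF B ε m) (NF_entry_le hε hm hB) (vF B ε m c) (hρ B hB hbB c hc)).1
  set G := GF B (m + 1 / ε) with hG
  set S := SF K (NF B ε m) (vF B ε m c) with hS
  set X : Mt n := (1 / ε ^ 2) • (S * G) with hX
  have hA : AF (wK K ε m) B c = G * (1 + X) := by
    rw [AF_eq hK hi hε hm hB, WF_symm hε hm hB, hX, Matrix.mul_add, Matrix.mul_one, ← hG, ← hS]
    congr 1
    unfold WF
    rw [Matrix.smul_mul, Matrix.mul_smul, Matrix.smul_mul, Matrix.mul_smul, smul_smul,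
      Matrix.mul_assoc]
    congr 1
    field_simp
  have hXle : ∀ i j, |X i j| ≤ δ := by
    intro i j
    rw [hX, Matrix.smul_apply, smul_eq_mul, abs_mul, abs_of_pos (by positivity : 0 < 1 / ε ^ 2),
      Matrix.mul_apply]
    have h2 : |∑ k, S i k * G k j| ≤ n * (δ' * (1 / (m + 1 / ε))) := by
      calc |∑ k, S i k * G k j| ≤ ∑ k, |S i k * G k j| := Finset.abs_sum_le_sum_abs _ _
        _ ≤ ∑ _k : Fin n, δ' * (1 / (m + 1 / ε)) := by
            refine Finset.sum_le_sum fun k _ => ?_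
            rw [abs_mul]
            exact mul_le_mul (h1 i k) (G_entry_le hM hB k j) (abs_nonneg _) hδ'0.le
        _ = _ := by simp
    calc 1 / ε ^ 2 * |∑ k, S i k * G k j| ≤ 1 / ε ^ 2 * (n * (δ' * (1 / (m + 1 / ε)))) := by gcongr
      _ = δ * (n / (n + 1)) := by
          rw [hδ']
          have hM' : m + 1 / ε ≠ 0 := hM.ne'
          generalize m + 1 / ε = M at hM'
          field_simp
      _ ≤ δ * 1 := by
          refine mul_le_mul_of_nonneg_left ?_ hδ.le
          rw [div_le_one (by positivity)]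
          linarith
      _ = δ := mul_one _
  have h3 := hdet X hXle
  have hGd : 0 < G.det := (GF_posDef hM hB).det_pos
  have hAd : 0 < (AF (wK K ε m) B c).det := (posA hK hi hε hm B hB c).det_pos
  have h4 : (AF (wK K ε m) B c).det = G.det * (1 + X).det := by
    rw [hA, Matrix.det_mul]
  have hXd : 0 < (1 + X).det := by
    rw [h4] at hAd
    exact (mul_pos_iff_of_pos_left hGd).1 hAd
  have h5 : Real.log G.det = - Real.log (B + (m + 1 / ε) • (1 : Mt n)).det := by
    have e : G.det = ((B + (m + 1 / ε) • (1 : Mt n)).det)⁻¹ := by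
      rw [hG]
      unfold GF HF
      rw [Matrix.det_nonsing_inv, Ring.inverse_eq_inv']
    rw [e, Real.log_inv]
  rw [h4, Real.log_mul hGd.ne' hXd.ne', h5]
  have h6 : Real.log (1 + X).det < η := by
    have := Real.log_lt_log hXd h3
    rwa [Real.log_exp] at this
  linarith

end structural

end Vale.Agent.P254.Fr
end

section

/-!
P254, frame block (b) (helper829): the Brascamp-Lieb upper bound of the covariance matrix, from the
Prekopa-Leindler inequality.
-/

open MeasureTheory Filter Topology Matrix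
open scoped ENNReal

namespace Vale.Agent.P254.Fr

variable {n : ℕ}

/-- midpoint Prekopa-Leindler for integrable functions -/
theorem pl_half {u v w : E n → ℝ} (hu : Measurable u) (hv : Measurable v) (hw : Measurable w)
    (hu0 : ∀ x, 0 ≤ u x) (hv0 : ∀ x, 0 ≤ v x) (hw0 : ∀ x, 0 ≤ w x)
    (iu : Integrable u) (iv : Integrable v) (iw : Integrable w)
    (h : ∀ x y, u x * v y ≤ w ((1 / 2 : ℝ) • x + (1 / 2 : ℝ) • y) ^ 2) :
    (∫ x, u x) * (∫ x, v x) ≤ (∫ x, w x) ^ 2 := by
  have hh : (1 : ℝ) - 1 / 2 = 1 / 2 := by norm_num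
  have key := P150.F.PL.prekopa_leindler (n := n) (s := 1 / 2) (by norm_num) (by norm_num)
    (u := fun x => ENNReal.ofReal (u x)) (v := fun x => ENNReal.ofReal (v x))
    (w := fun x => ENNReal.ofReal (w x)) hu.ennreal_ofReal hv.ennreal_ofReal hw.ennreal_ofReal
    (fun x y => by
      rw [hh, ENNReal.ofReal_rpow_of_nonneg (hu0 x) (by norm_num),
        ENNReal.ofReal_rpow_of_nonneg (hv0 y) (by norm_num),
        ← ENNReal.ofReal_mul (Real.rpow_nonneg (hu0 x) _)]
      refine ENNReal.ofReal_le_ofReal ?_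
      rw [← Real.mul_rpow (hu0 x) (hv0 y), ← Real.sqrt_eq_rpow]
      exact Real.sqrt_le_iff.2 ⟨hw0 _, h x y⟩)
  rw [hh, ← ofReal_integral_eq_lintegral_ofReal iu (Eventually.of_forall hu0),
    ← ofReal_integral_eq_lintegral_ofReal iv (Eventually.of_forall hv0),
    ← ofReal_integral_eq_lintegral_ofReal iw (Eventually.of_forall hw0)] at key
  have hU : 0 ≤ ∫ x, u x := integral_nonneg hu0
  have hV : 0 ≤ ∫ x, v x := integral_nonneg hv0
  have hW : 0 ≤ ∫ x, w x := integral_nonneg hw0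
  rw [ENNReal.ofReal_rpow_of_nonneg hU (by norm_num),
    ENNReal.ofReal_rpow_of_nonneg hV (by norm_num),
    ← ENNReal.ofReal_mul (Real.rpow_nonneg hU _), ENNReal.ofReal_le_ofReal_iff hW,
    ← Real.mul_rpow hU hV, ← Real.sqrt_eq_rpow] at key
  exact (Real.sqrt_le_iff.1 key).2

theorem quad_mid {H : Mt n} (hH : H.PosSemidef) (a b : E n) :
    2 * (((1 / 2 : ℝ) • a + (1 / 2 : ℝ) • b) ⬝ᵥ H *ᵥ ((1 / 2 : ℝ) • a + (1 / 2 : ℝ) • b))
      ≤ a ⬝ᵥ H *ᵥ a + b ⬝ᵥ H *ᵥ b := by
  have hs := isSymm_of_psd hH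
  have h1 := nonneg_of_psd hH (a + (-1 : ℝ) • b)
  rw [quad_line hs] at h1
  rw [quad_line hs, Matrix.mulVec_smul, dotProduct_smul, smul_dotProduct, dotProduct_smul,
    smul_eq_mul, smul_eq_mul, smul_eq_mul]
  linarith

theorem dot_mid (a b : E n) :
    2 * (((1 / 2 : ℝ) • a + (1 / 2 : ℝ) • b) ⬝ᵥ ((1 / 2 : ℝ) • a + (1 / 2 : ℝ) • b))
      ≤ a ⬝ᵥ a + b ⬝ᵥ b := by
  have h := quad_mid (Matrix.PosSemidef.one (n := Fin n) (R := ℝ)) a b
  simpa only [Matrix.one_mulVec] using h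

section logconc

variable {K : Set (E n)} {ε m : ℝ}

/-- `gau` is midpoint log-concave -/
theorem gau_mid (hK : IsCompact K) (hc : Convex ℝ K) (hε : 0 < ε) (x x' : E n) :
    gau K ε x * gau K ε x' ≤ gau K ε ((1 / 2 : ℝ) • x + (1 / 2 : ℝ) • x') ^ 2 := by
  have hKm := hK.measurableSet
  set k : E n → E n → ℝ := fun x y => Real.exp (-(1 / (2 * ε)) * ((x - y) ⬝ᵥ (x - y))) with hk
  have e1 : ∀ x, gau K ε x = ∫ y, K.indicator (k x) y := fun x => by
    rw [integral_indicator hKm]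
    rfl
  have m1 : ∀ x, Measurable (K.indicator (k x)) := fun x => by
    refine Measurable.indicator ?_ hKm
    have hcont : Continuous (k x) := by
      simp only [hk]
      unfold dotProduct
      fun_prop
    exact hcont.measurable
  have p1 : ∀ x y, 0 ≤ K.indicator (k x) y := fun x y =>
    Set.indicator_nonneg (fun _ _ => (Real.exp_pos _).le) y
  have i1 : ∀ x, Integrable (K.indicator (k x)) := fun x =>
    (integrable_indicator_iff hKm).2 (int_kernel hK x)
  rw [e1, e1, e1]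
  refine pl_half (m1 _) (m1 _) (m1 _) (p1 _) (p1 _) (p1 _) (i1 _) (i1 _) (i1 _) fun y y' => ?_
  by_cases hy : y ∈ K
  · by_cases hy' : y' ∈ K
    · have hm : (1 / 2 : ℝ) • y + (1 / 2 : ℝ) • y' ∈ K :=
        hc hy hy' (by norm_num) (by norm_num) (by norm_num)
      rw [Set.indicator_of_mem hy, Set.indicator_of_mem hy', Set.indicator_of_mem hm]
      simp only [hk]
      rw [← Real.exp_add, ← Real.exp_nat_mul]
      refine Real.exp_le_exp.2 ?_
      have h1 := dot_mid (x - y) (x' - y')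
      have h2 : (1 / 2 : ℝ) • (x - y) + (1 / 2 : ℝ) • (x' - y')
          = (1 / 2 : ℝ) • x + (1 / 2 : ℝ) • x' - ((1 / 2 : ℝ) • y + (1 / 2 : ℝ) • y') := by
        rw [smul_sub, smul_sub]
        abel
      rw [h2] at h1
      have h3 : 0 < 1 / (2 * ε) := by positivity
      have h4 := mul_le_mul_of_nonneg_left h1 h3.le
      push_cast
      linarith
    · rw [Set.indicator_of_notMem hy', mul_zero]
      positivity
  · rw [Set.indicator_of_notMem hy, zero_mul]
    positivity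

/-- log-concavity of the normalised partition function -/
theorem part_mid (hK : IsCompact K) (hc : Convex ℝ K) (hi : (interior K).Nonempty) (hε : 0 < ε)
    (hm : 0 < m) {B : Mt n} (hB : B.PosSemidef) (c c' : E n) :
    (I (wK K ε m) B c (fun _ => 1) * Real.exp (-(1 / 2) * (c ⬝ᵥ GF B m *ᵥ c)))
      * (I (wK K ε m) B c' (fun _ => 1) * Real.exp (-(1 / 2) * (c' ⬝ᵥ GF B m *ᵥ c')))
    ≤ (I (wK K ε m) B ((1 / 2 : ℝ) • c + (1 / 2 : ℝ) • c') (fun _ => 1)
      * Real.exp (-(1 / 2) * (((1 / 2 : ℝ) • c + (1 / 2 : ℝ) • c') ⬝ᵥ GF B m *ᵥ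
        ((1 / 2 : ℝ) • c + (1 / 2 : ℝ) • c')))) ^ 2 := by
  obtain ⟨C, hw⟩ := wt_wK hK hi hε hm
  have hadm := adm_of_posSemidef hm hB
  set k : E n → E n → ℝ := fun c x =>
    1 * (tl B c x * wK K ε m x) * Real.exp (-(1 / 2) * (c ⬝ᵥ GF B m *ᵥ c)) with hk
  have e1 : ∀ c, I (wK K ε m) B c (fun _ => 1) * Real.exp (-(1 / 2) * (c ⬝ᵥ GF B m *ᵥ c))
      = ∫ x, k c x := fun c => by
    rw [integral_mul_const]
    rfl
  have m1 : ∀ c, Measurable (k c) := fun c =>
    (measurable_const.mul ((measurable_tl B c).mul hw.meas)).mul_const _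
  have p1 : ∀ c x, 0 ≤ k c x := fun c x => by
    have := mul_pos (tl_pos B c x) (hw.pos x)
    simp only [hk]
    positivity
  have i1 : ∀ c, Integrable (k c) := fun c =>
    (integrable_I hw hadm c (Pg.const 1)).mul_const _
  rw [e1, e1, e1]
  refine pl_half (m1 _) (m1 _) (m1 _) (p1 _) (p1 _) (p1 _) (i1 _) (i1 _) (i1 _) fun x y => ?_
  have hH := HF_posDef hm hB
  have hHs := symm_of_posDef hH
  have key : ∀ c x, k c x = gau K ε x
      * Real.exp (-(1 / 2) * ((x + (-1 : ℝ) • (GF B m *ᵥ c)) ⬝ᵥ HF B m *ᵥ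
        (x + (-1 : ℝ) • (GF B m *ᵥ c)))) := by
    intro c x
    simp only [hk]
    have h1 : tl B c x * wK K ε m x = gau K ε x * (tl B c x * gw m x) := by
      unfold wK gw
      ring
    rw [h1, tl_gw, one_mul, mul_assoc, ← Real.exp_add]
    congr 2
    rw [quad_line hHs]
    have h2 : HF B m *ᵥ (GF B m *ᵥ c) = c := by
      rw [Matrix.mulVec_mulVec, HF_mul_GF hm hB, Matrix.one_mulVec]
    rw [quad_symm hHs (GF B m *ᵥ c) x, h2, dotProduct_comm x c, dotProduct_comm (GF B m *ᵥ c) c]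
    ring
  rw [key, key, key]
  have h1 := gau_mid hK hc hε x y
  have g1 := (gau_pos hK hi hε x).le
  have g2 := (gau_pos hK hi hε y).le
  have h2 := quad_mid hH.posSemidef (x + (-1 : ℝ) • (GF B m *ᵥ c)) (y + (-1 : ℝ) • (GF B m *ᵥ c'))
  have h3 : (1 / 2 : ℝ) • (x + (-1 : ℝ) • (GF B m *ᵥ c))
      + (1 / 2 : ℝ) • (y + (-1 : ℝ) • (GF B m *ᵥ c'))
      = (1 / 2 : ℝ) • x + (1 / 2 : ℝ) • y
        + (-1 : ℝ) • (GF B m *ᵥ ((1 / 2 : ℝ) • c + (1 / 2 : ℝ) • c')) := by
    rw [Matrix.mulVec_add, Matrix.mulVec_smul, Matrix.mulVec_smul]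
    module
  rw [h3] at h2
  rw [mul_mul_mul_comm, ← Real.exp_add, mul_pow, ← Real.exp_nat_mul]
  refine mul_le_mul h1 (Real.exp_le_exp.2 ?_) (Real.exp_pos _).le (by positivity)
  push_cast
  linarith

/-- second derivative test -/
theorem second_le {f f' : ℝ → ℝ} {d : ℝ} (h1 : ∀ t, HasDerivAt f (f' t) t)
    (h2 : HasDerivAt f' d 0) (h : ∀ t, f t + f (-t) ≤ 2 * f 0) : d ≤ 0 := by
  by_contra hd
  push Not at hd
  have h3 := (taylor2 h1 h2).def (half_pos (half_pos hd))
  obtain ⟨δ, hδ, h4⟩ := Metric.eventually_nhds_iff.1 h3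
  have h5 := h4 (y := δ / 2) (by
    rw [dist_zero_right, Real.norm_eq_abs, abs_of_pos (by positivity)]; linarith)
  have h6 := h4 (y := -(δ / 2)) (by
    rw [dist_zero_right, Real.norm_eq_abs, abs_neg, abs_of_pos (by positivity)]; linarith)
  have h7 := h (δ / 2)
  rw [Real.norm_eq_abs, Real.norm_eq_abs, abs_of_nonneg (sq_nonneg (δ / 2))] at h5
  rw [Real.norm_eq_abs, Real.norm_eq_abs, abs_of_nonneg (sq_nonneg (-(δ / 2)))] at h6
  have h8 := (abs_le.1 h5).1
  have h9 := (abs_le.1 h6).1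
  have h10 : 0 < d * (δ / 2) ^ 2 := by positivity
  nlinarith

/-- Brascamp-Lieb -/
theorem A_le (hK : IsCompact K) (hc : Convex ℝ K) (hi : (interior K).Nonempty) (hε : 0 < ε)
    (hm : 0 < m) {B : Mt n} (hB : B.PosSemidef) (c : E n) :
    (GF B m - AF (wK K ε m) B c).PosSemidef := by
  obtain ⟨C, hw⟩ := wt_wK hK hi hε hm
  have hadm := adm_of_posSemidef hm hB
  have hG := GF_posDef hm hB
  have hGs := symm_of_posDef hG
  refine Matrix.PosSemidef.of_dotProduct_mulVec_nonneg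
    (hG.isHermitian.sub (posA hK hi hε hm B hB c).isHermitian) fun e => ?_
  rw [star_trivial, Matrix.sub_mulVec, dotProduct_sub]
  set w := wK K ε m with hwdef
  -- the function
  set f : ℝ → ℝ := fun t => Real.log (I w B (c + t • e) (fun _ => 1))
    - (1 / 2) * ((c + t • e) ⬝ᵥ GF B m *ᵥ (c + t • e)) with hf
  set f' : ℝ → ℝ := fun t => Ev w B (c + t • e) (fun x => e ⬝ᵥ x)
    - ((e ⬝ᵥ GF B m *ᵥ c) + t * (e ⬝ᵥ GF B m *ᵥ e)) with hf'
  have hd := Pg.dot e
  have h1 : ∀ t, HasDerivAt f (f' t) t := by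
    intro t
    have a1 : HasDerivAt (fun t : ℝ => Real.log (I w B (c + t • e) (fun _ => 1)))
        (Ev w B (c + t • e) (fun x => e ⬝ᵥ x)) t := by
      refine shift (u := fun c => Real.log (I w B c (fun _ => 1))) t ?_
      have b1 := hasDerivAt_I hw (nonneg_of_psd hB) 0 (c + t • e) e (Pg.const (n := n) 1)
      have hpos := I_one_pos hw hadm (c + t • e)
      have hne : I w (B + (0 : ℝ) • 0) (c + t • e + (0 : ℝ) • e) (fun _ => 1) ≠ 0 := by
        rw [zero_smul, zero_smul, add_zero, add_zero]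
        exact hpos.ne'
      have b2 := b1.log hne
      simp only [smul_zero, zero_smul, add_zero, one_mul] at b2
      rw [pt_zero] at b2
      exact b2
    have a2 : HasDerivAt (fun t : ℝ => (1 / 2) * ((c + t • e) ⬝ᵥ GF B m *ᵥ (c + t • e)))
        ((e ⬝ᵥ GF B m *ᵥ c) + t * (e ⬝ᵥ GF B m *ᵥ e)) t := by
      simp only [quad_line hGs]
      have b1 : HasDerivAt (fun t : ℝ => 2 * t * (e ⬝ᵥ GF B m *ᵥ c)) (2 * (e ⬝ᵥ GF B m *ᵥ c)) t := by
        simpa using ((hasDerivAt_id t).const_mul 2).mul_const (e ⬝ᵥ GF B m *ᵥ c)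
      have b2 : HasDerivAt (fun t : ℝ => t ^ 2 * (e ⬝ᵥ GF B m *ᵥ e))
          (2 * t * (e ⬝ᵥ GF B m *ᵥ e)) t := by
        simpa using ((hasDerivAt_id t).pow 2).mul_const (e ⬝ᵥ GF B m *ᵥ e)
      have b3 := (((b1.const_add (c ⬝ᵥ GF B m *ᵥ c)).add b2).const_mul (1 / 2))
      refine b3.congr_deriv ?_
      ring
    exact a1.sub a2
  have h2 : HasDerivAt f' (e ⬝ᵥ AF w B c *ᵥ e - e ⬝ᵥ GF B m *ᵥ e) 0 := by
    have a1 := d1 hw (nonneg_of_psd hB) 0 c e hd
    simp only [smul_zero, add_zero] at a1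
    rw [pt_zero] at a1
    have a2 : c2 w B c (fun x => e ⬝ᵥ x) (fun x => e ⬝ᵥ x) = e ⬝ᵥ AF w B c *ᵥ e := by
      rw [(lin_c2 hw hadm c hd).dot e]
      unfold dotProduct mulVec
      refine Finset.sum_congr rfl fun i _ => ?_
      congr 1
      rw [c2_comm]
      have a3 := (lin_c2 hw hadm c (pg_co i)).dot e
      unfold dotProduct at a3 ⊢
      rw [show (fun x : E n => x i) = co i from rfl, a3]
      refine Finset.sum_congr rfl fun j _ => ?_
      show e j * c2 w B c (co i) (co j) = AF w B c i j * e j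
      rw [AF_apply]
      exact mul_comm _ _
    rw [a2] at a1
    have a4 : HasDerivAt (fun t : ℝ => (e ⬝ᵥ GF B m *ᵥ c) + t * (e ⬝ᵥ GF B m *ᵥ e))
        (e ⬝ᵥ GF B m *ᵥ e) 0 := by
      simpa using ((hasDerivAt_id (0 : ℝ)).mul_const (e ⬝ᵥ GF B m *ᵥ e)).const_add
        (e ⬝ᵥ GF B m *ᵥ c)
    exact a1.sub a4
  have h3 : ∀ t, f t + f (-t) ≤ 2 * f 0 := by
    intro t
    have a1 := part_mid hK hc hi hε hm hB (c + t • e) (c + (-t) • e)
    have a2 : (1 / 2 : ℝ) • (c + t • e) + (1 / 2 : ℝ) • (c + (-t) • e) = c + (0 : ℝ) • e := by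
      module
    rw [a2, ← hwdef] at a1
    have p := fun t : ℝ => I_one_pos hw hadm (c + t • e)
    have ex := fun r : ℝ => Real.exp_pos r
    have a3 := Real.log_le_log (mul_pos (mul_pos (p t) (ex _)) (mul_pos (p (-t)) (ex _))) a1
    rw [Real.log_mul (mul_pos (p t) (ex _)).ne' (mul_pos (p (-t)) (ex _)).ne',
      Real.log_mul (p t).ne' (ex _).ne', Real.log_mul (p (-t)).ne' (ex _).ne', Real.log_pow,
      Real.log_mul (p 0).ne' (ex _).ne', Real.log_exp, Real.log_exp, Real.log_exp] at a3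
    simp only [hf]
    push_cast at a3
    linarith
  have h4 := second_le h1 h2 h3
  linarith

theorem up (hK : IsCompact K) (hc : Convex ℝ K) (hi : (interior K).Nonempty) (hε : 0 < ε)
    (hm : 0 < m) (B : Mt n) (hB : B.PosSemidef) (c : E n) :
    ((AF (wK K ε m) B c)⁻¹ - (B + m • (1 : Mt n))).PosSemidef := by
  have h := inv_anti (GF_posDef hm hB) (posA hK hi hε hm B hB c) (A_le hK hc hi hε hm hB c)
  have e : (GF B m)⁻¹ = B + m • (1 : Mt n) :=
    Matrix.nonsing_inv_nonsing_inv _ ((Matrix.isUnit_iff_isUnit_det _).1 (HF_posDef hm hB).isUnit)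
  rwa [e] at h

end logconc

end Vale.Agent.P254.Fr
end

section

/-!
P254, frame block (b) (helper829): Gibbs' inequality and the lower bound of the entropy of a
mixture.
-/

open MeasureTheory Filter Topology Matrix

namespace Vale.Agent.P254.Fr

open R304 (IY EY)

variable {n : ℕ}

theorem cont_Ev {w : E n → ℝ} {m C : ℝ} (hw : Wt w m C) {B : Mt n} (hB : Adm m B) {f : E n → ℝ}
    (hf : Pg f) : Continuous fun a : E n => Ev w B a f := by
  have h := cEv hw hf
  have h2 : Continuous fun a : E n => ((B, a) : Mt n × E n) := by fun_prop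
  exact h.comp_continuous h2 fun a => hB

theorem cont_Ev2 {w : E n → ℝ} {m C : ℝ} (hw : Wt w m C) {B : Mt n} (hB : Adm m B) {f : E n → ℝ}
    (hf : Pg f) (c : E n) (r : ℝ) : Continuous fun y : E n => Ev w B (c + r • y) f := by
  have h2 : Continuous fun y : E n => c + r • y := by fun_prop
  exact (cont_Ev hw hB hf).comp h2

theorem EntF_eq_Ev {w : E n → ℝ} {m C : ℝ} (hw : Wt w m C) {B : Mt n} (hB : Adm m B) (c : E n) :
    EntF w B c = Ev w B c (fun x => Real.log (I w B c (fun _ => 1)) + ps w B c x) := by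
  rw [Ev_add hw hB c (Pg.const _) (pg_ps hw B c), Ev_const hw hB]
  rfl

/-- Gibbs' inequality -/
theorem gibbs {w w' : E n → ℝ} {m C m' C' : ℝ} (hw : Wt w m C) (hw' : Wt w' m' C')
    {B B' : Mt n} (hB : Adm m B) (hB' : Adm m' B') (c c' : E n) :
    EntF w' B' c' ≤ Ev w' B' c' (fun x => Real.log (I w B c (fun _ => 1)) + ps w B c x) := by
  set J := I w B c (fun _ => 1) with hJ
  set J' := I w' B' c' (fun _ => 1) with hJ'
  have hJ0 : 0 < J := I_one_pos hw hB c
  have hJ'0 : 0 < J' := I_one_pos hw' hB' c'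
  have p1 : Pg (fun x => Real.log J + ps w B c x) := (Pg.const _).add (pg_ps hw B c)
  have p2 : Pg (fun x => Real.log J' + ps w' B' c' x) := (Pg.const _).add (pg_ps hw' B' c')
  have h1 : EntF w' B' c' = Ev w' B' c' (fun x => Real.log J' + ps w' B' c' x) := by
    rw [Ev_add hw' hB' c' (Pg.const _) (pg_ps hw' B' c'), Ev_const hw' hB']
    rfl
  rw [h1]
  unfold Ev
  rw [← hJ']
  refine div_le_div_of_nonneg_right ?_ hJ'0.le
  have i1 := integrable_I hw' hB' c' p1
  have i2 := integrable_I hw' hB' c' p2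
  have i3 := integrable_I hw hB c (Pg.const (n := n) 1)
  have i4 := integrable_I hw' hB' c' (Pg.const (n := n) 1)
  have i5 : Integrable (fun x => (J' / J) * (1 * (tl B c x * w x)) - 1 * (tl B' c' x * w' x)) :=
    (i3.const_mul (J' / J)).sub i4
  have h2 : ∫ x, ((Real.log J + ps w B c x) * (tl B' c' x * w' x)
      + ((J' / J) * (1 * (tl B c x * w x)) - 1 * (tl B' c' x * w' x)))
      = I w' B' c' (fun x => Real.log J + ps w B c x) := by
    rw [integral_add i1 i5, integral_sub (i3.const_mul _) i4, integral_const_mul]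
    have e1 : ∫ x, (1 : ℝ) * (tl B c x * w x) = J := rfl
    have e2 : ∫ x, (1 : ℝ) * (tl B' c' x * w' x) = J' := rfl
    rw [e1, e2, div_mul_cancel₀ _ hJ0.ne', sub_self, add_zero]
    rfl
  rw [← h2]
  unfold I
  refine integral_mono i2 (i1.add i5) fun x => ?_
  show (Real.log J' + ps w' B' c' x) * (tl B' c' x * w' x)
    ≤ (Real.log J + ps w B c x) * (tl B' c' x * w' x)
      + ((J' / J) * (1 * (tl B c x * w x)) - 1 * (tl B' c' x * w' x))
  have hp : 0 < tl B c x * w x := mul_pos (tl_pos B c x) (hw.pos x)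
  have hq : 0 < tl B' c' x * w' x := mul_pos (tl_pos B' c' x) (hw'.pos x)
  have e1 : ps w B c x = - Real.log (tl B c x * w x) := by
    rw [Real.log_mul (tl_pos B c x).ne' (hw.pos x).ne']
    unfold tl ps
    rw [Real.log_exp]
    ring
  have e2 : ps w' B' c' x = - Real.log (tl B' c' x * w' x) := by
    rw [Real.log_mul (tl_pos B' c' x).ne' (hw'.pos x).ne']
    unfold tl ps
    rw [Real.log_exp]
    ring
  rw [e1, e2]
  generalize tl B c x * w x = p at hp
  generalize tl B' c' x * w' x = q at hq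
  have h3 : Real.log ((p / J) / (q / J')) ≤ (p / J) / (q / J') - 1 :=
    Real.log_le_sub_one_of_pos (by positivity)
  rw [Real.log_div (by positivity) (by positivity), Real.log_div hp.ne' hJ0.ne',
    Real.log_div hq.ne' hJ'0.ne'] at h3
  have h4 := mul_le_mul_of_nonneg_left h3 hq.le
  have h5 : q * ((p / J) / (q / J') - 1) = (J' / J) * (1 * p) - 1 * q := by
    field_simp
  rw [h5] at h4
  linarith

theorem lowE {K : Set (E n)} {ε m : ℝ} (hK : IsCompact K) (hi : (interior K).Nonempty)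
    (hε : 0 < ε) (hm : 0 < m) (B : Mt n) (hB : B.PosSemidef) (c : E n) :
    (n : ℝ) / 2 * Real.log (2 * Real.pi * Real.exp 1)
      - 1 / 2 * Real.log (B + (m + 1 / ε) • (1 : Mt n)).det ≤ EntF (wK K ε m) B c := by
  have hM : 0 < m + 1 / ε := by positivity
  obtain ⟨C, hw⟩ := wt_wK hK hi hε hm
  have hadm := adm_of_posSemidef hm hB
  have hw' := wt_gw (n := n) hM
  have hadm' := adm_of_posSemidef hM hB
  have hfp : Pg (fun x => Real.log (I (wK K ε m) B c (fun _ => 1)) + ps (wK K ε m) B c x) :=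
    (Pg.const _).add (pg_ps hw B c)
  have h1 := EntF_eq_Ev hw hadm c
  have h4 := fun y : E n => gibbs hw hw' hadm hadm' c (c + (1 / ε) • y)
  simp only [g_ent hM hB] at h4
  generalize (fun x => Real.log (I (wK K ε m) B c (fun _ => 1)) + ps (wK K ε m) B c x) = f
    at hfp h1 h4
  rw [h1, Ev_mix hK hi hε hm hB c hfp]
  have hcont : Continuous fun y : E n => Ev (gw (m + 1 / ε)) B (c + (1 / ε) • y) f :=
    cont_Ev2 hw' hadm' hfp c (1 / ε)
  rw [← R304.EY_const (N := NF B ε m) (v := vF B ε m c) hK hi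
    ((n : ℝ) / 2 * Real.log (2 * Real.pi * Real.exp 1)
      - 1 / 2 * Real.log (B + (m + 1 / ε) • (1 : Mt n)).det)]
  exact R304.EY_mono hK hi continuous_const hcont fun y _ => h4 y

end Vale.Agent.P254.Fr
end

section

/-! # P227/M/SC: iteration of the two-point step (Gronwall). -/

namespace Vale.Agent.P227.M.SC

variable {E : Type*} [NormedAddCommGroup E] [NormedSpace ℝ E]

/-- iterated two-point averages -/
noncomputable def avgs (δ : ℝ) : List E → (E → ℝ) → (E → ℝ)
  | [], w => w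
  | e :: l, w => avgs δ l (avg δ e w)

theorem St.mono {a b C3 C4 κ ε a' ε' : ℝ} {w : E → ℝ} (h : St a b C3 C4 κ ε w) (ha : a' ≤ a)
    (hε : ε ≤ ε') : St a' b C3 C4 κ ε' w where
  smooth := h.smooth
  lower := fun x v => le_trans (mul_le_mul_of_nonneg_right ha (by positivity)) (h.lower x v)
  upper := h.upper
  b3 := h.b3
  b4 := h.b4
  sc := fun x v => (h.sc x v).trans (by
    have : ε * ‖v‖ ^ 3 ≤ ε' * ‖v‖ ^ 3 := mul_le_mul_of_nonneg_right hε (by positivity)
    linarith)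

theorem one_sub_ge {x : ℝ} (h0 : 0 ≤ x) (h1 : x ≤ 1 / 2) : Real.exp (-(2 * x)) ≤ 1 - x := by
  -- e^{-2x} ≤ 1/(1+2x) ≤ 1 - x  for 0 ≤ x ≤ 1/2
  have h2 : 1 + 2 * x ≤ Real.exp (2 * x) := by
    have := Real.add_one_le_exp (2 * x); linarith
  rw [Real.exp_neg]
  have h3 : (Real.exp (2 * x))⁻¹ ≤ (1 + 2 * x)⁻¹ := inv_anti₀ (by linarith) h2
  refine h3.trans ?_
  rw [inv_le_iff_one_le_mul₀ (by linarith)]
  nlinarith

theorem inv_a {a b K s δ ai : ℝ} (ha : 0 < a) (hK : 0 ≤ K) (hs : 0 ≤ s) (hδ : 0 < δ) (hb : 0 ≤ b)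
    (hδb : b * δ ^ 2 ≤ 1 / 2) (hai : a * Real.exp (-(2 * b * s)) - K * s * δ ≤ ai) :
    a * Real.exp (-(2 * b * (s + δ ^ 2))) - K * (s + δ ^ 2) * δ ≤
      ai * (1 - b * δ ^ 2) - K * δ ^ 3 := by
  have h1 : Real.exp (-(2 * b * (s + δ ^ 2))) =
      Real.exp (-(2 * b * s)) * Real.exp (-(2 * (b * δ ^ 2))) := by
    rw [← Real.exp_add]; congr 1; ring
  have h2 := one_sub_ge (x := b * δ ^ 2) (by positivity) hδb
  have h3 : a * Real.exp (-(2 * b * s)) * Real.exp (-(2 * (b * δ ^ 2))) ≤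
      a * Real.exp (-(2 * b * s)) * (1 - b * δ ^ 2) :=
    mul_le_mul_of_nonneg_left h2 (by positivity)
  have h4 : (a * Real.exp (-(2 * b * s)) - K * s * δ) * (1 - b * δ ^ 2) ≤
      ai * (1 - b * δ ^ 2) := mul_le_mul_of_nonneg_right hai (by linarith)
  have h5 : 0 ≤ K * s * δ * (b * δ ^ 2) := by positivity
  rw [h1]
  have e1 : (a * Real.exp (-(2 * b * s)) - K * s * δ) * (1 - b * δ ^ 2) =
      a * Real.exp (-(2 * b * s)) * (1 - b * δ ^ 2) - K * s * δ + K * s * δ * (b * δ ^ 2) := by ring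
  have e2 : K * (s + δ ^ 2) * δ = K * s * δ + K * δ ^ 3 := by ring
  have e3 : a * (Real.exp (-(2 * b * s)) * Real.exp (-(2 * (b * δ ^ 2)))) =
      a * Real.exp (-(2 * b * s)) * Real.exp (-(2 * (b * δ ^ 2))) := by ring
  rw [e2, e3]
  linarith

/-- one Gronwall step: `x ≤ (X + Y s) e^{g s}` is kept by `x ↦ x (1 + g t) + Y t` -/
theorem gron {x X Y g s t y : ℝ} (hX : 0 ≤ X) (hY : 0 ≤ Y) (hg : 0 ≤ g) (hs : 0 ≤ s) (ht : 0 ≤ t)
    (hx : x ≤ (X + Y * s) * Real.exp (g * s)) (hy : y ≤ Y * t) :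
    x * (1 + g * t) + y ≤ (X + Y * (s + t)) * Real.exp (g * (s + t)) := by
  have h1 : Real.exp (g * (s + t)) = Real.exp (g * s) * Real.exp (g * t) := by
    rw [← Real.exp_add]; congr 1; ring
  have h2 : 1 + g * t ≤ Real.exp (g * t) := by
    have := Real.add_one_le_exp (g * t); linarith
  have h3a : x * (1 + g * t) ≤ (X + Y * s) * Real.exp (g * s) * (1 + g * t) :=
    mul_le_mul_of_nonneg_right hx (by positivity)
  have h3b : (X + Y * s) * Real.exp (g * s) * (1 + g * t) ≤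
      (X + Y * s) * Real.exp (g * s) * Real.exp (g * t) :=
    mul_le_mul_of_nonneg_left h2 (by positivity)
  have h5 : (1 : ℝ) ≤ Real.exp (g * s) * Real.exp (g * t) := by
    rw [← Real.exp_add]; exact Real.one_le_exp (by positivity)
  have h6 : Y * t * 1 ≤ Y * t * (Real.exp (g * s) * Real.exp (g * t)) :=
    mul_le_mul_of_nonneg_left h5 (by positivity)
  have e1 : (X + Y * (s + t)) * (Real.exp (g * s) * Real.exp (g * t)) =
      (X + Y * s) * Real.exp (g * s) * Real.exp (g * t) +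
        Y * t * (Real.exp (g * s) * Real.exp (g * t)) := by ring
  rw [h1, e1]
  linarith

theorem iter_aux {a b C3 C4 κ S K δ a0 A3 A4 : ℝ}
    (ha : 0 < a) (hb : 0 ≤ b) (hC3 : 0 ≤ C3) (hC4 : 0 ≤ C4) (hκ0 : 0 ≤ κ) (hκ1 : κ ≤ 1)
    (hS : 0 ≤ S) (hK : 0 ≤ K) (hδ : 0 < δ) (hδ1 : δ ≤ 1) (hδb : b * δ ^ 2 ≤ 1 / 2)
    (hA3 : A3 = (C3 + 2 * b ^ 3 * S) * Real.exp (3 * b * S))
    (hA4 : A4 = (C4 + (3 * A3 ^ 2 + 12 * A3 * b ^ 2 + 4 * b ^ 4) * S) * Real.exp (4 * b * S))
    (ha0 : a0 + K * S * δ ≤ a * Real.exp (-(2 * b * S)))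
    (hε1 : K * S * δ * Real.exp (K * S) ≤ 1)
    (hstep : ∀ (ε a C3 C4 : ℝ) (e : E) (w : E → ℝ), 0 ≤ ε → ε ≤ 1 →
      a0 ≤ a → C3 ≤ A3 → C4 ≤ A4 → ‖e‖ = 1 → St a b C3 C4 κ ε w →
      St (a * (1 - b * δ ^ 2) - K * δ ^ 3) b
        (C3 * (1 + 3 * b * δ ^ 2) + 2 * b ^ 3 * δ ^ 3)
        (C4 * (1 + 4 * b * δ ^ 2) + δ ^ 2 * (3 * C3 ^ 2 + 12 * C3 * b ^ 2 + 4 * b ^ 4))
        κ (ε * (1 + K * δ ^ 2) + K * δ ^ 3) (avg δ e w)) :
    ∀ (l : List E) (w : E → ℝ) (ai c3 c4 ε s : ℝ), (∀ e ∈ l, ‖e‖ = 1) → 0 ≤ s →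
      s + l.length * δ ^ 2 ≤ S →
      a * Real.exp (-(2 * b * s)) - K * s * δ ≤ ai →
      0 ≤ c3 → c3 ≤ (C3 + 2 * b ^ 3 * s) * Real.exp (3 * b * s) →
      c4 ≤ (C4 + (3 * A3 ^ 2 + 12 * A3 * b ^ 2 + 4 * b ^ 4) * s) * Real.exp (4 * b * s) →
      0 ≤ ε → ε ≤ K * s * δ * Real.exp (K * s) →
      St ai b c3 c4 κ ε w →
      ∃ c3' c4', St a0 b c3' c4' κ (K * S * Real.exp (K * S) * δ) (avgs δ l w) := by
  have hA3nn : 0 ≤ A3 := by rw [hA3]; positivity
  set D4 : ℝ := 3 * A3 ^ 2 + 12 * A3 * b ^ 2 + 4 * b ^ 4 with hD4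
  have hD4nn : 0 ≤ D4 := by positivity
  -- bounds at any time s ≤ S
  have ba : ∀ s, 0 ≤ s → s ≤ S → a0 ≤ a * Real.exp (-(2 * b * s)) - K * s * δ := by
    intro s hs hsS
    have h1 : Real.exp (-(2 * b * S)) ≤ Real.exp (-(2 * b * s)) :=
      Real.exp_le_exp.2 (by nlinarith)
    have h2 : a * Real.exp (-(2 * b * S)) ≤ a * Real.exp (-(2 * b * s)) :=
      mul_le_mul_of_nonneg_left h1 ha.le
    have h3 : K * s * δ ≤ K * S * δ := by
      have : K * s ≤ K * S := mul_le_mul_of_nonneg_left hsS hK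
      exact mul_le_mul_of_nonneg_right this hδ.le
    linarith
  have b3 : ∀ s, 0 ≤ s → s ≤ S → (C3 + 2 * b ^ 3 * s) * Real.exp (3 * b * s) ≤ A3 := by
    intro s hs hsS
    rw [hA3]
    have h1 : Real.exp (3 * b * s) ≤ Real.exp (3 * b * S) := Real.exp_le_exp.2 (by nlinarith)
    have h2 : C3 + 2 * b ^ 3 * s ≤ C3 + 2 * b ^ 3 * S := by
      have : 2 * b ^ 3 * s ≤ 2 * b ^ 3 * S := mul_le_mul_of_nonneg_left hsS (by positivity)
      linarith
    exact mul_le_mul h2 h1 (Real.exp_pos _).le (by positivity)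
  have b4 : ∀ s, 0 ≤ s → s ≤ S → (C4 + D4 * s) * Real.exp (4 * b * s) ≤ A4 := by
    intro s hs hsS
    rw [hA4]
    have h1 : Real.exp (4 * b * s) ≤ Real.exp (4 * b * S) := Real.exp_le_exp.2 (by nlinarith)
    have h2 : C4 + D4 * s ≤ C4 + D4 * S := by
      have : D4 * s ≤ D4 * S := mul_le_mul_of_nonneg_left hsS hD4nn
      linarith
    exact mul_le_mul h2 h1 (Real.exp_pos _).le (by positivity)
  have bε : ∀ s, 0 ≤ s → s ≤ S → K * s * δ * Real.exp (K * s) ≤ K * S * δ * Real.exp (K * S) := by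
    intro s hs hsS
    have h1 : Real.exp (K * s) ≤ Real.exp (K * S) :=
      Real.exp_le_exp.2 (mul_le_mul_of_nonneg_left hsS hK)
    have h2 : K * s * δ ≤ K * S * δ :=
      mul_le_mul_of_nonneg_right (mul_le_mul_of_nonneg_left hsS hK) hδ.le
    exact mul_le_mul h2 h1 (Real.exp_pos _).le (by positivity)
  intro l
  induction l with
  | nil =>
    intro w ai c3 c4 ε s _ hs hsS hai hc3 hc3' hc4 hε hε' hw
    have hsS' : s ≤ S := by simpa using hsS
    refine ⟨c3, c4, ?_⟩
    refine hw.mono ((ba s hs hsS').trans hai) ?_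
    refine hε'.trans ((bε s hs hsS').trans (le_of_eq ?_))
    ring
  | cons e l ih =>
    intro w ai c3 c4 ε s hl hs hsS hai hc3 hc3' hc4 hε hε' hw
    have hlen : s + δ ^ 2 + l.length * δ ^ 2 ≤ S := by
      have : ((e :: l).length : ℝ) = l.length + 1 := by simp
      rw [this] at hsS
      linarith
    have hsS' : s ≤ S := by
      have : 0 ≤ (l.length : ℝ) * δ ^ 2 := by positivity
      nlinarith [sq_nonneg δ]
    have hstep1 := hstep ε ai c3 c4 e w hε ((hε'.trans (bε s hs hsS')).trans hε1)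
      ((ba s hs hsS').trans hai) (hc3'.trans (b3 s hs hsS')) (hc4.trans (b4 s hs hsS'))
      (hl e (by simp)) hw
    refine ih (avg δ e w) _ _ _ _ (s + δ ^ 2) (fun e' he' => hl e' (by simp [he'])) (by positivity)
      hlen ?_ (by positivity) ?_ ?_ (by positivity) ?_ hstep1
    · exact inv_a ha hK hs hδ hb hδb hai
    · -- c3
      refine gron hC3 (by positivity) (by positivity) hs (by positivity) hc3' ?_
      have : δ ^ 3 ≤ δ ^ 2 := pow_le_pow_of_le_one hδ.le hδ1 (by norm_num)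
      exact mul_le_mul_of_nonneg_left this (by positivity)
    · -- c4
      refine gron hC4 hD4nn (by positivity) hs (by positivity) hc4 ?_
      have hc3A : c3 ≤ A3 := hc3'.trans (b3 s hs hsS')
      have h4 : 3 * c3 ^ 2 + 12 * c3 * b ^ 2 + 4 * b ^ 4 ≤ D4 := by
        rw [hD4]
        have e1 : c3 ^ 2 ≤ A3 ^ 2 := pow_le_pow_left₀ hc3 hc3A 2
        have e2 : c3 * b ^ 2 ≤ A3 * b ^ 2 := mul_le_mul_of_nonneg_right hc3A (by positivity)
        linarith
      rw [mul_comm D4]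
      exact mul_le_mul_of_nonneg_left h4 (by positivity)
    · -- ε
      have h := gron (x := ε) (X := 0) (Y := K * δ) (g := K) (s := s) (t := δ ^ 2)
        (y := K * δ ^ 3) le_rfl (by positivity) hK hs (by positivity)
        (by rw [zero_add]; refine hε'.trans (le_of_eq ?_); ring) (le_of_eq (by ring))
      refine h.trans (le_of_eq ?_)
      ring

/-- After at most `S/δ²` steps from an exactly self-concordant function, the error is `O(δ)`. -/
theorem iterate (hstep : StepStmt E) {a b C3 C4 κ S : ℝ} (ha : 0 < a) (hb : 0 ≤ b)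
    (hC3 : 0 ≤ C3) (hC4 : 0 ≤ C4) (hκ0 : 0 ≤ κ) (hκ1 : κ ≤ 1) (hS : 0 ≤ S) :
    ∃ a' K δ0 : ℝ, 0 < a' ∧ 0 ≤ K ∧ 0 < δ0 ∧ ∀ δ, 0 < δ → δ ≤ δ0 → ∀ (l : List E) (w : E → ℝ),
      (∀ e ∈ l, ‖e‖ = 1) → l.length * δ ^ 2 ≤ S → St a b C3 C4 κ 0 w →
      ∃ C3' C4', St a' b C3' C4' κ (K * δ) (avgs δ l w) := by
  set a0 : ℝ := a * Real.exp (-(2 * b * S)) / 2 with ha0
  have ha0pos : 0 < a0 := by positivity
  set A3 : ℝ := (C3 + 2 * b ^ 3 * S) * Real.exp (3 * b * S) with hA3
  set A4 : ℝ := (C4 + (3 * A3 ^ 2 + 12 * A3 * b ^ 2 + 4 * b ^ 4) * S) * Real.exp (4 * b * S)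
    with hA4
  obtain ⟨K, hK, hst⟩ := hstep a0 b A3 A4 ha0pos
  refine ⟨a0, K * S * Real.exp (K * S), min (min 1 (1 / (2 * b + 1)))
    (min (a0 / (K * S + 1)) (1 / (K * S * Real.exp (K * S) + 1))), ha0pos, by positivity,
    by positivity, ?_⟩
  intro δ hδ hδ0 l w hl hlen hw
  have hδ1 : δ ≤ 1 := hδ0.trans ((min_le_left _ _).trans (min_le_left _ _))
  have hδb : δ ≤ 1 / (2 * b + 1) := hδ0.trans ((min_le_left _ _).trans (min_le_right _ _))
  have hδa : δ ≤ a0 / (K * S + 1) := hδ0.trans ((min_le_right _ _).trans (min_le_left _ _))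
  have hδe : δ ≤ 1 / (K * S * Real.exp (K * S) + 1) :=
    hδ0.trans ((min_le_right _ _).trans (min_le_right _ _))
  have hb2 : b * δ ^ 2 ≤ 1 / 2 := by
    have h1 : δ * (2 * b + 1) ≤ 1 := by
      rw [le_div_iff₀ (by positivity)] at hδb; exact hδb
    have h2 : δ ^ 2 ≤ δ := by nlinarith
    nlinarith [mul_le_mul_of_nonneg_left h2 hb]
  have ha1 : a0 + K * S * δ ≤ a * Real.exp (-(2 * b * S)) := by
    have h1 : δ * (K * S + 1) ≤ a0 := by
      rw [le_div_iff₀ (by positivity)] at hδa; exact hδa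
    have h2 : a * Real.exp (-(2 * b * S)) = 2 * a0 := by rw [ha0]; ring
    rw [h2]; nlinarith
  have he1 : K * S * δ * Real.exp (K * S) ≤ 1 := by
    have h1 : δ * (K * S * Real.exp (K * S) + 1) ≤ 1 := by
      rw [le_div_iff₀ (by positivity)] at hδe; exact hδe
    nlinarith
  have := iter_aux (E := E) ha hb hC3 hC4 hκ0 hκ1 hS hK hδ hδ1 hb2 hA3 hA4 ha1 he1
    (fun ε a C3 C4 e w h1 h2 h3 h4 h5 h6 h7 => hst κ δ ε a C3 C4 e w hκ0 hκ1 hδ hδ1 h1 h2 h3 h4 h5 h6 h7)
    l w a C3 C4 0 0 hl le_rfl (by simpa using hlen) (by simp) hC3 (by simp) (by simp) le_rfl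
    (by simp) hw
  exact this

end Vale.Agent.P227.M.SC
end

section

/-! # P227/M/SC: iterated two-point averages and the Gaussian limit (Lévy). -/

open MeasureTheory Filter Topology

namespace Vale.Agent.P227.M.SC.F79

section Alg
variable {E : Type*} [NormedAddCommGroup E] [NormedSpace ℝ E]

/-- iterated two-point average of a function -/
noncomputable def AA (δ : ℝ) : List E → (E → ℝ) → (E → ℝ)
  | [], f => f
  | e :: l, f => AA δ l (fun x => (f (x + δ • e) + f (x - δ • e)) / 2)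

theorem exp_avgs (δ : ℝ) : ∀ (l : List E) (w : E → ℝ) (x : E),
    Real.exp (-(avgs δ l w x)) = AA δ l (fun y => Real.exp (-w y)) x := by
  intro l
  induction l with
  | nil => intro w x; rfl
  | cons e l ih =>
    intro w x
    rw [avgs, AA, ih]
    congr 1
    funext y
    rw [avg, neg_neg, Real.exp_log (by positivity)]

theorem AA_pos (δ : ℝ) : ∀ (l : List E) (f : E → ℝ) (_ : ∀ x, 0 < f x) (x : E), 0 < AA δ l f x := by
  intro l
  induction l with
  | nil => intro f hf x; exact hf x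
  | cons e l ih =>
    intro f hf x
    rw [AA]
    refine ih _ (fun y => ?_) x
    have h1 := hf (y + δ • e)
    have h2 := hf (y - δ • e)
    positivity

theorem avgs_eq (δ : ℝ) (l : List E) (w : E → ℝ) (x : E) :
    avgs δ l w x = -Real.log (AA δ l (fun y => Real.exp (-w y)) x) := by
  rw [← exp_avgs, Real.log_exp, neg_neg]

theorem AA_diff (δ : ℝ) : ∀ (l : List E) (f : E → ℝ), Differentiable ℝ f →
    Differentiable ℝ (AA δ l f) := by
  intro l
  induction l with
  | nil => intro f hf; exact hf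
  | cons e l ih =>
    intro f hf
    rw [AA]
    exact ih _ (by fun_prop)

theorem dd_AA (δ : ℝ) (v : E) : ∀ (l : List E) (f : E → ℝ), Differentiable ℝ f →
    dd v (AA δ l f) = AA δ l (dd v f) := by
  intro l
  induction l with
  | nil => intro f hf; rfl
  | cons e l ih =>
    intro f hf
    rw [AA, AA, ih]
    · congr 1
      funext x
      have h1 : HasFDerivAt (fun x => f (x + δ • e)) (fderiv ℝ f (x + δ • e)) x :=
        (hasFDerivAt_comp_add_right _).2 (hf (x + δ • e)).hasFDerivAt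
      have h2 : HasFDerivAt (fun x => f (x - δ • e)) (fderiv ℝ f (x - δ • e)) x :=
        (hasFDerivAt_comp_sub _).2 (hf (x - δ • e)).hasFDerivAt
      have h3 : HasFDerivAt (fun x => (f (x + δ • e) + f (x - δ • e)) / 2)
          ((2 : ℝ)⁻¹ • (fderiv ℝ f (x + δ • e) + fderiv ℝ f (x - δ • e))) x := by
        have := (h1.add h2).const_smul (2 : ℝ)⁻¹
        refine this.congr_of_eventuallyEq (Eventually.of_forall fun y => ?_)
        simp [div_eq_inv_mul]
      simp only [dd]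
      rw [h3.fderiv]
      simp [div_eq_inv_mul, mul_add]
    · fun_prop

end Alg

section Meas
variable {E : Type*} [NormedAddCommGroup E] [InnerProductSpace ℝ E] [MeasurableSpace E]
  [BorelSpace E]

/-- the law of the sum of the steps -/
noncomputable def nu (δ : ℝ) : List E → Measure E
  | [] => Measure.dirac 0
  | e :: l => (2⁻¹ : ENNReal) • ((nu δ l).map (· + δ • e)) +
      (2⁻¹ : ENNReal) • ((nu δ l).map (· + (-(δ • e))))

theorem nu_prob (δ : ℝ) : ∀ l : List E, IsProbabilityMeasure (nu δ l) := by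
  intro l
  induction l with
  | nil => rw [nu]; infer_instance
  | cons e l ih =>
    have := ih
    have h1 : IsProbabilityMeasure ((nu δ l).map (· + δ • e)) :=
      Measure.isProbabilityMeasure_map (by fun_prop)
    have h2 : IsProbabilityMeasure ((nu δ l).map (· + (-(δ • e)))) :=
      Measure.isProbabilityMeasure_map (by fun_prop)
    constructor
    rw [nu]
    simp [ENNReal.inv_two_add_inv_two]

theorem nu_int (δ : ℝ) : ∀ (l : List E) (f : E → ℝ), Continuous f → (∃ B, ∀ x, |f x| ≤ B) →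
    ∀ x, AA δ l f x = ∫ z, f (x + z) ∂(nu δ l) := by
  intro l
  induction l with
  | nil => intro f hf hb x; simp [AA, nu]
  | cons e l ih =>
    intro f hf hb x
    obtain ⟨B, hB⟩ := hb
    have := nu_prob δ l
    have h1 : IsProbabilityMeasure ((nu δ l).map (· + δ • e)) :=
      Measure.isProbabilityMeasure_map (by fun_prop)
    have h2 : IsProbabilityMeasure ((nu δ l).map (· + (-(δ • e)))) :=
      Measure.isProbabilityMeasure_map (by fun_prop)
    rw [AA, ih _ (by fun_prop) ⟨B, fun y => ?_⟩ x, nu]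
    · have hint : ∀ (μ : Measure E) [IsProbabilityMeasure μ] (g : E → ℝ), Continuous g →
          (∀ x, |g x| ≤ B) → Integrable g μ := by
        intro μ _ g hg hgB
        exact Integrable.of_bound hg.aestronglyMeasurable B (Eventually.of_forall hgB)
      rw [integral_add_measure, integral_smul_measure, integral_smul_measure,
        integral_map (by fun_prop) (Continuous.aestronglyMeasurable (by fun_prop)),
        integral_map (by fun_prop) (Continuous.aestronglyMeasurable (by fun_prop))]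
      · rw [integral_div, integral_add]
        · have e1 : ∀ z : E, f (x + z + δ • e) = f (x + (z + δ • e)) := fun z => by rw [add_assoc]
          have e2 : ∀ z : E, f (x + z - δ • e) = f (x + (z + -(δ • e))) := fun z => by
            rw [sub_eq_add_neg, add_assoc]
          simp only [e1, e2]
          simp
          ring
        · exact hint _ _ (by fun_prop) fun z => hB _
        · exact hint _ _ (by fun_prop) fun z => hB _
      · exact (hint _ _ (by fun_prop) fun z => hB _).smul_measure (by simp)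
      · exact (hint _ _ (by fun_prop) fun z => hB _).smul_measure (by simp)
    · rw [abs_div, abs_two, div_le_iff₀ (by norm_num)]
      refine (abs_add_le _ _).trans ?_
      have := hB (y + δ • e)
      have := hB (y - δ • e)
      linarith

theorem charFun_nu (δ : ℝ) (θ : E) : ∀ l : List E,
    charFun (nu δ l) θ = ((l.map fun e => Real.cos (δ * inner ℝ e θ)).prod : ℝ) := by
  intro l
  induction l with
  | nil => simp [nu]
  | cons e l ih =>
    have := nu_prob δ l
    have h1 : IsProbabilityMeasure ((nu δ l).map (· + δ • e)) :=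
      Measure.isProbabilityMeasure_map (by fun_prop)
    have h2 : IsProbabilityMeasure ((nu δ l).map (· + (-(δ • e)))) :=
      Measure.isProbabilityMeasure_map (by fun_prop)
    have hint : ∀ (μ : Measure E) [IsProbabilityMeasure μ],
        Integrable (fun x : E => Complex.exp ((inner ℝ x θ : ℝ) * Complex.I)) μ := by
      intro μ _
      refine Integrable.of_bound (Continuous.aestronglyMeasurable (by fun_prop)) 1
        (Eventually.of_forall fun x => ?_)
      rw [Complex.norm_exp_ofReal_mul_I]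
    have key : charFun (nu δ (e :: l)) θ =
        2⁻¹ * charFun ((nu δ l).map (· + δ • e)) θ +
          2⁻¹ * charFun ((nu δ l).map (· + (-(δ • e)))) θ := by
      rw [nu, charFun_apply, charFun_apply, charFun_apply, integral_add_measure,
        integral_smul_measure, integral_smul_measure]
      · simp
      · exact (hint _).smul_measure (by simp)
      · exact (hint _).smul_measure (by simp)
    rw [key, charFun_map_add_const, charFun_map_add_const, ih]
    simp only [List.map_cons, List.prod_cons, Complex.ofReal_mul, Complex.ofReal_cos]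
    rw [inner_neg_left, real_inner_smul_left]
    have : Complex.cos ((δ : ℂ) * (inner ℝ e θ : ℝ)) =
        (Complex.exp (((δ * inner ℝ e θ : ℝ) : ℂ) * Complex.I) +
          Complex.exp (((-(δ * inner ℝ e θ) : ℝ) : ℂ) * Complex.I)) / 2 := by
      rw [Complex.cos]
      push_cast
      ring_nf
    rw [this]
    ring

end Meas

end Vale.Agent.P227.M.SC.F79
end

section

/-! # P227/M/SC: the Gaussian limit of the iterated two-point averages. -/

open MeasureTheory Filter Topology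

namespace Vale.Agent.P227.M.SC.F79

/-- `k (cos (b/√k) - 1) → -b²/2` -/
theorem cos_lim (b : ℝ) :
    Tendsto (fun k : ℕ => (k : ℝ) * (Real.cos ((√(k : ℝ))⁻¹ * b) - 1)) atTop
      (𝓝 (-b ^ 2 / 2)) := by
  have h0 : Tendsto (fun k : ℕ => b ^ 4 * (5 / 96) * (1 / (k : ℝ))) atTop (𝓝 0) := by
    have := (tendsto_one_div_atTop_nhds_zero_nat (𝕜 := ℝ)).const_mul (b ^ 4 * (5 / 96))
    simpa using this
  rw [tendsto_iff_dist_tendsto_zero]
  have hs : Tendsto (fun k : ℕ => (√(k : ℝ))⁻¹ * b) atTop (𝓝 0) := by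
    rw [← zero_mul b]
    exact .mul_const b (tendsto_inv_atTop_zero.comp <| Real.tendsto_sqrt_atTop.comp <|
      tendsto_natCast_atTop_atTop)
  refine squeeze_zero' (Eventually.of_forall fun _ => dist_nonneg) ?_ h0
  have h1 : ∀ᶠ k : ℕ in atTop, |(√(k : ℝ))⁻¹ * b| ≤ 1 := by
    have := (hs.abs).eventually (eventually_le_nhds (b := 1) (by simp))
    exact this
  filter_upwards [h1, eventually_gt_atTop 0] with k hk hk0
  have hkr : (0 : ℝ) < k := by exact_mod_cast hk0
  have hb := Real.cos_bound hk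
  have e1 : ((√(k : ℝ))⁻¹ * b) ^ 2 = b ^ 2 / k := by
    rw [mul_pow, inv_pow, Real.sq_sqrt hkr.le]; ring
  have e2 : |(√(k : ℝ))⁻¹ * b| ^ 4 = b ^ 4 / (k : ℝ) ^ 2 := by
    have : |(√(k : ℝ))⁻¹ * b| ^ 4 = (((√(k : ℝ))⁻¹ * b) ^ 2) ^ 2 := by
      rw [← sq_abs ((√(k : ℝ))⁻¹ * b)]; ring
    rw [this, e1]; ring
  rw [e1, e2] at hb
  rw [Real.dist_eq]
  have e3 : (k : ℝ) * (Real.cos ((√(k : ℝ))⁻¹ * b) - 1) - -b ^ 2 / 2 =
      k * (Real.cos ((√(k : ℝ))⁻¹ * b) - (1 - b ^ 2 / k / 2)) := by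
    field_simp; ring
  rw [e3, abs_mul, abs_of_pos hkr]
  calc (k : ℝ) * |Real.cos ((√(k : ℝ))⁻¹ * b) - (1 - b ^ 2 / k / 2)|
      ≤ k * (b ^ 4 / (k : ℝ) ^ 2 * (5 / 96)) := mul_le_mul_of_nonneg_left hb hkr.le
    _ = b ^ 4 * (5 / 96) * (1 / (k : ℝ)) := by field_simp

theorem cos_pow_lim (b c : ℝ) (hc : 0 ≤ c) :
    Tendsto (fun k : ℕ => (Real.cos ((√(k : ℝ))⁻¹ * b)) ^ ⌊c * k⌋₊) atTop
      (𝓝 (Real.exp (-(c * b ^ 2) / 2))) := by
  have h1 := Real.tendsto_nat_mul_log_one_add_of_tendsto (cos_lim b)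
  have h2 : Tendsto (fun k : ℕ => (⌊c * (k : ℝ)⌋₊ : ℝ) / (k : ℝ)) atTop (𝓝 c) :=
    (tendsto_nat_floor_mul_div_atTop hc).comp tendsto_natCast_atTop_atTop
  have h3 := (h2.mul h1).rexp
  have e : c * (-b ^ 2 / 2) = -(c * b ^ 2) / 2 := by ring
  rw [e] at h3
  refine h3.congr' ?_
  have hs : Tendsto (fun k : ℕ => (√(k : ℝ))⁻¹ * b) atTop (𝓝 0) := by
    rw [← zero_mul b]
    exact .mul_const b (tendsto_inv_atTop_zero.comp <| Real.tendsto_sqrt_atTop.comp <|
      tendsto_natCast_atTop_atTop)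
  have h4 : ∀ᶠ k : ℕ in atTop, 0 < Real.cos ((√(k : ℝ))⁻¹ * b) := by
    have h5 : Tendsto (fun k : ℕ => Real.cos ((√(k : ℝ))⁻¹ * b)) atTop (𝓝 1) := by
      have := (Real.continuous_cos.tendsto 0).comp hs
      rw [Real.cos_zero] at this
      exact this
    exact h5.eventually (lt_mem_nhds one_pos)
  filter_upwards [h4, eventually_gt_atTop 0] with k hk hk0
  have hkr : (0 : ℝ) < k := by exact_mod_cast hk0
  have e5 : 1 + (Real.cos ((√(k : ℝ))⁻¹ * b) - 1) = Real.cos ((√(k : ℝ))⁻¹ * b) := by ring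
  rw [e5]
  have e6 : (⌊c * (k : ℝ)⌋₊ : ℝ) / (k : ℝ) * (k * Real.log (Real.cos ((√(k : ℝ))⁻¹ * b))) =
      (⌊c * (k : ℝ)⌋₊ : ℝ) * Real.log (Real.cos ((√(k : ℝ))⁻¹ * b)) := by
    field_simp
  rw [e6, mul_comm, ← Real.rpow_def_of_pos hk, Real.rpow_natCast]

variable {n : ℕ}

/-- the list of steps -/
noncomputable def steps (P : E n →L[ℝ] E n) (k : ℕ) : List (E n) :=
  ((List.finRange n).map fun i =>
    List.replicate ⌊‖P (ei i)‖ ^ 2 * k⌋₊ (‖P (ei i)‖⁻¹ • P (ei i))).flatten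

theorem steps_norm (P : E n →L[ℝ] E n) (k : ℕ) : ∀ e ∈ steps P k, ‖e‖ = 1 := by
  intro e he
  rw [steps, List.mem_flatten] at he
  obtain ⟨l, hl, hel⟩ := he
  rw [List.mem_map] at hl
  obtain ⟨i, -, rfl⟩ := hl
  rw [List.mem_replicate] at hel
  obtain ⟨h1, rfl⟩ := hel
  have h2 : ‖P (ei i)‖ ≠ 0 := by
    intro h0
    rw [h0] at h1
    simp at h1
  rw [norm_smul, norm_inv, norm_norm, inv_mul_cancel₀ h2]

theorem steps_length (P : E n →L[ℝ] E n) (k : ℕ) :
    ((steps P k).length : ℝ) * ((√(k : ℝ))⁻¹) ^ 2 ≤ ∑ i, ‖P (ei i)‖ ^ 2 := by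
  rcases Nat.eq_zero_or_pos k with rfl | hk
  · simp
    positivity
  have hkr : (0 : ℝ) < k := by exact_mod_cast hk
  rw [inv_pow, Real.sq_sqrt hkr.le, ← div_eq_mul_inv, div_le_iff₀ hkr, Finset.sum_mul]
  rw [steps, List.length_flatten, List.map_map]
  have : (List.map (List.length ∘ fun i : Fin n =>
      List.replicate ⌊‖P (ei i)‖ ^ 2 * k⌋₊ (‖P (ei i)‖⁻¹ • P (ei i))) (List.finRange n)).sum =
      ∑ i : Fin n, ⌊‖P (ei i)‖ ^ 2 * k⌋₊ := by
    rw [Fin.sum_univ_def]
    congr 1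
    refine List.map_congr_left fun i _ => ?_
    simp
  rw [this]
  push_cast
  refine Finset.sum_le_sum fun i _ => ?_
  exact Nat.floor_le (by positivity)

theorem charFun_steps (P : E n →L[ℝ] E n) (θ : E n) :
    Tendsto (fun k : ℕ => charFun (nu ((√(k : ℝ))⁻¹) (steps P k)) θ) atTop
      (𝓝 ((Real.exp (-(∑ i, (inner ℝ (P (ei i)) θ : ℝ) ^ 2) / 2) : ℝ) : ℂ)) := by
  simp only [charFun_nu]
  refine (Complex.continuous_ofReal.tendsto _).comp ?_
  have h1 : ∀ k : ℕ, ((steps P k).map fun e => Real.cos ((√(k : ℝ))⁻¹ * inner ℝ e θ)).prod =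
      ∏ i : Fin n, (Real.cos ((√(k : ℝ))⁻¹ * inner ℝ (‖P (ei i)‖⁻¹ • P (ei i)) θ)) ^
        ⌊‖P (ei i)‖ ^ 2 * k⌋₊ := by
    intro k
    rw [steps, List.map_flatten, List.prod_flatten, List.map_map, List.map_map, Fin.prod_univ_def]
    congr 1
    refine List.map_congr_left fun i _ => ?_
    simp
  simp only [h1]
  have h2 : Real.exp (-(∑ i, (inner ℝ (P (ei i)) θ : ℝ) ^ 2) / 2) =
      ∏ i : Fin n, Real.exp (-(‖P (ei i)‖ ^ 2 *
        (inner ℝ (‖P (ei i)‖⁻¹ • P (ei i)) θ : ℝ) ^ 2) / 2) := by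
    rw [← Real.exp_sum]
    congr 1
    rw [neg_div, Finset.sum_div, ← Finset.sum_neg_distrib]
    refine Finset.sum_congr rfl fun i _ => ?_
    rw [real_inner_smul_left, mul_pow, ← mul_assoc, neg_div]
    congr 2
    by_cases h0 : ‖P (ei i)‖ = 0
    · have : P (ei i) = 0 := norm_eq_zero.1 h0
      simp [this]
    · rw [← mul_pow, mul_inv_cancel₀ h0]; ring
  rw [h2]
  refine tendsto_finsetProd _ fun i _ => ?_
  exact cos_pow_lim _ _ (by positivity)

/-! the Gaussian side -/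

/-- Gaussian weight -/
noncomputable def gw (z : E n) : ℝ := Real.exp (-‖z‖ ^ 2 / 2)

theorem gw_int : Integrable (gw (n := n)) := by
  have := integrable_gauss (n := n) (a := 1 / 2) (by norm_num)
  refine this.congr (Eventually.of_forall fun z => ?_)
  simp only [gw]
  congr 1
  ring

theorem gw_cont : Continuous (gw (n := n)) := by
  unfold gw
  fun_prop

theorem gw_pos (z : E n) : 0 < gw z := Real.exp_pos _

theorem gwZ_pos : 0 < ∫ z : E n, gw z :=
  integral_pos_of_integrable_nonneg_nonzero (x := (0 : E n)) gw_cont gw_int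
    (fun z => (gw_pos z).le) (gw_pos 0).ne'

/-- standard Gaussian measure -/
noncomputable def gam (n : ℕ) : Measure (E n) :=
  volume.withDensity fun z => ENNReal.ofReal ((∫ z : E n, gw z)⁻¹ * gw z)

theorem gam_prob : IsProbabilityMeasure (gam n) := by
  constructor
  rw [gam, withDensity_apply _ MeasurableSet.univ, Measure.restrict_univ,
    ← ofReal_integral_eq_lintegral_ofReal (gw_int.const_mul _)
      (Eventually.of_forall fun z => mul_nonneg (inv_nonneg.2 gwZ_pos.le) (gw_pos z).le),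
    integral_const_mul, inv_mul_cancel₀ gwZ_pos.ne', ENNReal.ofReal_one]

theorem gam_integral {F : Type*} [NormedAddCommGroup F] [NormedSpace ℝ F] (f : E n → F) :
    ∫ z, f z ∂(gam n) = (∫ z : E n, gw z)⁻¹ • ∫ z : E n, gw z • f z := by
  rw [gam, integral_withDensity_eq_integral_toReal_smul
    ((gw_cont.measurable.const_mul _).ennreal_ofReal) (by simp), ← integral_smul]
  refine integral_congr_ae (Eventually.of_forall fun z => ?_)
  simp only
  rw [ENNReal.toReal_ofReal (mul_nonneg (inv_nonneg.2 gwZ_pos.le) (gw_pos z).le), mul_smul]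

theorem charFun_gam (P : E n →L[ℝ] E n) (θ : E n) :
    charFun ((gam n).map P) θ =
      ((Real.exp (-(∑ i, (inner ℝ (P (ei i)) θ : ℝ) ^ 2) / 2) : ℝ) : ℂ) := by
  have h0 : (∑ i, (inner ℝ (P (ei i)) θ : ℝ) ^ 2) = ‖ContinuousLinearMap.adjoint P θ‖ ^ 2 := by
    rw [norm_sq_eq_sum]
    refine Finset.sum_congr rfl fun i _ => ?_
    congr 1
    have : (ContinuousLinearMap.adjoint P θ) i =
        inner ℝ (ei i) (ContinuousLinearMap.adjoint P θ) := by
      rw [ei, EuclideanSpace.inner_single_left]; simp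
    rw [this, ContinuousLinearMap.adjoint_inner_right]
  rw [h0, charFun_apply, integral_map (by fun_prop) (Continuous.aestronglyMeasurable (by fun_prop)),
    gam_integral]
  have hb : (0 : ℝ) < (1 / 2 : ℂ).re := by norm_num
  have h1 := GaussianFourier.integral_cexp_neg_mul_sq_norm_add (V := E n) hb Complex.I
    (ContinuousLinearMap.adjoint P θ)
  have h2 := GaussianFourier.integral_cexp_neg_mul_sq_norm (V := E n) hb
  have h3 : (∫ z : E n, gw z • Complex.exp ((inner ℝ (P z) θ : ℝ) * Complex.I)) =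
      ∫ v : E n, Complex.exp (-(1 / 2 : ℂ) * ‖v‖ ^ 2 +
        Complex.I * (inner ℝ (ContinuousLinearMap.adjoint P θ) v : ℝ)) := by
    refine integral_congr_ae (Eventually.of_forall fun z => ?_)
    simp only
    rw [ContinuousLinearMap.adjoint_inner_left, real_inner_comm, Complex.exp_add, gw]
    rw [Complex.real_smul, Complex.ofReal_exp]
    congr 2
    · push_cast; ring
    · rw [mul_comm]
  have h4 : (((∫ z : E n, gw z : ℝ)) : ℂ) = ∫ v : E n, Complex.exp (-(1 / 2 : ℂ) * ‖v‖ ^ 2) := by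
    rw [← integral_complex_ofReal]
    refine integral_congr_ae (Eventually.of_forall fun z => ?_)
    simp only [gw]
    rw [Complex.ofReal_exp]
    congr 1
    push_cast; ring
  rw [h3, h1, ← h2, ← h4, Complex.real_smul, ← mul_assoc]
  have h5 : (((∫ z : E n, gw z : ℝ)) : ℂ) ≠ 0 := by
    exact_mod_cast gwZ_pos.ne'
  rw [Complex.ofReal_inv, inv_mul_cancel₀ h5, one_mul, Complex.ofReal_exp, Complex.I_sq]
  congr 1
  push_cast; ring

/-- the Gaussian limit of the iterated averages -/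
theorem AA_lim (P : E n →L[ℝ] E n) {f : E n → ℝ} (hf : Continuous f) {B : ℝ}
    (hB : ∀ x, |f x| ≤ B) (x : E n) :
    Tendsto (fun k : ℕ => AA ((√(k : ℝ))⁻¹) (steps P k) f x) atTop
      (𝓝 ((∫ z : E n, gw z)⁻¹ * ∫ z : E n, gw z * f (x + P z))) := by
  have hp1 : ∀ k : ℕ, IsProbabilityMeasure (nu ((√(k : ℝ))⁻¹) (steps P k)) := fun k => nu_prob _ _
  have hp0 := gam_prob (n := n)
  have hp2 : IsProbabilityMeasure ((gam n).map P) := Measure.isProbabilityMeasure_map (by fun_prop)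
  let μ : ℕ → ProbabilityMeasure (E n) := fun k => ⟨nu ((√(k : ℝ))⁻¹) (steps P k), hp1 k⟩
  let μ0 : ProbabilityMeasure (E n) := ⟨(gam n).map P, hp2⟩
  have h1 : Tendsto μ atTop (𝓝 μ0) := by
    refine ProbabilityMeasure.tendsto_of_tendsto_charFun fun θ => ?_
    have := charFun_steps P θ
    rw [← charFun_gam P θ] at this
    exact this
  rw [ProbabilityMeasure.tendsto_iff_forall_integral_tendsto] at h1
  let g : BoundedContinuousFunction (E n) ℝ :=
    BoundedContinuousFunction.ofNormedAddCommGroup (fun z => f (x + z)) (by fun_prop) B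
      (fun z => by rw [Real.norm_eq_abs]; exact hB _)
  have h2 := h1 g
  have e1 : ∀ k : ℕ, AA ((√(k : ℝ))⁻¹) (steps P k) f x = ∫ z, g z ∂(μ k : Measure (E n)) := by
    intro k
    rw [nu_int _ _ f hf ⟨B, hB⟩ x]
    rfl
  have e2 : (∫ z, g z ∂(μ0 : Measure (E n))) =
      (∫ z : E n, gw z)⁻¹ * ∫ z : E n, gw z * f (x + P z) := by
    have : (∫ z, g z ∂(μ0 : Measure (E n))) = ∫ z, f (x + z) ∂((gam n).map P) := rfl
    rw [this, integral_map (by fun_prop) (Continuous.aestronglyMeasurable (by fun_prop)),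
      gam_integral]
    simp [smul_eq_mul]
  rw [← e2]
  simpa only [e1] using h2

end Vale.Agent.P227.M.SC.F79
end

section

/-!
P227/M/SC, leaf L6 (helper84): a regular self-concordant potential satisfies the bounds `St`
carried along the two-point steps.
-/

open Set Filter Topology

namespace Vale.Agent.P227.M.SC.L6

section General

variable {F : Type*} [NormedAddCommGroup F] [NormedSpace ℝ F]

theorem contDiff_dd {w : F → ℝ} (hw : ContDiff ℝ (⊤ : ℕ∞) w) (v : F) :
    ContDiff ℝ (⊤ : ℕ∞) (dd v w) := by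
  have h : ContDiff ℝ (⊤ : ℕ∞) (fderiv ℝ w) := hw.fderiv_right (by exact_mod_cast le_top)
  exact h.clm_apply contDiff_const

/-- peeling off one derivative -/
theorem iteratedFDeriv_succ_eq_dd {w : F → ℝ} (hw : ContDiff ℝ (⊤ : ℕ∞) w) (k : ℕ)
    (m : Fin (k + 1) → F) (x : F) :
    iteratedFDeriv ℝ (k + 1) w x m =
      dd (m 0) (fun y => iteratedFDeriv ℝ k w y (Fin.tail m)) x := by
  have hd : DifferentiableAt ℝ (iteratedFDeriv ℝ k w) x := by
    have : ContDiff ℝ (k + 1) w := hw.of_le (by exact_mod_cast le_top)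
    exact (this.differentiable_iteratedFDeriv (by exact_mod_cast Nat.lt_succ_self k)) x
  rw [iteratedFDeriv_succ_apply_left, dd, fderiv_continuousMultilinear_apply_const hd]
  rfl

theorem iteratedFDeriv_one_eq_dd {w : F → ℝ} (hw : ContDiff ℝ (⊤ : ℕ∞) w) (v : F) (x : F) :
    iteratedFDeriv ℝ 1 w x ![v] = dd v w x := by
  rw [iteratedFDeriv_succ_eq_dd hw 0]
  simp [dd]

theorem iteratedFDeriv_two_eq_dd {w : F → ℝ} (hw : ContDiff ℝ (⊤ : ℕ∞) w) (v₁ v₂ : F) (x : F) :
    iteratedFDeriv ℝ 2 w x ![v₂, v₁] = dd v₂ (dd v₁ w) x := by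
  rw [iteratedFDeriv_succ_eq_dd hw 1]
  congr 1
  funext y
  exact iteratedFDeriv_one_eq_dd hw v₁ y

theorem iteratedFDeriv_three_eq_dd {w : F → ℝ} (hw : ContDiff ℝ (⊤ : ℕ∞) w) (v₁ v₂ v₃ : F)
    (x : F) : iteratedFDeriv ℝ 3 w x ![v₃, v₂, v₁] = dd v₃ (dd v₂ (dd v₁ w)) x := by
  rw [iteratedFDeriv_succ_eq_dd hw 2]
  congr 1
  funext y
  exact iteratedFDeriv_two_eq_dd hw v₁ v₂ y

theorem iteratedFDeriv_four_eq_dd {w : F → ℝ} (hw : ContDiff ℝ (⊤ : ℕ∞) w) (v₁ v₂ v₃ v₄ : F)
    (x : F) : iteratedFDeriv ℝ 4 w x ![v₄, v₃, v₂, v₁] = dd v₄ (dd v₃ (dd v₂ (dd v₁ w))) x := by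
  rw [iteratedFDeriv_succ_eq_dd hw 3]
  congr 1
  funext y
  exact iteratedFDeriv_three_eq_dd hw v₁ v₂ v₃ y

/-- derivative along a line -/
theorem hasDerivAt_line {g : F → ℝ} (hg : Differentiable ℝ g) (x v : F) (t : ℝ) :
    HasDerivAt (fun t : ℝ => g (x + t • v)) (dd v g (x + t • v)) t := by
  have h1 : HasDerivAt (fun t : ℝ => x + t • v) v t := by
    simpa using ((hasDerivAt_id t).smul_const v).const_add x
  exact (hg (x + t • v)).hasFDerivAt.comp_hasDerivAt t h1

theorem differentiable_of_smooth {g : F → ℝ} (hg : ContDiff ℝ (⊤ : ℕ∞) g) :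
    Differentiable ℝ g := hg.differentiable (by simp)

theorem deriv_line {g : F → ℝ} (hg : ContDiff ℝ (⊤ : ℕ∞) g) (x v : F) :
    deriv (fun t : ℝ => g (x + t • v)) = fun t => dd v g (x + t • v) :=
  funext fun t => (hasDerivAt_line (differentiable_of_smooth hg) x v t).deriv

theorem iteratedDeriv_two_line {w : F → ℝ} (hw : ContDiff ℝ (⊤ : ℕ∞) w) (x v : F) (t : ℝ) :
    iteratedDeriv 2 (fun t : ℝ => w (x + t • v)) t = dd v (dd v w) (x + t • v) := by
  rw [iteratedDeriv_succ, iteratedDeriv_one, deriv_line hw, deriv_line (contDiff_dd hw v)]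

theorem iteratedDeriv_three_line {w : F → ℝ} (hw : ContDiff ℝ (⊤ : ℕ∞) w) (x v : F) (t : ℝ) :
    iteratedDeriv 3 (fun t : ℝ => w (x + t • v)) t = dd v (dd v (dd v w)) (x + t • v) := by
  rw [iteratedDeriv_succ, iteratedDeriv_succ, iteratedDeriv_one, deriv_line hw,
    deriv_line (contDiff_dd hw v), deriv_line (contDiff_dd (contDiff_dd hw v) v)]

/-- the second directional derivative is the bilinear second derivative -/
theorem dd_dd {w : F → ℝ} (hw : ContDiff ℝ (⊤ : ℕ∞) w) (u v x : F) :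
    dd u (dd v w) x = fderiv ℝ (fderiv ℝ w) x u v := by
  have hd : DifferentiableAt ℝ (fderiv ℝ w) x := by
    have h : ContDiff ℝ (⊤ : ℕ∞) (fderiv ℝ w) := hw.fderiv_right (by exact_mod_cast le_top)
    exact (h.differentiable (by simp)) x
  have h1 : HasFDerivAt (fun y => fderiv ℝ w y v)
      ((ContinuousLinearMap.apply ℝ ℝ v).comp (fderiv ℝ (fderiv ℝ w) x)) x :=
    (ContinuousLinearMap.apply ℝ ℝ v).hasFDerivAt.comp x hd.hasFDerivAt
  show fderiv ℝ (fun y => fderiv ℝ w y v) x u = _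
  rw [h1.fderiv]
  rfl

end General

/-- the quadratic form of the Hessian matrix -/
theorem qf_hess_eq_dd {n : ℕ} {w : E n → ℝ} (hw : ContDiff ℝ (⊤ : ℕ∞) w) (x v : E n) :
    qf (hess w x) v = dd v (dd v w) x := by
  have hv : v = ∑ i, v i • ei i := by
    ext j
    simp [ei, Pi.single_apply]
  have hh : ∀ i j, hess w x i j = fderiv ℝ (fderiv ℝ w) x (ei i) (ei j) := by
    intro i j
    exact dd_dd hw (ei i) (ei j) x
  rw [dd_dd hw v v x]
  conv_rhs => rw [hv]
  simp only [qf, hh, map_sum, map_smul, _root_.sum_apply,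
    _root_.smul_apply, smul_eq_mul, Finset.mul_sum]
  rw [Finset.sum_comm]
  refine Finset.sum_congr rfl fun i _ => Finset.sum_congr rfl fun j _ => ?_
  ring

/-- **L6** -/
theorem _root_.Vale.Agent.P227.M.SC.st_of_reg {n : ℕ} {W : E n → ℝ} {c C κ : ℝ} (hR : Reg W c C) (hS : SelfConc κ W) :
    ∃ C3 C4, 0 ≤ C3 ∧ 0 ≤ C4 ∧ St c C C3 C4 κ 0 W := by
  obtain ⟨B3, hB3⟩ := hR.bdd 3 (by norm_num)
  obtain ⟨B4, hB4⟩ := hR.bdd 4 (by norm_num)
  have hB3' : 0 ≤ B3 := (norm_nonneg _).trans (hB3 0)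
  have hB4' : 0 ≤ B4 := (norm_nonneg _).trans (hB4 0)
  have hw := hR.smooth
  refine ⟨B3, B4, hB3', hB4', hw, ?_, ?_, ?_, ?_, ?_⟩
  · intro x v
    rw [← qf_hess_eq_dd hw]
    exact hR.lower x v
  · intro x v
    rw [← qf_hess_eq_dd hw]
    exact hR.upper x v
  · intro x v₁ v₂ v₃
    rw [← iteratedFDeriv_three_eq_dd hw, ← Real.norm_eq_abs]
    refine ((iteratedFDeriv ℝ 3 W x).le_opNorm _).trans ?_
    rw [Fin.prod_univ_three]
    simp only [Matrix.cons_val_zero, Matrix.cons_val_one, Matrix.cons_val_two]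
    calc ‖iteratedFDeriv ℝ 3 W x‖ * (‖v₃‖ * ‖v₂‖ * ‖v₁‖)
        ≤ B3 * (‖v₃‖ * ‖v₂‖ * ‖v₁‖) := mul_le_mul_of_nonneg_right (hB3 x) (by positivity)
      _ = B3 * (‖v₁‖ * ‖v₂‖ * ‖v₃‖) := by ring
  · intro x v₁ v₂ v₃ v₄
    rw [← iteratedFDeriv_four_eq_dd hw, ← Real.norm_eq_abs]
    refine ((iteratedFDeriv ℝ 4 W x).le_opNorm _).trans ?_
    rw [Fin.prod_univ_four]
    simp only [Matrix.cons_val_zero, Matrix.cons_val_one, Matrix.cons_val_two, Matrix.cons_val]
    calc ‖iteratedFDeriv ℝ 4 W x‖ * (‖v₄‖ * ‖v₃‖ * ‖v₂‖ * ‖v₁‖)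
        ≤ B4 * (‖v₄‖ * ‖v₃‖ * ‖v₂‖ * ‖v₁‖) := mul_le_mul_of_nonneg_right (hB4 x) (by positivity)
      _ = B4 * (‖v₁‖ * ‖v₂‖ * ‖v₃‖ * ‖v₄‖) := by ring
  · intro x v
    have h := hS x v
    rw [iteratedDeriv_two_line hw, iteratedDeriv_three_line hw, zero_smul, add_zero] at h
    linarith [le_abs_self (dd v (dd v (dd v W)) x)]

end Vale.Agent.P227.M.SC.L6
end

section

/-! # P227/M/SC: the discrete step gives the heat flow statement. -/

open MeasureTheory Filter Topology

namespace Vale.Agent.P227.M.SC.F79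

section
variable {E : Type*} [NormedAddCommGroup E] [NormedSpace ℝ E]

theorem AA_line (δ : ℝ) (v : E) : ∀ (l : List E) (f f' : E → ℝ),
    (∀ x s, HasDerivAt (fun t : ℝ => f (x + t • v)) (f' (x + s • v)) s) →
    ∀ x s, HasDerivAt (fun t : ℝ => AA δ l f (x + t • v)) (AA δ l f' (x + s • v)) s := by
  intro l
  induction l with
  | nil => intro f f' h x s; exact h x s
  | cons e l ih =>
    intro f f' h x s
    rw [AA, AA]
    refine ih (fun x => (f (x + δ • e) + f (x - δ • e)) / 2)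
      (fun x => (f' (x + δ • e) + f' (x - δ • e)) / 2) (fun y s => ?_) x s
    have h1 := h (y + δ • e) s
    have h2 := h (y - δ • e) s
    have h3 := (h1.add h2).div_const 2
    have e1 : ∀ t : ℝ, y + δ • e + t • v = y + t • v + δ • e := fun t => by abel
    have e2 : ∀ t : ℝ, y - δ • e + t • v = y + t • v - δ • e := fun t => by abel
    simp only [e1, e2] at h3
    exact h3

theorem line_log {F0 F1 F2 F3 : ℝ → ℝ} (h0 : ∀ t, HasDerivAt F0 (F1 t) t)
    (h1 : ∀ t, HasDerivAt F1 (F2 t) t) (h2 : ∀ t, HasDerivAt F2 (F3 t) t) (hp : ∀ t, 0 < F0 t) :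
    iteratedDeriv 2 (fun t => -Real.log (F0 t)) 0 = -(F2 0 / F0 0) + (F1 0 / F0 0) ^ 2 ∧
    iteratedDeriv 3 (fun t => -Real.log (F0 t)) 0 =
      -(F3 0 / F0 0) + 3 * (F1 0 / F0 0 * (F2 0 / F0 0)) - 2 * (F1 0 / F0 0) ^ 3 := by
  have d0 : ∀ t, HasDerivAt (fun t => -Real.log (F0 t)) (-(F1 t / F0 t)) t := fun t =>
    ((h0 t).log (hp t).ne').neg
  have d1 : ∀ t, HasDerivAt (fun t => -(F1 t / F0 t))
      (-(F2 t / F0 t) + (F1 t / F0 t) ^ 2) t := fun t => by
    have := ((h1 t).div (h0 t) (hp t).ne').neg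
    refine this.congr_deriv ?_
    have := (hp t).ne'
    field_simp
    ring
  have d2 : ∀ t, HasDerivAt (fun t => -(F2 t / F0 t) + (F1 t / F0 t) ^ 2)
      (-(F3 t / F0 t) + 3 * (F1 t / F0 t * (F2 t / F0 t)) - 2 * (F1 t / F0 t) ^ 3) t := fun t => by
    have := ((h2 t).div (h0 t) (hp t).ne').neg.add (((h1 t).div (h0 t) (hp t).ne').pow 2)
    refine this.congr_deriv ?_
    have := (hp t).ne'
    simp only [Pi.div_apply, Nat.add_one_sub_one, Nat.cast_ofNat, pow_one]
    field_simp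
    ring
  constructor
  · rw [iteratedDeriv_succ', show deriv (fun t => -Real.log (F0 t)) = fun t => -(F1 t / F0 t) from
      funext fun t => (d0 t).deriv, iteratedDeriv_one, (d1 0).deriv]
  · rw [iteratedDeriv_succ', show deriv (fun t => -Real.log (F0 t)) = fun t => -(F1 t / F0 t) from
      funext fun t => (d0 t).deriv, iteratedDeriv_succ', show deriv (fun t => -(F1 t / F0 t)) =
      fun t => -(F2 t / F0 t) + (F1 t / F0 t) ^ 2 from
      funext fun t => (d1 t).deriv, iteratedDeriv_one, (d2 0).deriv]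

end

variable {n : ℕ}

theorem heat_one_sided (hstep : StepStmt (E n)) {U : E n → ℝ} {c C κ : ℝ} (h : Reg U c C)
    (hκ0 : 0 ≤ κ) (hκ1 : κ ≤ 1) (hS : SelfConc κ U) (P : E n →L[ℝ] E n) (x v : E n) :
    iteratedDeriv 3 (fun t : ℝ => heat U P (x + t • v)) 0 ≤
      2 * κ * (iteratedDeriv 2 (fun t : ℝ => heat U P (x + t • v)) 0) ^ ((3 : ℝ) / 2) := by
  obtain ⟨C3, C4, hC3, hC4, hst⟩ := st_of_reg h hS
  -- `b` must be nonnegative
  have hst' : St c (max C 0) C3 C4 κ 0 U :=
    { smooth := hst.smooth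
      lower := hst.lower
      upper := fun x v => (hst.upper x v).trans
        (mul_le_mul_of_nonneg_right (le_max_left _ _) (by positivity))
      b3 := hst.b3
      b4 := hst.b4
      sc := hst.sc }
  obtain ⟨a', K, δ0, ha', hK, hδ0, hit⟩ := iterate hstep h.c_pos (le_max_right C 0) hC3 hC4 hκ0 hκ1
    (S := ∑ i, ‖P (ei i)‖ ^ 2) (by positivity)
  set δ : ℕ → ℝ := fun k => (√(k : ℝ))⁻¹ with hδ
  have hδlim : Tendsto δ atTop (𝓝 0) :=
    tendsto_inv_atTop_zero.comp <| Real.tendsto_sqrt_atTop.comp <| tendsto_natCast_atTop_atTop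
  -- the approximations
  set A : ℕ → ℕ → E n → ℝ := fun i k => AA (δ k) (steps P k) (HL.f U v i) with hA
  have hexp : (fun y => Real.exp (-U y)) = HL.f U v 0 := by
    funext y; simp [HL.f, HL.q_zero]
  have hf0 : ∀ y, 0 < HL.f U v 0 y := fun y => by rw [← hexp]; positivity
  have hA0 : ∀ k y, 0 < A 0 k y := fun k y => AA_pos _ _ _ hf0 y
  have hAd : ∀ i, i < 3 → ∀ k y s, HasDerivAt (fun t : ℝ => A i k (y + t • v))
      (A (i + 1) k (y + s • v)) s := by
    intro i hi k y s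
    exact AA_line (δ k) v (steps P k) _ _ (fun y s => HL.hasDerivAt_f h.smooth v i hi y s) y s
  have hlim : ∀ i, Tendsto (fun k => A i k x) atTop
      (𝓝 ((∫ z : E n, gw z)⁻¹ * HL.H U v P i x)) := by
    intro i
    obtain ⟨B, -, hB⟩ := HL.bdd_mul_exp h (HL.gr_q h v i)
    have h1 := AA_lim P (HL.cont_f h v i) hB x
    have e1 : (∫ z : E n, gw z * HL.f U v i (x + P z)) = HL.H U v P i x := by
      unfold HL.H gw
      refine integral_congr_ae (Eventually.of_forall fun z => ?_)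
      simp only
      ring
    rw [e1] at h1
    exact h1
  have hZ : (∫ z : E n, gw z)⁻¹ ≠ 0 := inv_ne_zero gwZ_pos.ne'
  have hH0 : HL.H U v P 0 x ≠ 0 := (HL.H_zero_pos h v P x).ne'
  have hr : ∀ i, Tendsto (fun k => A i k x / A 0 k x) atTop (𝓝 (HL.r U v P i x)) := by
    intro i
    have h1 := (hlim i).div (hlim 0) (mul_ne_zero hZ hH0)
    have e1 : (∫ z : E n, gw z)⁻¹ * HL.H U v P i x / ((∫ z : E n, gw z)⁻¹ * HL.H U v P 0 x) =
        HL.r U v P i x := by
      rw [HL.r]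
      exact mul_div_mul_left _ _ hZ
    rw [e1] at h1
    exact h1
  -- second and third derivatives of the approximations
  have hD : ∀ k, iteratedDeriv 2 (fun t : ℝ => avgs (δ k) (steps P k) U (x + t • v)) 0 =
        -(A 2 k x / A 0 k x) + (A 1 k x / A 0 k x) ^ 2 ∧
      iteratedDeriv 3 (fun t : ℝ => avgs (δ k) (steps P k) U (x + t • v)) 0 =
        -(A 3 k x / A 0 k x) + 3 * (A 1 k x / A 0 k x * (A 2 k x / A 0 k x)) -
          2 * (A 1 k x / A 0 k x) ^ 3 := by
    intro k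
    have e1 : (fun t : ℝ => avgs (δ k) (steps P k) U (x + t • v)) =
        fun t : ℝ => -Real.log (A 0 k (x + t • v)) := by
      funext t
      rw [avgs_eq, hexp]
    have h1 := line_log (F0 := fun t => A 0 k (x + t • v)) (F1 := fun t => A 1 k (x + t • v))
      (F2 := fun t => A 2 k (x + t • v)) (F3 := fun t => A 3 k (x + t • v))
      (fun t => hAd 0 (by norm_num) k x t) (fun t => hAd 1 (by norm_num) k x t)
      (fun t => hAd 2 (by norm_num) k x t) (fun t => hA0 k _)
    simp only [zero_smul, add_zero] at h1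
    rw [e1]
    exact h1
  have hineq : ∀ᶠ k : ℕ in atTop,
      -(A 3 k x / A 0 k x) + 3 * (A 1 k x / A 0 k x * (A 2 k x / A 0 k x)) -
          2 * (A 1 k x / A 0 k x) ^ 3 ≤
        2 * κ * (-(A 2 k x / A 0 k x) + (A 1 k x / A 0 k x) ^ 2) ^ ((3 : ℝ) / 2) +
          K * δ k * ‖v‖ ^ 3 := by
    filter_upwards [hδlim.eventually (eventually_le_nhds hδ0), eventually_gt_atTop 0] with k hk hk0
    have hkr : (0 : ℝ) < k := by exact_mod_cast hk0
    have hδk : 0 < δ k := by rw [hδ]; positivity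
    obtain ⟨C3', C4', hw⟩ := hit (δ k) hδk hk (steps P k) U (steps_norm P k) (steps_length P k) hst'
    have h1 := hw.sc x v
    have h2 := L6.iteratedDeriv_two_line hw.smooth x v 0
    have h3 := L6.iteratedDeriv_three_line hw.smooth x v 0
    rw [zero_smul, add_zero] at h2 h3
    rw [← h2, ← h3, (hD k).1, (hD k).2] at h1
    exact h1
  have hL : Tendsto (fun k => -(A 3 k x / A 0 k x) + 3 * (A 1 k x / A 0 k x * (A 2 k x / A 0 k x)) -
          2 * (A 1 k x / A 0 k x) ^ 3) atTop (𝓝 (HL.w3 U v P x)) := by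
    rw [HL.w3]
    exact ((hr 3).neg.add (((hr 1).mul (hr 2)).const_mul 3)).sub (((hr 1).pow 3).const_mul 2)
  have hR : Tendsto (fun k => 2 * κ * (-(A 2 k x / A 0 k x) + (A 1 k x / A 0 k x) ^ 2) ^
      ((3 : ℝ) / 2) + K * δ k * ‖v‖ ^ 3) atTop
      (𝓝 (2 * κ * (HL.w2 U v P x) ^ ((3 : ℝ) / 2) + K * 0 * ‖v‖ ^ 3)) := by
    rw [HL.w2]
    refine ((((hr 2).neg.add ((hr 1).pow 2)).rpow_const (Or.inr (by norm_num))).const_mul
      (2 * κ)).add ((hδlim.const_mul K).mul_const _)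
  have hfin := le_of_tendsto_of_tendsto hL hR hineq
  rw [mul_zero, zero_mul, add_zero] at hfin
  rw [HL.iteratedDeriv_three_heat h, HL.iteratedDeriv_two_heat h]
  exact hfin

/-- **The discrete step gives the heat flow statement.** -/
theorem _root_.Vale.Agent.P227.M.SC.stmtHeat_of_step (hstep : ∀ n, StepStmt (E n)) : StmtHeat := by
  intro n U c C κ h hκ0 hκ1 hS P x v
  rw [abs_le]
  constructor
  · have h1 := heat_one_sided (hstep n) h hκ0 hκ1 hS P x (-v)
    have e : (fun t : ℝ => heat U P (x + t • -v)) = fun t : ℝ => (fun s : ℝ => heat U P (x + s • v)) (-t) := by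
      funext t; simp
    rw [e, iteratedDeriv_comp_neg 3 (fun s : ℝ => heat U P (x + s • v)) 0,
      iteratedDeriv_comp_neg 2 (fun s : ℝ => heat U P (x + s • v)) 0] at h1
    simp only [neg_zero] at h1
    norm_num at h1
    linarith
  · exact heat_one_sided (hstep n) h hκ0 hκ1 hS P x v

end Vale.Agent.P227.M.SC.F79
end
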