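import Mathlib
import Vale.Agent.P254.Bdl.B1
import Vale.Agent.P254.Bdl.B7
import Vale.Agent.P254.Bdl.B3
import Vale.Agent.P254.Bdl.B5
import Vale.Agent.P254.Bdl.B4

set_option linter.all false

section

/-! # P227/M/ID/K : locally Lipschitz functions with compact support, integration by parts -/

open MeasureTheory Filter Topology Set Metric
open scoped NNReal ENNReal ContDiff

namespace Vale.Agent.P227.M.K814

variable {n : ℕ}

/-! ## locally Lipschitz functions -/

theorem ll_of_contDiff {f : E n → ℝ} (hf : ContDiff ℝ 1 f) : LocallyLipschitz f :=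
  hf.locallyLipschitz

theorem ll_mul {f g : E n → ℝ} (hf : LocallyLipschitz f) (hg : LocallyLipschitz g) :
    LocallyLipschitz (fun x => f x * g x) :=
  (ContDiff.locallyLipschitz (𝕂 := ℝ) (f := fun p : ℝ × ℝ => p.1 * p.2) (by fun_prop)).comp
    (hf.prodMk hg)

theorem ll_add {f g : E n → ℝ} (hf : LocallyLipschitz f) (hg : LocallyLipschitz g) :
    LocallyLipschitz (fun x => f x + g x) :=
  (ContDiff.locallyLipschitz (𝕂 := ℝ) (f := fun p : ℝ × ℝ => p.1 + p.2) (by fun_prop)).comp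
    (hf.prodMk hg)

theorem ll_sub {f g : E n → ℝ} (hf : LocallyLipschitz f) (hg : LocallyLipschitz g) :
    LocallyLipschitz (fun x => f x - g x) :=
  (ContDiff.locallyLipschitz (𝕂 := ℝ) (f := fun p : ℝ × ℝ => p.1 - p.2) (by fun_prop)).comp
    (hf.prodMk hg)

theorem ll_const (c : ℝ) : LocallyLipschitz (fun _ : E n => c) := LocallyLipschitz.const c

theorem ll_sum {ι : Type*} (s : Finset ι) {f : ι → E n → ℝ} (hf : ∀ i ∈ s, LocallyLipschitz (f i)) :
    LocallyLipschitz (fun x => ∑ i ∈ s, f i x) := by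
  classical
  induction s using Finset.induction_on with
  | empty => simpa using ll_const 0
  | insert a s ha ih =>
    simp only [Finset.sum_insert ha]
    exact ll_add (hf a (Finset.mem_insert_self _ _))
      (ih fun i hi => hf i (Finset.mem_insert_of_mem hi))

theorem ll_coord (i : Fin n) : LocallyLipschitz (fun x : E n => x i) :=
  ll_of_contDiff (by fun_prop)

/-- locally Lipschitz + compact support -/
def LC (f : E n → ℝ) : Prop := LocallyLipschitz f ∧ HasCompactSupport f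

theorem LC.mul_left {f g : E n → ℝ} (hf : LocallyLipschitz f) (hg : LC g) :
    LC (fun x => f x * g x) := ⟨ll_mul hf hg.1, hg.2.mul_left⟩

theorem LC.mul_right {f g : E n → ℝ} (hf : LC f) (hg : LocallyLipschitz g) :
    LC (fun x => f x * g x) := ⟨ll_mul hf.1 hg, hf.2.mul_right⟩

theorem LC.add {f g : E n → ℝ} (hf : LC f) (hg : LC g) : LC (fun x => f x + g x) :=
  ⟨ll_add hf.1 hg.1, hf.2.add hg.2⟩

theorem LC.sub {f g : E n → ℝ} (hf : LC f) (hg : LC g) : LC (fun x => f x - g x) :=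
  ⟨ll_sub hf.1 hg.1, HasCompactSupport.sub hf.2 hg.2⟩

theorem hcs_sum {ι : Type*} (s : Finset ι) {f : ι → E n → ℝ} (hf : ∀ i ∈ s, HasCompactSupport (f i)) :
    HasCompactSupport (fun x => ∑ i ∈ s, f i x) := by
  classical
  induction s using Finset.induction_on with
  | empty =>
    have : (fun x : E n => ∑ i ∈ (∅ : Finset ι), f i x) = 0 := by ext; simp
    rw [this]; exact HasCompactSupport.zero
  | insert a s ha ih =>
    simp only [Finset.sum_insert ha]
    exact HasCompactSupport.add (hf a (Finset.mem_insert_self _ _))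
      (ih fun i hi => hf i (Finset.mem_insert_of_mem hi))

theorem LC.sum {ι : Type*} (s : Finset ι) {f : ι → E n → ℝ} (hf : ∀ i ∈ s, LC (f i)) :
    LC (fun x => ∑ i ∈ s, f i x) :=
  ⟨ll_sum s fun i hi => (hf i hi).1, hcs_sum s fun i hi => (hf i hi).2⟩

theorem Test.lc {f : E n → ℝ} (hf : Test f) : LC f :=
  ⟨ll_of_contDiff (hf.1.of_le (by exact_mod_cast le_top)), hf.2⟩

/-- a locally Lipschitz function is Lipschitz on closed balls -/
theorem ll_ball {f : E n → ℝ} (hf : LocallyLipschitz f) (R : ℝ) :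
    ∃ K, LipschitzOnWith K f (closedBall 0 R) :=
  LocallyLipschitzOn.exists_lipschitzOnWith_of_compact (isCompact_closedBall 0 R)
    (hf.locallyLipschitzOn)

/-- a locally Lipschitz function with compact support is Lipschitz -/
theorem LC.lip {f : E n → ℝ} (hf : LC f) : ∃ C : ℝ≥0, LipschitzWith C f := by
  obtain ⟨R, hR⟩ := hf.2.isCompact.isBounded.subset_closedBall (0 : E n)
  obtain ⟨K, hK⟩ := ll_ball hf.1 (R + 1)
  obtain ⟨M, hM⟩ := hf.2.exists_bound_of_continuous hf.1.continuous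
  have hM0 : 0 ≤ M := (norm_nonneg _).trans (hM 0)
  have h0 : ∀ x, x ∉ closedBall (0 : E n) R → f x = 0 := fun x hx => by
    by_contra h
    exact hx (hR (subset_closure h))
  refine ⟨K + ⟨M, hM0⟩, LipschitzWith.of_dist_le_mul fun x y => ?_⟩
  have key : ∀ x y : E n, x ∈ closedBall (0 : E n) (R+1) → y ∉ closedBall (0 : E n) (R + 1) →
      dist (f x) (f y) ≤ M * dist x y := by
    intro x y _ hy
    have hy0 : f y = 0 := h0 y fun h => hy (closedBall_subset_closedBall (by linarith) h)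
    by_cases hx' : x ∈ closedBall (0 : E n) R
    · have h1 : 1 ≤ dist x y := by
        simp only [mem_closedBall, dist_zero_right, not_le] at hx' hy
        have := norm_sub_norm_le y x
        rw [dist_comm, dist_eq_norm]; linarith
      rw [hy0, Real.dist_eq, sub_zero]
      calc |f x| ≤ M := hM x
        _ ≤ M * dist x y := le_mul_of_one_le_right hM0 h1
    · rw [hy0, h0 x hx', dist_self]; positivity
  have hKc : (((K + ⟨M, hM0⟩ : ℝ≥0)) : ℝ) = K + M := rfl
  rw [hKc]
  by_cases hx : x ∈ closedBall (0 : E n) (R + 1)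
  · by_cases hy : y ∈ closedBall (0 : E n) (R + 1)
    · refine (hK.dist_le_mul x hx y hy).trans ?_
      have : 0 ≤ M * dist x y := by positivity
      nlinarith
    · refine (key x y hx hy).trans ?_
      have : 0 ≤ (K : ℝ) * dist x y := by positivity
      nlinarith
  · by_cases hy : y ∈ closedBall (0 : E n) (R + 1)
    · rw [dist_comm (f x), dist_comm x]
      refine (key y x hy hx).trans ?_
      have : 0 ≤ (K : ℝ) * dist y x := by positivity
      nlinarith
    · rw [h0 x fun h => hx (closedBall_subset_closedBall (by linarith) h),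
        h0 y fun h => hy (closedBall_subset_closedBall (by linarith) h), dist_self]
      positivity

theorem LC.ae_diff {f : E n → ℝ} (hf : LC f) : ∀ᵐ x, DifferentiableAt ℝ f x := by
  obtain ⟨C, hC⟩ := hf.lip
  exact hC.ae_differentiableAt

/-! ## locally bounded measurable functions -/

/-- measurable, locally bounded -/
def Bd (g : E n → ℝ) : Prop := Measurable g ∧ ∀ R : ℝ, ∃ C, ∀ x ∈ closedBall (0 : E n) R, |g x| ≤ C

theorem Bd.of_cont {g : E n → ℝ} (hg : Continuous g) : Bd g := by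
  refine ⟨hg.measurable, fun R => ?_⟩
  obtain ⟨C, hC⟩ := (isCompact_closedBall (0 : E n) R).exists_bound_of_continuousOn hg.continuousOn
  exact ⟨C, fun x hx => hC x hx⟩

theorem Bd.mul {f g : E n → ℝ} (hf : Bd f) (hg : Bd g) : Bd (fun x => f x * g x) := by
  refine ⟨hf.1.mul hg.1, fun R => ?_⟩
  obtain ⟨C, hC⟩ := hf.2 R
  obtain ⟨D, hD⟩ := hg.2 R
  refine ⟨|C| * |D|, fun x hx => ?_⟩
  rw [abs_mul]
  exact mul_le_mul ((hC x hx).trans (le_abs_self _)) ((hD x hx).trans (le_abs_self _))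
    (abs_nonneg _) (abs_nonneg _)

theorem Bd.add {f g : E n → ℝ} (hf : Bd f) (hg : Bd g) : Bd (fun x => f x + g x) := by
  refine ⟨hf.1.add hg.1, fun R => ?_⟩
  obtain ⟨C, hC⟩ := hf.2 R
  obtain ⟨D, hD⟩ := hg.2 R
  exact ⟨C + D, fun x hx => (abs_add_le _ _).trans (add_le_add (hC x hx) (hD x hx))⟩

theorem Bd.neg {f : E n → ℝ} (hf : Bd f) : Bd (fun x => - f x) := by
  refine ⟨hf.1.neg, fun R => ?_⟩
  obtain ⟨C, hC⟩ := hf.2 R
  exact ⟨C, fun x hx => by rw [abs_neg]; exact hC x hx⟩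

theorem Bd.sub {f g : E n → ℝ} (hf : Bd f) (hg : Bd g) : Bd (fun x => f x - g x) := by
  simpa [sub_eq_add_neg] using hf.add hg.neg

theorem Bd.sum {ι : Type*} (s : Finset ι) {f : ι → E n → ℝ} (hf : ∀ i ∈ s, Bd (f i)) :
    Bd (fun x => ∑ i ∈ s, f i x) := by
  classical
  induction s using Finset.induction_on with
  | empty => simpa using Bd.of_cont (n := n) (g := fun _ => (0 : ℝ)) continuous_const
  | insert a s ha ih =>
    simp only [Finset.sum_insert ha]
    exact Bd.add (hf a (Finset.mem_insert_self _ _))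
      (ih fun i hi => hf i (Finset.mem_insert_of_mem hi))

theorem Bd.of_ll {g : E n → ℝ} (hg : LocallyLipschitz g) : Bd g := Bd.of_cont hg.continuous

theorem ei_norm (i : Fin n) : ‖(ei i : E n)‖ = 1 := by
  simp [ei]

theorem Bd.pd {g : E n → ℝ} (hg : LocallyLipschitz g) (i : Fin n) : Bd (pd i g) := by
  refine ⟨measurable_fderiv_apply_const ℝ g _, fun R => ?_⟩
  obtain ⟨K, hK⟩ := ll_ball hg (R + 1)
  refine ⟨K, fun x hx => ?_⟩
  have hx' : closedBall (0 : E n) (R + 1) ∈ 𝓝 x := by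
    have : x ∈ ball (0 : E n) (R + 1) := by
      simp only [mem_closedBall, dist_zero_right] at hx
      simp only [mem_ball, dist_zero_right]; linarith
    exact mem_of_superset (isOpen_ball.mem_nhds this) ball_subset_closedBall
  have h1 : ‖fderiv ℝ g x‖ ≤ K := norm_fderiv_le_of_lipschitzOn ℝ hx' hK
  have h2 := (fderiv ℝ g x).le_opNorm (ei i)
  rw [ei_norm, mul_one] at h2
  exact h2.trans h1

theorem hcs_pd {g : E n → ℝ} (hg : HasCompactSupport g) (i : Fin n) : HasCompactSupport (pd i g) := by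
  have := (hg.fderiv (𝕜 := ℝ))
  exact this.comp_left (g := fun L : E n →L[ℝ] ℝ => L (ei i)) (by simp)

/-! ## the integral against `exp (-V)` -/

/-- measurable, locally bounded, compact support -/
def CI (g : E n → ℝ) : Prop := Bd g ∧ HasCompactSupport g

theorem CI.add {f g : E n → ℝ} (hf : CI f) (hg : CI g) : CI (fun x => f x + g x) :=
  ⟨hf.1.add hg.1, hf.2.add hg.2⟩
theorem CI.sub {f g : E n → ℝ} (hf : CI f) (hg : CI g) : CI (fun x => f x - g x) :=
  ⟨hf.1.sub hg.1, HasCompactSupport.sub hf.2 hg.2⟩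
theorem CI.mul_left {f g : E n → ℝ} (hf : Bd f) (hg : CI g) : CI (fun x => f x * g x) :=
  ⟨hf.mul hg.1, hg.2.mul_left⟩
theorem CI.mul_right {f g : E n → ℝ} (hf : CI f) (hg : Bd g) : CI (fun x => f x * g x) :=
  ⟨hf.1.mul hg, hf.2.mul_right⟩
theorem CI.sum {ι : Type*} (s : Finset ι) {f : ι → E n → ℝ} (hf : ∀ i ∈ s, CI (f i)) :
    CI (fun x => ∑ i ∈ s, f i x) :=
  ⟨Bd.sum s fun i hi => (hf i hi).1, hcs_sum s fun i hi => (hf i hi).2⟩
theorem CI.of_lc {f : E n → ℝ} (hf : LC f) : CI f := ⟨Bd.of_ll hf.1, hf.2⟩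
theorem CI.pd {f : E n → ℝ} (hf : LC f) (i : Fin n) : CI (pd i f) := ⟨Bd.pd hf.1 i, hcs_pd hf.2 i⟩

theorem CI.integrable {V g : E n → ℝ} (hV : Continuous V) (hg : CI g) :
    Integrable (fun x => g x * Real.exp (-V x)) := by
  obtain ⟨R, hR⟩ := hg.2.isCompact.isBounded.subset_closedBall (0 : E n)
  obtain ⟨C, hC⟩ := hg.1.2 R
  obtain ⟨D, hD⟩ := (isCompact_closedBall (0 : E n) R).exists_bound_of_continuousOn
    (f := fun x => Real.exp (-V x)) (by fun_prop)
  have h0 : ∀ x, x ∉ closedBall (0 : E n) R → g x = 0 := fun x hx => by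
    by_contra h
    exact hx (hR (subset_closure h))
  have hm : AEStronglyMeasurable (fun x => g x * Real.exp (-V x)) volume :=
    (hg.1.1.mul (by fun_prop)).aestronglyMeasurable
  have : Integrable ((closedBall (0 : E n) R).indicator fun _ => |C| * |D|) :=
    (integrable_indicator_iff measurableSet_closedBall).2
      (integrableOn_const (measure_closedBall_lt_top).ne)
  refine this.mono' hm (Eventually.of_forall fun x => ?_)
  by_cases hx : x ∈ closedBall (0 : E n) R
  · rw [indicator_of_mem hx, norm_mul]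
    exact mul_le_mul ((hC x hx).trans (le_abs_self _)) ((hD x hx).trans (le_abs_self _))
      (norm_nonneg _) (abs_nonneg _)
  · rw [indicator_of_notMem hx, h0 x hx]; simp

/-- the integral `∫ g e^{-V}` -/
noncomputable def I (V g : E n → ℝ) : ℝ := ∫ x, g x * Real.exp (-V x)

theorem I_add {V f g : E n → ℝ} (hV : Continuous V) (hf : CI f) (hg : CI g) :
    I V (fun x => f x + g x) = I V f + I V g := by
  unfold I
  rw [← integral_add (hf.integrable hV) (hg.integrable hV)]
  congr 1; ext x; ring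

theorem I_sub {V f g : E n → ℝ} (hV : Continuous V) (hf : CI f) (hg : CI g) :
    I V (fun x => f x - g x) = I V f - I V g := by
  unfold I
  rw [← integral_sub (hf.integrable hV) (hg.integrable hV)]
  congr 1; ext x; ring

theorem I_sum {ι : Type*} (s : Finset ι) {V : E n → ℝ} {f : ι → E n → ℝ} (hV : Continuous V)
    (hf : ∀ i ∈ s, CI (f i)) : I V (fun x => ∑ i ∈ s, f i x) = ∑ i ∈ s, I V (f i) := by
  unfold I
  rw [← integral_finsetSum s fun i hi => (hf i hi).integrable hV]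
  congr 1; ext x; rw [Finset.sum_mul]

theorem I_congr {V f g : E n → ℝ} (h : ∀ᵐ x, f x = g x) : I V f = I V g :=
  integral_congr_ae (h.mono fun x hx => by simp only [hx])

theorem I_mono {V f g : E n → ℝ} (hV : Continuous V) (hf : CI f) (hg : CI g)
    (h : ∀ᵐ x, f x ≤ g x) : I V f ≤ I V g :=
  integral_mono_ae (hf.integrable hV) (hg.integrable hV)
    (h.mono fun _ hx => mul_le_mul_of_nonneg_right hx (Real.exp_pos _).le)

/-- integration by parts against `exp (-V)` for a locally Lipschitz compactly supported function -/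
theorem ibp {V f : E n → ℝ} (hV : ContDiff ℝ 1 V) (hf : LC f) (a : Fin n) :
    I V (pd a f) = I V (fun x => pd a V x * f x) := by
  obtain ⟨C, hC⟩ := hf.lip
  -- a smooth cutoff
  obtain ⟨R, hR⟩ := hf.2.isCompact.isBounded.subset_closedBall (0 : E n)
  set R' : ℝ := max R 0 with hR'
  have hR'0 : 0 ≤ R' := le_max_right _ _
  let χ : ContDiffBump (0 : E n) := ⟨R' + 1, R' + 2, by linarith, by linarith⟩
  have hχ1 : ∀ x ∈ ball (0 : E n) (R' + 1), χ x = 1 := fun x hx =>
    χ.one_of_mem_closedBall (ball_subset_closedBall hx)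
  have hχc : HasCompactSupport (χ : E n → ℝ) := χ.hasCompactSupport
  have hχs : ContDiff ℝ 1 (χ : E n → ℝ) := χ.contDiff
  let g : E n → ℝ := fun x => Real.exp (-V x) * χ x
  have hg1 : ContDiff ℝ 1 g := by
    have : ContDiff ℝ 1 (fun x => Real.exp (-V x)) := by fun_prop
    exact this.mul hχs
  have hgc : HasCompactSupport g := hχc.mul_left
  have hgLC : LC g := ⟨ll_of_contDiff hg1, hgc⟩
  obtain ⟨D, hD⟩ := hgLC.lip
  have key := LipschitzWith.integral_lineDeriv_mul_eq (μ := (volume : Measure (E n))) hD hC hf.2 (ei a)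
  have hsupp : ∀ x, x ∈ tsupport f → x ∈ ball (0 : E n) (R' + 1) := fun x hx => by
    have := hR hx
    simp only [mem_closedBall, dist_zero_right] at this
    simp only [mem_ball, dist_zero_right]
    have := le_max_left R 0
    linarith
  have hgline : ∀ x ∈ tsupport f, lineDeriv ℝ g x (ei a) = - pd a V x * Real.exp (-V x) := by
    intro x hx
    have hev : g =ᶠ[𝓝 x] fun x => Real.exp (-V x) := by
      filter_upwards [isOpen_ball.mem_nhds (hsupp x hx)] with y hy
      simp only [g, hχ1 y hy, mul_one]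
    have hVd : DifferentiableAt ℝ V x := (hV.differentiable (by simp)).differentiableAt
    have h1 : HasFDerivAt (fun x => Real.exp (-V x)) (Real.exp (-V x) • (-(fderiv ℝ V x))) x :=
      (hVd.hasFDerivAt.neg).exp
    have h2 : HasFDerivAt g (Real.exp (-V x) • (-(fderiv ℝ V x))) x := h1.congr_of_eventuallyEq hev
    rw [(h2.hasLineDerivAt (ei a)).lineDeriv]
    simp only [smul_apply, neg_apply, smul_eq_mul, pd]
    ring
  have hL : ∫ x, lineDeriv ℝ g x (ei a) * f x = - I V (fun x => pd a V x * f x) := by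
    unfold I
    rw [← integral_neg]
    refine integral_congr_ae (Eventually.of_forall fun x => ?_)
    by_cases hx : x ∈ tsupport f
    · simp only [hgline x hx]; ring
    · simp only [image_eq_zero_of_notMem_tsupport hx]; ring
  have hRr : ∫ x, lineDeriv ℝ f x (-(ei a)) * g x = - I V (pd a f) := by
    unfold I
    rw [← integral_neg]
    refine integral_congr_ae ?_
    filter_upwards [hC.ae_differentiableAt] with x hx
    rw [(hx.hasFDerivAt.hasLineDerivAt (-(ei a))).lineDeriv, map_neg]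
    by_cases hxt : x ∈ tsupport f
    · simp only [g, hχ1 x (hsupp x hxt), pd]; ring
    · have : fderiv ℝ f x = 0 := by
        have := (support_fderiv_subset ℝ (f := f))
        by_contra h
        exact hxt (this h)
      simp only [this, pd]; simp
  rw [hL, hRr] at key
  linarith

end Vale.Agent.P227.M.K814
end

section

/-! # P227/M: mollification of Lipschitz maps

`w : E → G` Lipschitz between finite-dimensional real normed spaces. The mollifications
`mol μ k w` are smooth, have the same Lipschitz constant, converge uniformly to `w`, their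
derivative is the mollification of the (a.e. defined) derivative of `w` and converges a.e. -/

set_option linter.all false
set_option autoImplicit false

open MeasureTheory Filter Topology Set Metric Function ContinuousLinearMap
open scoped Convolution NNReal ContDiff

namespace Vale.Agent.P227.M.LipMoll

variable {E G : Type*} [NormedAddCommGroup E] [NormedSpace ℝ E] [FiniteDimensional ℝ E]
  [NormedAddCommGroup G] [NormedSpace ℝ G] [FiniteDimensional ℝ G]

/-- the `k`-th bump function, radii `1/(k+1)` and `2/(k+1)` -/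
noncomputable def bp (E : Type*) [NormedAddCommGroup E] [NormedSpace ℝ E] (k : ℕ) :
    ContDiffBump (0 : E) where
  rIn := 1 / ((k : ℝ) + 1)
  rOut := 2 / ((k : ℝ) + 1)
  rIn_pos := by positivity
  rIn_lt_rOut := by
    apply div_lt_div_of_pos_right (by norm_num)
    positivity

theorem bp_rOut (k : ℕ) : (bp E k).rOut = 2 / ((k : ℝ) + 1) := rfl

theorem bp_rOut_le (k : ℕ) : (bp E k).rOut ≤ 2 := by
  rw [bp_rOut, div_le_iff₀ (by positivity)]
  have : (0 : ℝ) ≤ k := Nat.cast_nonneg k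
  nlinarith

theorem bp_tendsto : Tendsto (fun k => (bp E k).rOut) atTop (𝓝 0) := by
  have h : Tendsto (fun k : ℕ => 2 * (1 / ((k : ℝ) + 1))) atTop (𝓝 (2 * 0)) :=
    tendsto_one_div_add_atTop_nhds_zero_nat.const_mul 2
  rw [mul_zero] at h
  refine h.congr fun k => ?_
  rw [bp_rOut]
  ring

variable [MeasurableSpace E] [BorelSpace E] (μ : Measure E) [μ.IsAddHaarMeasure]

/-- the `k`-th mollification -/
noncomputable def mol (k : ℕ) (w : E → G) : E → G :=
  ((bp E k).normed μ ⋆[lsmul ℝ ℝ, μ] w)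

theorem mol_apply (k : ℕ) (w : E → G) (x : E) :
    mol μ k w x = ∫ y, (bp E k).normed μ y • w (x - y) ∂μ := by
  unfold mol convolution
  simp only [lsmul_apply]

theorem contDiff_mol (k : ℕ) {w : E → G} (hw : LocallyIntegrable w μ) :
    ContDiff ℝ ∞ (mol μ k w) := by
  unfold mol
  exact HasCompactSupport.contDiff_convolution_left _ (bp E k).hasCompactSupport_normed
    (bp E k).contDiff_normed hw

theorem norm_mol_le (k : ℕ) {w : E → G} {C : ℝ} (hw : ∀ x, ‖w x‖ ≤ C) (x : E) :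
    ‖mol μ k w x‖ ≤ C := by
  rw [mol_apply]
  have h1 : Integrable (fun y => (bp E k).normed μ y * C) μ :=
    (bp E k).integrable_normed.mul_const C
  refine (norm_integral_le_of_norm_le h1 (Eventually.of_forall fun y => ?_)).trans ?_
  · rw [norm_smul, Real.norm_eq_abs, abs_of_nonneg ((bp E k).nonneg_normed y)]
    exact mul_le_mul_of_nonneg_left (hw _) ((bp E k).nonneg_normed y)
  · rw [integral_mul_const, (bp E k).integral_normed, one_mul]

theorem dist_mol_le (k : ℕ) {w : E → G} {C : ℝ≥0} (hw : LipschitzWith C w) (x : E) :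
    dist (mol μ k w x) (w x) ≤ C * (2 / ((k : ℝ) + 1)) := by
  unfold mol
  refine (bp E k).dist_normed_convolution_le hw.continuous.aestronglyMeasurable fun y hy => ?_
  refine (hw.dist_le_mul y x).trans ?_
  rw [mem_ball, bp_rOut] at hy
  exact mul_le_mul_of_nonneg_left hy.le C.2

theorem tendsto_mol {w : E → G} (hw : Continuous w) (x : E) :
    Tendsto (fun k => mol μ k w x) atTop (𝓝 (w x)) :=
  ContDiffBump.convolution_tendsto_right_of_continuous bp_tendsto hw x

theorem ae_tendsto_mol {w : E → G} (hw : LocallyIntegrable w μ) :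
    ∀ᵐ x ∂μ, Tendsto (fun k => mol μ k w x) atTop (𝓝 (w x)) := by
  refine ContDiffBump.ae_convolution_tendsto_right_of_locallyIntegrable (K := 2) bp_tendsto
    (Eventually.of_forall fun k => ?_) hw
  change 2 / ((k : ℝ) + 1) ≤ 2 * (1 / ((k : ℝ) + 1))
  rw [mul_one_div]

/-- the derivative of a Lipschitz map is locally integrable -/
theorem locallyIntegrable_fderiv {w : E → G} {C : ℝ≥0} (hw : LipschitzWith C w) :
    LocallyIntegrable (fderiv ℝ w) μ := by
  have h1 : AEStronglyMeasurable (fderiv ℝ w) μ := (measurable_fderiv ℝ w).aestronglyMeasurable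
  refine (locallyIntegrable_const (C : ℝ)).mono h1 (Eventually.of_forall fun x => ?_)
  exact (norm_fderiv_le_of_lipschitz ℝ hw).trans (le_abs_self _)

theorem hasFDerivAt_mol (k : ℕ) {w : E → G} {C : ℝ≥0} (hw : LipschitzWith C w) (x : E) :
    HasFDerivAt (mol μ k w) (mol μ k (fderiv ℝ w) x) x := by
  have hf : mol μ k w = fun x => ∫ y, (bp E k).normed μ y • w (x - y) ∂μ := by
    funext x
    exact mol_apply μ k w x
  rw [hf, mol_apply]
  have hc : Continuous ((bp E k).normed μ) := (bp E k).continuous_normed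
  have hint : ∀ z : E, Integrable (fun y => (bp E k).normed μ y • w (z - y)) μ := by
    intro z
    have h1 : Continuous (fun y => (bp E k).normed μ y • w (z - y)) :=
      hc.smul (hw.continuous.comp (continuous_const.sub continuous_id))
    refine h1.integrable_of_hasCompactSupport ?_
    exact (bp E k).hasCompactSupport_normed.smul_right
  refine (hasFDerivAt_integral_of_dominated_loc_of_lip (s := univ)
    (F' := fun y => (bp E k).normed μ y • fderiv ℝ w (x - y))
    (bound := fun y => (bp E k).normed μ y * C) univ_mem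
    (Eventually.of_forall fun z => (hint z).aestronglyMeasurable) (hint x) ?_ ?_ ?_ ?_).2
  · refine hc.aestronglyMeasurable.smul ?_
    exact ((measurable_fderiv ℝ w).comp (measurable_const.sub measurable_id)).aestronglyMeasurable
  · refine Eventually.of_forall fun y => ?_
    refine LipschitzOnWith.of_dist_le_mul fun z _ z' _ => ?_
    rw [dist_eq_norm, ← smul_sub, norm_smul, Real.norm_eq_abs,
      abs_of_nonneg ((bp E k).nonneg_normed y)]
    have h2 : ‖w (z - y) - w (z' - y)‖ ≤ C * dist z z' := by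
      rw [← dist_eq_norm]
      refine (hw.dist_le_mul _ _).trans (le_of_eq ?_)
      rw [dist_sub_right]
    have h3 : (0 : ℝ) ≤ (bp E k).normed μ y * C :=
      mul_nonneg ((bp E k).nonneg_normed y) C.2
    rw [Real.coe_nnabs, abs_of_nonneg h3, mul_assoc]
    exact mul_le_mul_of_nonneg_left h2 ((bp E k).nonneg_normed y)
  · exact (bp E k).integrable_normed.mul_const _
  · have hd : ∀ᵐ z ∂μ, DifferentiableAt ℝ w z := hw.ae_differentiableAt
    have hq : Measure.QuasiMeasurePreserving (fun y : E => x - y) μ μ :=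
      (Measure.measurePreserving_sub_left μ x).quasiMeasurePreserving
    filter_upwards [hq.ae hd] with y hy
    have h3 : HasFDerivAt (fun z : E => w (z - y)) (fderiv ℝ w (x - y)) x := by
      have h4 := hy.hasFDerivAt
      have h5 : HasFDerivAt (fun z : E => z - y) (ContinuousLinearMap.id ℝ E) x :=
        (hasFDerivAt_id x).sub_const y
      have h6 := h4.comp x h5
      rw [ContinuousLinearMap.comp_id] at h6
      exact h6
    exact h3.const_smul _

theorem fderiv_mol (k : ℕ) {w : E → G} {C : ℝ≥0} (hw : LipschitzWith C w) (x : E) :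
    fderiv ℝ (mol μ k w) x = mol μ k (fderiv ℝ w) x :=
  (hasFDerivAt_mol μ k hw x).fderiv

theorem norm_fderiv_mol_le (k : ℕ) {w : E → G} {C : ℝ≥0} (hw : LipschitzWith C w) (x : E) :
    ‖fderiv ℝ (mol μ k w) x‖ ≤ C := by
  rw [fderiv_mol μ k hw]
  exact norm_mol_le μ k (fun z => norm_fderiv_le_of_lipschitz ℝ hw) x

theorem lipschitzWith_mol (k : ℕ) {w : E → G} {C : ℝ≥0} (hw : LipschitzWith C w) :
    LipschitzWith C (mol μ k w) :=
  lipschitzWith_of_nnnorm_fderiv_le
    (fun x => (hasFDerivAt_mol μ k hw x).differentiableAt)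
    (fun x => by
      have := norm_fderiv_mol_le μ k hw x
      exact_mod_cast this)

theorem ae_tendsto_fderiv_mol {w : E → G} {C : ℝ≥0} (hw : LipschitzWith C w) :
    ∀ᵐ x ∂μ, Tendsto (fun k => fderiv ℝ (mol μ k w) x) atTop (𝓝 (fderiv ℝ w x)) := by
  filter_upwards [ae_tendsto_mol μ (locallyIntegrable_fderiv μ hw)] with x hx
  refine hx.congr fun k => ?_
  rw [fderiv_mol μ k hw]

theorem mol_eq_zero (k : ℕ) {w : E → G} {R : ℝ} (hw : ∀ x, R < ‖x‖ → w x = 0) (x : E)
    (hx : R + 2 < ‖x‖) : mol μ k w x = 0 := by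
  rw [mol_apply]
  refine integral_eq_zero_of_ae (Eventually.of_forall fun y => ?_)
  by_cases hy : ‖y‖ < (bp E k).rOut
  · have h1 : R < ‖x - y‖ := by
      have h2 := norm_sub_norm_le x y
      have h3 := bp_rOut_le (E := E) k
      linarith
    change (bp E k).normed μ y • w (x - y) = 0
    rw [hw _ h1, smul_zero]
  · have h1 : (bp E k).normed μ y = 0 := by
      have h2 : y ∉ support ((bp E k).normed μ) := by
        rw [(bp E k).support_normed_eq, mem_ball, dist_zero_right]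
        exact hy
      exact notMem_support.1 h2
    change (bp E k).normed μ y • w (x - y) = 0
    rw [h1, zero_smul]

theorem hasCompactSupport_mol (k : ℕ) {w : E → G} {R : ℝ} (hw : ∀ x, R < ‖x‖ → w x = 0) :
    HasCompactSupport (mol μ k w) := by
  refine HasCompactSupport.intro (isCompact_closedBall (0 : E) (R + 2)) fun x hx => ?_
  rw [mem_closedBall, dist_zero_right, not_le] at hx
  exact mol_eq_zero μ k hw x hx

/-- mollification of an even (odd) map is even (odd) -/
theorem mol_neg (k : ℕ) {w : E → G} {s : ℝ} (hw : ∀ x, w (-x) = s • w x) (x : E) :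
    mol μ k w (-x) = s • mol μ k w x := by
  rw [mol_apply, mol_apply, ← integral_smul, ← integral_neg_eq_self]
  refine integral_congr_ae (Eventually.of_forall fun y => ?_)
  change (bp E k).normed μ (-y) • w (-x - -y) = s • (bp E k).normed μ y • w (x - y)
  have h1 : -x - -y = -(x - y) := by abel
  rw [h1, hw, (bp E k).normed_neg, smul_comm]

/-- summary: a Lipschitz map that vanishes outside a ball is the limit of smooth ones -/
theorem exists_approx {w : E → G} {C : ℝ≥0} (hw : LipschitzWith C w) {R : ℝ}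
    (hR : ∀ x, R < ‖x‖ → w x = 0) :
    ∃ f : ℕ → E → G, (∀ k, ContDiff ℝ ∞ (f k)) ∧ (∀ k, LipschitzWith C (f k)) ∧
      (∀ k x, R + 2 < ‖x‖ → f k x = 0) ∧ (∀ k x, dist (f k x) (w x) ≤ C * (2 / ((k : ℝ) + 1))) ∧
      (∀ k x, ‖fderiv ℝ (f k) x‖ ≤ C) ∧
      (∀ᵐ x ∂μ, Tendsto (fun k => fderiv ℝ (f k) x) atTop (𝓝 (fderiv ℝ w x))) :=
  ⟨fun k => mol μ k w, fun k => contDiff_mol μ k hw.continuous.locallyIntegrable,
    fun k => lipschitzWith_mol μ k hw, fun k x hx => mol_eq_zero μ k hR x hx,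
    fun k x => dist_mol_le μ k hw x, fun k x => norm_fderiv_mol_le μ k hw x,
    ae_tendsto_fderiv_mol μ hw⟩

end Vale.Agent.P227.M.LipMoll
end

section

/-! # P227/M: flat Bochner identity for Lipschitz fields with compact support -/

set_option linter.all false
set_option autoImplicit false

open MeasureTheory Filter Topology Set Metric Function
open scoped NNReal ContDiff

namespace Vale.Agent.P227.M.FlatB

open Vale.Agent.P227.M Vale.Agent.P227.M.LipMoll

variable {n : ℕ}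

theorem int_pd_zero {h : E n → ℝ} {C : ℝ≥0} (hh : LipschitzWith C h) (hc : HasCompactSupport h)
    (a : Fin n) : ∫ x, pd a h x = 0 := by
  have h1 := LipschitzWith.integral_lineDeriv_mul_eq (μ := (volume : Measure (E n)))
    (LipschitzWith.const (1 : ℝ) : LipschitzWith 0 (fun _ : E n => (1 : ℝ))) hh hc (ei a)
  have h2 : ∀ x : E n, lineDeriv ℝ (fun _ : E n => (1 : ℝ)) x (ei a) = 0 := by
    intro x
    have : HasLineDerivAt ℝ (fun _ : E n => (1 : ℝ)) (0 : ℝ) x (ei a) := by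
      unfold HasLineDerivAt
      exact hasDerivAt_const _ _
    exact this.lineDeriv
  simp only [h2, zero_mul, integral_zero, mul_one] at h1
  have h3 : ∫ x, pd a h x = ∫ x, -(lineDeriv ℝ h x (-(ei a))) := by
    refine integral_congr_ae ?_
    filter_upwards [hh.ae_differentiableAt] with x hx
    rw [hx.lineDeriv_eq_fderiv, map_neg, neg_neg]
    rfl
  rw [h3, integral_neg, ← h1, neg_zero]

theorem int_pd_zero' {h : E n → ℝ} (hh : ContDiff ℝ 1 h) (hc : HasCompactSupport h)
    (a : Fin n) : ∫ x, pd a h x = 0 := by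
  obtain ⟨C, hC⟩ := ContDiff.lipschitzWith_of_hasCompactSupport hc hh one_ne_zero
  exact int_pd_zero hC hc a

theorem continuous_pd {f : E n → ℝ} (hf : ContDiff ℝ 1 f) (a : Fin n) : Continuous (pd a f) :=
  (hf.continuous_fderiv (by norm_num)).clm_apply continuous_const

theorem contDiff_pd {f : E n → ℝ} (hf : ContDiff ℝ 2 f) (a : Fin n) : ContDiff ℝ 1 (pd a f) :=
  (hf.fderiv_right (m := 1) (by norm_num)).clm_apply contDiff_const

theorem pd_mul {f g : E n → ℝ} (hf : ContDiff ℝ 1 f) (hg : ContDiff ℝ 1 g) (a : Fin n) (x : E n) :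
    pd a (fun z => f z * g z) x = pd a f x * g x + f x * pd a g x := by
  have hf' := (hf.differentiable (by norm_num)) x
  have hg' := (hg.differentiable (by norm_num)) x
  unfold pd
  rw [fderiv_fun_mul hf' hg']
  simp only [ContinuousLinearMap.add_apply, ContinuousLinearMap.smul_apply, smul_eq_mul]
  ring

theorem pd_sum {ι : Type} (s : Finset ι) {f : ι → E n → ℝ} (hf : ∀ i ∈ s, ContDiff ℝ 1 (f i))
    (a : Fin n) (x : E n) : pd a (fun z => ∑ i ∈ s, f i z) x = ∑ i ∈ s, pd a (f i) x := by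
  unfold pd
  rw [fderiv_fun_sum fun i hi => (hf i hi).differentiable (by norm_num) x]
  simp

theorem pd_sub {f g : E n → ℝ} (hf : ContDiff ℝ 1 f) (hg : ContDiff ℝ 1 g) (a : Fin n) (x : E n) :
    pd a (fun z => f z - g z) x = pd a f x - pd a g x := by
  have hf' := (hf.differentiable (by norm_num)) x
  have hg' := (hg.differentiable (by norm_num)) x
  unfold pd
  rw [fderiv_fun_sub hf' hg']
  simp

theorem pd_exp_neg {V : E n → ℝ} (hV : ContDiff ℝ 1 V) (a : Fin n) (x : E n) :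
    pd a (fun z => Real.exp (-V z)) x = -(pd a V x) * Real.exp (-V x) := by
  have hV' := (hV.differentiable (by norm_num)) x
  unfold pd
  have h1 : HasFDerivAt (fun z => Real.exp (-V z)) (Real.exp (-V x) • -(fderiv ℝ V x)) x :=
    hV'.hasFDerivAt.neg.exp
  rw [h1.fderiv]
  simp only [ContinuousLinearMap.smul_apply, ContinuousLinearMap.neg_apply, smul_eq_mul]
  ring

theorem hess_symm {f : E n → ℝ} (hf : ContDiff ℝ 2 f) (a b : Fin n) (x : E n) :
    pd a (pd b f) x = pd b (pd a f) x := by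
  have h1 : ∀ c d : Fin n, pd c (pd d f) x = fderiv ℝ (fderiv ℝ f) x (ei c) (ei d) := by
    intro c d
    have h2 : DifferentiableAt ℝ (fderiv ℝ f) x :=
      ((hf.fderiv_right (m := 1) (by norm_num)).differentiable (by norm_num)) x
    unfold pd
    rw [fderiv_clm_apply h2 (differentiableAt_const _)]
    simp
  rw [h1, h1]
  have h3 : IsSymmSndFDerivAt ℝ f x := hf.contDiffAt.isSymmSndFDerivAt (by simp)
  exact h3 (ei a) (ei b)

/-- integration by parts, one component -/
theorem ibp {V f g : E n → ℝ} (hV : ContDiff ℝ 1 V) (hf : ContDiff ℝ 1 f)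
    (hfc : HasCompactSupport f) (hg : ContDiff ℝ 1 g) (a : Fin n) :
    ∫ x, (pd a V x * f x - pd a f x) * g x * Real.exp (-V x) =
      ∫ x, f x * pd a g x * Real.exp (-V x) := by
  have hE : ContDiff ℝ 1 (fun z => Real.exp (-V z)) := hV.neg.exp
  have h1 : ContDiff ℝ 1 (fun z => f z * g z) := hf.mul hg
  have h2 := int_pd_zero' (h1.mul hE) ((hfc.mul_right).mul_right) a
  have h3 : ∀ x, pd a (fun z => f z * g z * Real.exp (-V z)) x =
      f x * pd a g x * Real.exp (-V x) - (pd a V x * f x - pd a f x) * g x * Real.exp (-V x) := by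
    intro x
    rw [pd_mul h1 hE, pd_mul hf hg, pd_exp_neg hV]
    ring
  have hi : ∀ u : E n → ℝ, Continuous u → HasCompactSupport u → Integrable u :=
    fun u hu hc => hu.integrable_of_hasCompactSupport hc
  have hpf : HasCompactSupport (pd a f) := hfc.fderiv_apply (𝕜 := ℝ) (ei a)
  have i1 : Integrable (fun x => f x * pd a g x * Real.exp (-V x)) := by
    refine hi _ ?_ ((hfc.mul_right).mul_right)
    exact (hf.continuous.mul (continuous_pd hg a)).mul hE.continuous
  have i2 : Integrable (fun x => (pd a V x * f x - pd a f x) * g x * Real.exp (-V x)) := by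
    refine hi _ ?_ (((hfc.mul_left).sub hpf).mul_right.mul_right)
    exact ((((continuous_pd hV a).mul hf.continuous).sub (continuous_pd hf a)).mul
      hg.continuous).mul hE.continuous
  have h4 : ∫ x, (f x * pd a g x * Real.exp (-V x) -
      (pd a V x * f x - pd a f x) * g x * Real.exp (-V x)) = 0 := by
    rw [← h2]
    exact integral_congr_ae (Eventually.of_forall fun x => (h3 x).symm)
  rw [integral_sub i1 i2] at h4
  linarith

theorem continuous_hess {V : E n → ℝ} (hV : ContDiff ℝ 2 V) (a b : Fin n) :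
    Continuous (fun x => hess V x a b) :=
  continuous_pd (contDiff_pd hV b) a

/-- polarised flat Bochner identity, `C²` fields -/
theorem flat_smooth {V : E n → ℝ} (hV : ContDiff ℝ 2 V) {w w' : Fin n → E n → ℝ}
    (hw : ∀ b, ContDiff ℝ 2 (w b)) (hwc : ∀ b, HasCompactSupport (w b))
    (hw' : ∀ b, ContDiff ℝ 2 (w' b)) (hwc' : ∀ b, HasCompactSupport (w' b)) :
    ∫ x, (∑ a, (pd a V x * w a x - pd a (w a) x)) * (∑ b, (pd b V x * w' b x - pd b (w' b) x)) *
        Real.exp (-V x) =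
      ∫ x, ((∑ a, ∑ b, hess V x a b * w a x * w' b x) +
        ∑ a, ∑ b, pd b (w a) x * pd a (w' b) x) * Real.exp (-V x) := by
  have hV1 : ContDiff ℝ 1 V := hV.of_le (by norm_num)
  have hw1 : ∀ b, ContDiff ℝ 1 (w b) := fun b => (hw b).of_le (by norm_num)
  have hw1' : ∀ b, ContDiff ℝ 1 (w' b) := fun b => (hw' b).of_le (by norm_num)
  have hE : Continuous (fun z => Real.exp (-V z)) := (hV1.neg.exp).continuous
  have hi : ∀ u : E n → ℝ, Continuous u → HasCompactSupport u → Integrable u :=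
    fun u hu hc => hu.integrable_of_hasCompactSupport hc
  have hpw : ∀ a b, HasCompactSupport (pd b (w a)) :=
    fun a b => (hwc a).fderiv_apply (𝕜 := ℝ) (ei b)
  let δ : E n → ℝ := fun x => ∑ b, (pd b V x * w' b x - pd b (w' b) x)
  have hδt : ∀ b, ContDiff ℝ 1 (fun x => pd b V x * w' b x - pd b (w' b) x) := fun b =>
    ((contDiff_pd hV b).mul (hw1' b)).sub (contDiff_pd (hw' b) b)
  have hδ : ContDiff ℝ 1 δ := ContDiff.sum fun b _ => hδt b
  have hpδ : ∀ a x, pd a δ x = ∑ b, (hess V x a b * w' b x + pd b V x * pd a (w' b) x -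
      pd a (pd b (w' b)) x) := by
    intro a x
    change pd a (fun x => ∑ b, (pd b V x * w' b x - pd b (w' b) x)) x = _
    rw [pd_sum Finset.univ (fun b _ => hδt b)]
    refine Finset.sum_congr rfl fun b _ => ?_
    rw [pd_sub ((contDiff_pd hV b).mul (hw1' b)) (contDiff_pd (hw' b) b),
      pd_mul (contDiff_pd hV b) (hw1' b)]
    rfl
  -- left-hand side
  have hL : ∫ x, (∑ a, (pd a V x * w a x - pd a (w a) x)) * δ x * Real.exp (-V x) =
      ∑ a, ∑ b, ∫ x, w a x * (hess V x a b * w' b x + pd b V x * pd a (w' b) x -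
        pd a (pd b (w' b)) x) * Real.exp (-V x) := by
    have h1 : ∀ x, (∑ a, (pd a V x * w a x - pd a (w a) x)) * δ x * Real.exp (-V x) =
        ∑ a, (pd a V x * w a x - pd a (w a) x) * δ x * Real.exp (-V x) := by
      intro x
      rw [Finset.sum_mul, Finset.sum_mul]
    simp only [h1]
    rw [integral_finset_sum]
    · refine Finset.sum_congr rfl fun a _ => ?_
      rw [ibp hV1 (hw1 a) (hwc a) hδ a]
      have h2 : ∀ x, w a x * pd a δ x * Real.exp (-V x) =
          ∑ b, w a x * (hess V x a b * w' b x + pd b V x * pd a (w' b) x -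
            pd a (pd b (w' b)) x) * Real.exp (-V x) := by
        intro x
        rw [hpδ, Finset.mul_sum, Finset.sum_mul]
      simp only [h2]
      rw [integral_finset_sum]
      intro b _
      refine hi _ ?_ ((hwc a).mul_right.mul_right)
      refine ((hw1 a).continuous.mul ?_).mul hE
      exact (((continuous_hess hV a b).mul (hw1' b).continuous).add
        ((continuous_pd hV1 b).mul (continuous_pd (hw1' b) a))).sub
        (continuous_pd (contDiff_pd (hw' b) b) a)
    · intro a _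
      refine hi _ ?_ ?_
      · exact ((((continuous_pd hV1 a).mul (hw1 a).continuous).sub
          (continuous_pd (hw1 a) a)).mul hδ.continuous).mul hE
      · exact (((hwc a).mul_left).sub (hpw a a)).mul_right.mul_right
  -- right-hand side
  have hR : ∫ x, ((∑ a, ∑ b, hess V x a b * w a x * w' b x) +
        ∑ a, ∑ b, pd b (w a) x * pd a (w' b) x) * Real.exp (-V x) =
      ∑ a, ∑ b, ∫ x, (hess V x a b * w a x * w' b x + pd b (w a) x * pd a (w' b) x) *
        Real.exp (-V x) := by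
    have h1 : ∀ x, ((∑ a, ∑ b, hess V x a b * w a x * w' b x) +
        ∑ a, ∑ b, pd b (w a) x * pd a (w' b) x) * Real.exp (-V x) =
        ∑ a, ∑ b, (hess V x a b * w a x * w' b x + pd b (w a) x * pd a (w' b) x) *
        Real.exp (-V x) := by
      intro x
      simp only [Finset.sum_add_distrib, add_mul, Finset.sum_mul]
    simp only [h1]
    have h2 : ∀ a b, Integrable (fun x => (hess V x a b * w a x * w' b x +
        pd b (w a) x * pd a (w' b) x) * Real.exp (-V x)) := by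
      intro a b
      refine hi _ ?_ ?_
      · exact ((((continuous_hess hV a b).mul (hw1 a).continuous).mul (hw1' b).continuous).add
          ((continuous_pd (hw1 a) b).mul (continuous_pd (hw1' b) a))).mul hE
      · exact (((hwc a).mul_left.mul_right).add ((hpw a b).mul_right)).mul_right
    rw [integral_finset_sum _ fun a _ => integrable_finset_sum _ fun b _ => h2 a b]
    refine Finset.sum_congr rfl fun a _ => ?_
    rw [integral_finset_sum _ fun b _ => h2 a b]
  change ∫ x, (∑ a, (pd a V x * w a x - pd a (w a) x)) * δ x * Real.exp (-V x) = _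
  rw [hL, hR]
  refine Finset.sum_congr rfl fun a _ => Finset.sum_congr rfl fun b _ => ?_
  have h5 := ibp hV1 (hw1 a) (hwc a) (contDiff_pd (hw' b) a) b
  have i1 : Integrable (fun x => (pd b V x * w a x - pd b (w a) x) * pd a (w' b) x *
      Real.exp (-V x)) := by
    refine hi _ ?_ (((hwc a).mul_left.sub (hpw a b)).mul_right.mul_right)
    exact ((((continuous_pd hV1 b).mul (hw1 a).continuous).sub
      (continuous_pd (hw1 a) b)).mul (continuous_pd (hw1' b) a)).mul hE
  have i2 : Integrable (fun x => w a x * pd b (pd a (w' b)) x * Real.exp (-V x)) := by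
    refine hi _ ?_ ((hwc a).mul_right.mul_right)
    exact ((hw1 a).continuous.mul (continuous_pd (contDiff_pd (hw' b) a) b)).mul hE
  have i3 : Integrable (fun x => (hess V x a b * w a x * w' b x + pd b (w a) x * pd a (w' b) x) *
      Real.exp (-V x)) := by
    refine hi _ ?_ ?_
    · exact ((((continuous_hess hV a b).mul (hw1 a).continuous).mul (hw1' b).continuous).add
        ((continuous_pd (hw1 a) b).mul (continuous_pd (hw1' b) a))).mul hE
    · exact (((hwc a).mul_left.mul_right).add ((hpw a b).mul_right)).mul_right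
  have h6 : ∀ x, w a x * (hess V x a b * w' b x + pd b V x * pd a (w' b) x -
        pd a (pd b (w' b)) x) * Real.exp (-V x) =
      ((hess V x a b * w a x * w' b x + pd b (w a) x * pd a (w' b) x) * Real.exp (-V x) +
      (pd b V x * w a x - pd b (w a) x) * pd a (w' b) x * Real.exp (-V x)) -
      w a x * pd b (pd a (w' b)) x * Real.exp (-V x) := by
    intro x
    rw [hess_symm (hw' b) b a x]
    ring
  have i4 : Integrable (fun x => (hess V x a b * w a x * w' b x + pd b (w a) x * pd a (w' b) x) *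
      Real.exp (-V x) +
      (pd b V x * w a x - pd b (w a) x) * pd a (w' b) x * Real.exp (-V x)) := i3.add i1
  simp only [h6]
  rw [integral_sub i4 i2, integral_add i3 i1, h5]
  ring

/-- dominated convergence on a ball -/
theorem tendsto_int {F : ℕ → E n → ℝ} {G : E n → ℝ} {K R : ℝ} (hF : ∀ k, Continuous (F k))
    (hK : ∀ k x, ‖x‖ ≤ R → |F k x| ≤ K) (hz : ∀ k x, R < ‖x‖ → F k x = 0)
    (hlim : ∀ᵐ x, Tendsto (fun k => F k x) atTop (𝓝 (G x))) :
    Tendsto (fun k => ∫ x, F k x) atTop (𝓝 (∫ x, G x)) := by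
  refine tendsto_integral_of_dominated_convergence
    (indicator (closedBall (0 : E n) R) (fun _ => K)) (fun k => (hF k).aestronglyMeasurable)
    ?_ (fun k => Eventually.of_forall fun x => ?_) hlim
  · rw [integrable_indicator_iff measurableSet_closedBall]
    exact integrableOn_const (by exact (isCompact_closedBall (0 : E n) R).measure_lt_top.ne)
  · by_cases hx : ‖x‖ ≤ R
    · rw [indicator_of_mem (by rw [mem_closedBall, dist_zero_right]; exact hx)]
      exact hK k x hx
    · rw [hz k x (not_le.1 hx), norm_zero, indicator_of_notMem]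
      rw [mem_closedBall, dist_zero_right]
      exact hx

theorem lip_support {w : Fin n → E n → ℝ} (hw : ∀ b, ∃ C : ℝ≥0, LipschitzWith C (w b))
    (hwc : ∀ b, HasCompactSupport (w b)) : ∃ (C : ℝ≥0) (R : ℝ), (∀ b, LipschitzWith C (w b)) ∧
      ∀ b x, R < ‖x‖ → w b x = 0 := by
  choose C hC using hw
  have h1 : ∀ b, ∃ R : ℝ, ∀ x, R < ‖x‖ → w b x = 0 := by
    intro b
    obtain ⟨R, hR⟩ := (hwc b).isCompact.isBounded.subset_closedBall (0 : E n)
    refine ⟨R, fun x hx => ?_⟩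
    by_contra hne
    have h2 := hR (subset_tsupport _ (mem_support.2 hne))
    rw [mem_closedBall, dist_zero_right] at h2
    exact absurd h2 (not_le.2 hx)
  choose R hR using h1
  refine ⟨∑ b, C b, ∑ b, |R b|, fun b => ?_, fun b x hx => ?_⟩
  · exact (hC b).weaken (Finset.single_le_sum (f := C) (fun i _ => bot_le) (Finset.mem_univ b))
  · refine hR b x (lt_of_le_of_lt ?_ hx)
    exact (le_abs_self _).trans
      (Finset.single_le_sum (f := fun b => |R b|) (fun i _ => abs_nonneg _) (Finset.mem_univ b))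

/-- polarised flat Bochner identity for Lipschitz fields with compact support -/
theorem flatB {V : E n → ℝ} (hV : ContDiff ℝ 2 V) {w w' : Fin n → E n → ℝ}
    (hw : ∀ b, ∃ C : ℝ≥0, LipschitzWith C (w b)) (hwc : ∀ b, HasCompactSupport (w b))
    (hw' : ∀ b, ∃ C : ℝ≥0, LipschitzWith C (w' b)) (hwc' : ∀ b, HasCompactSupport (w' b)) :
    ∫ x, (∑ a, (pd a V x * w a x - pd a (w a) x)) * (∑ b, (pd b V x * w' b x - pd b (w' b) x)) *
        Real.exp (-V x) =
      ∫ x, ((∑ a, ∑ b, hess V x a b * w a x * w' b x) +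
        ∑ a, ∑ b, pd b (w a) x * pd a (w' b) x) * Real.exp (-V x) := by
  obtain ⟨C₁, R₁, hC₁, hR₁⟩ := lip_support hw hwc
  obtain ⟨C₂, R₂, hC₂, hR₂⟩ := lip_support hw' hwc'
  have hV1 : ContDiff ℝ 1 V := hV.of_le (by norm_num)
  have hE : Continuous (fun z => Real.exp (-V z)) := (hV1.neg.exp).continuous
  let f : ℕ → Fin n → E n → ℝ := fun k b => mol volume k (w b)
  let f' : ℕ → Fin n → E n → ℝ := fun k b => mol volume k (w' b)
  have hf : ∀ k b, ContDiff ℝ ∞ (f k b) := fun k b =>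
    contDiff_mol volume k (hC₁ b).continuous.locallyIntegrable
  have hf' : ∀ k b, ContDiff ℝ ∞ (f' k b) := fun k b =>
    contDiff_mol volume k (hC₂ b).continuous.locallyIntegrable
  have hf2 : ∀ k b, ContDiff ℝ 2 (f k b) := fun k b => contDiff_infty.1 (hf k b) 2
  have hf2' : ∀ k b, ContDiff ℝ 2 (f' k b) := fun k b => contDiff_infty.1 (hf' k b) 2
  have hf1 : ∀ k b, ContDiff ℝ 1 (f k b) := fun k b => (hf2 k b).of_le (by norm_num)
  have hf1' : ∀ k b, ContDiff ℝ 1 (f' k b) := fun k b => (hf2' k b).of_le (by norm_num)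
  have hfc : ∀ k b, HasCompactSupport (f k b) := fun k b =>
    hasCompactSupport_mol volume k (hR₁ b)
  have hfc' : ∀ k b, HasCompactSupport (f' k b) := fun k b =>
    hasCompactSupport_mol volume k (hR₂ b)
  have key : ∀ k, _ := fun k => flat_smooth hV (hf2 k) (hfc k) (hf2' k) (hfc' k)
  -- radius and bounds
  set R : ℝ := |R₁| + |R₂| + 2 with hRdef
  have hzf : ∀ k b x, R < ‖x‖ → f k b x = 0 := fun k b x hx =>
    mol_eq_zero volume k (hR₁ b) x (by
      have h1 := le_abs_self R₁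
      have h2 := abs_nonneg R₂
      linarith)
  have hzf' : ∀ k b x, R < ‖x‖ → f' k b x = 0 := fun k b x hx =>
    mol_eq_zero volume k (hR₂ b) x (by
      have h1 := le_abs_self R₂
      have h2 := abs_nonneg R₁
      linarith)
  have hzp : ∀ {g : E n → ℝ} (a : Fin n), (∀ x, R < ‖x‖ → g x = 0) →
      ∀ x, R < ‖x‖ → pd a g x = 0 := by
    intro g a hg x hx
    have h1 : g =ᶠ[𝓝 x] fun _ => 0 := by
      have h2 : {y : E n | R < ‖y‖} ∈ 𝓝 x :=
        (isOpen_lt continuous_const continuous_norm).mem_nhds hx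
      filter_upwards [h2] with y hy
      exact hg y hy
    unfold pd
    rw [h1.fderiv_eq]
    simp
  let T : E n → ℝ := fun x => (∑ a, |pd a V x|) + (∑ a, ∑ b, |hess V x a b|) + Real.exp (-V x) +
    (∑ a, |w a x|) + ∑ a, |w' a x|
  have hT : Continuous T := by
    refine (((Continuous.add ?_ ?_).add hE).add ?_).add ?_
    · exact continuous_finset_sum _ fun a _ => (continuous_pd hV1 a).abs
    · exact continuous_finset_sum _ fun a _ => continuous_finset_sum _ fun b _ =>
        (continuous_hess hV a b).abs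
    · exact continuous_finset_sum _ fun a _ => (hC₁ a).continuous.abs
    · exact continuous_finset_sum _ fun a _ => (hC₂ a).continuous.abs
  obtain ⟨M₀, hM₀⟩ := (isCompact_closedBall (0 : E n) R).exists_bound_of_continuousOn
    hT.continuousOn
  set M : ℝ := |M₀| + 2 * C₁ + 2 * C₂ + 1 with hMdef
  have hC₁0 : (0 : ℝ) ≤ C₁ := C₁.2
  have hC₂0 : (0 : ℝ) ≤ C₂ := C₂.2
  have hM1 : 1 ≤ M := by
    have := abs_nonneg M₀
    linarith
  have hM0 : 0 ≤ M := by linarith
  have hTM : ∀ x : E n, ‖x‖ ≤ R → T x ≤ |M₀| := by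
    intro x hx
    have h1 := hM₀ x (by rw [mem_closedBall, dist_zero_right]; exact hx)
    exact (le_abs_self _).trans (h1.trans (le_abs_self _))
  have n1 : ∀ x, 0 ≤ ∑ a, |pd a V x| := fun x => Finset.sum_nonneg fun a _ => abs_nonneg _
  have n2 : ∀ x, 0 ≤ ∑ a, ∑ b, |hess V x a b| := fun x =>
    Finset.sum_nonneg fun a _ => Finset.sum_nonneg fun b _ => abs_nonneg _
  have n3 : ∀ x, 0 ≤ ∑ a, |w a x| := fun x => Finset.sum_nonneg fun a _ => abs_nonneg _
  have n4 : ∀ x, 0 ≤ ∑ a, |w' a x| := fun x => Finset.sum_nonneg fun a _ => abs_nonneg _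
  have bV : ∀ a x, ‖x‖ ≤ R → |pd a V x| ≤ M := by
    intro a x hx
    have h1 := hTM x hx
    have h2 : |pd a V x| ≤ ∑ a, |pd a V x| :=
      Finset.single_le_sum (f := fun a => |pd a V x|) (fun i _ => abs_nonneg _) (Finset.mem_univ a)
    have h3 := n2 x
    have h4 := n3 x
    have h5 := n4 x
    have h6 := (Real.exp_pos (-V x)).le
    simp only [T] at h1
    linarith
  have bH : ∀ a b x, ‖x‖ ≤ R → |hess V x a b| ≤ M := by
    intro a b x hx
    have h1 := hTM x hx
    have h2 : |hess V x a b| ≤ ∑ b, |hess V x a b| :=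
      Finset.single_le_sum (f := fun b => |hess V x a b|) (fun i _ => abs_nonneg _)
        (Finset.mem_univ b)
    have h2' : ∑ b, |hess V x a b| ≤ ∑ a, ∑ b, |hess V x a b| :=
      Finset.single_le_sum (f := fun a => ∑ b, |hess V x a b|)
        (fun i _ => Finset.sum_nonneg fun b _ => abs_nonneg _) (Finset.mem_univ a)
    have h3 := n1 x
    have h4 := n3 x
    have h5 := n4 x
    have h6 := (Real.exp_pos (-V x)).le
    simp only [T] at h1
    linarith
  have bE : ∀ x, ‖x‖ ≤ R → |Real.exp (-V x)| ≤ M := by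
    intro x hx
    have h1 := hTM x hx
    have h2 := n2 x
    have h3 := n1 x
    have h4 := n3 x
    have h5 := n4 x
    rw [abs_of_pos (Real.exp_pos _)]
    simp only [T] at h1
    linarith
  have bd2 : ∀ k : ℕ, 2 / ((k : ℝ) + 1) ≤ 2 := fun k => bp_rOut_le (E := E n) k
  have bw : ∀ k a x, ‖x‖ ≤ R → |f k a x| ≤ M := by
    intro k a x hx
    have h1 := hTM x hx
    have h2 : |w a x| ≤ ∑ a, |w a x| :=
      Finset.single_le_sum (f := fun a => |w a x|) (fun i _ => abs_nonneg _) (Finset.mem_univ a)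
    have h3 := n1 x
    have h4 := n2 x
    have h5 := n4 x
    have h6 := (Real.exp_pos (-V x)).le
    have h7 := dist_mol_le volume k (hC₁ a) x
    have h8 : |f k a x| ≤ |w a x| + C₁ * 2 := by
      have h9 : |f k a x - w a x| ≤ C₁ * 2 := by
        rw [← Real.dist_eq]
        exact h7.trans (mul_le_mul_of_nonneg_left (bd2 k) hC₁0)
      have h10 := abs_sub_abs_le_abs_sub (f k a x) (w a x)
      linarith
    simp only [T] at h1
    linarith
  have bw' : ∀ k a x, ‖x‖ ≤ R → |f' k a x| ≤ M := by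
    intro k a x hx
    have h1 := hTM x hx
    have h2 : |w' a x| ≤ ∑ a, |w' a x| :=
      Finset.single_le_sum (f := fun a => |w' a x|) (fun i _ => abs_nonneg _) (Finset.mem_univ a)
    have h3 := n1 x
    have h4 := n2 x
    have h5 := n3 x
    have h6 := (Real.exp_pos (-V x)).le
    have h7 := dist_mol_le volume k (hC₂ a) x
    have h8 : |f' k a x| ≤ |w' a x| + C₂ * 2 := by
      have h9 : |f' k a x - w' a x| ≤ C₂ * 2 := by
        rw [← Real.dist_eq]
        exact h7.trans (mul_le_mul_of_nonneg_left (bd2 k) hC₂0)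
      have h10 := abs_sub_abs_le_abs_sub (f' k a x) (w' a x)
      linarith
    simp only [T] at h1
    linarith
  have hei : ∀ a : Fin n, ‖(ei a : E n)‖ = 1 := fun a => by simp [ei]
  have bp1 : ∀ k a b x, |pd a (f k b) x| ≤ M := by
    intro k a b x
    unfold pd
    have h1 := (fderiv ℝ (f k b) x).le_opNorm (ei a)
    rw [hei, mul_one] at h1
    have h2 := norm_fderiv_mol_le volume k (hC₁ b) x
    have h3 := abs_nonneg M₀
    rw [← Real.norm_eq_abs]
    refine h1.trans (h2.trans ?_)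
    linarith
  have bp2 : ∀ k a b x, |pd a (f' k b) x| ≤ M := by
    intro k a b x
    unfold pd
    have h1 := (fderiv ℝ (f' k b) x).le_opNorm (ei a)
    rw [hei, mul_one] at h1
    have h2 := norm_fderiv_mol_le volume k (hC₂ b) x
    have h3 := abs_nonneg M₀
    rw [← Real.norm_eq_abs]
    refine h1.trans (h2.trans ?_)
    linarith
  -- pointwise limits
  have lw : ∀ a x, Tendsto (fun k => f k a x) atTop (𝓝 (w a x)) := fun a x =>
    tendsto_mol volume (hC₁ a).continuous x
  have lw' : ∀ a x, Tendsto (fun k => f' k a x) atTop (𝓝 (w' a x)) := fun a x =>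
    tendsto_mol volume (hC₂ a).continuous x
  have lp : ∀ᵐ x : E n, ∀ a b, Tendsto (fun k => pd a (f k b) x) atTop (𝓝 (pd a (w b) x)) := by
    rw [ae_all_iff]
    intro a
    rw [ae_all_iff]
    intro b
    filter_upwards [ae_tendsto_fderiv_mol volume (hC₁ b)] with x hx
    exact (((ContinuousLinearMap.apply ℝ ℝ (ei a : E n)).continuous.tendsto _).comp hx)
  have lp' : ∀ᵐ x : E n, ∀ a b, Tendsto (fun k => pd a (f' k b) x) atTop (𝓝 (pd a (w' b) x)) := by
    rw [ae_all_iff]
    intro a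
    rw [ae_all_iff]
    intro b
    filter_upwards [ae_tendsto_fderiv_mol volume (hC₂ b)] with x hx
    exact (((ContinuousLinearMap.apply ℝ ℝ (ei a : E n)).continuous.tendsto _).comp hx)
  have bsum : ∀ (g : Fin n → ℝ) (B : ℝ), (∀ a, |g a| ≤ B) → |∑ a, g a| ≤ n * B := by
    intro g B hg
    refine (Finset.abs_sum_le_sum_abs _ _).trans ?_
    refine (Finset.sum_le_sum fun a _ => hg a).trans ?_
    rw [Finset.sum_const, Finset.card_univ, Fintype.card_fin, nsmul_eq_mul]
  -- left-hand side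
  have tL := tendsto_int (n := n) (R := R) (K := (n * (M * M + M)) * (n * (M * M + M)) * M)
    (F := fun k x => (∑ a, (pd a V x * f k a x - pd a (f k a) x)) *
      (∑ b, (pd b V x * f' k b x - pd b (f' k b) x)) * Real.exp (-V x))
    (G := fun x => (∑ a, (pd a V x * w a x - pd a (w a) x)) *
      (∑ b, (pd b V x * w' b x - pd b (w' b) x)) * Real.exp (-V x))
    (by
      intro k
      refine (Continuous.mul ?_ ?_).mul hE
      · exact continuous_finset_sum _ fun a _ => ((continuous_pd hV1 a).mul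
          (hf1 k a).continuous).sub (continuous_pd (hf1 k a) a)
      · exact continuous_finset_sum _ fun a _ => ((continuous_pd hV1 a).mul
          (hf1' k a).continuous).sub (continuous_pd (hf1' k a) a))
    (by
      intro k x hx
      rw [abs_mul, abs_mul]
      have h1 : |∑ a, (pd a V x * f k a x - pd a (f k a) x)| ≤ n * (M * M + M) := by
        refine bsum _ _ fun a => ?_
        refine (abs_sub _ _).trans ?_
        rw [abs_mul]
        exact add_le_add (mul_le_mul (bV a x hx) (bw k a x hx) (abs_nonneg _) hM0) (bp1 k a a x)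
      have h2 : |∑ b, (pd b V x * f' k b x - pd b (f' k b) x)| ≤ n * (M * M + M) := by
        refine bsum _ _ fun a => ?_
        refine (abs_sub _ _).trans ?_
        rw [abs_mul]
        exact add_le_add (mul_le_mul (bV a x hx) (bw' k a x hx) (abs_nonneg _) hM0) (bp2 k a a x)
      exact mul_le_mul (mul_le_mul h1 h2 (abs_nonneg _) ((abs_nonneg _).trans h1)) (bE x hx)
        (abs_nonneg _) (mul_nonneg ((abs_nonneg _).trans h1) ((abs_nonneg _).trans h2)))
    (by
      intro k x hx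
      have h1 : ∑ a, (pd a V x * f k a x - pd a (f k a) x) = 0 := by
        refine Finset.sum_eq_zero fun a _ => ?_
        rw [hzf k a x hx, hzp a (hzf k a) x hx]
        ring
      simp only [h1, zero_mul])
    (by
      filter_upwards [lp, lp'] with x hx hx'
      refine (Tendsto.mul ?_ ?_).mul tendsto_const_nhds
      · exact tendsto_finset_sum _ fun a _ => ((lw a x).const_mul _).sub (hx a a)
      · exact tendsto_finset_sum _ fun a _ => ((lw' a x).const_mul _).sub (hx' a a))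
  have tR := tendsto_int (n := n) (R := R) (K := (n * (n * (M * M * M)) + n * (n * (M * M))) * M)
    (F := fun k x => ((∑ a, ∑ b, hess V x a b * f k a x * f' k b x) +
        ∑ a, ∑ b, pd b (f k a) x * pd a (f' k b) x) * Real.exp (-V x))
    (G := fun x => ((∑ a, ∑ b, hess V x a b * w a x * w' b x) +
        ∑ a, ∑ b, pd b (w a) x * pd a (w' b) x) * Real.exp (-V x))
    (by
      intro k
      refine (Continuous.add ?_ ?_).mul hE
      · exact continuous_finset_sum _ fun a _ => continuous_finset_sum _ fun b _ =>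
          ((continuous_hess hV a b).mul (hf1 k a).continuous).mul (hf1' k b).continuous
      · exact continuous_finset_sum _ fun a _ => continuous_finset_sum _ fun b _ =>
          (continuous_pd (hf1 k a) b).mul (continuous_pd (hf1' k b) a))
    (by
      intro k x hx
      rw [abs_mul]
      have h1 : |∑ a, ∑ b, hess V x a b * f k a x * f' k b x| ≤ n * (n * (M * M * M)) := by
        refine bsum _ _ fun a => bsum _ _ fun b => ?_
        rw [abs_mul, abs_mul]
        exact mul_le_mul (mul_le_mul (bH a b x hx) (bw k a x hx) (abs_nonneg _) hM0)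
          (bw' k b x hx) (abs_nonneg _) (mul_nonneg hM0 hM0)
      have h2 : |∑ a, ∑ b, pd b (f k a) x * pd a (f' k b) x| ≤ n * (n * (M * M)) := by
        refine bsum _ _ fun a => bsum _ _ fun b => ?_
        rw [abs_mul]
        exact mul_le_mul (bp1 k b a x) (bp2 k a b x) (abs_nonneg _) hM0
      refine mul_le_mul ((abs_add_le _ _).trans (add_le_add h1 h2)) (bE x hx) (abs_nonneg _) ?_
      exact add_nonneg ((abs_nonneg _).trans h1) ((abs_nonneg _).trans h2))
    (by
      intro k x hx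
      have h1 : ∑ a, ∑ b, hess V x a b * f k a x * f' k b x = 0 := by
        refine Finset.sum_eq_zero fun a _ => Finset.sum_eq_zero fun b _ => ?_
        rw [hzf k a x hx]
        ring
      have h2 : ∑ a, ∑ b, pd b (f k a) x * pd a (f' k b) x = 0 := by
        refine Finset.sum_eq_zero fun a _ => Finset.sum_eq_zero fun b _ => ?_
        rw [hzp b (hzf k a) x hx]
        ring
      simp only [h1, h2, zero_mul, add_zero])
    (by
      filter_upwards [lp, lp'] with x hx hx'
      refine (Tendsto.add ?_ ?_).mul tendsto_const_nhds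
      · exact tendsto_finset_sum _ fun a _ => tendsto_finset_sum _ fun b _ =>
          ((lw a x).const_mul _).mul (lw' b x)
      · exact tendsto_finset_sum _ fun a _ => tendsto_finset_sum _ fun b _ =>
          (hx b a).mul (hx' a b))
  refine tendsto_nhds_unique tL (tR.congr fun k => ?_)
  exact (key k).symm

/-- flat Bochner identity for a Lipschitz field with compact support -/
theorem flatB_sq {V : E n → ℝ} (hV : ContDiff ℝ 2 V) {w : Fin n → E n → ℝ}
    (hw : ∀ b, ∃ C : ℝ≥0, LipschitzWith C (w b)) (hwc : ∀ b, HasCompactSupport (w b)) :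
    ∫ x, (∑ a, (pd a V x * w a x - pd a (w a) x)) ^ 2 * Real.exp (-V x) =
      ∫ x, ((∑ a, ∑ b, hess V x a b * w a x * w b x) +
        ∑ a, ∑ b, pd b (w a) x * pd a (w b) x) * Real.exp (-V x) := by
  rw [← flatB hV hw hwc hw hwc]
  refine integral_congr_ae (Eventually.of_forall fun x => ?_)
  simp only [sq]

end Vale.Agent.P227.M.FlatB
end

section

/-! # P227/M/ID/K : the two commutation lemmas -/

open MeasureTheory Filter Topology Set Metric
open scoped NNReal ENNReal ContDiff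

namespace Vale.Agent.P227.M.K814

variable {n : ℕ} {ψ V : E n → ℝ} {c C M : ℝ}

/-- `D_a f = ∑ τ_ab ∂_b f` -/
noncomputable def Dd (ψ : E n → ℝ) (a : Fin n) (f : E n → ℝ) (x : E n) : ℝ :=
  ∑ b, tau ψ x a b * pd b f x

theorem ll_tau (h : MM ψ V c C M) (a b : Fin n) : LocallyLipschitz (fun x => tau ψ x a b) :=
  (rad_lipw fun x y => rad_tau_lip h x y a b).locallyLipschitz

theorem bd_Dd (h : MM ψ V c C M) {f : E n → ℝ} (hf : LocallyLipschitz f) (a : Fin n) :
    Bd (Dd ψ a f) :=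
  Bd.sum _ fun b _ => (Bd.of_ll (ll_tau h a b)).mul (Bd.pd hf b)

theorem ci_Dd (h : MM ψ V c C M) {f : E n → ℝ} (hf : LC f) (a : Fin n) : CI (Dd ψ a f) :=
  CI.sum _ fun b _ => CI.mul_left (Bd.of_ll (ll_tau h a b)) (CI.pd hf b)

/-- integral of a divergence, one direction -/
theorem div1 (hV : ContDiff ℝ 1 V) {g G : E n → ℝ} (hg : LC g) (a : Fin n)
    (hG : ∀ᵐ x, G x = pd a g x - pd a V x * g x) : I V G = 0 := by
  have hVa : Continuous (pd a V) := FlatB.continuous_pd hV a
  rw [I_congr hG, I_sub hV.continuous (CI.pd hg a) (CI.mul_left (Bd.of_cont hVa) (CI.of_lc hg)),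
    ibp hV hg a, sub_self]

/-- integral of a divergence -/
theorem divsum (hV : ContDiff ℝ 1 V) {g : Fin n → E n → ℝ} {G : E n → ℝ} (hg : ∀ b, LC (g b))
    (hG : ∀ᵐ x, G x = ∑ b, (pd b (g b) x - pd b V x * g b x)) : I V G = 0 := by
  have hVa : ∀ a, Continuous (pd a V) := FlatB.continuous_pd hV
  rw [I_congr hG, I_sum _ hV.continuous fun b _ =>
    (CI.pd (hg b) b).sub (CI.mul_left (Bd.of_cont (hVa b)) (CI.of_lc (hg b)))]
  exact Finset.sum_eq_zero fun b _ => div1 hV (hg b) b (Eventually.of_forall fun x => rfl)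

/-- `E D_a f = E x_a f` -/
theorem core (hV : ContDiff ℝ 1 V) (h : MM ψ V c C M) {f G : E n → ℝ} (hf : LC f) (a : Fin n)
    (hG : ∀ᵐ x, G x = Dd ψ a f x - x a * f x) : I V G = 0 := by
  refine divsum hV (g := fun b x => tau ψ x a b * f x) (fun b => LC.mul_left (ll_tau h a b) hf) ?_
  filter_upwards [hG, hf.ae_diff, rad_good h] with x hx hfx hgx
  rw [hx]
  have hd := rad_div h hgx a
  have e1 : ∀ b, pd b (fun y => tau ψ y a b * f y) x =
      pd b (fun y => tau ψ y b a) x * f x + tau ψ x a b * pd b f x := by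
    intro b
    rw [Vale.Agent.P227.M.rpd_mul (hgx.2 a b) hfx]
    have : (fun y => tau ψ y a b) = fun y => tau ψ y b a := by
      funext y; exact rad_tau_symm h y a b
    rw [this]
  simp only [e1]
  have e2 : ∀ b, pd b (fun y => tau ψ y b a) x * f x + tau ψ x a b * pd b f x -
      pd b V x * (tau ψ x a b * f x) = tau ψ x a b * pd b f x +
      (pd b (fun y => tau ψ y b a) x - tau ψ x b a * pd b V x) * f x := by
    intro b; rw [rad_tau_symm h x a b]; ring
  simp only [e2]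
  rw [Finset.sum_add_distrib, ← Finset.sum_mul, hd]
  unfold Dd
  ring

/-- `∫ ∂_a P (∂_e Q - V_e Q) e^{-V} = ∫ ∂_e P (∂_a Q - V_a Q) e^{-V}` -/
theorem swapI (hV : ContDiff ℝ 1 V) {P Q : E n → ℝ} (hP : LC P) (hQ : LC Q) (a e : Fin n) :
    I V (fun x => pd a P x * (pd e Q x - pd e V x * Q x)) =
      I V (fun x => pd e P x * (pd a Q x - pd a V x * Q x)) := by
  obtain ⟨K, hK⟩ := hP.lip
  have hE : LocallyLipschitz (fun x => Real.exp (-V x)) := ll_of_contDiff (by fun_prop)
  have hΦ : LC (fun x => Q x * Real.exp (-V x)) := hQ.mul_right hE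
  obtain ⟨K', hK'⟩ := hΦ.lip
  have key := Tool.swap_fderiv (μ := (volume : Measure (E n))) hK hK' hΦ.2 (ei a) (ei e)
  have hVd : ∀ x, DifferentiableAt ℝ V x := fun x => (hV.differentiable (by simp)).differentiableAt
  have hpd : ∀ (i : Fin n) (x : E n), DifferentiableAt ℝ Q x →
      fderiv ℝ (fun x => Q x * Real.exp (-V x)) x (ei i) =
        (pd i Q x - pd i V x * Q x) * Real.exp (-V x) := by
    intro i x hQx
    have h1 : HasFDerivAt (fun x => Real.exp (-V x)) (Real.exp (-V x) • (-(fderiv ℝ V x))) x :=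
      ((hVd x).hasFDerivAt.neg).exp
    rw [(hQx.hasFDerivAt.fun_mul h1).fderiv]
    simp only [pd, add_apply, smul_apply, neg_apply, smul_eq_mul]
    ring
  have e1 : ∀ i j : Fin n, ∫ x, fderiv ℝ P x (ei i) * fderiv ℝ (fun x => Q x * Real.exp (-V x)) x (ei j) =
      I V (fun x => pd i P x * (pd j Q x - pd j V x * Q x)) := by
    intro i j
    unfold I
    refine integral_congr_ae ?_
    filter_upwards [hQ.ae_diff] with x hx
    rw [hpd j x hx]
    simp only [pd]; ring
  rw [← e1 a e, ← e1 e a]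
  exact key

/-- commutation lemma 1 -/
theorem L1 (hV : ContDiff ℝ 2 V) (h : MM ψ V c C M) {P Q : E n → ℝ} (hP : LC P) (hQ : LC Q)
    (a d : Fin n) :
    I V (fun x => Dd ψ d (pd a V) x * P x * Q x + Dd ψ d P x * pd a Q x
      + (∑ e, pd a (fun y => tau ψ y d e) x * pd e P x * Q x)
      - (x d * Q x - Dd ψ d Q x) * (pd a V x * P x - pd a P x)) = 0 := by
  have hV1 : ContDiff ℝ 1 V := hV.of_le (by norm_num)
  have hVa : ContDiff ℝ 1 (pd a V) := FlatB.contDiff_pd hV a
  have hVll : LocallyLipschitz (pd a V) := ll_of_contDiff hVa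
  have hVc := hV1.continuous
  -- the divergence part
  have hg : LC (fun x => pd a V x * (P x * Q x)) := LC.mul_left hVll (hP.mul_right hQ.1)
  have hA : I V (fun x => Dd ψ d (fun y => pd a V y * (P y * Q y)) x - x d * (pd a V x * (P x * Q x))) = 0 :=
    core hV1 h hg d (Eventually.of_forall fun x => rfl)
  -- the swap part
  have hQe : ∀ e, LC (fun x => tau ψ x d e * Q x) := fun e => LC.mul_left (ll_tau h d e) hQ
  have hVcont : ∀ e, Continuous (pd e V) := FlatB.continuous_pd hV1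
  have hCI : ∀ e i j, CI (fun x => pd i P x * (pd j (fun y => tau ψ y d e * Q y) x
      - pd j V x * (tau ψ x d e * Q x))) := fun e i j =>
    CI.mul_left (Bd.pd hP.1 i) ((CI.pd (hQe e) j).sub
      (CI.mul_left (Bd.of_cont (hVcont j)) (CI.of_lc (hQe e))))
  have hB : I V (fun x => ∑ e, (pd e P x * (pd a (fun y => tau ψ y d e * Q y) x
      - pd a V x * (tau ψ x d e * Q x)) - pd a P x * (pd e (fun y => tau ψ y d e * Q y) x
      - pd e V x * (tau ψ x d e * Q x)))) = 0 := by
    rw [I_sum _ hVc fun e _ => (hCI e e a).sub (hCI e a e)]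
    refine Finset.sum_eq_zero fun e _ => ?_
    rw [I_sub hVc (hCI e e a) (hCI e a e), swapI hV1 hP (hQe e) a e, sub_self]
  have hAB : I V (fun x => (Dd ψ d (fun y => pd a V y * (P y * Q y)) x - x d * (pd a V x * (P x * Q x)))
      + ∑ e, (pd e P x * (pd a (fun y => tau ψ y d e * Q y) x
      - pd a V x * (tau ψ x d e * Q x)) - pd a P x * (pd e (fun y => tau ψ y d e * Q y) x
      - pd e V x * (tau ψ x d e * Q x)))) = 0 := by
    rw [I_add hVc ((ci_Dd h hg d).sub (CI.of_lc (LC.mul_left (ll_coord d) hg)))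
      (CI.sum _ fun e _ => (hCI e e a).sub (hCI e a e)), hA, hB, add_zero]
  rw [← hAB]
  refine I_congr ?_
  filter_upwards [hP.ae_diff, hQ.ae_diff, rad_good h] with x hPx hQx hgx
  have hVx : DifferentiableAt ℝ (pd a V) x := (hVa.differentiable (by simp)).differentiableAt
  have hdiv := rad_div h hgx d
  have e1 : ∀ e i, pd i (fun y => tau ψ y d e * Q y) x =
      pd i (fun y => tau ψ y d e) x * Q x + tau ψ x d e * pd i Q x := fun e i =>
    Vale.Agent.P227.M.rpd_mul (hgx.2 d e) hQx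
  have e2 : ∀ i, pd i (fun y => pd a V y * (P y * Q y)) x =
      pd i (pd a V) x * (P x * Q x) + pd a V x * (pd i P x * Q x + P x * pd i Q x) := fun i => by
    rw [Vale.Agent.P227.M.rpd_mul hVx (hPx.fun_mul hQx), Vale.Agent.P227.M.rpd_mul hPx hQx]
  have e3 : ∑ e, (pd e (fun y => tau ψ y d e) x - tau ψ x d e * pd e V x) = - x d := by
    rw [← hdiv]
    refine Finset.sum_congr rfl fun e _ => ?_
    have : (fun y => tau ψ y d e) = fun y => tau ψ y e d := by
      funext y; exact rad_tau_symm h y d e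
    rw [this, rad_tau_symm h x d e]
  have e4 : ∑ e, (pd e P x * (pd a (fun y => tau ψ y d e * Q y) x
      - pd a V x * (tau ψ x d e * Q x)) - pd a P x * (pd e (fun y => tau ψ y d e * Q y) x
      - pd e V x * (tau ψ x d e * Q x))) =
      (∑ e, pd a (fun y => tau ψ y d e) x * pd e P x * Q x) + Dd ψ d P x * pd a Q x
      - pd a V x * Q x * Dd ψ d P x - pd a P x * Dd ψ d Q x
      - pd a P x * Q x * (∑ e, (pd e (fun y => tau ψ y d e) x - tau ψ x d e * pd e V x)) := by
    unfold Dd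
    simp only [e1, Finset.mul_sum, Finset.sum_mul, ← Finset.sum_add_distrib, ← Finset.sum_sub_distrib]
    exact Finset.sum_congr rfl fun e _ => by ring
  rw [e4, e3]
  have e5 : Dd ψ d (fun y => pd a V y * (P y * Q y)) x =
      Dd ψ d (pd a V) x * (P x * Q x) + pd a V x * (Dd ψ d P x * Q x + P x * Dd ψ d Q x) := by
    unfold Dd
    simp only [e2, Finset.mul_sum, Finset.sum_mul, ← Finset.sum_add_distrib]
    exact Finset.sum_congr rfl fun e _ => by ring
  rw [e5]
  ring

/-- commutation lemma 2 -/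
theorem L2 (hV : ContDiff ℝ 2 V) (h : MM ψ V c C M) {P Q : E n → ℝ} (hP : Test P) (hQ : LC Q)
    (a d : Fin n) :
    I V (fun x => (x d * Q x - Dd ψ d Q x) * (x a * P x - Dd ψ a P x)
      - Dd ψ a Q x * Dd ψ d P x - tau ψ x d a * Q x * P x) = 0 := by
  have hV1 : ContDiff ℝ 1 V := hV.of_le (by norm_num)
  have hVc := hV1.continuous
  have hP2 : ContDiff ℝ 2 P := by exact_mod_cast contDiff_infty.1 hP.1 2
  have hPb : ∀ b, ContDiff ℝ 1 (pd b P) := FlatB.contDiff_pd hP2
  have hPlc : LC P := Test.lc hP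
  have hDP : ∀ i, LC (Dd ψ i P) := fun i =>
    LC.sum _ fun b _ => LC.mul_left (ll_tau h i b) ⟨ll_of_contDiff (hPb b), hcs_pd hP.2 b⟩
  have hR : LC (fun x => x a * P x - Dd ψ a P x) := (LC.mul_left (ll_coord a) hPlc).sub (hDP a)
  have hg1 : LC (fun x => Q x * (x a * P x - Dd ψ a P x)) := hQ.mul_right hR.1
  have hg2 : LC (fun x => Q x * Dd ψ d P x) := hQ.mul_right (hDP d).1
  have hA : I V (fun x => Dd ψ d (fun y => Q y * (y a * P y - Dd ψ a P y)) x
      - x d * (Q x * (x a * P x - Dd ψ a P x))) = 0 :=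
    core hV1 h hg1 d (Eventually.of_forall fun x => rfl)
  have hB : I V (fun x => Dd ψ a (fun y => Q y * Dd ψ d P y) x - x a * (Q x * Dd ψ d P x)) = 0 :=
    core hV1 h hg2 a (Eventually.of_forall fun x => rfl)
  have hCA : CI (fun x => Dd ψ d (fun y => Q y * (y a * P y - Dd ψ a P y)) x
      - x d * (Q x * (x a * P x - Dd ψ a P x))) :=
    (ci_Dd h hg1 d).sub (CI.of_lc (LC.mul_left (ll_coord d) hg1))
  have hCB : CI (fun x => Dd ψ a (fun y => Q y * Dd ψ d P y) x - x a * (Q x * Dd ψ d P x)) :=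
    (ci_Dd h hg2 a).sub (CI.of_lc (LC.mul_left (ll_coord a) hg2))
  have hAB : I V (fun x => (Dd ψ d (fun y => Q y * (y a * P y - Dd ψ a P y)) x
      - x d * (Q x * (x a * P x - Dd ψ a P x))) +
      (Dd ψ a (fun y => Q y * Dd ψ d P y) x - x a * (Q x * Dd ψ d P x))) = 0 := by
    rw [I_add hVc hCA hCB, hA, hB, add_zero]
  have hneg : I V (fun x => -((x d * Q x - Dd ψ d Q x) * (x a * P x - Dd ψ a P x)
      - Dd ψ a Q x * Dd ψ d P x - tau ψ x d a * Q x * P x)) = 0 := by
    rw [← hAB]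
    refine I_congr ?_
    filter_upwards [hQ.ae_diff, rad_good h] with x hQx hgx
    have hPx : DifferentiableAt ℝ P x := (hP2.differentiable (by norm_num)).differentiableAt
    have hPbx : ∀ b, DifferentiableAt ℝ (pd b P) x := fun b =>
      ((hPb b).differentiable (by norm_num)).differentiableAt
    have hDPx : ∀ i, DifferentiableAt ℝ (Dd ψ i P) x := fun i => by
      unfold Dd
      exact DifferentiableAt.fun_sum fun b _ => (hgx.2 i b).fun_mul (hPbx b)
    have e0 : ∀ i j, pd j (Dd ψ i P) x =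
        ∑ b, (pd j (fun y => tau ψ y i b) x * pd b P x + tau ψ x i b * pd j (pd b P) x) := by
      intro i j
      unfold Dd
      rw [Vale.Agent.P227.M.rpd_sum fun b _ => (hgx.2 i b).fun_mul (hPbx b)]
      exact Finset.sum_congr rfl fun b _ => Vale.Agent.P227.M.rpd_mul (hgx.2 i b) (hPbx b)
    have comm : ∀ i j, Dd ψ i (Dd ψ j P) x = (∑ b, (∑ e, tau ψ x i e * pd e (fun y => tau ψ y j b) x) * pd b P x)
        + ∑ e, ∑ b, tau ψ x i e * tau ψ x j b * pd e (pd b P) x := by
      intro i j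
      have : Dd ψ i (Dd ψ j P) x = ∑ e, tau ψ x i e * pd e (Dd ψ j P) x := rfl
      rw [this]
      simp only [e0, Finset.mul_sum, Finset.sum_mul]
      rw [Finset.sum_comm (f := fun b e => tau ψ x i e * pd e (fun y => tau ψ y j b) x * pd b P x),
        ← Finset.sum_add_distrib]
      refine Finset.sum_congr rfl fun e _ => ?_
      rw [← Finset.sum_add_distrib]
      exact Finset.sum_congr rfl fun b _ => by ring
    have hcomm : Dd ψ d (Dd ψ a P) x = Dd ψ a (Dd ψ d P) x := by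
      rw [comm, comm]
      congr 1
      · refine Finset.sum_congr rfl fun b _ => ?_
        rw [rad_T h hgx d a b]
      · rw [Finset.sum_comm]
        refine Finset.sum_congr rfl fun b _ => Finset.sum_congr rfl fun e _ => ?_
        rw [FlatB.hess_symm hP2 e b x]; ring
    have hxa : DifferentiableAt ℝ (fun y : E n => y a) x := rad_diff_coord a x
    have e1 : Dd ψ d (fun y => Q y * (y a * P y - Dd ψ a P y)) x =
        Dd ψ d Q x * (x a * P x - Dd ψ a P x) + Q x * (tau ψ x d a * P x + x a * Dd ψ d P x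
          - Dd ψ d (Dd ψ a P) x) := by
      have e2 : ∀ i, pd i (fun y => Q y * (y a * P y - Dd ψ a P y)) x =
          pd i Q x * (x a * P x - Dd ψ a P x) + Q x * (((if a = i then 1 else 0) * P x + x a * pd i P x)
            - pd i (Dd ψ a P) x) := by
        intro i
        rw [Vale.Agent.P227.M.rpd_mul hQx ((hxa.fun_mul hPx).fun_sub (hDPx a)),
          Vale.Agent.P227.M.rpd_sub (hxa.fun_mul hPx) (hDPx a), Vale.Agent.P227.M.rpd_mul hxa hPx,
          Vale.Agent.P227.M.rpd_coord]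
      have e3 : tau ψ x d a = ∑ b, tau ψ x d b * (if a = b then 1 else 0) := by simp
      have e4 : Dd ψ d (fun y => Q y * (y a * P y - Dd ψ a P y)) x =
        ∑ b, tau ψ x d b * pd b (fun y => Q y * (y a * P y - Dd ψ a P y)) x := rfl
      have e5 : Dd ψ d (Dd ψ a P) x = ∑ b, tau ψ x d b * pd b (Dd ψ a P) x := rfl
      have e6 : Dd ψ d P x = ∑ b, tau ψ x d b * pd b P x := rfl
      have e7 : Dd ψ d Q x = ∑ b, tau ψ x d b * pd b Q x := rfl
      rw [e4, e5, e6, e7, e3]
      simp only [e2]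
      generalize (x.ofLp a * P x - Dd ψ a P x) = r
      simp only [Finset.mul_sum, Finset.sum_mul, mul_add, mul_sub, ← Finset.sum_add_distrib,
        ← Finset.sum_sub_distrib]
      exact Finset.sum_congr rfl fun b _ => by ring
    have e8 : Dd ψ a (fun y => Q y * Dd ψ d P y) x = Dd ψ a Q x * Dd ψ d P x + Q x * Dd ψ a (Dd ψ d P) x := by
      have e2 : ∀ i, pd i (fun y => Q y * Dd ψ d P y) x =
          pd i Q x * Dd ψ d P x + Q x * pd i (Dd ψ d P) x := fun i =>
        Vale.Agent.P227.M.rpd_mul hQx (hDPx d)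
      have e4 : Dd ψ a (fun y => Q y * Dd ψ d P y) x =
        ∑ b, tau ψ x a b * pd b (fun y => Q y * Dd ψ d P y) x := rfl
      have e5 : Dd ψ a (Dd ψ d P) x = ∑ b, tau ψ x a b * pd b (Dd ψ d P) x := rfl
      have e7 : Dd ψ a Q x = ∑ b, tau ψ x a b * pd b Q x := rfl
      rw [e4, e5, e7]
      simp only [e2]
      generalize Dd ψ d P x = r
      simp only [Finset.mul_sum, Finset.sum_mul, mul_add, ← Finset.sum_add_distrib]
      exact Finset.sum_congr rfl fun b _ => by ring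
    rw [e1, e8, hcomm]
    ring
  have : I V (fun x => -((x d * Q x - Dd ψ d Q x) * (x a * P x - Dd ψ a P x)
      - Dd ψ a Q x * Dd ψ d P x - tau ψ x d a * Q x * P x)) =
      - I V (fun x => ((x d * Q x - Dd ψ d Q x) * (x a * P x - Dd ψ a P x)
      - Dd ψ a Q x * Dd ψ d P x - tau ψ x d a * Q x * P x)) := by
    unfold I
    rw [← integral_neg]
    congr 1; ext x; ring
  linarith

end Vale.Agent.P227.M.K814
end

section

/-! # P254/S2 (helper232): the static identity with cut-off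

`TF V t` : `t` is a symmetric Lipschitz matrix field with `div_μ t = -x` and `∑ t_de ∂_e t_bk`
totally symmetric.  For a Lipschitz compactly supported `Q`

`∫ (t V'' t)_{ai} Q = ∫ t_{ai} Q - ∫ Q ∑ ∂_c t_ab ∂_b t_ic - ∫ ⟨t ∇ t_ia, ∇ Q⟩`. -/

open MeasureTheory Filter Topology Set Metric
open scoped NNReal ENNReal ContDiff
open Vale.Agent.P227.M Vale.Agent.P227.M.K814

namespace Vale.Agent.P254.SN

variable {n : ℕ} {V : E n → ℝ} {t : E n → Matrix (Fin n) (Fin n) ℝ}

/-- the abstract field -/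
structure TF (V : E n → ℝ) (t : E n → Matrix (Fin n) (Fin n) ℝ) : Prop where
  V2 : ContDiff ℝ 2 V
  lip : ∀ i j, ∃ K : ℝ≥0, LipschitzWith K fun x => t x i j
  symm : ∀ x i j, t x i j = t x j i
  div : ∀ᵐ x, ∀ a, ∑ b, (pd b (fun y => t y a b) x - t x a b * pd b V x) = - x a
  tot : ∀ᵐ x, ∀ d b k, ∑ e, t x d e * pd e (fun z => t z b k) x =
    ∑ e, t x b e * pd e (fun z => t z d k) x

/-- `(t ∇ f)_a` -/
noncomputable def Dt (t : E n → Matrix (Fin n) (Fin n) ℝ) (a : Fin n) (f : E n → ℝ) (x : E n) : ℝ :=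
  ∑ b, t x a b * pd b f x

/-- `∫ ∂_a P (∂_e Q - V_e Q) e^{-V} = ∫ ∂_e P (∂_a Q - V_a Q) e^{-V}` for Lipschitz `P` -/
theorem swapL (hV : ContDiff ℝ 1 V) {P Q : E n → ℝ} {K : ℝ≥0} (hK : LipschitzWith K P) (hQ : LC Q)
    (a e : Fin n) :
    I V (fun x => pd a P x * (pd e Q x - pd e V x * Q x)) =
      I V (fun x => pd e P x * (pd a Q x - pd a V x * Q x)) := by
  have hE : LocallyLipschitz (fun x => Real.exp (-V x)) := ll_of_contDiff (by fun_prop)
  have hΦ : LC (fun x => Q x * Real.exp (-V x)) := hQ.mul_right hE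
  obtain ⟨K', hK'⟩ := hΦ.lip
  have key := Tool.swap_fderiv (μ := (volume : Measure (E n))) hK hK' hΦ.2 (ei a) (ei e)
  have hVd : ∀ x, DifferentiableAt ℝ V x := fun x => (hV.differentiable (by simp)).differentiableAt
  have hpd : ∀ (i : Fin n) (x : E n), DifferentiableAt ℝ Q x →
      fderiv ℝ (fun x => Q x * Real.exp (-V x)) x (ei i) =
        (pd i Q x - pd i V x * Q x) * Real.exp (-V x) := by
    intro i x hQx
    have h1 : HasFDerivAt (fun x => Real.exp (-V x)) (Real.exp (-V x) • (-(fderiv ℝ V x))) x :=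
      ((hVd x).hasFDerivAt.neg).exp
    rw [(hQx.hasFDerivAt.fun_mul h1).fderiv]
    simp only [pd, add_apply, smul_apply, neg_apply, smul_eq_mul]
    ring
  have e1 : ∀ i j : Fin n, ∫ x, fderiv ℝ P x (ei i) * fderiv ℝ (fun x => Q x * Real.exp (-V x)) x (ei j) =
      I V (fun x => pd i P x * (pd j Q x - pd j V x * Q x)) := by
    intro i j
    unfold I
    refine integral_congr_ae ?_
    filter_upwards [hQ.ae_diff] with x hx
    rw [hpd j x hx]
    simp only [pd]; ring
  rw [← e1 a e, ← e1 e a]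
  exact key

section
variable (h : TF V t)
include h

theorem tll (a b : Fin n) : LocallyLipschitz (fun x => t x a b) := by
  obtain ⟨K, hK⟩ := h.lip a b
  exact hK.locallyLipschitz

theorem tae : ∀ᵐ x : E n, ∀ i j, DifferentiableAt ℝ (fun y => t y i j) x := by
  rw [ae_all_iff]
  intro i
  rw [ae_all_iff]
  intro j
  obtain ⟨K, hK⟩ := h.lip i j
  exact hK.ae_differentiableAt

theorem bd_Dt {f : E n → ℝ} (hf : LocallyLipschitz f) (a : Fin n) : Bd (Dt t a f) :=
  Bd.sum _ fun b _ => (Bd.of_ll (tll h a b)).mul (Bd.pd hf b)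

theorem ci_Dt {f : E n → ℝ} (hf : LC f) (a : Fin n) : CI (Dt t a f) :=
  CI.sum _ fun b _ => CI.mul_left (Bd.of_ll (tll h a b)) (CI.pd hf b)

/-- `E D_a f = E x_a f` -/
theorem tcore {f G : E n → ℝ} (hf : LC f) (a : Fin n)
    (hG : ∀ᵐ x, G x = Dt t a f x - x a * f x) : I V G = 0 := by
  have hV1 : ContDiff ℝ 1 V := h.V2.of_le (by norm_num)
  refine divsum hV1 (g := fun b x => t x a b * f x) (fun b => LC.mul_left (tll h a b) hf) ?_
  filter_upwards [hG, hf.ae_diff, tae h, h.div] with x hx hfx hgx hdx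
  rw [hx]
  have hd := hdx a
  have e1 : ∀ b, pd b (fun y => t y a b * f y) x =
      pd b (fun y => t y a b) x * f x + t x a b * pd b f x := fun b =>
    Vale.Agent.P227.M.rpd_mul (hgx a b) hfx
  simp only [e1]
  have e2 : ∀ b, pd b (fun y => t y a b) x * f x + t x a b * pd b f x -
      pd b V x * (t x a b * f x) = t x a b * pd b f x +
      (pd b (fun y => t y a b) x - t x a b * pd b V x) * f x := by
    intro b; ring
  simp only [e2]
  rw [Finset.sum_add_distrib, ← Finset.sum_mul, hd]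
  unfold Dt
  ring

/-- the identity for a pair of indices -/
theorem stat_pair {Q : E n → ℝ} (hQ : LC Q) (a i : Fin n) :
    I V (fun x => (∑ b, ∑ e, t x i e * pd e (pd b V) x * t x a b) * Q x
      + (∑ b, Dt t b (fun y => t y i a) x * pd b Q x)
      + (∑ b, ∑ e, pd b (fun y => t y i e) x * pd e (fun y => t y a b) x) * Q x
      - t x i a * Q x) = 0 := by
  have hV1 : ContDiff ℝ 1 V := h.V2.of_le (by norm_num)
  have hVa : ∀ b, ContDiff ℝ 1 (pd b V) := fun b => FlatB.contDiff_pd h.V2 b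
  have hVll : ∀ b, LocallyLipschitz (pd b V) := fun b => ll_of_contDiff (hVa b)
  have hVc := hV1.continuous
  have hVcont : ∀ e, Continuous (pd e V) := FlatB.continuous_pd hV1
  -- the divergence part
  have hg : ∀ b, LC (fun x => pd b V x * (t x a b * Q x)) := fun b =>
    LC.mul_left (hVll b) (LC.mul_left (tll h a b) hQ)
  have hAc : ∀ b, CI (fun x => Dt t i (fun y => pd b V y * (t y a b * Q y)) x
      - x i * (pd b V x * (t x a b * Q x))) := fun b =>
    (ci_Dt h (hg b) i).sub (CI.of_lc (LC.mul_left (ll_coord i) (hg b)))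
  have hA : ∀ b, I V (fun x => Dt t i (fun y => pd b V y * (t y a b * Q y)) x
      - x i * (pd b V x * (t x a b * Q x))) = 0 := fun b =>
    tcore h (hg b) i (Eventually.of_forall fun x => rfl)
  -- the swap part
  have hQe : ∀ e, LC (fun x => t x i e * Q x) := fun e => LC.mul_left (tll h i e) hQ
  have hCI : ∀ b e p q, CI (fun x => pd p (fun y => t y a b) x * (pd q (fun y => t y i e * Q y) x
      - pd q V x * (t x i e * Q x))) := fun b e p q =>
    CI.mul_left (Bd.pd (tll h a b) p) ((CI.pd (hQe e) q).sub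
      (CI.mul_left (Bd.of_cont (hVcont q)) (CI.of_lc (hQe e))))
  have hBc : ∀ b, CI (fun x => ∑ e, (pd e (fun y => t y a b) x * (pd b (fun y => t y i e * Q y) x
      - pd b V x * (t x i e * Q x)) - pd b (fun y => t y a b) x * (pd e (fun y => t y i e * Q y) x
      - pd e V x * (t x i e * Q x)))) := fun b =>
    CI.sum _ fun e _ => (hCI b e e b).sub (hCI b e b e)
  have hB : ∀ b, I V (fun x => ∑ e, (pd e (fun y => t y a b) x * (pd b (fun y => t y i e * Q y) x
      - pd b V x * (t x i e * Q x)) - pd b (fun y => t y a b) x * (pd e (fun y => t y i e * Q y) x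
      - pd e V x * (t x i e * Q x)))) = 0 := by
    intro b
    obtain ⟨K, hK⟩ := h.lip a b
    rw [I_sum _ hVc fun e _ => (hCI b e e b).sub (hCI b e b e)]
    refine Finset.sum_eq_zero fun e _ => ?_
    rw [I_sub hVc (hCI b e e b) (hCI b e b e), swapL hV1 hK (hQe e) b e, sub_self]
  -- the corrector
  have hx : LC (fun x => x a * Q x) := LC.mul_left (ll_coord a) hQ
  have hCc : CI (fun x => Dt t i (fun y => y a * Q y) x - x i * (x a * Q x)) :=
    (ci_Dt h hx i).sub (CI.of_lc (LC.mul_left (ll_coord i) hx))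
  have hC : I V (fun x => Dt t i (fun y => y a * Q y) x - x i * (x a * Q x)) = 0 :=
    tcore h hx i (Eventually.of_forall fun x => rfl)
  have hAll : I V (fun x => (∑ b, ((Dt t i (fun y => pd b V y * (t y a b * Q y)) x
      - x i * (pd b V x * (t x a b * Q x))) + ∑ e, (pd e (fun y => t y a b) x *
      (pd b (fun y => t y i e * Q y) x
      - pd b V x * (t x i e * Q x)) - pd b (fun y => t y a b) x * (pd e (fun y => t y i e * Q y) x
      - pd e V x * (t x i e * Q x)))))
      - (Dt t i (fun y => y a * Q y) x - x i * (x a * Q x))) = 0 := by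
    rw [I_sub hVc (CI.sum _ fun b _ => (hAc b).add (hBc b)) hCc, hC, sub_zero,
      I_sum _ hVc fun b _ => (hAc b).add (hBc b)]
    refine Finset.sum_eq_zero fun b _ => ?_
    rw [I_add hVc (hAc b) (hBc b), hA b, hB b, add_zero]
  rw [← hAll]
  refine I_congr ?_
  filter_upwards [hQ.ae_diff, tae h, h.div, h.tot] with x hQx hgx hdx htx
  have hVx : ∀ b, DifferentiableAt ℝ (pd b V) x := fun b =>
    ((hVa b).differentiable (by simp)).differentiableAt
  have hxa : DifferentiableAt ℝ (fun y : E n => y a) x := rad_diff_coord a x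
  have e1 : ∀ e p, pd p (fun y => t y i e * Q y) x =
      pd p (fun y => t y i e) x * Q x + t x i e * pd p Q x := fun e p =>
    Vale.Agent.P227.M.rpd_mul (hgx i e) hQx
  have e2 : ∀ b p, pd p (fun y => pd b V y * (t y a b * Q y)) x =
      pd p (pd b V) x * (t x a b * Q x) + pd b V x * (pd p (fun y => t y a b) x * Q x
        + t x a b * pd p Q x) := fun b p => by
    rw [Vale.Agent.P227.M.rpd_mul (hVx b) ((hgx a b).fun_mul hQx),
      Vale.Agent.P227.M.rpd_mul (hgx a b) hQx]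
  have e3 : ∀ p, pd p (fun y : E n => y a * Q y) x = (if a = p then 1 else 0) * Q x
      + x a * pd p Q x := fun p => by
    rw [Vale.Agent.P227.M.rpd_mul hxa hQx, rpd_coord]
  have hdi : ∑ e, (pd e (fun y => t y i e) x - t x i e * pd e V x) = - x i := hdx i
  have hda : ∑ b, (pd b (fun y => t y a b) x - t x a b * pd b V x) = - x a := hdx a
  -- the corrector at `x`
  have c1 : Dt t i (fun y => y a * Q y) x = t x i a * Q x + x a * Dt t i Q x := by
    unfold Dt
    simp only [e3, mul_add, Finset.sum_add_distrib, Finset.mul_sum]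
    congr 1
    · rw [Finset.sum_eq_single a]
      · simp
      · intro b _ hb
        rw [if_neg (Ne.symm hb)]; ring
      · intro hb
        exact absurd (Finset.mem_univ a) hb
    · exact Finset.sum_congr rfl fun b _ => by ring
  -- the term with the index `b`
  have c2 : ∀ b, (Dt t i (fun y => pd b V y * (t y a b * Q y)) x
      - x i * (pd b V x * (t x a b * Q x))) + ∑ e, (pd e (fun y => t y a b) x *
      (pd b (fun y => t y i e * Q y) x
      - pd b V x * (t x i e * Q x)) - pd b (fun y => t y a b) x * (pd e (fun y => t y i e * Q y) x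
      - pd e V x * (t x i e * Q x)))
      = (∑ e, t x i e * pd e (pd b V) x * t x a b) * Q x
        + Dt t i (fun y => t y a b) x * pd b Q x
        + (∑ e, pd b (fun y => t y i e) x * pd e (fun y => t y a b) x) * Q x
        + (x i * Q x - Dt t i Q x) * (pd b (fun y => t y a b) x - t x a b * pd b V x) := by
    intro b
    have f1 : Dt t i (fun y => pd b V y * (t y a b * Q y)) x =
        (∑ e, t x i e * pd e (pd b V) x * t x a b) * Q x
        + pd b V x * (Dt t i (fun y => t y a b) x * Q x + t x a b * Dt t i Q x) := by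
      unfold Dt
      simp only [e2, Finset.mul_sum, Finset.sum_mul, ← Finset.sum_add_distrib]
      exact Finset.sum_congr rfl fun e _ => by ring
    have f2 : ∑ e, (pd e (fun y => t y a b) x *
      (pd b (fun y => t y i e * Q y) x
      - pd b V x * (t x i e * Q x)) - pd b (fun y => t y a b) x * (pd e (fun y => t y i e * Q y) x
      - pd e V x * (t x i e * Q x)))
      = (∑ e, pd b (fun y => t y i e) x * pd e (fun y => t y a b) x) * Q x
        + Dt t i (fun y => t y a b) x * pd b Q x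
        - pd b V x * Q x * Dt t i (fun y => t y a b) x
        - pd b (fun y => t y a b) x * Dt t i Q x
        - pd b (fun y => t y a b) x * Q x * (∑ e, (pd e (fun y => t y i e) x - t x i e * pd e V x)) := by
      unfold Dt
      simp only [e1, Finset.mul_sum, Finset.sum_mul, ← Finset.sum_add_distrib,
        ← Finset.sum_sub_distrib]
      exact Finset.sum_congr rfl fun e _ => by ring
    rw [f1, f2, hdi]
    ring
  rw [Finset.sum_congr rfl fun b _ => c2 b]
  simp only [Finset.sum_add_distrib, ← Finset.sum_mul, ← Finset.mul_sum]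
  rw [hda, c1]
  have c3 : ∀ b, Dt t b (fun y => t y i a) x = Dt t i (fun y => t y a b) x := by
    intro b
    have s1 : (fun y => t y a b) = fun y => t y b a := funext fun y => h.symm y a b
    rw [s1]
    exact (htx i b a).symm
  simp only [c3]
  ring

end

end Vale.Agent.P254.SN
end

section

/-! # P254/S2 (helper232): the static identity, cut-off removed -/

open MeasureTheory Filter Topology Set Metric
open scoped NNReal ENNReal ContDiff
open Vale.Agent.P227.M Vale.Agent.P227.M.K814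

namespace Vale.Agent.P254.SN

variable {n : ℕ} {V : E n → ℝ} {t : E n → Matrix (Fin n) (Fin n) ℝ}

/-! ## globally bounded measurable functions -/

/-- measurable and bounded -/
def GB (f : E n → ℝ) : Prop := Measurable f ∧ ∃ C, ∀ x, |f x| ≤ C

theorem GB.const (c : ℝ) : GB (fun _ : E n => c) := ⟨measurable_const, |c|, fun _ => le_rfl⟩

theorem GB.mul {f g : E n → ℝ} (hf : GB f) (hg : GB g) : GB (fun x => f x * g x) := by
  obtain ⟨h1, C, hC⟩ := hf
  obtain ⟨h2, D, hD⟩ := hg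
  refine ⟨h1.mul h2, |C| * |D|, fun x => ?_⟩
  rw [abs_mul]
  exact mul_le_mul ((hC x).trans (le_abs_self _)) ((hD x).trans (le_abs_self _))
    (abs_nonneg _) (abs_nonneg _)

theorem GB.add {f g : E n → ℝ} (hf : GB f) (hg : GB g) : GB (fun x => f x + g x) := by
  obtain ⟨h1, C, hC⟩ := hf
  obtain ⟨h2, D, hD⟩ := hg
  exact ⟨h1.add h2, C + D, fun x => (abs_add_le _ _).trans (add_le_add (hC x) (hD x))⟩

theorem GB.neg {f : E n → ℝ} (hf : GB f) : GB (fun x => - f x) := by
  obtain ⟨h1, C, hC⟩ := hf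
  exact ⟨h1.neg, C, fun x => by rw [abs_neg]; exact hC x⟩

theorem GB.sub {f g : E n → ℝ} (hf : GB f) (hg : GB g) : GB (fun x => f x - g x) := by
  simpa [sub_eq_add_neg] using hf.add hg.neg

theorem GB.sum {ι : Type*} (s : Finset ι) {f : ι → E n → ℝ} (hf : ∀ i ∈ s, GB (f i)) :
    GB (fun x => ∑ i ∈ s, f i x) := by
  classical
  induction s using Finset.induction_on with
  | empty => simpa using GB.const (n := n) 0
  | insert a s ha ih =>
    simp only [Finset.sum_insert ha]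
    exact GB.add (hf a (Finset.mem_insert_self _ _))
      (ih fun i hi => hf i (Finset.mem_insert_of_mem hi))

theorem GB.pd {f : E n → ℝ} {K : ℝ≥0} (hf : LipschitzWith K f) (i : Fin n) : GB (pd i f) := by
  refine ⟨measurable_fderiv_apply_const ℝ f _, K, fun x => ?_⟩
  have h1 : ‖fderiv ℝ f x‖ ≤ K := norm_fderiv_le_of_lipschitz ℝ hf
  have h2 := (fderiv ℝ f x).le_opNorm (ei i)
  rw [ei_norm, mul_one] at h2
  exact h2.trans h1

theorem GB.int {f : E n → ℝ} (hf : GB f) (hV : Integrable (fun x => Real.exp (-V x))) :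
    Integrable (fun x => f x * Real.exp (-V x)) := by
  obtain ⟨h1, C, hC⟩ := hf
  exact hV.bdd_mul (c := C) h1.aestronglyMeasurable (Eventually.of_forall hC)

/-! ## cut-offs -/

/-- the cut-offs -/
theorem cutoffs (n : ℕ) : ∃ (K : ℝ≥0) (χ : ℕ → E n → ℝ), (∀ k, LC (χ k)) ∧
    (∀ k x, 0 ≤ χ k x ∧ χ k x ≤ 1) ∧ (∀ x, Tendsto (fun k => χ k x) atTop (𝓝 1)) ∧
    (∀ k b x, |pd b (χ k) x| ≤ K * (1 / ((k : ℝ) + 1))) := by
  let χ : ContDiffBump (0 : E n) := ⟨1, 2, by norm_num, by norm_num⟩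
  have hLC : LC (χ : E n → ℝ) := ⟨ll_of_contDiff χ.contDiff, χ.hasCompactSupport⟩
  obtain ⟨K, hK⟩ := hLC.lip
  refine ⟨K, fun k x => χ ((1 / ((k : ℝ) + 1)) • x), fun k => ?_, fun k x => ⟨χ.nonneg, χ.le_one⟩,
    fun x => ?_, fun k b x => ?_⟩
  · have hpos : (0 : ℝ) < 1 / ((k : ℝ) + 1) := by positivity
    refine ⟨?_, ?_⟩
    · have h1 : LipschitzWith ‖(1 / ((k : ℝ) + 1))‖₊ (fun x : E n => (1 / ((k : ℝ) + 1)) • x) :=
        lipschitzWith_smul _
      exact (hK.comp h1).locallyLipschitz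
    · exact χ.hasCompactSupport.comp_smul hpos.ne'
  · have h1 : Tendsto (fun k : ℕ => (1 / ((k : ℝ) + 1)) • x) atTop (𝓝 ((0 : ℝ) • x)) :=
      tendsto_one_div_add_atTop_nhds_zero_nat.smul_const x
    rw [zero_smul] at h1
    have h2 : χ (0 : E n) = 1 := χ.one_of_mem_closedBall (mem_closedBall_self χ.rIn_pos.le)
    have h3 := (χ.continuous.tendsto 0).comp h1
    rw [h2] at h3
    exact h3
  · have h1 : LipschitzWith ‖(1 / ((k : ℝ) + 1))‖₊ (fun x : E n => (1 / ((k : ℝ) + 1)) • x) :=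
      lipschitzWith_smul _
    have h2 := hK.comp h1
    have h3 : ‖fderiv ℝ (fun x : E n => χ ((1 / ((k : ℝ) + 1)) • x)) x‖ ≤
        ((K * ‖(1 / ((k : ℝ) + 1))‖₊ : ℝ≥0) : ℝ) := norm_fderiv_le_of_lipschitz ℝ h2
    have h4 := (fderiv ℝ (fun x : E n => χ ((1 / ((k : ℝ) + 1)) • x)) x).le_opNorm (ei b)
    rw [ei_norm, mul_one] at h4
    have h5 : ((K * ‖(1 / ((k : ℝ) + 1))‖₊ : ℝ≥0) : ℝ) = K * (1 / ((k : ℝ) + 1)) := by
      rw [NNReal.coe_mul, coe_nnnorm, Real.norm_eq_abs, abs_of_pos (by positivity)]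
    rw [← h5]
    exact h4.trans h3

/-- removing a cut-off -/
theorem cut_limit (hV : Integrable (fun x => Real.exp (-V x))) {F : E n → ℝ} (hF : GB F)
    {g : Fin n → E n → ℝ} (hg : ∀ b, GB (g b))
    (h0 : ∀ χ : E n → ℝ, LC χ → I V (fun x => F x * χ x + ∑ b, g b x * pd b χ x) = 0) :
    I V F = 0 := by
  obtain ⟨K, χ, hLC, h01, hlim, hpd⟩ := cutoffs n
  obtain ⟨CF, hCF⟩ := hF.2
  choose G hG using fun b => (hg b).2
  have hGB1 : ∀ k, GB (fun x => F x * χ k x) := fun k =>
    hF.mul ⟨(hLC k).1.continuous.measurable, 1, fun x => by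
      rw [abs_of_nonneg (h01 k x).1]; exact (h01 k x).2⟩
  have hGBp : ∀ k b, GB (pd b (χ k)) := fun k b =>
    ⟨measurable_fderiv_apply_const ℝ _ _, _, fun x => hpd k b x⟩
  have hGB2 : ∀ k, GB (fun x => ∑ b, g b x * pd b (χ k) x) := fun k =>
    GB.sum _ fun b _ => (hg b).mul (hGBp k b)
  have e1 : ∀ k, ∫ x, F x * χ k x * Real.exp (-V x) =
      - ∫ x, (∑ b, g b x * pd b (χ k) x) * Real.exp (-V x) := by
    intro k
    have h1 : ∫ x, (F x * χ k x + ∑ b, g b x * pd b (χ k) x) * Real.exp (-V x) = 0 :=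
      h0 (χ k) (hLC k)
    have i1 : Integrable (fun x => F x * χ k x * Real.exp (-V x)) := (hGB1 k).int hV
    have i2 : Integrable (fun x => (∑ b, g b x * pd b (χ k) x) * Real.exp (-V x)) :=
      (hGB2 k).int hV
    have h3 : ∫ x, (F x * χ k x + ∑ b, g b x * pd b (χ k) x) * Real.exp (-V x) =
        ∫ x, (F x * χ k x * Real.exp (-V x) + (∑ b, g b x * pd b (χ k) x) * Real.exp (-V x)) := by
      congr 1; ext x; ring
    rw [h3, integral_add i1 i2] at h1
    linarith
  -- the right side tends to `0`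
  have r1 : ∀ k, |∫ x, (∑ b, g b x * pd b (χ k) x) * Real.exp (-V x)| ≤
      (∑ b, |G b| * K) * (∫ x, Real.exp (-V x)) * (1 / ((k : ℝ) + 1)) := by
    intro k
    have hb : ∀ x, ‖(∑ b, g b x * pd b (χ k) x) * Real.exp (-V x)‖ ≤
        ((∑ b, |G b| * K) * (1 / ((k : ℝ) + 1))) * Real.exp (-V x) := by
      intro x
      rw [norm_mul, Real.norm_eq_abs, Real.norm_eq_abs, abs_of_pos (Real.exp_pos _)]
      refine mul_le_mul_of_nonneg_right ?_ (Real.exp_pos _).le
      refine (Finset.abs_sum_le_sum_abs _ _).trans ?_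
      rw [Finset.sum_mul]
      refine Finset.sum_le_sum fun b _ => ?_
      rw [abs_mul, mul_assoc]
      exact mul_le_mul ((hG b x).trans (le_abs_self _)) (hpd k b x) (abs_nonneg _) (abs_nonneg _)
    have h1 := norm_integral_le_of_norm_le (hV.const_mul ((∑ b, |G b| * K) * (1 / ((k : ℝ) + 1))))
      (Eventually.of_forall hb)
    rw [integral_const_mul, Real.norm_eq_abs] at h1
    calc _ ≤ _ := h1
      _ = _ := by ring
  have r2 : Tendsto (fun k : ℕ => - ∫ x, (∑ b, g b x * pd b (χ k) x) * Real.exp (-V x)) atTop (𝓝 0) := by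
    have h1 : Tendsto (fun k : ℕ => (∑ b, |G b| * K) * (∫ x, Real.exp (-V x)) * (1 / ((k : ℝ) + 1)))
        atTop (𝓝 0) := by
      have := (tendsto_one_div_add_atTop_nhds_zero_nat (𝕜 := ℝ)).const_mul
        ((∑ b, |G b| * K) * (∫ x, Real.exp (-V x)))
      rwa [mul_zero] at this
    refine squeeze_zero_norm (fun k => ?_) h1
    rw [norm_neg, Real.norm_eq_abs]
    exact r1 k
  have l1 : Tendsto (fun k : ℕ => ∫ x, F x * χ k x * Real.exp (-V x)) atTop
      (𝓝 (∫ x, F x * Real.exp (-V x))) := by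
    refine tendsto_integral_of_dominated_convergence (fun x => |CF| * Real.exp (-V x))
      (fun k => ((hGB1 k).int hV).aestronglyMeasurable) (hV.const_mul _)
      (fun k => Eventually.of_forall fun x => ?_) (Eventually.of_forall fun x => ?_)
    · rw [norm_mul, norm_mul, Real.norm_eq_abs, Real.norm_eq_abs, Real.norm_eq_abs,
        abs_of_pos (Real.exp_pos _), abs_of_nonneg (h01 k x).1]
      refine mul_le_mul_of_nonneg_right ?_ (Real.exp_pos _).le
      calc |F x| * χ k x ≤ |F x| * 1 := mul_le_mul_of_nonneg_left (h01 k x).2 (abs_nonneg _)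
        _ ≤ |CF| := by rw [mul_one]; exact (hCF x).trans (le_abs_self _)
    · have := ((hlim x).const_mul (F x)).mul_const (Real.exp (-V x))
      simpa using this
  have l2 : Tendsto (fun k : ℕ => ∫ x, F x * χ k x * Real.exp (-V x)) atTop (𝓝 0) := by
    simp only [e1]
    exact r2
  exact tendsto_nhds_unique l1 l2

theorem sum_comb (f1 f2 f3 f4 f5 : Fin n → Fin n → ℝ) (c : ℝ) :
    ((∑ a, ∑ i, f1 a i) + (∑ a, ∑ i, f2 a i) + (∑ a, ∑ i, f3 a i) - (∑ a, ∑ i, f4 a i)) * c
      + ∑ a, ∑ i, f5 a i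
      = ∑ a, ∑ i, ((f1 a i + f2 a i + f3 a i - f4 a i) * c + f5 a i) := by
  simp only [add_mul, sub_mul, Finset.sum_add_distrib, Finset.sum_sub_distrib, Finset.sum_mul]

/-- bounds -/
structure TB (V : E n → ℝ) (t : E n → Matrix (Fin n) (Fin n) ℝ) : Prop extends TF V t where
  bt : ∃ C, ∀ x i j, |t x i j| ≤ C
  bV : ∃ C, ∀ x i j, |pd i (pd j V) x| ≤ C
  int : Integrable (fun x => Real.exp (-V x))

section
variable (h : TB V t)
include h

theorem gb_t (i j : Fin n) : GB (fun x => t x i j) := by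
  obtain ⟨C, hC⟩ := h.bt
  exact ⟨(tll h.toTF i j).continuous.measurable, C, fun x => hC x i j⟩

theorem gb_pt (k i j : Fin n) : GB (pd k (fun x => t x i j)) := by
  obtain ⟨K, hK⟩ := h.lip i j
  exact GB.pd hK k

theorem gb_V (i j : Fin n) : GB (pd i (pd j V)) := by
  obtain ⟨C, hC⟩ := h.bV
  have hVa : ContDiff ℝ 1 (pd j V) := FlatB.contDiff_pd h.V2 j
  exact ⟨measurable_fderiv_apply_const ℝ _ _, C, fun x => hC x i j⟩

theorem gb_Dt (b i j : Fin n) : GB (Dt t b (fun y => t y i j)) :=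
  GB.sum _ fun k _ => (gb_t h b k).mul (gb_pt h k i j)

/-- **the static identity** -/
theorem stat_id (w : Fin n → ℝ) :
    I V (fun x => (∑ a, ∑ i, w a * w i * t x a i * (∑ b, ∑ e, t x i e * pd e (pd b V) x * t x a b))
      + (∑ a, ∑ i, w a * w i * (∑ b, Dt t b (fun y => t y i a) x * pd b (fun y => t y a i) x))
      + (∑ a, ∑ i, w a * w i * t x a i *
          (∑ b, ∑ e, pd b (fun y => t y i e) x * pd e (fun y => t y a b) x))
      - (∑ a, ∑ i, w a * w i * (t x i a * t x a i))) = 0 := by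
  have hV1 : ContDiff ℝ 1 V := h.V2.of_le (by norm_num)
  have hVc := hV1.continuous
  refine cut_limit h.int (g := fun b x => ∑ a, ∑ i, w a * w i * t x a i *
    Dt t b (fun y => t y i a) x) ?_ ?_ ?_
  · refine GB.sub (GB.add (GB.add ?_ ?_) ?_) ?_
    · exact GB.sum _ fun a _ => GB.sum _ fun i _ => ((GB.const _).mul (gb_t h a i)).mul
        (GB.sum _ fun b _ => GB.sum _ fun e _ => ((gb_t h i e).mul (gb_V h e b)).mul (gb_t h a b))
    · exact GB.sum _ fun a _ => GB.sum _ fun i _ => (GB.const _).mul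
        (GB.sum _ fun b _ => (gb_Dt h b i a).mul (gb_pt h b a i))
    · exact GB.sum _ fun a _ => GB.sum _ fun i _ => ((GB.const _).mul (gb_t h a i)).mul
        (GB.sum _ fun b _ => GB.sum _ fun e _ => (gb_pt h b i e).mul (gb_pt h e a b))
    · exact GB.sum _ fun a _ => GB.sum _ fun i _ => (GB.const _).mul ((gb_t h i a).mul (gb_t h a i))
  · exact fun b => GB.sum _ fun a _ => GB.sum _ fun i _ => ((GB.const _).mul (gb_t h a i)).mul
      (gb_Dt h b i a)
  · intro χ hχ
    have hQ : ∀ a i, LC (fun x => w a * w i * t x a i * χ x) := fun a i =>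
      LC.mul_left (ll_mul (ll_const _) (tll h.toTF a i)) hχ
    have hs := fun a i => stat_pair h.toTF (hQ a i) a i
    have hCI : ∀ a i, CI (fun x => (∑ b, ∑ e, t x i e * pd e (pd b V) x * t x a b) *
        (w a * w i * t x a i * χ x)
      + (∑ b, Dt t b (fun y => t y i a) x * pd b (fun x => w a * w i * t x a i * χ x) x)
      + (∑ b, ∑ e, pd b (fun y => t y i e) x * pd e (fun y => t y a b) x) *
        (w a * w i * t x a i * χ x)
      - t x i a * (w a * w i * t x a i * χ x)) := by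
      intro a i
      have bt : ∀ p q, Bd (fun x => t x p q) := fun p q => Bd.of_ll (tll h.toTF p q)
      have bp : ∀ k p q, Bd (pd k (fun x => t x p q)) := fun k p q => Bd.pd (tll h.toTF p q) k
      have bV : ∀ p q, Bd (pd p (pd q V)) := fun p q =>
        Bd.pd (ll_of_contDiff (FlatB.contDiff_pd h.V2 q)) p
      refine CI.sub (CI.add (CI.add ?_ ?_) ?_) ?_
      · exact CI.mul_left (Bd.sum _ fun b _ => Bd.sum _ fun e _ =>
          ((bt i e).mul (bV e b)).mul (bt a b)) (CI.of_lc (hQ a i))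
      · exact CI.sum _ fun b _ => CI.mul_left (bd_Dt h.toTF (tll h.toTF i a) b) (CI.pd (hQ a i) b)
      · exact CI.mul_left (Bd.sum _ fun b _ => Bd.sum _ fun e _ =>
          (bp b i e).mul (bp e a b)) (CI.of_lc (hQ a i))
      · exact CI.mul_left (bt i a) (CI.of_lc (hQ a i))
    have hsum : I V (fun x => ∑ a, ∑ i, ((∑ b, ∑ e, t x i e * pd e (pd b V) x * t x a b) *
        (w a * w i * t x a i * χ x)
      + (∑ b, Dt t b (fun y => t y i a) x * pd b (fun x => w a * w i * t x a i * χ x) x)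
      + (∑ b, ∑ e, pd b (fun y => t y i e) x * pd e (fun y => t y a b) x) *
        (w a * w i * t x a i * χ x)
      - t x i a * (w a * w i * t x a i * χ x))) = 0 := by
      rw [I_sum _ hVc fun a _ => CI.sum _ fun i _ => hCI a i]
      refine Finset.sum_eq_zero fun a _ => ?_
      rw [I_sum _ hVc fun i _ => hCI a i]
      exact Finset.sum_eq_zero fun i _ => hs a i
    rw [← hsum]
    refine I_congr ?_
    filter_upwards [hχ.ae_diff, tae h.toTF] with x hx hgx
    have e1 : ∀ a i b, pd b (fun x => w a * w i * t x a i * χ x) x =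
        w a * w i * (pd b (fun y => t y a i) x * χ x + t x a i * pd b χ x) := by
      intro a i b
      have d1 : DifferentiableAt ℝ (fun y => w a * w i * t y a i) x := (hgx a i).const_mul _
      rw [Vale.Agent.P227.M.rpd_mul d1 hx,
        Vale.Agent.P227.M.rpd_mul (differentiableAt_const _) (hgx a i), rpd_const]
      ring
    simp only [e1]
    have e2 : ∑ b, (∑ a, ∑ i, w a * w i * t x a i * Dt t b (fun y => t y i a) x) * pd b χ x =
        ∑ a, ∑ i, ∑ b, w a * w i * t x a i * Dt t b (fun y => t y i a) x * pd b χ x := by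
      simp only [Finset.sum_mul]
      rw [Finset.sum_comm]
      refine Finset.sum_congr rfl fun a _ => ?_
      rw [Finset.sum_comm]
    rw [e2]
    refine (sum_comb _ _ _ _ _ _).trans ?_
    refine Finset.sum_congr rfl fun a _ => Finset.sum_congr rfl fun i _ => ?_
    have e3 : ∑ b, Dt t b (fun y => t y i a) x * (w a * w i * (pd b (fun y => t y a i) x * χ x
        + t x a i * pd b χ x)) =
        (∑ b, w a * w i * t x a i * Dt t b (fun y => t y i a) x * pd b χ x)
        + w a * w i * (∑ b, Dt t b (fun y => t y i a) x * pd b (fun y => t y a i) x) * χ x := by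
      rw [Finset.mul_sum, Finset.sum_mul, ← Finset.sum_add_distrib]
      exact Finset.sum_congr rfl fun b _ => by ring
    rw [e3]
    ring

end

end Vale.Agent.P254.SN
end

section

/-! # P227/M/SC: calculus of directional derivatives `dd`. -/

namespace Vale.Agent.P227.M.SC

variable {E : Type*} [NormedAddCommGroup E] [NormedSpace ℝ E]

/-- smoothness abbreviation -/
abbrev Sm (f : E → ℝ) : Prop := ContDiff ℝ (⊤ : ℕ∞) f

theorem Sm.diff {f : E → ℝ} (hf : Sm f) (x : E) : DifferentiableAt ℝ f x :=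
  (hf.differentiable (by simp)) x

theorem sm_dd {f : E → ℝ} (hf : Sm f) (v : E) : Sm (dd v f) := by
  have h : ContDiff ℝ (⊤ : ℕ∞) (fderiv ℝ f) := by
    apply ContDiff.fderiv_right hf
    exact le_of_eq rfl
  exact h.clm_apply contDiff_const

theorem dd_add_dir (f : E → ℝ) (u v x : E) : dd (u + v) f x = dd u f x + dd v f x := by
  simp [dd]

theorem dd_smul_dir (f : E → ℝ) (c : ℝ) (v x : E) : dd (c • v) f x = c * dd v f x := by
  simp [dd]

theorem dd_add_dir' (f : E → ℝ) (u v : E) : dd (u + v) f = fun x => dd u f x + dd v f x :=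
  funext fun x => dd_add_dir f u v x

theorem dd_smul_dir' (f : E → ℝ) (c : ℝ) (v : E) : dd (c • v) f = fun x => c * dd v f x :=
  funext fun x => dd_smul_dir f c v x

theorem dd_add {f g : E → ℝ} (hf : Sm f) (hg : Sm g) (v x : E) :
    dd v (fun y => f y + g y) x = dd v f x + dd v g x := by
  unfold dd
  rw [fderiv_fun_add (hf.diff x) (hg.diff x)]
  rfl

theorem dd_sub {f g : E → ℝ} (hf : Sm f) (hg : Sm g) (v x : E) :
    dd v (fun y => f y - g y) x = dd v f x - dd v g x := by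
  unfold dd
  rw [fderiv_fun_sub (hf.diff x) (hg.diff x)]
  rfl

theorem dd_mul {f g : E → ℝ} (hf : Sm f) (hg : Sm g) (v x : E) :
    dd v (fun y => f y * g y) x = f x * dd v g x + g x * dd v f x := by
  unfold dd
  rw [fderiv_fun_mul (hf.diff x) (hg.diff x)]
  simp

theorem dd_const_mul {f : E → ℝ} (hf : Sm f) (c : ℝ) (v x : E) :
    dd v (fun y => c * f y) x = c * dd v f x := by
  unfold dd
  rw [fderiv_const_mul (hf.diff x)]
  rfl

theorem dd_comm {f : E → ℝ} (hf : Sm f) (u v : E) : dd u (dd v f) = dd v (dd u f) := by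
  funext x
  have h2 : DifferentiableAt ℝ (fderiv ℝ f) x := by
    have h : ContDiff ℝ (⊤ : ℕ∞) (fderiv ℝ f) := by
      apply ContDiff.fderiv_right hf
      exact le_of_eq rfl
    exact (h.differentiable (by simp)) x
  have e1 : ∀ a b : E, dd a (dd b f) x = (fderiv ℝ (fderiv ℝ f) x a) b := by
    intro a b
    unfold dd
    rw [fderiv_clm_apply h2 (differentiableAt_const b)]
    simp
  rw [e1, e1]
  have hs : IsSymmSndFDerivAt ℝ f x := by
    apply ContDiffAt.isSymmSndFDerivAt (n := (⊤ : ℕ∞)) hf.contDiffAt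
    simp only [minSmoothness_of_isRCLikeNormedField]
    show ((2 : ℕ∞) : WithTop ℕ∞) ≤ ((⊤ : ℕ∞) : WithTop ℕ∞)
    exact WithTop.coe_le_coe.2 le_top
  exact hs.eq u v

/-- derivative of `dd`-smooth functions along a line -/
theorem hasDerivAt_line {f : E → ℝ} (hf : Sm f) (x e : E) (t : ℝ) :
    HasDerivAt (fun s : ℝ => f (x + s • e)) (dd e f (x + t • e)) t := by
  have h1 : HasDerivAt (fun s : ℝ => x + s • e) e t := by
    have := ((hasDerivAt_id t).smul_const e).const_add x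
    simpa using this
  have h2 : HasFDerivAt f (fderiv ℝ f (x + t • e)) (x + t • e) := (hf.diff _).hasFDerivAt
  exact h2.comp_hasDerivAt t h1

/-- shift -/
theorem dd_shift (f : E → ℝ) (z v : E) :
    dd v (fun x => f (x + z)) = fun x => dd v f (x + z) := by
  funext x
  unfold dd
  rw [fderiv_comp_add_right]

theorem sm_shift {f : E → ℝ} (hf : Sm f) (z : E) : Sm (fun x => f (x + z)) :=
  hf.comp (contDiff_id.add contDiff_const)

/-- finite difference bound -/
theorem diff_bound {f : E → ℝ} (hf : Sm f) {B : ℝ} {e : E} (hB : ∀ x, |dd e f x| ≤ B)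
    (x : E) {δ : ℝ} (hδ : 0 ≤ δ) :
    |f (x + δ • e) - f (x + (-δ) • e)| ≤ 2 * δ * B := by
  have hc := Convex.norm_image_sub_le_of_norm_hasDerivWithin_le (𝕜 := ℝ) (C := B)
    (f := fun s : ℝ => f (x + s • e)) (f' := fun s => dd e f (x + s • e)) (s := Set.univ)
    (x := -δ) (y := δ)
    (fun t _ => (hasDerivAt_line hf x e t).hasDerivWithinAt) (fun t _ => by
      simpa [Real.norm_eq_abs] using hB (x + t • e)) convex_univ (Set.mem_univ _) (Set.mem_univ _)
  rw [Real.norm_eq_abs, Real.norm_eq_abs] at hc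
  have : |δ - -δ| = 2 * δ := by rw [abs_of_nonneg (by linarith)]; ring
  rw [this] at hc
  linarith

/-- one-sided difference bound -/
theorem diff_bound1 {f : E → ℝ} (hf : Sm f) {B : ℝ} {e : E} (hB : ∀ x, |dd e f x| ≤ B)
    (x : E) (t : ℝ) : |f (x + t • e) - f x| ≤ |t| * B := by
  have hc := Convex.norm_image_sub_le_of_norm_hasDerivWithin_le (𝕜 := ℝ) (C := B)
    (f := fun s : ℝ => f (x + s • e)) (f' := fun s => dd e f (x + s • e)) (s := Set.univ)
    (x := 0) (y := t)
    (fun t _ => (hasDerivAt_line hf x e t).hasDerivWithinAt) (fun t _ => by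
      simpa [Real.norm_eq_abs] using hB (x + t • e)) convex_univ (Set.mem_univ _) (Set.mem_univ _)
  rw [Real.norm_eq_abs, Real.norm_eq_abs] at hc
  simp only [zero_smul, add_zero, sub_zero] at hc
  linarith [mul_comm B |t|]

/-- second order finite difference bound -/
theorem diff_bound2 {f : E → ℝ} (hf : Sm f) {B : ℝ} {e : E} (hB : ∀ x, |dd e (dd e f) x| ≤ B)
    (x : E) {δ : ℝ} (hδ : 0 ≤ δ) :
    |f (x + δ • e) - f (x + (-δ) • e) - 2 * δ * dd e f x| ≤ 2 * B * δ ^ 2 := by
  have hB0 : 0 ≤ B := (abs_nonneg _).trans (hB x)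
  have hd : ∀ t ∈ Set.Icc (-δ) δ, HasDerivWithinAt (fun s : ℝ => f (x + s • e) - s * dd e f x)
      (dd e f (x + t • e) - 1 * dd e f x) (Set.Icc (-δ) δ) t := by
    intro t _
    exact ((hasDerivAt_line hf x e t).sub ((hasDerivAt_id t).mul_const (dd e f x))).hasDerivWithinAt
  have hc := Convex.norm_image_sub_le_of_norm_hasDerivWithin_le (𝕜 := ℝ) (C := B * δ)
    (x := -δ) (y := δ) hd (fun t ht => by
      rw [Real.norm_eq_abs, one_mul]
      have h1 := diff_bound1 (sm_dd hf e) hB x t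
      have h2 : |t| ≤ δ := abs_le.2 ⟨ht.1, ht.2⟩
      nlinarith) (convex_Icc _ _) ⟨le_refl _, by linarith⟩ ⟨by linarith, le_refl _⟩
  rw [Real.norm_eq_abs, Real.norm_eq_abs] at hc
  have h3 : |δ - -δ| = 2 * δ := by rw [abs_of_nonneg (by linarith)]; ring
  rw [h3] at hc
  have h4 : f (x + δ • e) - δ * dd e f x - (f (x + (-δ) • e) - -δ * dd e f x)
      = f (x + δ • e) - f (x + (-δ) • e) - 2 * δ * dd e f x := by ring
  rw [h4] at hc
  nlinarith

end Vale.Agent.P227.M.SC
end

section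

/-! # P227/M/SC: derivatives of `avg` up to order four. -/

namespace Vale.Agent.P227.M.SC

variable {E : Type*} [NormedAddCommGroup E] [NormedSpace ℝ E]

theorem line0 {F : E → ℝ} (hF : Sm F) (x v : E) :
    HasDerivAt (fun t : ℝ => F (x + t • v)) (dd v F x) 0 := by
  have := hasDerivAt_line hF x v 0
  simpa using this

theorem dd_of_line {F : E → ℝ} (hF : Sm F) {x v : E} {c : ℝ}
    (h : HasDerivAt (fun t : ℝ => F (x + t • v)) c 0) : dd v F x = c :=
  (line0 hF x v).unique h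

/-- the weight `e^{-f}/(e^{-f}+e^{-g})` -/
noncomputable def wt (f g : E → ℝ) (x : E) : ℝ := (1 + Real.exp (f x - g x))⁻¹

/-- `-log((e^{-f}+e^{-g})/2)` -/
noncomputable def lg (f g : E → ℝ) (x : E) : ℝ :=
  -Real.log ((Real.exp (-f x) + Real.exp (-g x)) / 2)

theorem sm_wt {f g : E → ℝ} (hf : Sm f) (hg : Sm g) : Sm (wt f g) := by
  unfold wt
  apply ContDiff.inv
  · exact contDiff_const.add (hf.sub hg).exp
  · intro x; positivity

theorem sm_lg {f g : E → ℝ} (hf : Sm f) (hg : Sm g) : Sm (lg f g) := by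
  unfold lg
  apply ContDiff.neg
  apply ContDiff.log
  · exact (hf.neg.exp.add hg.neg.exp).div_const 2
  · intro x; positivity

omit [NormedAddCommGroup E] [NormedSpace ℝ E] in
theorem wt_nonneg (f g : E → ℝ) (x : E) : 0 ≤ wt f g x := by unfold wt; positivity

omit [NormedAddCommGroup E] [NormedSpace ℝ E] in
theorem wt_le_one (f g : E → ℝ) (x : E) : wt f g x ≤ 1 := by
  unfold wt
  apply inv_le_one_of_one_le₀
  linarith [Real.exp_pos (f x - g x)]

theorem dd_wt {f g : E → ℝ} (hf : Sm f) (hg : Sm g) (v x : E) :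
    dd v (wt f g) x = -(wt f g x * (1 - wt f g x)) * (dd v f x - dd v g x) := by
  apply dd_of_line (sm_wt hf hg)
  have hf' := line0 hf x v
  have hg' := line0 hg x v
  have hpos : 1 + Real.exp (f (x + (0:ℝ) • v) - g (x + (0:ℝ) • v)) ≠ 0 := by positivity
  have h := ((hf'.sub hg').exp.const_add 1).inv hpos
  have h2 : HasDerivAt (fun t : ℝ => wt f g (x + t • v)) _ 0 := h
  convert h2 using 1
  simp only [wt]
  have hpos' : 1 + Real.exp (f x - g x) ≠ 0 := by positivity
  simp only [Pi.sub_apply, zero_smul, add_zero]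
  field_simp
  ring

theorem dd_lg {f g : E → ℝ} (hf : Sm f) (hg : Sm g) (v x : E) :
    dd v (lg f g) x = dd v g x + wt f g x * (dd v f x - dd v g x) := by
  apply dd_of_line (sm_lg hf hg)
  have hf' := line0 hf x v
  have hg' := line0 hg x v
  have hpos : (Real.exp (-f (x + (0:ℝ) • v)) + Real.exp (-g (x + (0:ℝ) • v))) / 2 ≠ 0 := by positivity
  have h := (((hf'.neg.exp.add hg'.neg.exp).div_const 2).log hpos).neg
  have h2 : HasDerivAt (fun t : ℝ => lg f g (x + t • v)) _ 0 := h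
  convert h2 using 1
  simp only [wt]
  simp only [Pi.add_apply, Pi.neg_apply, zero_smul, add_zero]
  have e1 : Real.exp (f x - g x) = Real.exp (-g x) / Real.exp (-f x) := by
    rw [← Real.exp_sub]; congr 1; ring
  rw [e1]
  have p1 : Real.exp (-g x) ≠ 0 := (Real.exp_pos _).ne'
  have p2 : Real.exp (-f x) ≠ 0 := (Real.exp_pos _).ne'
  have p3 : Real.exp (-f x) + Real.exp (-g x) ≠ 0 := by positivity
  field_simp
  ring

theorem gen2 {A B P : E → ℝ} (hA : Sm A) (hB : Sm B) (hP : Sm P) (v x : E) :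
    dd v (fun y => A y + P y * B y) x = dd v A x + P x * dd v B x + dd v P x * B x := by
  apply dd_of_line (hA.add (hP.mul hB))
  have h := (line0 hA x v).add ((line0 hP x v).mul (line0 hB x v))
  have h2 : HasDerivAt (fun t : ℝ => A (x + t • v) + P (x + t • v) * B (x + t • v)) _ 0 := h
  convert h2 using 1
  simp only [zero_smul, add_zero]
  ring

theorem gen3 {A B P C D : E → ℝ} (hA : Sm A) (hB : Sm B) (hP : Sm P) (hC : Sm C) (hD : Sm D)
    (v x : E) :
    dd v (fun y => A y + P y * B y - P y * (1 - P y) * (C y * D y)) x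
      = dd v A x + P x * dd v B x + dd v P x * B x
        - (1 - 2 * P x) * dd v P x * (C x * D x)
        - P x * (1 - P x) * (dd v C x * D x + C x * dd v D x) := by
  apply dd_of_line ((hA.add (hP.mul hB)).sub ((hP.mul (contDiff_const.sub hP)).mul (hC.mul hD)))
  have h := ((line0 hA x v).add ((line0 hP x v).mul (line0 hB x v))).sub
    (((line0 hP x v).mul ((line0 hP x v).const_sub 1)).mul ((line0 hC x v).mul (line0 hD x v)))
  have h2 : HasDerivAt (fun t : ℝ => A (x + t • v) + P (x + t • v) * B (x + t • v)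
      - P (x + t • v) * (1 - P (x + t • v)) * (C (x + t • v) * D (x + t • v))) _ 0 := h
  convert h2 using 1
  simp only [zero_smul, add_zero, Pi.mul_apply]
  ring

theorem gen4 {A B P C D C' D' C'' D'' X Y Z : E → ℝ} (hA : Sm A) (hB : Sm B) (hP : Sm P)
    (hC : Sm C) (hD : Sm D) (hC' : Sm C') (hD' : Sm D') (hC'' : Sm C'') (hD'' : Sm D'')
    (hX : Sm X) (hY : Sm Y) (hZ : Sm Z) (v x : E) :
    dd v (fun y => A y + P y * B y - P y * (1 - P y) * (C y * D y + C' y * D' y + C'' y * D'' y)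
      + P y * (1 - P y) * (1 - 2 * P y) * (X y * Y y * Z y)) x
      = dd v A x + P x * dd v B x + dd v P x * B x
        - (1 - 2 * P x) * dd v P x * (C x * D x + C' x * D' x + C'' x * D'' x)
        - P x * (1 - P x) * (dd v C x * D x + C x * dd v D x + dd v C' x * D' x + C' x * dd v D' x
            + dd v C'' x * D'' x + C'' x * dd v D'' x)
        + (1 - 6 * P x + 6 * P x ^ 2) * dd v P x * (X x * Y x * Z x)
        + P x * (1 - P x) * (1 - 2 * P x) * (dd v X x * Y x * Z x + X x * dd v Y x * Z x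
            + X x * Y x * dd v Z x) := by
  apply dd_of_line (((hA.add (hP.mul hB)).sub ((hP.mul (contDiff_const.sub hP)).mul
    (((hC.mul hD).add (hC'.mul hD')).add (hC''.mul hD'')))).add
    (((hP.mul (contDiff_const.sub hP)).mul (contDiff_const.sub (contDiff_const.mul hP))).mul
      ((hX.mul hY).mul hZ)))
  have lP := line0 hP x v
  have h := (((line0 hA x v).add (lP.mul (line0 hB x v))).sub
    ((lP.mul (lP.const_sub 1)).mul ((((line0 hC x v).mul (line0 hD x v)).add
      ((line0 hC' x v).mul (line0 hD' x v))).add ((line0 hC'' x v).mul (line0 hD'' x v))))).add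
    (((lP.mul (lP.const_sub 1)).mul ((lP.const_mul 2).const_sub 1)).mul
      (((line0 hX x v).mul (line0 hY x v)).mul (line0 hZ x v)))
  have h2 : HasDerivAt (fun t : ℝ => A (x + t • v) + P (x + t • v) * B (x + t • v)
      - P (x + t • v) * (1 - P (x + t • v)) * (C (x + t • v) * D (x + t • v)
        + C' (x + t • v) * D' (x + t • v) + C'' (x + t • v) * D'' (x + t • v))
      + P (x + t • v) * (1 - P (x + t • v)) * (1 - 2 * P (x + t • v)) *
        (X (x + t • v) * Y (x + t • v) * Z (x + t • v))) _ 0 := h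
  convert h2 using 1
  simp only [zero_smul, add_zero, Pi.mul_apply, Pi.add_apply]
  ring

/-- difference of first derivatives -/
noncomputable def df (f g : E → ℝ) (v x : E) : ℝ := dd v f x - dd v g x

theorem sm_df {f g : E → ℝ} (hf : Sm f) (hg : Sm g) (v : E) : Sm (df f g v) :=
  (sm_dd hf v).sub (sm_dd hg v)

theorem dd_df {f g : E → ℝ} (hf : Sm f) (hg : Sm g) (u v x : E) :
    dd v (df f g u) x = df (dd u f) (dd u g) v x :=
  dd_sub (sm_dd hf u) (sm_dd hg u) v x

theorem lg1 {f g : E → ℝ} (hf : Sm f) (hg : Sm g) (v₁ : E) :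
    dd v₁ (lg f g) = fun x => dd v₁ g x + wt f g x * df f g v₁ x :=
  funext fun x => dd_lg hf hg v₁ x

theorem lg2 {f g : E → ℝ} (hf : Sm f) (hg : Sm g) (v₁ v₂ : E) :
    dd v₂ (dd v₁ (lg f g)) = fun x => dd v₂ (dd v₁ g) x + wt f g x * df (dd v₁ f) (dd v₁ g) v₂ x
      - wt f g x * (1 - wt f g x) * (df f g v₂ x * df f g v₁ x) := by
  funext x
  rw [lg1 hf hg, gen2 (sm_dd hg v₁) (sm_df hf hg v₁) (sm_wt hf hg), dd_wt hf hg, dd_df hf hg]
  unfold df
  ring

theorem lg3 {f g : E → ℝ} (hf : Sm f) (hg : Sm g) (v₁ v₂ v₃ : E) :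
    dd v₃ (dd v₂ (dd v₁ (lg f g))) = fun x =>
      dd v₃ (dd v₂ (dd v₁ g)) x
      + wt f g x * df (dd v₂ (dd v₁ f)) (dd v₂ (dd v₁ g)) v₃ x
      - wt f g x * (1 - wt f g x) * (df f g v₃ x * df (dd v₁ f) (dd v₁ g) v₂ x
        + df (dd v₂ f) (dd v₂ g) v₃ x * df f g v₁ x
        + df f g v₂ x * df (dd v₁ f) (dd v₁ g) v₃ x)
      + wt f g x * (1 - wt f g x) * (1 - 2 * wt f g x) * (df f g v₃ x * df f g v₂ x * df f g v₁ x) := by
  funext x
  rw [lg2 hf hg, gen3 (sm_dd (sm_dd hg v₁) v₂) (sm_df (sm_dd hf v₁) (sm_dd hg v₁) v₂) (sm_wt hf hg)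
    (sm_df hf hg v₂) (sm_df hf hg v₁), dd_wt hf hg, dd_df (sm_dd hf v₁) (sm_dd hg v₁),
    dd_df hf hg, dd_df hf hg]
  unfold df
  ring

theorem lg4 {f g : E → ℝ} (hf : Sm f) (hg : Sm g) (v₁ v₂ v₃ v₄ x : E) :
    dd v₄ (dd v₃ (dd v₂ (dd v₁ (lg f g)))) x =
      dd v₄ (dd v₃ (dd v₂ (dd v₁ g))) x
      + wt f g x * df (dd v₃ (dd v₂ (dd v₁ f))) (dd v₃ (dd v₂ (dd v₁ g))) v₄ x
      - wt f g x * (1 - wt f g x) * (df f g v₄ x * df (dd v₂ (dd v₁ f)) (dd v₂ (dd v₁ g)) v₃ x
        + df f g v₃ x * df (dd v₂ (dd v₁ f)) (dd v₂ (dd v₁ g)) v₄ x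
        + df f g v₁ x * df (dd v₃ (dd v₂ f)) (dd v₃ (dd v₂ g)) v₄ x
        + df f g v₂ x * df (dd v₃ (dd v₁ f)) (dd v₃ (dd v₁ g)) v₄ x)
      - wt f g x * (1 - wt f g x) * (df (dd v₃ f) (dd v₃ g) v₄ x * df (dd v₁ f) (dd v₁ g) v₂ x
        + df (dd v₂ f) (dd v₂ g) v₃ x * df (dd v₁ f) (dd v₁ g) v₄ x
        + df (dd v₂ f) (dd v₂ g) v₄ x * df (dd v₁ f) (dd v₁ g) v₃ x)
      + wt f g x * (1 - wt f g x) * (1 - 2 * wt f g x) *
        (df f g v₄ x * df f g v₃ x * df (dd v₁ f) (dd v₁ g) v₂ x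
          + df f g v₄ x * df (dd v₂ f) (dd v₂ g) v₃ x * df f g v₁ x
          + df f g v₄ x * df f g v₂ x * df (dd v₁ f) (dd v₁ g) v₃ x
          + df (dd v₃ f) (dd v₃ g) v₄ x * df f g v₂ x * df f g v₁ x
          + df f g v₃ x * df (dd v₂ f) (dd v₂ g) v₄ x * df f g v₁ x
          + df f g v₃ x * df f g v₂ x * df (dd v₁ f) (dd v₁ g) v₄ x)
      + wt f g x * (1 - wt f g x) * (6 * (wt f g x * (1 - wt f g x)) - 1) *
        (df f g v₄ x * df f g v₃ x * df f g v₂ x * df f g v₁ x) := by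
  rw [lg3 hf hg, gen4 (sm_dd (sm_dd (sm_dd hg v₁) v₂) v₃)
    (sm_df (sm_dd (sm_dd hf v₁) v₂) (sm_dd (sm_dd hg v₁) v₂) v₃) (sm_wt hf hg)
    (sm_df hf hg v₃) (sm_df (sm_dd hf v₁) (sm_dd hg v₁) v₂)
    (sm_df (sm_dd hf v₂) (sm_dd hg v₂) v₃) (sm_df hf hg v₁)
    (sm_df hf hg v₂) (sm_df (sm_dd hf v₁) (sm_dd hg v₁) v₃)
    (sm_df hf hg v₃) (sm_df hf hg v₂) (sm_df hf hg v₁), dd_wt hf hg,
    dd_df (sm_dd (sm_dd hf v₁) v₂) (sm_dd (sm_dd hg v₁) v₂),
    dd_df (sm_dd hf v₁) (sm_dd hg v₁), dd_df (sm_dd hf v₁) (sm_dd hg v₁),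
    dd_df (sm_dd hf v₂) (sm_dd hg v₂),
    dd_df hf hg, dd_df hf hg, dd_df hf hg]
  unfold df
  ring

end Vale.Agent.P227.M.SC
end

section

/-! # P227/M/SC: Cauchy-Schwarz and difference bounds for `St` (leaf StCS of helper839). -/

namespace Vale.Agent.P227.M.SC

variable {E : Type*} [NormedAddCommGroup E] [NormedSpace ℝ E]

section
variable {a b C3 C4 κ ε : ℝ} {w : E → ℝ}

theorem St.nonneg (h : St a b C3 C4 κ ε w) (ha : 0 ≤ a) (x v : E) : 0 ≤ dd v (dd v w) x :=
  le_trans (mul_nonneg ha (sq_nonneg _)) (h.lower x v)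

/-- expansion of the second derivative along `v + t • u` -/
theorem St.expand (h : St a b C3 C4 κ ε w) (x u v : E) (t : ℝ) :
    dd (v + t • u) (dd (v + t • u) w) x
      = dd v (dd v w) x + 2 * t * dd u (dd v w) x + t ^ 2 * dd u (dd u w) x := by
  have hs : Sm w := h.smooth
  have e1 : dd (v + t • u) w = fun y => dd v w y + t * dd u w y := by
    funext y
    rw [dd_add_dir, dd_smul_dir]
  have e2 : ∀ z : E, dd z (dd (v + t • u) w) x = dd z (dd v w) x + t * dd z (dd u w) x := by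
    intro z
    rw [e1, dd_add (sm_dd hs v) (contDiff_const.mul (sm_dd hs u)), dd_const_mul (sm_dd hs u)]
  rw [dd_add_dir, dd_smul_dir, e2, e2, dd_comm hs v u]
  ring

/-- Cauchy-Schwarz for the second derivative -/
theorem St.cs_sq (h : St a b C3 C4 κ ε w) (ha : 0 ≤ a) (x u v : E) :
    (dd u (dd v w) x) ^ 2 ≤ dd u (dd u w) x * dd v (dd v w) x := by
  have h0 : ∀ t : ℝ, 0 ≤ dd u (dd u w) x * (t * t) + 2 * dd u (dd v w) x * t + dd v (dd v w) x := by
    intro t
    have h1 := h.nonneg ha x (v + t • u)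
    rw [h.expand] at h1
    nlinarith
  have h2 := discrim_le_zero h0
  unfold discrim at h2
  nlinarith

/-- bound of the mixed second derivative -/
theorem St.cs_abs (h : St a b C3 C4 κ ε w) (ha : 0 ≤ a) (x u v : E) :
    |dd u (dd v w) x| ≤ b * (‖u‖ * ‖v‖) := by
  have h1 := h.cs_sq ha x u v
  have hu := h.upper x u
  have hv := h.upper x v
  have hu0 := h.nonneg ha x u
  have hv0 := h.nonneg ha x v
  by_cases hb : 0 ≤ b
  · apply abs_le_of_sq_le_sq _ (by positivity)
    calc (dd u (dd v w) x) ^ 2 ≤ dd u (dd u w) x * dd v (dd v w) x := h1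
      _ ≤ (b * ‖u‖ ^ 2) * (b * ‖v‖ ^ 2) := mul_le_mul hu hv hv0 (hu0.trans hu)
      _ = (b * (‖u‖ * ‖v‖)) ^ 2 := by ring
  · have hu1 : ‖u‖ = 0 := by
      by_contra hne
      have : 0 < ‖u‖ ^ 2 := by positivity
      nlinarith
    have hu2 : u = 0 := norm_eq_zero.1 hu1
    subst hu2
    simp [dd]

/-- first difference bound -/
theorem St.D1 (h : St a b C3 C4 κ ε w) (ha : 0 ≤ a) {e : E} (he : ‖e‖ = 1) {δ : ℝ} (hδ : 0 ≤ δ)
    (x v : E) : |dd v w (x + δ • e) - dd v w (x + (-δ) • e)| ≤ 2 * δ * (b * ‖v‖) := by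
  refine diff_bound (sm_dd h.smooth v) (fun y => ?_) x hδ
  have := h.cs_abs ha y e v
  rwa [he, one_mul] at this

/-- second difference bound -/
theorem St.D2 (h : St a b C3 C4 κ ε w) {e : E} (he : ‖e‖ = 1) {δ : ℝ} (hδ : 0 ≤ δ)
    (x v₁ v₂ : E) : |dd v₂ (dd v₁ w) (x + δ • e) - dd v₂ (dd v₁ w) (x + (-δ) • e)|
      ≤ 2 * δ * (C3 * (‖v₁‖ * ‖v₂‖)) := by
  refine diff_bound (sm_dd (sm_dd h.smooth v₁) v₂) (fun y => ?_) x hδ
  have := h.b3 y v₁ v₂ e
  rwa [he, mul_one] at this

/-- third difference bound -/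
theorem St.D3 (h : St a b C3 C4 κ ε w) {e : E} (he : ‖e‖ = 1) {δ : ℝ} (hδ : 0 ≤ δ)
    (x v₁ v₂ v₃ : E) :
    |dd v₃ (dd v₂ (dd v₁ w)) (x + δ • e) - dd v₃ (dd v₂ (dd v₁ w)) (x + (-δ) • e)|
      ≤ 2 * δ * (C4 * (‖v₁‖ * ‖v₂‖ * ‖v₃‖)) := by
  refine diff_bound (sm_dd (sm_dd (sm_dd h.smooth v₁) v₂) v₃) (fun y => ?_) x hδ
  have := h.b4 y v₁ v₂ v₃ e
  rwa [he, mul_one] at this

end

end Vale.Agent.P227.M.SC
end

section

/-! # P227/M/SC: the fields smooth, upper, b3, b4, lower of `StepStmt`. -/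

namespace Vale.Agent.P227.M.SC

variable {E : Type*} [NormedAddCommGroup E] [NormedSpace ℝ E]

section
variable {a b C3 C4 κ ε δ : ℝ} {e : E} {w : E → ℝ}

theorem avg_eq_lg (δ : ℝ) (e : E) (w : E → ℝ) :
    avg δ e w = lg (fun x => w (x + δ • e)) (fun x => w (x + (-δ) • e)) := by
  funext x
  simp only [avg, lg, neg_smul, sub_eq_add_neg]

theorem St.a_le_b (h : St a b C3 C4 κ ε w) (he : ‖e‖ = 1) : a ≤ b := by
  have h1 := h.lower 0 e
  have h2 := h.upper 0 e
  rw [he] at h1 h2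
  linarith

theorem St.C3_nonneg (h : St a b C3 C4 κ ε w) (he : ‖e‖ = 1) : 0 ≤ C3 := by
  have h1 := h.b3 0 e e e
  rw [he] at h1
  have := abs_nonneg (dd e (dd e (dd e w)) 0)
  linarith

theorem St.C4_nonneg (h : St a b C3 C4 κ ε w) (he : ‖e‖ = 1) : 0 ≤ C4 := by
  have h1 := h.b4 0 e e e e
  rw [he] at h1
  have := abs_nonneg (dd e (dd e (dd e (dd e w))) 0)
  linarith

theorem step_smooth (h : St a b C3 C4 κ ε w) : ContDiff ℝ (⊤ : ℕ∞) (avg δ e w) := by
  rw [avg_eq_lg]
  exact sm_lg (sm_shift h.smooth _) (sm_shift h.smooth _)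

theorem step_upper (h : St a b C3 C4 κ ε w) (x v : E) :
    dd v (dd v (avg δ e w)) x ≤ b * ‖v‖ ^ 2 := by
  rw [avg_eq_lg, lg2 (sm_shift h.smooth _) (sm_shift h.smooth _)]
  simp only [df, dd_shift]
  set P := wt (fun x => w (x + δ • e)) (fun x => w (x + (-δ) • e)) x with hP
  have hP0 : 0 ≤ P := wt_nonneg _ _ _
  have hP1 : P ≤ 1 := wt_le_one _ _ _
  have h1 := mul_le_mul_of_nonneg_left (h.upper (x + δ • e) v) hP0
  have h2 := mul_le_mul_of_nonneg_left (h.upper (x + (-δ) • e) v) (by linarith : (0 : ℝ) ≤ 1 - P)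
  have h3 : 0 ≤ P * (1 - P) * ((dd v w (x + δ • e) - dd v w (x + (-δ) • e)) *
      (dd v w (x + δ • e) - dd v w (x + (-δ) • e))) :=
    mul_nonneg (mul_nonneg hP0 (by linarith)) (mul_self_nonneg _)
  linarith

theorem step_b3 (h : St a b C3 C4 κ ε w) (ha : 0 ≤ a) (he : ‖e‖ = 1) (hδ : 0 ≤ δ) (hδ1 : δ ≤ 1)
    (x v₁ v₂ v₃ : E) : |dd v₃ (dd v₂ (dd v₁ (avg δ e w))) x| ≤
      (C3 * (1 + 3 * b * δ ^ 2) + 2 * b ^ 3 * δ ^ 3) * (‖v₁‖ * ‖v₂‖ * ‖v₃‖) := by
  have hb : 0 ≤ b := ha.trans (h.a_le_b he)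
  have hC3 := h.C3_nonneg he
  rw [avg_eq_lg, lg3 (sm_shift h.smooth _) (sm_shift h.smooth _)]
  simp only [df, dd_shift]
  set P := wt (fun x => w (x + δ • e)) (fun x => w (x + (-δ) • e)) x with hP
  have hP0 : 0 ≤ P := wt_nonneg _ _ _
  have hP1 : P ≤ 1 := wt_le_one _ _ _
  exact r3 hP0 hP1 rfl rfl hδ hδ1 hb hC3 (norm_nonneg _) (norm_nonneg _) (norm_nonneg _)
    (h.D1 ha he hδ x v₁) (h.D1 ha he hδ x v₂) (h.D1 ha he hδ x v₃)
    (h.D2 he hδ x v₁ v₂) (h.D2 he hδ x v₂ v₃) (h.D2 he hδ x v₁ v₃)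
    (h.b3 (x + (-δ) • e) v₁ v₂ v₃) (h.b3 (x + δ • e) v₁ v₂ v₃)

theorem step_b4 (h : St a b C3 C4 κ ε w) (ha : 0 ≤ a) (he : ‖e‖ = 1) (hδ : 0 ≤ δ) (hδ1 : δ ≤ 1)
    (x v₁ v₂ v₃ v₄ : E) : |dd v₄ (dd v₃ (dd v₂ (dd v₁ (avg δ e w)))) x| ≤
      (C4 * (1 + 4 * b * δ ^ 2) + δ ^ 2 * (3 * C3 ^ 2 + 12 * C3 * b ^ 2 + 4 * b ^ 4)) *
        (‖v₁‖ * ‖v₂‖ * ‖v₃‖ * ‖v₄‖) := by
  have hb : 0 ≤ b := ha.trans (h.a_le_b he)
  have hC3 := h.C3_nonneg he
  have hC4 := h.C4_nonneg he
  rw [avg_eq_lg, lg4 (sm_shift h.smooth _) (sm_shift h.smooth _)]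
  simp only [df, dd_shift]
  set P := wt (fun x => w (x + δ • e)) (fun x => w (x + (-δ) • e)) x with hP
  have hP0 : 0 ≤ P := wt_nonneg _ _ _
  have hP1 : P ≤ 1 := wt_le_one _ _ _
  exact r4 hP0 hP1 rfl rfl hδ hδ1 hb hC3 hC4 (norm_nonneg _) (norm_nonneg _) (norm_nonneg _)
    (norm_nonneg _)
    (h.D1 ha he hδ x v₁) (h.D1 ha he hδ x v₂) (h.D1 ha he hδ x v₃) (h.D1 ha he hδ x v₄)
    (h.D2 he hδ x v₁ v₂) (h.D2 he hδ x v₁ v₃) (h.D2 he hδ x v₂ v₃)
    (h.D2 he hδ x v₁ v₄) (h.D2 he hδ x v₂ v₄) (h.D2 he hδ x v₃ v₄)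
    (h.D3 he hδ x v₁ v₂ v₃) (h.D3 he hδ x v₁ v₂ v₄) (h.D3 he hδ x v₁ v₃ v₄)
    (h.D3 he hδ x v₂ v₃ v₄)
    (h.b4 (x + (-δ) • e) v₁ v₂ v₃ v₄) (h.b4 (x + δ • e) v₁ v₂ v₃ v₄)

end

theorem step_lower (a0 b A3 : ℝ) (ha0 : 0 < a0) : ∃ K, 0 ≤ K ∧
    ∀ (κ δ ε a C3 C4 : ℝ) (e : E) (w : E → ℝ), 0 < δ → δ ≤ 1 → a0 ≤ a → C3 ≤ A3 → ‖e‖ = 1 →
      St a b C3 C4 κ ε w → ∀ x v, (a * (1 - b * δ ^ 2) - K * δ ^ 3) * ‖v‖ ^ 2 ≤
        dd v (dd v (avg δ e w)) x := by
  by_cases hb : 0 ≤ b ∧ 0 ≤ A3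
  · obtain ⟨K, hK, hmain⟩ := r_low a0 b A3 ha0 hb.1 hb.2
    refine ⟨K, hK, ?_⟩
    intro κ δ ε a C3 C4 e w hδ hδ1 haa hC3A he h x v
    have ha : 0 ≤ a := by linarith
    have hC3 := h.C3_nonneg he
    rw [avg_eq_lg, lg2 (sm_shift h.smooth _) (sm_shift h.smooth _)]
    simp only [df, dd_shift]
    set P := wt (fun x => w (x + δ • e)) (fun x => w (x + (-δ) • e)) x with hP
    have hP0 : 0 ≤ P := wt_nonneg _ _ _
    have hP1 : P ≤ 1 := wt_le_one _ _ _
    have hb3 : ∀ y, |dd e (dd v (dd v w)) y| ≤ C3 * ‖v‖ ^ 2 := by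
      intro y
      have := h.b3 y v v e
      rw [he] at this
      calc _ ≤ _ := this
        _ = _ := by ring
    have hb3' : ∀ y, |dd e (dd e (dd v w)) y| ≤ C3 * ‖v‖ := by
      intro y
      have := h.b3 y v e e
      rw [he] at this
      calc _ ≤ _ := this
        _ = _ := by ring
    have m1 : dd e (dd v w) x ^ 2 ≤ b * dd v (dd v w) x := by
      have h1 := h.cs_sq ha x e v
      have h2 := h.upper x e
      rw [he] at h2
      have h3 := h.nonneg ha x v
      nlinarith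
    have d1 := abs_le.1 (diff_bound1 (sm_dd (sm_dd h.smooth v) v) hb3 x δ)
    have d2 := abs_le.1 (diff_bound1 (sm_dd (sm_dd h.smooth v) v) hb3 x (-δ))
    rw [abs_of_pos hδ] at d1
    rw [abs_neg, abs_of_pos hδ] at d2
    have mb := h.cs_abs ha x e v
    rw [he, one_mul] at mb
    have dD := diff_bound2 (sm_dd h.smooth v) hb3' x hδ.le
    have := hmain a C3 δ P ‖v‖ (dd v (dd v w) (x + δ • e)) (dd v (dd v w) (x + (-δ) • e))
      (dd v (dd v w) x) (dd e (dd v w) x) (dd v w (x + δ • e) - dd v w (x + (-δ) • e))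
      haa (h.a_le_b he) hC3 hC3A hδ hδ1 hP0 hP1 (norm_nonneg _)
      (h.lower _ v) (h.upper _ v) (h.lower _ v) (h.upper _ v) (h.nonneg ha x v) m1
      (by linarith [d1.1]) (by linarith [d2.1]) mb
      (by calc _ ≤ _ := dD
            _ = _ := by ring)
    calc _ ≤ _ := this
      _ = _ := by ring
  · refine ⟨0, le_rfl, ?_⟩
    intro κ δ ε a C3 C4 e w hδ hδ1 haa hC3A he h x v
    exfalso
    apply hb
    exact ⟨by linarith [h.a_le_b he], by linarith [h.C3_nonneg he]⟩

end Vale.Agent.P227.M.SC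
end

section

/-! # P227/M/SC: multilinear expansion in the direction `v + ρ e`. -/

namespace Vale.Agent.P227.M.SC

variable {E : Type*} [NormedAddCommGroup E] [NormedSpace ℝ E]

theorem dd_line_dir {f : E → ℝ} (v e : E) (ρ : ℝ) :
    dd (v + ρ • e) f = fun x => dd v f x + ρ * dd e f x := by
  funext x
  rw [dd_add_dir, dd_smul_dir]

theorem dd_lin {f g : E → ℝ} (hf : Sm f) (hg : Sm g) (c : ℝ) (u : E) :
    dd u (fun x => f x + c * g x) = fun x => dd u f x + c * dd u g x := by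
  funext x
  rw [dd_add hf (contDiff_const.mul hg), dd_const_mul hg]

theorem expand2 {w : E → ℝ} (hw : Sm w) (v e : E) (ρ : ℝ) :
    dd (v + ρ • e) (dd (v + ρ • e) w) = fun y => dd v (dd v w) y + 2 * ρ * dd e (dd v w) y
      + ρ ^ 2 * dd e (dd e w) y := by
  funext y
  rw [dd_line_dir v e ρ (f := w), dd_lin (sm_dd hw v) (sm_dd hw e), dd_line_dir v e ρ (f := dd v w),
    dd_line_dir v e ρ (f := dd e w), dd_comm hw v e]
  ring

theorem expand3 {w : E → ℝ} (hw : Sm w) (v e : E) (ρ : ℝ) :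
    dd (v + ρ • e) (dd (v + ρ • e) (dd (v + ρ • e) w)) = fun y => dd v (dd v (dd v w)) y
      + 3 * ρ * dd e (dd v (dd v w)) y + 3 * ρ ^ 2 * dd e (dd e (dd v w)) y
      + ρ ^ 3 * dd e (dd e (dd e w)) y := by
  rw [expand2 hw v e ρ, dd_line_dir v e ρ]
  have h1 : ∀ u : E, dd u (fun y => dd v (dd v w) y + 2 * ρ * dd e (dd v w) y
      + ρ ^ 2 * dd e (dd e w) y) = fun y => dd u (dd v (dd v w)) y + 2 * ρ * dd u (dd e (dd v w)) y
      + ρ ^ 2 * dd u (dd e (dd e w)) y := by
    intro u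
    rw [dd_lin ((sm_dd (sm_dd hw v) v).add (contDiff_const.mul (sm_dd (sm_dd hw v) e)))
      (sm_dd (sm_dd hw e) e), dd_lin (sm_dd (sm_dd hw v) v) (sm_dd (sm_dd hw v) e)]
  rw [h1, h1]
  funext y
  have e1 : dd v (dd e (dd v w)) = dd e (dd v (dd v w)) := dd_comm (sm_dd hw v) v e
  have e2 : dd v (dd e (dd e w)) = dd e (dd e (dd v w)) := by
    rw [dd_comm (sm_dd hw e) v e, dd_comm hw v e]
  rw [e1, e2]
  ring

theorem dd_smul_dir2 {w : E → ℝ} (hw : Sm w) (c : ℝ) (v : E) :
    dd (c • v) (dd (c • v) w) = fun x => c ^ 2 * dd v (dd v w) x := by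
  funext x
  rw [dd_smul_dir' w c v, dd_const_mul (sm_dd hw v), dd_smul_dir]
  ring

theorem dd_smul_dir3 {w : E → ℝ} (hw : Sm w) (c : ℝ) (v : E) :
    dd (c • v) (dd (c • v) (dd (c • v) w)) = fun x => c ^ 3 * dd v (dd v (dd v w)) x := by
  funext x
  rw [dd_smul_dir2 hw c v, dd_const_mul (sm_dd (sm_dd hw v) v), dd_smul_dir]
  ring

end Vale.Agent.P227.M.SC
end

section

/-! # P227/M/SC: the field `sc` of the step and the proof of `StepStmt`. -/

namespace Vale.Agent.P227.M.SC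

open Real

variable {E : Type*} [NormedAddCommGroup E] [NormedSpace ℝ E]

/-- crude bound of the third derivative of the average when the second derivative of the average is negative -/
theorem crude_real {a0 b C3 d P Q a1 a2 b1 b2 D : ℝ} (ha0 : 0 < a0) (hab : a0 ≤ b) (hC3 : 0 ≤ C3)
    (hd0 : 0 < d) (hd1 : d ≤ 1) (hP : 0 ≤ P) (hQ : 0 ≤ Q) (hPQ : P + Q = 1)
    (ha1 : a0 ≤ a1) (ha2 : a0 ≤ a2)
    (hb1 : |b1| ≤ C3) (hb2 : |b2| ≤ C3) (h12 : |a1 - a2| ≤ 2 * d * C3) (hD : |D| ≤ 2 * d * b)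
    (hneg : P * a1 + Q * a2 - P * Q * D ^ 2 < 0) :
    P * b1 + Q * b2 - 3 * (P * Q) * (a1 - a2) * D + P * Q * (Q - P) * D ^ 3 ≤
      ((C3 + 3 * C3 * b + 2 * b ^ 3) * (b ^ 3 / (a0 * √a0))) * d ^ 3 := by
  have hb0 : 0 < b := lt_of_lt_of_le ha0 hab
  have hPQ4 := pq_le hPQ
  have hPQ0 : 0 ≤ P * Q := mul_nonneg hP hQ
  have hr0 : 0 < √a0 := sqrt_pos.2 ha0
  have hD2 : D ^ 2 ≤ 4 * d ^ 2 * b ^ 2 := by
    have := pow_le_pow_left₀ (abs_nonneg D) hD 2
    rw [sq_abs] at this
    calc D ^ 2 ≤ (2 * d * b) ^ 2 := this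
      _ = _ := by ring
  have hA : a0 ≤ P * a1 + Q * a2 := by
    have : P * a0 + Q * a0 = a0 := by rw [← add_mul, hPQ, one_mul]
    rw [← this]
    exact add_le_add (mul_le_mul_of_nonneg_left ha1 hP) (mul_le_mul_of_nonneg_left ha2 hQ)
  have hPQD : P * Q * D ^ 2 ≤ d ^ 2 * b ^ 2 := by
    calc P * Q * D ^ 2 ≤ 1 / 4 * (4 * d ^ 2 * b ^ 2) :=
          mul_le_mul hPQ4 hD2 (sq_nonneg _) (by norm_num)
      _ = _ := by ring
  have hdb : √a0 ≤ d * b := by
    apply Real.sqrt_le_iff.2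
    refine ⟨by positivity, ?_⟩
    calc a0 ≤ d ^ 2 * b ^ 2 := by linarith
      _ = _ := by ring
  have hone : 1 ≤ b ^ 3 / (a0 * √a0) * d ^ 3 := by
    have h1 : √a0 ^ 3 ≤ (d * b) ^ 3 := pow_le_pow_left₀ hr0.le hdb 3
    have h2 : √a0 ^ 3 = a0 * √a0 := by
      calc √a0 ^ 3 = √a0 ^ 2 * √a0 := by ring
        _ = _ := by rw [sq_sqrt ha0.le]
    rw [h2] at h1
    have h3 : b ^ 3 / (a0 * √a0) * d ^ 3 = (d * b) ^ 3 / (a0 * √a0) := by ring
    rw [h3, le_div_iff₀ (by positivity), one_mul]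
    exact h1
  have t1 : P * b1 + Q * b2 ≤ C3 := by
    calc P * b1 + Q * b2 ≤ P * C3 + Q * C3 :=
          add_le_add (mul_le_mul_of_nonneg_left ((le_abs_self _).trans hb1) hP)
            (mul_le_mul_of_nonneg_left ((le_abs_self _).trans hb2) hQ)
      _ = C3 := by rw [← add_mul, hPQ, one_mul]
  have t2 : -(3 * (P * Q) * (a1 - a2) * D) ≤ 3 * C3 * b := by
    have u1 : |(a1 - a2) * D| ≤ 4 * C3 * b := by
      rw [abs_mul]
      calc |a1 - a2| * |D| ≤ (2 * d * C3) * (2 * d * b) := mul_le_mul h12 hD (abs_nonneg _) (by positivity)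
        _ = d ^ 2 * (4 * C3 * b) := by ring
        _ ≤ 1 * (4 * C3 * b) := mul_le_mul_of_nonneg_right (pow_le_one₀ hd0.le hd1) (by positivity)
        _ = _ := one_mul _
    have u2 : -((a1 - a2) * D) ≤ 4 * C3 * b := (neg_le_abs _).trans u1
    have u3 := mul_le_mul_of_nonneg_left u2 (show (0 : ℝ) ≤ 3 * (P * Q) by positivity)
    calc -(3 * (P * Q) * (a1 - a2) * D) = 3 * (P * Q) * -((a1 - a2) * D) := by ring
      _ ≤ 3 * (P * Q) * (4 * C3 * b) := u3
      _ ≤ 3 * (1 / 4) * (4 * C3 * b) :=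
          mul_le_mul_of_nonneg_right (by linarith) (by positivity)
      _ = _ := by ring
  have t3 : P * Q * (Q - P) * D ^ 3 ≤ 2 * b ^ 3 := by
    have u1 : |P * Q * (Q - P)| ≤ 1 / 4 := by
      rw [abs_mul, abs_of_nonneg hPQ0]
      have : |Q - P| ≤ 1 := by
        rw [abs_le]; constructor <;> linarith
      calc P * Q * |Q - P| ≤ 1 / 4 * 1 := mul_le_mul hPQ4 this (abs_nonneg _) (by norm_num)
        _ = 1 / 4 := by norm_num
    have u2 : |D ^ 3| ≤ 8 * b ^ 3 := by
      rw [abs_pow]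
      calc |D| ^ 3 ≤ (2 * d * b) ^ 3 := pow_le_pow_left₀ (abs_nonneg _) hD 3
        _ = d ^ 3 * (8 * b ^ 3) := by ring
        _ ≤ 1 * (8 * b ^ 3) := mul_le_mul_of_nonneg_right (pow_le_one₀ hd0.le hd1) (by positivity)
        _ = _ := one_mul _
    calc P * Q * (Q - P) * D ^ 3 ≤ |P * Q * (Q - P) * D ^ 3| := le_abs_self _
      _ = |P * Q * (Q - P)| * |D ^ 3| := abs_mul _ _
      _ ≤ 1 / 4 * (8 * b ^ 3) := mul_le_mul u1 u2 (abs_nonneg _) (by norm_num)
      _ = _ := by ring
  have hM : 0 ≤ C3 + 3 * C3 * b + 2 * b ^ 3 := by positivity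
  calc P * b1 + Q * b2 - 3 * (P * Q) * (a1 - a2) * D + P * Q * (Q - P) * D ^ 3
      ≤ (C3 + 3 * C3 * b + 2 * b ^ 3) * 1 := by linarith
    _ ≤ (C3 + 3 * C3 * b + 2 * b ^ 3) * (b ^ 3 / (a0 * √a0) * d ^ 3) :=
        mul_le_mul_of_nonneg_left hone hM
    _ = _ := by ring

/-- `x ^ (3/2)` of a negative number vanishes -/
theorem rpow32_neg {x : ℝ} (hx : x < 0) : x ^ ((3 : ℝ) / 2) = 0 := by
  rw [Real.rpow_def_of_neg hx]
  have : Real.cos ((3 : ℝ) / 2 * π) = 0 := by
    rw [show (3 : ℝ) / 2 * π = π / 2 + π by ring, Real.cos_add_pi, Real.cos_pi_div_two, neg_zero]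
  rw [this, mul_zero]

theorem rpow32_nonneg (x : ℝ) : 0 ≤ x ^ ((3 : ℝ) / 2) := by
  rcases lt_or_ge x 0 with h | h
  · rw [rpow32_neg h]
  · exact Real.rpow_nonneg h _

theorem rpow32_smul {c y : ℝ} (hc : 0 < c) :
    (c ^ 2 * y) ^ ((3 : ℝ) / 2) = c ^ 3 * y ^ ((3 : ℝ) / 2) := by
  rcases lt_or_ge y 0 with h | h
  · rw [rpow32_neg h, rpow32_neg (mul_neg_of_pos_of_neg (by positivity) h), mul_zero]
  · rw [Real.mul_rpow (sq_nonneg c) h, rpow32 (sq_nonneg c), Real.sqrt_sq hc.le]; ring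

/-- the field `sc` at unit vectors -/
theorem step_sc_unit (a0 b A3 A4 : ℝ) (ha0 : 0 < a0) (hab : a0 ≤ b) (hA3 : 0 ≤ A3) (hA4 : 0 ≤ A4) :
    ∃ K : ℝ, 0 ≤ K ∧
    ∀ (κ δ ε a C3 C4 : ℝ) (e : E) (w : E → ℝ), 0 ≤ κ → κ ≤ 1 → 0 < δ → δ ≤ 1 → 0 ≤ ε →
      a0 ≤ a → C3 ≤ A3 → C4 ≤ A4 → ‖e‖ = 1 → St a b C3 C4 κ ε w → ∀ x v, ‖v‖ = 1 →
      dd v (dd v (dd v (avg δ e w))) x ≤
        2 * κ * (dd v (dd v (avg δ e w)) x) ^ ((3 : ℝ) / 2) + (ε * (1 + K * δ ^ 2) + K * δ ^ 3) := by
  obtain ⟨K0, hK0, H⟩ := sc_real a0 b (2 * A3) (2 * A4) ha0 hab (by positivity) (by positivity)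
  have hr0 : 0 < √a0 := sqrt_pos.2 ha0
  have hb0 : 0 < b := lt_of_lt_of_le ha0 hab
  obtain ⟨M, hM⟩ : ∃ M : ℝ, M = (A3 + 3 * A3 * b + 2 * b ^ 3) * (b ^ 3 / (a0 * √a0)) := ⟨_, rfl⟩
  have hM0 : 0 ≤ M := by rw [hM]; positivity
  refine ⟨K0 + M, by positivity, ?_⟩
  intro κ δ ε a C3 C4 e w hκ0 hκ1 hδ hδ1 hε haa hC3A hC4A he h x v hv
  have ha : 0 ≤ a := ha0.le.trans haa
  have hw : Sm w := h.smooth
  have ed : (avg δ e w) = lg (fun x => w (x + δ • e)) (fun x => w (x + (-δ) • e)) := avg_eq_lg δ e w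
  rw [ed, lg3 (sm_shift hw _) (sm_shift hw _), lg2 (sm_shift hw _) (sm_shift hw _)]
  simp only [df, dd_shift]
  obtain ⟨P, hP⟩ : ∃ P : ℝ, wt (fun x => w (x + δ • e)) (fun x => w (x + (-δ) • e)) x = P := ⟨_, rfl⟩
  have hP0 : 0 ≤ P := hP ▸ wt_nonneg _ _ _
  have hP1 : P ≤ 1 := hP ▸ wt_le_one _ _ _
  rw [hP]
  -- bounds of derivatives in the directions `v`, `e`
  have b3 : ∀ y v₁ v₂ v₃ : E, ‖v₁‖ = 1 → ‖v₂‖ = 1 → ‖v₃‖ = 1 → |dd v₃ (dd v₂ (dd v₁ w)) y| ≤ A3 := by
    intro y v₁ v₂ v₃ h1 h2 h3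
    have := h.b3 y v₁ v₂ v₃
    rw [h1, h2, h3] at this
    linarith
  have b4 : ∀ y v₁ v₂ v₃ v₄ : E, ‖v₁‖ = 1 → ‖v₂‖ = 1 → ‖v₃‖ = 1 → ‖v₄‖ = 1 →
      |dd v₄ (dd v₃ (dd v₂ (dd v₁ w))) y| ≤ A4 := by
    intro y v₁ v₂ v₃ v₄ h1 h2 h3 h4
    have := h.b4 y v₁ v₂ v₃ v₄
    rw [h1, h2, h3, h4] at this
    linarith
  have lo : ∀ y u : E, ‖u‖ = 1 → a0 ≤ dd u (dd u w) y := by
    intro y u hu
    have := h.lower y u
    rw [hu] at this
    linarith
  have up : ∀ y u : E, ‖u‖ = 1 → dd u (dd u w) y ≤ b := by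
    intro y u hu
    have := h.upper y u
    rw [hu] at this
    linarith
  have cs : ∀ y u v : E, ‖u‖ = 1 → ‖v‖ = 1 → |dd u (dd v w) y| ≤ b := by
    intro y u v hu hv
    have := h.cs_abs ha y u v
    rw [hu, hv] at this
    linarith
  have pos : ∀ (y : E) (η : ℝ), 0 ≤ dd v (dd v w) y + 2 * η * dd e (dd v w) y + η ^ 2 * dd e (dd e w) y := by
    intro y η
    have h1 := h.nonneg ha y (v + η • e)
    rwa [expand2 hw v e η] at h1
  have sc : ∀ (y : E) (η : ℝ), dd v (dd v (dd v w)) y + 3 * η * dd e (dd v (dd v w)) y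
      + 3 * η ^ 2 * dd e (dd e (dd v w)) y + η ^ 3 * dd e (dd e (dd e w)) y ≤
      2 * κ * (dd v (dd v w) y + 2 * η * dd e (dd v w) y + η ^ 2 * dd e (dd e w) y) ^ ((3 : ℝ) / 2)
        + ε * (1 + |η|) ^ 3 := by
    intro y η
    have h1 := h.sc y (v + η • e)
    rw [expand3 hw v e η, expand2 hw v e η] at h1
    have h2 : ‖v + η • e‖ ≤ 1 + |η| := by
      refine (norm_add_le _ _).trans ?_
      rw [hv, norm_smul, he, mul_one, Real.norm_eq_abs]
    have h3 : ε * ‖v + η • e‖ ^ 3 ≤ ε * (1 + |η|) ^ 3 :=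
      mul_le_mul_of_nonneg_left (pow_le_pow_left₀ (norm_nonneg _) h2 3) hε
    exact h1.trans (by linarith)
  have hB3 : ∀ y, |dd e (dd v (dd v w)) y| ≤ A3 := fun y => b3 y v v e hv hv he
  have hB3' : ∀ y, |dd e (dd e (dd v w)) y| ≤ A3 := fun y => b3 y v e e hv he he
  have hB4 : ∀ y, |dd e (dd e (dd v (dd v w))) y| ≤ A4 := fun y => b4 y v v e e hv hv he he
  have hA3d : A3 * δ ≤ 2 * A3 * δ := by nlinarith [mul_nonneg hA3 hδ.le]
  have hA4d : A4 * δ ≤ 2 * A4 * δ := by nlinarith [mul_nonneg hA4 hδ.le]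
  have dp : ∀ {f : E → ℝ} (hf : Sm f) {B : ℝ} (hB : ∀ y, |dd e f y| ≤ B),
      |f (x + δ • e) - f x| ≤ B * δ ∧ |f (x + (-δ) • e) - f x| ≤ B * δ := by
    intro f hf B hB
    constructor
    · have := diff_bound1 hf hB x δ
      rw [abs_of_pos hδ] at this
      linarith
    · have := diff_bound1 hf hB x (-δ)
      rw [abs_neg, abs_of_pos hδ] at this
      linarith
  obtain ⟨da1, da2⟩ := dp (sm_dd (sm_dd hw v) v) hB3
  obtain ⟨dm1, dm2⟩ := dp (sm_dd (sm_dd hw v) e) hB3'
  obtain ⟨dq1, dq2⟩ := dp (sm_dd (sm_dd (sm_dd hw v) v) e) hB4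
  have d12 := diff_bound2 (sm_dd (sm_dd hw v) v) hB4 x hδ.le
  have dD := diff_bound2 (sm_dd hw v) hB3' x hδ.le
  by_cases hnn : 0 ≤ P * dd v (dd v w) (x + δ • e) + (1 - P) * dd v (dd v w) (x + (-δ) • e)
      - P * (1 - P) * (dd v w (x + δ • e) - dd v w (x + (-δ) • e)) ^ 2
  · have key := H κ ε δ P (1 - P) (dd v (dd v w) (x + δ • e)) (dd v (dd v w) (x + (-δ) • e))
      (dd v (dd v (dd v w)) (x + δ • e)) (dd v (dd v (dd v w)) (x + (-δ) • e))
      (dd v w (x + δ • e) - dd v w (x + (-δ) • e))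
      (dd v (dd v w) x) (dd e (dd v w) x) (dd e (dd v (dd v w)) x)
      (dd e (dd v w) (x + δ • e)) (dd e (dd v w) (x + (-δ) • e))
      (dd e (dd v (dd v w)) (x + δ • e)) (dd e (dd v (dd v w)) (x + (-δ) • e))
      (dd e (dd e w) (x + δ • e)) (dd e (dd e w) (x + (-δ) • e))
      (dd e (dd e (dd v w)) (x + δ • e)) (dd e (dd e (dd v w)) (x + (-δ) • e))
      (dd e (dd e (dd e w)) (x + δ • e)) (dd e (dd e (dd e w)) (x + (-δ) • e))
      hκ0 hκ1 hε hδ hδ1 hP0 (by linarith) (by ring)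
      (lo _ v hv) (up _ v hv) (lo _ v hv) (up _ v hv) (lo _ v hv) (up _ v hv)
      (da1.trans hA3d) (da2.trans hA3d)
      (by calc _ ≤ _ := d12
            _ = _ := by ring)
      (by calc _ ≤ _ := dD
            _ = _ := by ring)
      (dm1.trans hA3d) (dm2.trans hA3d) (dq1.trans hA4d) (dq2.trans hA4d)
      (cs _ e v he hv) (cs _ e v he hv) (cs _ e v he hv) (cs _ e e he he) (cs _ e e he he)
      ((hB3 _).trans (by linarith)) ((hB3' _).trans (by linarith)) ((hB3' _).trans (by linarith))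
      ((b3 _ e e e he he he).trans (by linarith)) ((b3 _ e e e he he he).trans (by linarith))
      (pos _) (pos _) (sc _) (sc _) hnn
    have e2 : dd v (dd v w) (x + (-δ) • e) + P * (dd v (dd v w) (x + δ • e) - dd v (dd v w) (x + (-δ) • e))
        - P * (1 - P) * ((dd v w (x + δ • e) - dd v w (x + (-δ) • e))
          * (dd v w (x + δ • e) - dd v w (x + (-δ) • e)))
        = P * dd v (dd v w) (x + δ • e) + (1 - P) * dd v (dd v w) (x + (-δ) • e)
      - P * (1 - P) * (dd v w (x + δ • e) - dd v w (x + (-δ) • e)) ^ 2 := by ring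
    rw [e2]
    have hKM : ε * (1 + K0 * δ ^ 2) + K0 * δ ^ 3 ≤ ε * (1 + (K0 + M) * δ ^ 2) + (K0 + M) * δ ^ 3 := by
      have h1 : 0 ≤ ε * (M * δ ^ 2) := by positivity
      have h2 : 0 ≤ M * δ ^ 3 := by positivity
      have h3 : ε * (1 + (K0 + M) * δ ^ 2) + (K0 + M) * δ ^ 3
        = ε * (1 + K0 * δ ^ 2) + K0 * δ ^ 3 + ε * (M * δ ^ 2) + M * δ ^ 3 := by ring
      rw [h3]; linarith
    refine le_trans (le_of_eq ?_) (key.trans (by linarith))
    ring
  · push Not at hnn
    have e2 : dd v (dd v w) (x + (-δ) • e) + P * (dd v (dd v w) (x + δ • e) - dd v (dd v w) (x + (-δ) • e))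
        - P * (1 - P) * ((dd v w (x + δ • e) - dd v w (x + (-δ) • e))
          * (dd v w (x + δ • e) - dd v w (x + (-δ) • e)))
        = P * dd v (dd v w) (x + δ • e) + (1 - P) * dd v (dd v w) (x + (-δ) • e)
      - P * (1 - P) * (dd v w (x + δ • e) - dd v w (x + (-δ) • e)) ^ 2 := by ring
    rw [e2, rpow32_neg hnn, mul_zero, zero_add]
    have hDb : |dd v w (x + δ • e) - dd v w (x + (-δ) • e)| ≤ 2 * δ * b := by
      have := h.D1 ha he hδ.le x v
      rwa [hv, mul_one] at this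
    have h12 : |dd v (dd v w) (x + δ • e) - dd v (dd v w) (x + (-δ) • e)| ≤ 2 * δ * A3 := by
      refine (h.D2 he hδ.le x v v).trans ?_
      rw [hv, mul_one, mul_one]
      exact mul_le_mul_of_nonneg_left hC3A (by positivity)
    have key := crude_real ha0 hab hA3 hδ hδ1 hP0 (show 0 ≤ 1 - P by linarith) (by ring)
      (lo (x + δ • e) v hv) (lo (x + (-δ) • e) v hv)
      (b3 (x + δ • e) v v v hv hv hv) (b3 (x + (-δ) • e) v v v hv hv hv) h12 hDb hnn
    rw [← hM] at key
    have hKM : M * δ ^ 3 ≤ ε * (1 + (K0 + M) * δ ^ 2) + (K0 + M) * δ ^ 3 := by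
      have h1 : 0 ≤ ε * (1 + (K0 + M) * δ ^ 2) := by positivity
      have h2 : 0 ≤ K0 * δ ^ 3 := by positivity
      have h3 : (K0 + M) * δ ^ 3 = K0 * δ ^ 3 + M * δ ^ 3 := by ring
      rw [h3]; linarith
    refine le_trans (le_of_eq ?_) (key.trans hKM)
    ring

/-- THE STEP. -/
theorem stepStmt : StepStmt E := by
  intro a0 b A3 A4 ha0
  by_cases hgood : a0 ≤ b ∧ 0 ≤ A3 ∧ 0 ≤ A4
  · obtain ⟨hab, hA3, hA4⟩ := hgood
    obtain ⟨K1, hK1, H1⟩ := step_sc_unit (E := E) a0 b A3 A4 ha0 hab hA3 hA4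
    obtain ⟨K2, hK2, H2⟩ := step_lower (E := E) a0 b A3 ha0
    refine ⟨K1 + K2, by positivity, ?_⟩
    intro κ δ ε a C3 C4 e w hκ0 hκ1 hδ hδ1 hε hε1 haa hC3A hC4A he h
    have ha : 0 ≤ a := ha0.le.trans haa
    have hsm : ContDiff ℝ (⊤ : ℕ∞) (avg δ e w) := step_smooth h
    refine ⟨hsm, ?_, step_upper h, step_b3 h ha he hδ.le hδ1, step_b4 h ha he hδ.le hδ1, ?_⟩
    · intro x v
      refine le_trans ?_ (H2 κ δ ε a C3 C4 e w hδ hδ1 haa hC3A he h x v)
      apply mul_le_mul_of_nonneg_right _ (sq_nonneg _)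
      have : 0 ≤ K1 * δ ^ 3 := by positivity
      linarith [add_mul K1 K2 (δ ^ 3)]
    · intro x v
      have hT : ∀ t : ℝ, 0 ≤ t → (ε * (1 + K1 * δ ^ 2) + K1 * δ ^ 3) * t ≤
          (ε * (1 + (K1 + K2) * δ ^ 2) + (K1 + K2) * δ ^ 3) * t := by
        intro t ht
        apply mul_le_mul_of_nonneg_right _ ht
        have h1 : 0 ≤ ε * (K2 * δ ^ 2) := by positivity
        have h2 : 0 ≤ K2 * δ ^ 3 := by positivity
        have h3 : ε * (1 + (K1 + K2) * δ ^ 2) + (K1 + K2) * δ ^ 3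
          = ε * (1 + K1 * δ ^ 2) + K1 * δ ^ 3 + ε * (K2 * δ ^ 2) + K2 * δ ^ 3 := by ring
        rw [h3]; linarith
      by_cases hv : v = 0
      · subst hv
        have e0 : dd (0 : E) (dd (0 : E) (dd (0 : E) (avg δ e w))) x = 0 := by simp [dd]
        rw [e0, norm_zero]
        have := rpow32_nonneg (dd (0 : E) (dd (0 : E) (avg δ e w)) x)
        have h1 : 0 ≤ 2 * κ * (dd (0 : E) (dd (0 : E) (avg δ e w)) x) ^ ((3 : ℝ) / 2) := by positivity
        have h2 : (ε * (1 + (K1 + K2) * δ ^ 2) + (K1 + K2) * δ ^ 3) * (0 : ℝ) ^ 3 = 0 := by simp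
        rw [h2]; linarith
      · obtain ⟨c, hc⟩ : ∃ c : ℝ, c = ‖v‖ := ⟨_, rfl⟩
        have hc0 : 0 < c := by rw [hc]; exact norm_pos_iff.2 hv
        obtain ⟨u, hu⟩ : ∃ u : E, u = c⁻¹ • v := ⟨_, rfl⟩
        have hu1 : ‖u‖ = 1 := by
          rw [hu, norm_smul, norm_inv, Real.norm_eq_abs, abs_of_pos hc0, ← hc, inv_mul_cancel₀ hc0.ne']
        have hvu : v = c • u := by
          rw [hu, smul_smul, mul_inv_cancel₀ hc0.ne', one_smul]
        have key := H1 κ δ ε a C3 C4 e w hκ0 hκ1 hδ hδ1 hε haa hC3A hC4A he h x u hu1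
        have hnv : ‖v‖ = c := hc.symm
        rw [hnv, hvu, dd_smul_dir3 hsm c u, dd_smul_dir2 hsm c u]
        simp only [rpow32_smul hc0]
        have hc3 : 0 ≤ c ^ 3 := by positivity
        have k2 := mul_le_mul_of_nonneg_left key hc3
        have k3 := hT (c ^ 3) hc3
        calc c ^ 3 * dd u (dd u (dd u (avg δ e w))) x
            ≤ c ^ 3 * (2 * κ * (dd u (dd u (avg δ e w)) x) ^ ((3 : ℝ) / 2)
              + (ε * (1 + K1 * δ ^ 2) + K1 * δ ^ 3)) := k2
          _ = 2 * κ * (c ^ 3 * (dd u (dd u (avg δ e w)) x) ^ ((3 : ℝ) / 2))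
              + (ε * (1 + K1 * δ ^ 2) + K1 * δ ^ 3) * c ^ 3 := by ring
          _ ≤ _ := by linarith
  · refine ⟨0, le_rfl, ?_⟩
    intro κ δ ε a C3 C4 e w hκ0 hκ1 hδ hδ1 hε hε1 haa hC3A hC4A he h
    exfalso
    apply hgood
    exact ⟨haa.trans (h.a_le_b he), (h.C3_nonneg he).trans hC3A, (h.C4_nonneg he).trans hC4A⟩

end Vale.Agent.P227.M.SC
end

section

/-! P254, one free direction, L13: the numerical inequality with the factor `(300/299)^(N+2)`. -/

namespace Vale.Agent.P254.FV1.NF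

theorem nn_ratio (N : ℕ) (hN : 19 ≤ N) :
    300 * ((N : ℝ) + 2) ^ (2 * N + 1) ≤ 299 * (8 * (N : ℝ) ^ 2 * ((N : ℝ) + 1) ^ (2 * N - 1)) := by
  have hN' : (19 : ℝ) ≤ N := by exact_mod_cast hN
  have hm0 : (0 : ℝ) < (N : ℝ) + 1 := by linarith
  have h1 : (1 + 1 / ((N : ℝ) + 1)) ^ (2 * (N + 1)) ≤ 2.7182818286 ^ 2 := by
    have h2 : 1 + 1 / ((N : ℝ) + 1) ≤ Real.exp (1 / ((N : ℝ) + 1)) := by
      have := Real.add_one_le_exp (1 / ((N : ℝ) + 1))
      linarith
    have h3 : (1 + 1 / ((N : ℝ) + 1)) ^ (N + 1) ≤ Real.exp 1 := by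
      calc (1 + 1 / ((N : ℝ) + 1)) ^ (N + 1) ≤ Real.exp (1 / ((N : ℝ) + 1)) ^ (N + 1) :=
            pow_le_pow_left₀ (by positivity) h2 _
        _ = Real.exp 1 := by
          rw [← Real.exp_nat_mul]
          congr 1
          push_cast
          field_simp
    rw [mul_comm 2 (N + 1), pow_mul]
    have h6 : 0 ≤ (1 + 1 / ((N : ℝ) + 1)) ^ (N + 1) := by positivity
    exact pow_le_pow_left₀ h6 (h3.trans Real.exp_one_lt_d9.le) 2
  have h4 : ((N : ℝ) + 2) ^ (2 * N + 2) ≤ 2.7182818286 ^ 2 * ((N : ℝ) + 1) ^ (2 * N + 2) := by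
    have e : (N : ℝ) + 2 = (1 + 1 / ((N : ℝ) + 1)) * ((N : ℝ) + 1) := by
      field_simp
      ring
    rw [e, mul_pow, show 2 * N + 2 = 2 * (N + 1) by ring]
    exact mul_le_mul_of_nonneg_right h1 (by positivity)
  have h5 : ((N : ℝ) + 1) ^ (2 * N + 2) = ((N : ℝ) + 1) ^ 3 * ((N : ℝ) + 1) ^ (2 * N - 1) := by
    rw [← pow_add]
    congr 1
    omega
  have h6 : 300 * ((2.7182818286 : ℝ) ^ 2 * ((N : ℝ) + 1) ^ 3) ≤
      299 * (8 * (N : ℝ) ^ 2 * ((N : ℝ) + 2)) := by
    nlinarith [mul_nonneg (sub_nonneg.2 hN') (sq_nonneg (N : ℝ)),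
      mul_nonneg (sub_nonneg.2 hN') (sub_nonneg.2 hN')]
  have h7 : ((N : ℝ) + 2) * (300 * ((N : ℝ) + 2) ^ (2 * N + 1)) ≤
      ((N : ℝ) + 2) * (299 * (8 * (N : ℝ) ^ 2 * ((N : ℝ) + 1) ^ (2 * N - 1))) := by
    calc ((N : ℝ) + 2) * (300 * ((N : ℝ) + 2) ^ (2 * N + 1)) = 300 * ((N : ℝ) + 2) ^ (2 * N + 2) := by
          ring
      _ ≤ 300 * (2.7182818286 ^ 2 * (((N : ℝ) + 1) ^ 3 * ((N : ℝ) + 1) ^ (2 * N - 1))) := by
          rw [← h5]; exact mul_le_mul_of_nonneg_left h4 (by norm_num)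
      _ = (300 * (2.7182818286 ^ 2 * ((N : ℝ) + 1) ^ 3)) * ((N : ℝ) + 1) ^ (2 * N - 1) := by ring
      _ ≤ (299 * (8 * (N : ℝ) ^ 2 * ((N : ℝ) + 2))) * ((N : ℝ) + 1) ^ (2 * N - 1) :=
          mul_le_mul_of_nonneg_right h6 (by positivity)
      _ = _ := by ring
  exact le_of_mul_le_mul_left h7 (by linarith)

theorem fv_num_near {N : ℕ} (hN : 19 ≤ N) :
    ((300 : ℝ) / 299) ^ (N + 2) * ((N : ℝ) ^ 2 * ((N : ℝ) + 1) ^ (2 * N - 1)) <
      2 * 8 ^ (N - 1) * (N.factorial : ℝ) ^ 2 := by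
  induction N, hN using Nat.le_induction with
  | base => norm_num [Nat.factorial]
  | succ n hn ih =>
    have h := nn_ratio n hn
    have e1 : 2 * (n + 1) - 1 = 2 * n + 1 := by omega
    have e2 : n + 1 - 1 = (n - 1) + 1 := by omega
    rw [e1, e2]
    have hq : (0 : ℝ) < ((300 : ℝ) / 299) ^ (n + 2) := by positivity
    calc ((300 : ℝ) / 299) ^ (n + 1 + 2) *
          (((n + 1 : ℕ) : ℝ) ^ 2 * (((n + 1 : ℕ) : ℝ) + 1) ^ (2 * n + 1))
        = ((300 : ℝ) / 299) ^ (n + 2) * (((n : ℝ) + 1) ^ 2 / 299) *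
            (300 * ((n : ℝ) + 2) ^ (2 * n + 1)) := by
          push_cast
          rw [show (n : ℝ) + 1 + 1 = (n : ℝ) + 2 by ring,
            show n + 1 + 2 = (n + 2) + 1 by ring, pow_succ ((300 : ℝ) / 299) (n + 2)]
          ring
      _ ≤ ((300 : ℝ) / 299) ^ (n + 2) * (((n : ℝ) + 1) ^ 2 / 299) *
            (299 * (8 * (n : ℝ) ^ 2 * ((n : ℝ) + 1) ^ (2 * n - 1))) :=
          mul_le_mul_of_nonneg_left h (by positivity)
      _ = 8 * ((n : ℝ) + 1) ^ 2 *
            (((300 : ℝ) / 299) ^ (n + 2) * ((n : ℝ) ^ 2 * ((n : ℝ) + 1) ^ (2 * n - 1))) := by ring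
      _ < 8 * ((n : ℝ) + 1) ^ 2 * (2 * 8 ^ (n - 1) * (n.factorial : ℝ) ^ 2) :=
          mul_lt_mul_of_pos_left ih (by positivity)
      _ = 2 * 8 ^ ((n - 1) + 1) * ((n + 1).factorial : ℝ) ^ 2 := by
          rw [Nat.factorial_succ]; push_cast; ring

/-- the real form; the right-hand side is `FV.simpC (d + 1)` unfolded -/
theorem fv_num_real' {d : ℕ} (hd : 18 ≤ d) :
    ((300 : ℝ) / 299) ^ ((d + 1) + 2) * (((d : ℝ) + 1) ^ 2 / (2 * ((d : ℝ) + 2) * ((d : ℝ) + 3)) *
      (((d : ℝ) + 2) / (8 * ((d : ℝ) + 3))) ^ d) <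
    (((d + 1).factorial : ℝ)) ^ 2 / ((((d + 1 : ℕ) : ℝ) + 1) *
      ((((d + 1 : ℕ) : ℝ) + 1) * (((d + 1 : ℕ) : ℝ) + 2)) ^ (d + 1)) := by
  have h := fv_num_near (N := d + 1) (by omega)
  have e1 : 2 * (d + 1) - 1 = 2 * d + 1 := by omega
  have e2 : d + 1 - 1 = d := by omega
  rw [e1, e2] at h
  push_cast at h ⊢
  have a1 : (0 : ℝ) < (d : ℝ) + 2 := by positivity
  have a2 : (0 : ℝ) < (d : ℝ) + 3 := by positivity
  have e3 : (d : ℝ) + 1 + 1 = (d : ℝ) + 2 := by ring
  have e4 : (d : ℝ) + 1 + 2 = (d : ℝ) + 3 := by ring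
  rw [e3] at h
  rw [e3, e4, lt_div_iff₀ (by positivity)]
  have key : ((300 : ℝ) / 299) ^ (d + 1 + 2) * (((d : ℝ) + 1) ^ 2 / (2 * ((d : ℝ) + 2) * ((d : ℝ) + 3)) *
      (((d : ℝ) + 2) / (8 * ((d : ℝ) + 3))) ^ d) *
        (((d : ℝ) + 2) * (((d : ℝ) + 2) * ((d : ℝ) + 3)) ^ (d + 1)) =
      (((300 : ℝ) / 299) ^ (d + 1 + 2) * (((d : ℝ) + 1) ^ 2 * ((d : ℝ) + 2) ^ (2 * d + 1))) /
        (2 * 8 ^ d) := by
    have e5 : ((d : ℝ) + 2) ^ (2 * d + 1) = ((d : ℝ) + 2) ^ d * ((d : ℝ) + 2) ^ d * ((d : ℝ) + 2) := by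
      ring
    have e6 : (((d : ℝ) + 2) / (8 * ((d : ℝ) + 3))) ^ d =
        ((d : ℝ) + 2) ^ d / (8 ^ d * ((d : ℝ) + 3) ^ d) := by
      rw [div_pow, mul_pow]
    have e7 : (((d : ℝ) + 2) * ((d : ℝ) + 3)) ^ (d + 1) =
        (((d : ℝ) + 2) ^ d * ((d : ℝ) + 2)) * (((d : ℝ) + 3) ^ d * ((d : ℝ) + 3)) := by
      rw [mul_pow, pow_succ, pow_succ]
    rw [e5, e6, e7]
    have b1 : ((d : ℝ) + 3) ^ d ≠ 0 := by positivity
    have b2 : (8 : ℝ) ^ d ≠ 0 := by positivity
    generalize ((300 : ℝ) / 299) ^ (d + 1 + 2) = q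
    generalize ((d : ℝ) + 3) ^ d = A at b1 ⊢
    generalize (8 : ℝ) ^ d = B at b2 ⊢
    generalize ((d : ℝ) + 2) ^ d = C
    field_simp
  rw [key, div_lt_iff₀ (by positivity)]
  calc _ < _ := h
    _ = _ := by ring

end Vale.Agent.P254.FV1.NF
end
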