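import Mathlib
import Vale.Agent.P254.Bdl.B2
import Vale.Agent.P254.Bdl.B5
import Vale.Agent.P254.Bdl.B7

set_option linter.all false

section

/-!
P254, block S2, pointwise algebra for the moment map of a log-concave measure.
-/

open Matrix

namespace Vale.Agent.P254.S2

variable {n : ℕ}

open scoped MatrixOrder in
theorem pw_fact {A : Matrix (Fin n) (Fin n) ℝ} (hA : A.PosSemidef) :
    ∃ S : Matrix (Fin n) (Fin n) ℝ, A = Sᵀ * S := by
  obtain ⟨S, hS⟩ := CStarAlgebra.nonneg_iff_eq_star_mul_self.mp hA.nonneg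
  exact ⟨S, by rw [hS, Matrix.star_eq_conjTranspose, Matrix.conjTranspose_eq_transpose_of_trivial]⟩

/-- trace of a product of positive semidefinite matrices -/
theorem pw_tr_nonneg {A B : Matrix (Fin n) (Fin n) ℝ} (hA : A.PosSemidef) (hB : B.PosSemidef) :
    0 ≤ (A * B).trace := by
  obtain ⟨S, hS⟩ := pw_fact hA
  rw [hS, Matrix.mul_assoc, Matrix.trace_mul_comm, ← Matrix.conjTranspose_eq_transpose_of_trivial]
  exact (hB.mul_mul_conjTranspose_same S).trace_nonneg

/-- the form `Σ G_cc' tr (G D_c G D_c'ᵀ)` is nonnegative -/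
theorem pw_psd3 {G : Matrix (Fin n) (Fin n) ℝ} (hG : G.PosSemidef)
    (D : Fin n → Matrix (Fin n) (Fin n) ℝ) :
    0 ≤ ∑ c, ∑ d, G c d * (G * D c * (G * (D d)ᵀ)).trace := by
  obtain ⟨S, hS'⟩ := pw_fact hG
  have h1 : ∀ c d, (G * D c * (G * (D d)ᵀ)).trace =
      ∑ p, ∑ q, (S * D c * Sᵀ) p q * (S * D d * Sᵀ) p q := by
    intro c d
    have e : (G * D c * (G * (D d)ᵀ)).trace = ((S * D c * Sᵀ) * (S * D d * Sᵀ)ᵀ).trace := by
      rw [hS', Matrix.transpose_mul, Matrix.transpose_mul, Matrix.transpose_transpose]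
      rw [show Sᵀ * S * D c * (Sᵀ * S * (D d)ᵀ) = Sᵀ * (S * D c * Sᵀ * (S * (D d)ᵀ)) by
        simp only [Matrix.mul_assoc]]
      rw [Matrix.trace_mul_comm]
      simp only [Matrix.mul_assoc]
    rw [e, Matrix.trace]
    refine Finset.sum_congr rfl fun p _ => ?_
    rw [Matrix.diag_apply, Matrix.mul_apply]
    refine Finset.sum_congr rfl fun q _ => ?_
    rw [Matrix.transpose_apply]
  have h2 : ∑ c, ∑ d, G c d * (G * D c * (G * (D d)ᵀ)).trace =
      ∑ p, ∑ q, ∑ c, ∑ d, (S * D c * Sᵀ) p q * (G c d * (S * D d * Sᵀ) p q) := by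
    calc ∑ c, ∑ d, G c d * (G * D c * (G * (D d)ᵀ)).trace
        = ∑ c, ∑ d, ∑ p, ∑ q, (S * D c * Sᵀ) p q * (G c d * (S * D d * Sᵀ) p q) := by
          refine Finset.sum_congr rfl fun c _ => Finset.sum_congr rfl fun d _ => ?_
          rw [h1, Finset.mul_sum]
          refine Finset.sum_congr rfl fun p _ => ?_
          rw [Finset.mul_sum]
          refine Finset.sum_congr rfl fun q _ => by ring
      _ = ∑ c, ∑ p, ∑ d, ∑ q, (S * D c * Sᵀ) p q * (G c d * (S * D d * Sᵀ) p q) := by
          refine Finset.sum_congr rfl fun c _ => Finset.sum_comm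
      _ = ∑ p, ∑ c, ∑ d, ∑ q, (S * D c * Sᵀ) p q * (G c d * (S * D d * Sᵀ) p q) :=
          Finset.sum_comm
      _ = ∑ p, ∑ c, ∑ q, ∑ d, (S * D c * Sᵀ) p q * (G c d * (S * D d * Sᵀ) p q) := by
          refine Finset.sum_congr rfl fun p _ => Finset.sum_congr rfl fun c _ => Finset.sum_comm
      _ = ∑ p, ∑ q, ∑ c, ∑ d, (S * D c * Sᵀ) p q * (G c d * (S * D d * Sᵀ) p q) := by
          refine Finset.sum_congr rfl fun p _ => Finset.sum_comm
  rw [h2]
  refine Finset.sum_nonneg fun p _ => Finset.sum_nonneg fun q _ => ?_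
  have := hG.dotProduct_mulVec_nonneg (fun c => (S * D c * Sᵀ) p q)
  simpa [dotProduct, Matrix.mulVec, Finset.mul_sum] using this

/-- the algebra: `D_c = τ W T_c - T_c W τ` -/
theorem pw_alg {t G W : Matrix (Fin n) (Fin n) ℝ} (ht : tᵀ = t) (hW : Wᵀ = W) (hGt : G * t = 1)
    (htG : t * G = 1) {T T' : Matrix (Fin n) (Fin n) ℝ} (hT' : T'ᵀ = T') :
    (G * (t * W * T - T * W * t) * (G * (t * W * T' - T' * W * t)ᵀ)).trace =
      (W * t * W * T * G * T').trace + (W * t * W * T' * G * T).trace -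
        2 * (W * T * W * T').trace := by
  have e1 : G * (t * W * T - T * W * t) = W * T - G * T * W * t := by
    rw [Matrix.mul_sub]
    congr 1
    · rw [← Matrix.mul_assoc, ← Matrix.mul_assoc, hGt, Matrix.one_mul]
    · simp only [Matrix.mul_assoc]
  have e2 : G * (t * W * T' - T' * W * t)ᵀ = G * T' * W * t - W * T' := by
    rw [Matrix.transpose_sub, Matrix.transpose_mul, Matrix.transpose_mul, Matrix.transpose_mul,
      Matrix.transpose_mul, ht, hW, hT', Matrix.mul_sub]
    congr 1
    · simp only [Matrix.mul_assoc]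
    · rw [← Matrix.mul_assoc, hGt, Matrix.one_mul]
  rw [e1, e2, Matrix.sub_mul, Matrix.mul_sub, Matrix.mul_sub, Matrix.trace_sub, Matrix.trace_sub,
    Matrix.trace_sub]
  have f1 : (W * T * (G * T' * W * t)).trace = (W * t * W * T * G * T').trace := by
    rw [show W * T * (G * T' * W * t) = (W * T * G * T') * (W * t) by
      simp only [Matrix.mul_assoc], Matrix.trace_mul_comm]
    simp only [Matrix.mul_assoc]
  have f2 : (W * T * (W * T')).trace = (W * T * W * T').trace := by
    simp only [Matrix.mul_assoc]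
  have f3 : (G * T * W * t * (G * T' * W * t)).trace = (W * T * W * T').trace := by
    rw [show G * T * W * t * (G * T' * W * t) = (G * T * W) * (t * G) * (T' * W * t) by
      simp only [Matrix.mul_assoc], htG, Matrix.mul_one,
      show G * T * W * (T' * W * t) = (G * T * W * T' * W) * t by
      simp only [Matrix.mul_assoc], Matrix.trace_mul_comm,
      show t * (G * T * W * T' * W) = (t * G) * (T * W * T' * W) by
      simp only [Matrix.mul_assoc], htG, Matrix.one_mul, Matrix.trace_mul_comm]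
    simp only [Matrix.mul_assoc]
  have f4 : (G * T * W * t * (W * T')).trace = (W * t * W * T' * G * T).trace := by
    rw [show G * T * W * t * (W * T') = (G * T) * (W * t * W * T') by
      simp only [Matrix.mul_assoc], Matrix.trace_mul_comm]
    simp only [Matrix.mul_assoc]
  rw [f1, f2, f3, f4]
  ring

theorem pw_T {t G W : Matrix (Fin n) (Fin n) ℝ} (hG : G.PosSemidef) (ht : tᵀ = t) (hW : Wᵀ = W)
    (hGt : G * t = 1) (htG : t * G = 1) (T : Fin n → Matrix (Fin n) (Fin n) ℝ)
    (hT : ∀ c, (T c)ᵀ = T c) :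
    ∑ c, ∑ d, G c d * (W * T c * W * T d).trace ≤
      ∑ c, ∑ d, G c d * (W * t * W * T c * G * T d).trace := by
  have h := pw_psd3 hG (fun c => t * W * T c - T c * W * t)
  have hGs : ∀ c d, G c d = G d c := fun c d => by
    have := hG.1.apply d c
    simpa using this
  have e : ∑ c, ∑ d, G c d * (G * (t * W * T c - T c * W * t) *
      (G * (t * W * T d - T d * W * t)ᵀ)).trace =
      ∑ c, ∑ d, G c d * (W * t * W * T c * G * T d).trace +
        ∑ c, ∑ d, G c d * (W * t * W * T d * G * T c).trace -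
        2 * ∑ c, ∑ d, G c d * (W * T c * W * T d).trace := by
    rw [Finset.mul_sum, ← Finset.sum_add_distrib, ← Finset.sum_sub_distrib]
    refine Finset.sum_congr rfl fun c _ => ?_
    rw [Finset.mul_sum, ← Finset.sum_add_distrib, ← Finset.sum_sub_distrib]
    refine Finset.sum_congr rfl fun d _ => ?_
    rw [pw_alg ht hW hGt htG (hT d)]
    ring
  have e2 : ∑ c, ∑ d, G c d * (W * t * W * T d * G * T c).trace =
      ∑ c, ∑ d, G c d * (W * t * W * T c * G * T d).trace := by
    rw [Finset.sum_comm]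
    refine Finset.sum_congr rfl fun d _ => Finset.sum_congr rfl fun c _ => ?_
    rw [hGs c d]
  rw [e, e2] at h
  linarith

theorem pw_tr4 (w : Fin n → ℝ) (X Y : Matrix (Fin n) (Fin n) ℝ) :
    (diagonal w * X * diagonal w * Y).trace = ∑ a, ∑ i, w a * w i * (X a i * Y i a) := by
  rw [Matrix.trace]
  refine Finset.sum_congr rfl fun a _ => ?_
  rw [Matrix.diag_apply, Matrix.mul_apply]
  refine Finset.sum_congr rfl fun i _ => ?_
  rw [Matrix.mul_diagonal, Matrix.diagonal_mul]
  ring

/-- nonnegativity of the Dirichlet energy -/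
theorem n1_nonneg {t : Matrix (Fin n) (Fin n) ℝ} (ht : t.PosSemidef)
    (P : Fin n → Fin n → Fin n → ℝ) {w : Fin n → ℝ} (hw : ∀ a, 0 ≤ w a) :
    0 ≤ ∑ a, ∑ i, w a * w i * ∑ b, ∑ c, t b c * P b a i * P c a i := by
  refine Finset.sum_nonneg fun a _ => Finset.sum_nonneg fun i _ => ?_
  refine mul_nonneg (mul_nonneg (hw a) (hw i)) ?_
  have := ht.dotProduct_mulVec_nonneg (fun b => P b a i)
  have e : star (fun b => P b a i) ⬝ᵥ t *ᵥ (fun b => P b a i) =
      ∑ b, ∑ c, t b c * P b a i * P c a i := by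
    simp only [dotProduct, Matrix.mulVec, Finset.mul_sum, star_trivial]
    refine Finset.sum_congr rfl fun b _ => Finset.sum_congr rfl fun c _ => by ring
  rwa [e] at this

/-- the pointwise inequality `N1 ≤ N2` -/
theorem n1_le_n2 {t : Matrix (Fin n) (Fin n) ℝ} (ht : t.PosDef)
    {P : Fin n → Fin n → Fin n → ℝ} (hP : ∀ e b c, P e b c = P e c b)
    (hS : ∀ a b c, ∑ e, t a e * P e b c = ∑ e, t b e * P e a c) (w : Fin n → ℝ) :
    ∑ a, ∑ i, w a * w i * (∑ b, ∑ c, t b c * P b a i * P c a i) ≤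
      ∑ a, ∑ i, w a * w i * t a i * (∑ b, ∑ c, P c a b * P b i c) := by
  have hts : tᵀ = t := by
    have := ht.1
    rwa [Matrix.IsHermitian, Matrix.conjTranspose_eq_transpose_of_trivial] at this
  have hu : IsUnit t.det := (Matrix.isUnit_iff_isUnit_det t).1 ht.isUnit
  have hGt : t⁻¹ * t = 1 := Matrix.nonsing_inv_mul t hu
  have htG : t * t⁻¹ = 1 := Matrix.mul_nonsing_inv t hu
  have hG : (t⁻¹).PosSemidef := ht.inv.posSemidef
  set G := t⁻¹ with hGdef
  have hGs : ∀ c d, G c d = G d c := fun c d => by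
    have := hG.1.apply d c
    simpa using this
  set T : Fin n → Matrix (Fin n) (Fin n) ℝ := fun c => Matrix.of fun i b => ∑ e, t c e * P e i b
    with hTdef
  have hTa : ∀ c i b, T c i b = ∑ e, t c e * P e i b := fun _ _ _ => rfl
  have hT : ∀ c, (T c)ᵀ = T c := by
    intro c
    ext i b
    rw [Matrix.transpose_apply, hTa, hTa]
    exact Finset.sum_congr rfl fun e _ => by rw [hP e b i]
  have hT2 : ∀ c i b, T c i b = T i c b := by
    intro c i b
    rw [hTa, hTa, hS c i b]
  have key : ∀ (p : Fin n → ℝ) (d : Fin n), ∑ c, G d c * ∑ e, t c e * p e = p d := by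
    intro p d
    have h1 : (G *ᵥ (t *ᵥ p)) d = p d := by
      rw [Matrix.mulVec_mulVec, hGt, Matrix.one_mulVec]
    simpa only [Matrix.mulVec, dotProduct] using h1
  have h := pw_T (W := diagonal w) hG hts (Matrix.diagonal_transpose w) hGt htG T hT
  have eL : ∑ c, ∑ d, G c d * (diagonal w * T c * diagonal w * T d).trace =
      ∑ a, ∑ i, w a * w i * (∑ b, ∑ c, t b c * P b a i * P c a i) := by
    calc ∑ c, ∑ d, G c d * (diagonal w * T c * diagonal w * T d).trace
        = ∑ c, ∑ d, ∑ a, ∑ i, w a * w i * (T c a i * (G c d * T d i a)) := by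
          refine Finset.sum_congr rfl fun c _ => Finset.sum_congr rfl fun d _ => ?_
          rw [pw_tr4, Finset.mul_sum]
          refine Finset.sum_congr rfl fun a _ => ?_
          rw [Finset.mul_sum]
          refine Finset.sum_congr rfl fun i _ => by ring
      _ = ∑ a, ∑ i, ∑ c, ∑ d, w a * w i * (T c a i * (G c d * T d i a)) := by
          rw [Finset.sum_congr rfl fun c _ => Finset.sum_comm, Finset.sum_comm]
          refine Finset.sum_congr rfl fun a _ => ?_
          rw [Finset.sum_congr rfl fun c _ => Finset.sum_comm, Finset.sum_comm]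
      _ = _ := by
          refine Finset.sum_congr rfl fun a _ => Finset.sum_congr rfl fun i _ => ?_
          rw [Finset.mul_sum]
          refine Finset.sum_congr rfl fun c _ => ?_
          rw [← Finset.mul_sum, ← Finset.mul_sum]
          have h2 : ∑ d, G c d * T d i a = P c a i := by
            rw [← hP c i a]
            exact key (fun e => P e i a) c
          rw [h2, hTa, Finset.sum_mul]
          congr 1
          refine Finset.sum_congr rfl fun e _ => by ring
  have eR : ∑ c, ∑ d, G c d * (diagonal w * t * diagonal w * T c * G * T d).trace =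
      ∑ a, ∑ i, w a * w i * t a i * (∑ b, ∑ c, P c a b * P b i c) := by
    calc ∑ c, ∑ d, G c d * (diagonal w * t * diagonal w * T c * G * T d).trace
        = ∑ c, ∑ d, ∑ a, ∑ i, w a * w i * t a i * (G c d * (T c * G * T d) i a) := by
          refine Finset.sum_congr rfl fun c _ => Finset.sum_congr rfl fun d _ => ?_
          rw [show diagonal w * t * diagonal w * T c * G * T d =
            diagonal w * t * diagonal w * (T c * G * T d) by simp only [Matrix.mul_assoc],
            pw_tr4, Finset.mul_sum]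
          refine Finset.sum_congr rfl fun a _ => ?_
          rw [Finset.mul_sum]
          refine Finset.sum_congr rfl fun i _ => by ring
      _ = ∑ a, ∑ i, ∑ c, ∑ d, w a * w i * t a i * (G c d * (T c * G * T d) i a) := by
          rw [Finset.sum_congr rfl fun c _ => Finset.sum_comm, Finset.sum_comm]
          refine Finset.sum_congr rfl fun a _ => ?_
          rw [Finset.sum_congr rfl fun c _ => Finset.sum_comm, Finset.sum_comm]
      _ = _ := by
          refine Finset.sum_congr rfl fun a _ => Finset.sum_congr rfl fun i _ => ?_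
          have h3 : ∑ c, ∑ d, G c d * (T c * G * T d) i a = ∑ b, ∑ c, P c a b * P b i c := by
            calc ∑ c, ∑ d, G c d * (T c * G * T d) i a
                = ∑ c, ∑ d, ∑ b', ∑ b, (G d c * T c i b) * (G b b' * T b' d a) := by
                  refine Finset.sum_congr rfl fun c _ => Finset.sum_congr rfl fun d _ => ?_
                  rw [Matrix.mul_apply, Finset.mul_sum]
                  refine Finset.sum_congr rfl fun b' _ => ?_
                  rw [Matrix.mul_apply, Finset.sum_mul, Finset.mul_sum]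
                  refine Finset.sum_congr rfl fun b _ => ?_
                  rw [hGs c d, hT2 d b' a]
                  ring
              _ = ∑ d, ∑ b, ∑ c, ∑ b', (G d c * T c i b) * (G b b' * T b' d a) := by
                  rw [Finset.sum_comm]
                  refine Finset.sum_congr rfl fun d _ => ?_
                  rw [Finset.sum_congr rfl fun c _ => Finset.sum_comm, Finset.sum_comm]
              _ = ∑ d, ∑ b, P d i b * P b d a := by
                  refine Finset.sum_congr rfl fun d _ => Finset.sum_congr rfl fun b _ => ?_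
                  rw [← key (fun e => P e i b) d, ← key (fun e => P e d a) b,
                    Finset.sum_mul_sum]
                  rfl
              _ = _ := by
                  refine Finset.sum_congr rfl fun d _ => Finset.sum_congr rfl fun b _ => ?_
                  rw [hP b d a]
                  ring
          rw [← h3, Finset.mul_sum]
          refine Finset.sum_congr rfl fun c _ => ?_
          rw [Finset.mul_sum]
  rw [eL, eR] at h
  exact h

theorem pw_posW {t : Matrix (Fin n) (Fin n) ℝ} (ht : t.PosSemidef) (X : Matrix (Fin n) (Fin n) ℝ) :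
    (X * t * Xᵀ).PosSemidef := by
  have := ht.mul_mul_conjTranspose_same X
  rwa [Matrix.conjTranspose_eq_transpose_of_trivial] at this

theorem pw_symm {t : Matrix (Fin n) (Fin n) ℝ} (ht : t.PosSemidef) : tᵀ = t := by
  have := ht.1
  rwa [Matrix.IsHermitian, Matrix.conjTranspose_eq_transpose_of_trivial] at this

/-- monotonicity of the cubic term -/
theorem tr_mono {t H B : Matrix (Fin n) (Fin n) ℝ} (ht : t.PosSemidef) (w : Fin n → ℝ)
    (hHB : (H - B).PosSemidef) :
    (B * (t * diagonal w * t * diagonal w * t)).trace ≤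
      (H * (t * diagonal w * t * diagonal w * t)).trace := by
  have hts := pw_symm ht
  have h1 := pw_tr_nonneg hHB (pw_posW ht (t * diagonal w))
  rw [Matrix.transpose_mul, hts, Matrix.diagonal_transpose, Matrix.sub_mul, Matrix.trace_sub] at h1
  rw [show t * diagonal w * t * diagonal w * t = t * diagonal w * t * (diagonal w * t) by
    simp only [Matrix.mul_assoc]]
  linarith

/-- linearisation of the cubic term -/
theorem tr_lin {t : Matrix (Fin n) (Fin n) ℝ} (ht : t.PosSemidef) {b : Fin n → ℝ}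
    (hb : ∀ i, 0 ≤ b i) (w y : Fin n → ℝ) :
    2 * ∑ i, ∑ j, b i * y i * w i * w j * t i j ^ 2 - ∑ i, b i * y i ^ 2 * w i ^ 2 * t i i ≤
      (diagonal b * (t * diagonal w * t * diagonal w * t)).trace := by
  have hts := pw_symm ht
  have htij : ∀ i j, t j i = t i j := fun i j => by
    have := congrFun (congrFun hts i) j
    simpa using this
  have hB : (diagonal b).PosSemidef := by
    refine Matrix.PosSemidef.diagonal ?_
    intro i
    exact hb i
  have h1 := pw_tr_nonneg hB (pw_posW ht ((t - diagonal y) * diagonal w))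
  rw [Matrix.transpose_mul, Matrix.transpose_sub, hts, Matrix.diagonal_transpose,
    Matrix.diagonal_transpose] at h1
  have e1 : (t - diagonal y) * diagonal w * t * (diagonal w * (t - diagonal y)) =
      t * diagonal w * t * diagonal w * t - diagonal y * diagonal w * t * diagonal w * t
        - (t * diagonal w * t * diagonal w * diagonal y
          - diagonal y * diagonal w * t * diagonal w * diagonal y) := by
    noncomm_ring
  rw [e1, Matrix.mul_sub, Matrix.mul_sub, Matrix.mul_sub, Matrix.trace_sub, Matrix.trace_sub,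
    Matrix.trace_sub] at h1
  have e2 : (diagonal b * (diagonal y * diagonal w * t * diagonal w * t)).trace =
      ∑ i, ∑ j, b i * y i * w i * w j * t i j ^ 2 := by
    rw [show diagonal b * (diagonal y * diagonal w * t * diagonal w * t) =
      (diagonal b * diagonal y * diagonal w) * t * diagonal w * t by
      simp only [Matrix.mul_assoc], Matrix.diagonal_mul_diagonal, Matrix.diagonal_mul_diagonal,
      Matrix.trace]
    refine Finset.sum_congr rfl fun i _ => ?_
    rw [Matrix.diag_apply, Matrix.mul_apply]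
    refine Finset.sum_congr rfl fun j _ => ?_
    rw [Matrix.mul_diagonal, Matrix.diagonal_mul, htij]
    ring
  have e3 : (diagonal b * (t * diagonal w * t * diagonal w * diagonal y)).trace =
      ∑ i, ∑ j, b i * y i * w i * w j * t i j ^ 2 := by
    rw [show diagonal b * (t * diagonal w * t * diagonal w * diagonal y) =
      (diagonal b * t * diagonal w) * (t * (diagonal w * diagonal y)) by
      simp only [Matrix.mul_assoc], Matrix.diagonal_mul_diagonal, Matrix.trace]
    refine Finset.sum_congr rfl fun i _ => ?_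
    rw [Matrix.diag_apply, Matrix.mul_apply]
    refine Finset.sum_congr rfl fun j _ => ?_
    rw [Matrix.mul_diagonal, Matrix.diagonal_mul, Matrix.mul_diagonal, htij]
    ring
  have e4 : (diagonal b * (diagonal y * diagonal w * t * diagonal w * diagonal y)).trace =
      ∑ i, b i * y i ^ 2 * w i ^ 2 * t i i := by
    rw [show diagonal b * (diagonal y * diagonal w * t * diagonal w * diagonal y) =
      (diagonal b * diagonal y * diagonal w) * t * (diagonal w * diagonal y) by
      simp only [Matrix.mul_assoc], Matrix.diagonal_mul_diagonal, Matrix.diagonal_mul_diagonal,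
      Matrix.diagonal_mul_diagonal, Matrix.trace]
    refine Finset.sum_congr rfl fun i _ => ?_
    rw [Matrix.diag_apply, Matrix.mul_diagonal, Matrix.diagonal_mul]
    ring
  rw [e2, e3, e4] at h1
  linarith

end Vale.Agent.P254.S2
end

section

open MeasureTheory Set Real Matrix
open scoped Pointwise Topology

namespace Vale.Agent.P254

variable {n : ℕ}

/-- the barycenter of the standard simplex -/
noncomputable def bar (n : ℕ) : Fin n → ℝ := fun _ => 1 / ((n:ℝ) + 1)

/-- the linear map `u ↦ u - (∑ u)/(n+1) 1` -/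
noncomputable def mM (u : Fin n → ℝ) : Fin n → ℝ := fun i => u i - (∑ j, u j) / (n + 1)

lemma mM_add (u v : Fin n → ℝ) : mM (u + v) = mM u + mM v := by
  ext i; simp only [mM, Pi.add_apply, Finset.sum_add_distrib]; ring

lemma mM_smul (t : ℝ) (u : Fin n → ℝ) : mM (t • u) = t • mM u := by
  ext i; simp only [mM, Pi.smul_apply, smul_eq_mul, ← Finset.mul_sum]; ring

@[fun_prop]
lemma continuous_mM : Continuous (mM : (Fin n → ℝ) → _) := by
  refine continuous_pi fun i => ?_
  simp only [mM]
  fun_prop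

lemma sum_mM (u : Fin n → ℝ) : ∑ i, mM u i = (∑ i, u i) / (n + 1) := by
  simp only [mM, Finset.sum_sub_distrib, Finset.sum_const, Finset.card_univ, Fintype.card_fin,
    nsmul_eq_mul]
  field_simp
  ring

lemma sum_bar : ∑ i, bar n i = n / ((n:ℝ) + 1) := by
  simp only [bar, Finset.sum_const, Finset.card_univ, Fintype.card_fin, nsmul_eq_mul]
  ring

/-- `K` is a closed convex subset of the standard simplex touching the facet `∑ x = 1` at its
centroid and containing the `(1+ε)⁻¹`-copy of the simplex with respect to the barycenter. -/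
structure Near (K : Set (Fin n → ℝ)) (ε : ℝ) : Prop where
  convex : Convex ℝ K
  closed : IsClosed K
  sub : K ⊆ stdS n
  c0 : (fun _ => 1 / (n:ℝ)) ∈ K
  near : ∀ x ∈ stdS n, bar n + (1 + ε)⁻¹ • (x - bar n) ∈ K

/-- the translated body -/
def trans (K : Set (Fin n → ℝ)) : Set (Fin n → ℝ) := {y | bar n + y ∈ K}

namespace Near

variable {K : Set (Fin n → ℝ)} {ε : ℝ} (hK : Near K ε) (hε : 0 ≤ ε)
include hK

lemma convex_trans : Convex ℝ (trans K) := hK.convex.translate_preimage_right (bar n)

lemma closed_trans : IsClosed (trans K) :=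
  hK.closed.preimage (continuous_const.add continuous_id)

include hε in
lemma nhds_trans : trans K ∈ 𝓝 (0 : Fin n → ℝ) := by
  have h1 : IsOpen {x : Fin n → ℝ | (∀ i, 0 < x i) ∧ ∑ i, x i < 1} := by
    have : {x : Fin n → ℝ | (∀ i, 0 < x i) ∧ ∑ i, x i < 1} =
        (⋂ i, {x : Fin n → ℝ | 0 < x i}) ∩ {x | ∑ i, x i < 1} := by ext; simp
    rw [this]
    exact (isOpen_iInter_of_finite fun i => isOpen_lt continuous_const (continuous_apply i)).inter
      (isOpen_lt (by fun_prop) continuous_const)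
  have h2 : (fun y : Fin n → ℝ => bar n + (1 + ε) • y) ⁻¹'
      {x : Fin n → ℝ | (∀ i, 0 < x i) ∧ ∑ i, x i < 1} ∈ 𝓝 (0 : Fin n → ℝ) := by
    refine (h1.preimage (by fun_prop)).mem_nhds ?_
    simp only [mem_preimage, smul_zero, add_zero, mem_ofPred_eq]
    refine ⟨fun i => by simp only [bar]; positivity, ?_⟩
    rw [sum_bar, div_lt_one (by positivity)]
    linarith
  refine Filter.mem_of_superset h2 fun y hy => ?_
  have hy' : bar n + (1 + ε) • y ∈ stdS n := ⟨fun i => (hy.1 i).le, hy.2.le⟩
  have := hK.near _ hy'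
  rw [add_sub_cancel_left, inv_smul_smul₀ (by positivity)] at this
  exact this

include hε in
lemma subLin (hn : 1 ≤ n) : SubLin (fun u => gauge (trans K) (mM u) - ∑ i, u i) ε := by
  have hnh := hK.nhds_trans hε
  have habs : Absorbent ℝ (trans K) := absorbent_nhds_zero hnh
  have hn0 : (0:ℝ) < n := by exact_mod_cast hn
  refine ⟨?_, ?_, ?_, ?_, ?_, ?_⟩
  · exact ((continuous_gauge hK.convex_trans hnh).comp continuous_mM).sub (by fun_prop)
  · intro u v
    have := gauge_add_le hK.convex_trans habs (mM u) (mM v)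
    rw [mM_add]
    simp only [Pi.add_apply, Finset.sum_add_distrib]
    linarith
  · intro t ht u
    have := gauge_smul_of_nonneg (s := trans K) ht (mM u)
    rw [mM_smul, this]
    simp only [Pi.smul_apply, smul_eq_mul, ← Finset.mul_sum]
    ring
  · intro u hu
    by_contra hneg
    push Not at hneg
    have hlt : gauge (trans K) (mM u) < ∑ i, u i := by linarith
    obtain ⟨r, hr, hrs, hmem⟩ := exists_lt_of_gauge_lt habs hlt
    rw [mem_smul_set_iff_inv_smul_mem₀ hr.ne'] at hmem
    have h1 := (hK.sub hmem).2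
    simp only [Pi.add_apply, Finset.sum_add_distrib, Pi.smul_apply, smul_eq_mul, ← Finset.mul_sum,
      sum_mM, sum_bar] at h1
    have h2 : (n:ℝ) / (n + 1) + r⁻¹ * ((∑ i, u i) / (n + 1)) = (n + r⁻¹ * ∑ i, u i) / (n + 1) := by ring
    rw [h2, div_le_one (by positivity)] at h1
    have h3 : r⁻¹ * ∑ i, u i ≤ 1 := by linarith
    rw [inv_mul_le_iff₀ hr] at h3
    linarith
  · have h1 : mM (fun _ : Fin n => (1:ℝ)) ∈ (n:ℝ) • trans K := by
      rw [mem_smul_set_iff_inv_smul_mem₀ hn0.ne']
      show bar n + (n:ℝ)⁻¹ • mM (fun _ : Fin n => (1:ℝ)) ∈ K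
      have : bar n + (n:ℝ)⁻¹ • mM (fun _ : Fin n => (1:ℝ)) = fun _ => 1 / (n:ℝ) := by
        ext i
        simp only [bar, mM, Pi.add_apply, Pi.smul_apply, smul_eq_mul, Finset.sum_const,
          Finset.card_univ, Fintype.card_fin, nsmul_eq_mul, mul_one]
        field_simp
        ring
      rw [this]
      exact hK.c0
    have h2 := gauge_le_of_mem hn0.le h1
    simp only [Finset.sum_const, Finset.card_univ, Fintype.card_fin, nsmul_eq_mul, mul_one]
    linarith
  · intro u hu
    have hs := sum_nonneg_of_orth hu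
    rcases hs.eq_or_lt with h0 | hpos
    · have hu0 : u = 0 := by
        ext i
        exact (Finset.sum_eq_zero_iff_of_nonneg (fun i _ => hu i)).1 h0.symm i (Finset.mem_univ i)
      subst hu0
      have : mM (0 : Fin n → ℝ) = 0 := by ext i; simp [mM]
      simp [this]
    · set s := ∑ i, u i with hsd
      have h1 : bar n + s⁻¹ • mM u ∈ stdS n := by
        have hx : bar n + s⁻¹ • mM u = fun i => s⁻¹ * u i := by
          ext i
          simp only [bar, mM, Pi.add_apply, Pi.smul_apply, smul_eq_mul, ← hsd]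
          field_simp
          ring
        rw [hx]
        refine ⟨fun i => mul_nonneg (inv_nonneg.2 hs) (hu i), ?_⟩
        rw [← Finset.mul_sum, ← hsd, inv_mul_cancel₀ hpos.ne']
      have h2 := hK.near _ h1
      rw [add_sub_cancel_left, smul_smul, ← mul_inv] at h2
      have h3 : mM u ∈ ((1 + ε) * s) • trans K := by
        rw [mem_smul_set_iff_inv_smul_mem₀ (by positivity)]
        exact h2
      have h4 := gauge_le_of_mem (by positivity) h3
      linarith

/-- the matrix of `mM`. -/
noncomputable def _root_.Vale.Agent.P254.mMat (n : ℕ) : Matrix (Fin n) (Fin n) ℝ :=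
  1 + vecMulVec (fun _ => -(1 / ((n:ℝ) + 1))) (fun _ => 1)

omit hK in
lemma _root_.Vale.Agent.P254.mMat_mulVec (v : Fin n → ℝ) : mMat n *ᵥ v = mM v := by
  ext i
  simp only [mMat, add_mulVec, one_mulVec, Pi.add_apply, vecMulVec_mulVec, mM]
  simp [dotProduct]
  ring

omit hK in
lemma _root_.Vale.Agent.P254.det_mMat : (mMat n).det = 1 / ((n:ℝ) + 1) := by
  rw [mMat, det_rank_one]
  simp
  field_simp
  ring

include hε in
lemma image_theta :
    (fun v => mMat n *ᵥ v + bar n) '' (stdS n \ {v | ∑ i, v i + (gauge (trans K) (mM v) - ∑ i, v i) ≤ 1}) =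
    (stdS n ∩ {x | ∀ i, 1 - ∑ j, x j ≤ x i}) \ K := by
  have hnh := hK.nhds_trans hε
  have hiff : ∀ v, ∑ i, v i + (gauge (trans K) (mM v) - ∑ i, v i) ≤ 1 ↔ mM v + bar n ∈ K := by
    intro v
    rw [add_sub_cancel, gauge_le_one_iff_mem_closure hK.convex_trans hnh, hK.closed_trans.closure_eq]
    show bar n + mM v ∈ K ↔ _
    rw [add_comm]
  have hsum : ∀ v : Fin n → ℝ, 1 - ∑ j, (mM v + bar n) j = (1 - ∑ i, v i) / (n + 1) := by
    intro v
    simp only [Pi.add_apply, Finset.sum_add_distrib, sum_mM, sum_bar]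
    field_simp
    ring
  have hco : ∀ (v : Fin n → ℝ) i, (mM v + bar n) i = v i + (1 - ∑ i, v i) / (n + 1) := by
    intro v i
    simp only [Pi.add_apply, mM, bar]
    ring
  ext x
  simp only [mMat_mulVec, mem_image, mem_sdiff, mem_ofPred_eq, mem_inter_iff, hiff]
  constructor
  · rintro ⟨v, ⟨hv, hvK⟩, rfl⟩
    refine ⟨⟨⟨fun i => ?_, ?_⟩, fun i => ?_⟩, hvK⟩
    · rw [hco]
      have := hv.1 i
      have h2 : 0 ≤ (1 - ∑ i, v i) / ((n:ℝ) + 1) := div_nonneg (by linarith [hv.2]) (by positivity)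
      linarith
    · have h2 : 0 ≤ (1 - ∑ i, v i) / ((n:ℝ) + 1) := div_nonneg (by linarith [hv.2]) (by positivity)
      have := hsum v
      linarith
    · rw [hsum, hco]
      have := hv.1 i
      linarith
  · rintro ⟨⟨hx, hx2⟩, hxK⟩
    set l := 1 - ∑ j, x j with hl
    have hl0 : 0 ≤ l := by have := hx.2; linarith
    have hv : mM (fun i => x i - l) + bar n = x := by
      ext i
      rw [hco]
      have : ∑ i, (x i - l) = (1 - l) - n * l := by
        rw [Finset.sum_sub_distrib]
        simp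
        linarith
      rw [this]
      field_simp
      ring
    refine ⟨fun i => x i - l, ⟨⟨fun i => ?_, ?_⟩, ?_⟩, hv⟩
    · have := hx2 i
      simp only
      linarith
    · have : ∑ i, (x i - l) = (1 - l) - n * l := by
        rw [Finset.sum_sub_distrib]
        simp
        linarith
      rw [this]
      have : 0 ≤ (n:ℝ) * l := by positivity
      linarith
    · rw [hv]; exact hxK

include hε in
/-- The region inequality in the original coordinates. -/
lemma region0 (hn : 2 ≤ n) (hε4 : ε * ((n:ℝ) * (n + 1) * (n + 2) * (n + 3)) ≤ 4) :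
    0 ≤ ∫ x in (stdS n ∩ {x | ∀ i, 1 - ∑ j, x j ≤ x i}) \ K,
      (∑ i, (x i) ^ 2 + (1 - ∑ i, x i) ^ 2 - 2 / ((n:ℝ) + 1)) := by
  have hS := hK.subLin hε (by omega)
  have hmeas : MeasurableSet (stdS n \ {v : Fin n → ℝ | ∑ i, v i + (gauge (trans K) (mM v) - ∑ i, v i) ≤ 1}) := by
    refine measurableSet_stdS.diff ?_
    have := hS.cont
    exact (isClosed_le (by fun_prop) continuous_const).measurableSet
  rw [← hK.image_theta hε, integral_image_affine _ _ (by rw [det_mMat]; positivity) hmeas]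
  refine mul_nonneg (abs_nonneg _) ?_
  have := hS.solid hn hε4
  refine this.trans_eq (integral_congr_ae (Filter.Eventually.of_forall fun v => ?_))
  simp only [mMat_mulVec]
  have hsum : 1 - ∑ j, (mM v + bar n) j = (1 - ∑ i, v i) / (n + 1) := by
    simp only [Pi.add_apply, Finset.sum_add_distrib, sum_mM, sum_bar]
    field_simp
    ring
  have hco : ∀ i, (mM v + bar n) i = v i + (1 - ∑ i, v i) / (n + 1) := by
    intro i
    simp only [Pi.add_apply, mM, bar]
    ring
  have hsq : ∑ i, ((mM v + bar n) i) ^ 2 = ∑ i, (v i) ^ 2 +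
      2 * ((1 - ∑ i, v i) / (n + 1)) * ∑ i, v i + n * ((1 - ∑ i, v i) / (n + 1)) ^ 2 := by
    have h1 : ∀ i, ((mM v + bar n) i) ^ 2 = (v i) ^ 2 + 2 * ((1 - ∑ i, v i) / (n + 1)) * v i +
        ((1 - ∑ i, v i) / (n + 1)) ^ 2 := by intro i; rw [hco]; ring
    simp only [h1, Finset.sum_add_distrib, ← Finset.mul_sum, Finset.sum_const, Finset.card_univ,
      Fintype.card_fin, nsmul_eq_mul]
  rw [hsum, hsq]
  field_simp
  ring

end Near

end Vale.Agent.P254
end

section

open MeasureTheory Set Real Matrix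
open scoped Pointwise Topology

namespace Vale.Agent.P254

variable {n : ℕ}

/-- the affine symmetry of the standard simplex exchanging `λ₀` and `λ_j`. -/
noncomputable def sig (j : Fin n) (x : Fin n → ℝ) : Fin n → ℝ := Function.update x j (1 - ∑ i, x i)

lemma sum_sig (j : Fin n) (x : Fin n → ℝ) : ∑ i, sig j x i = 1 - x j := by
  rw [sig, sum_update]; ring

lemma sig_self (j : Fin n) (x : Fin n → ℝ) : sig j x j = 1 - ∑ i, x i := by simp [sig]

lemma sig_ne {i j : Fin n} (h : i ≠ j) (x : Fin n → ℝ) : sig j x i = x i := by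
  simp [sig, Function.update_of_ne h]

lemma sig_sig (j : Fin n) (x : Fin n → ℝ) : sig j (sig j x) = x := by
  ext i
  rcases eq_or_ne i j with rfl | h
  · rw [sig_self, sum_sig]; ring
  · rw [sig_ne h, sig_ne h]

@[fun_prop]
lemma continuous_sig (j : Fin n) : Continuous (sig j) := by
  unfold sig
  exact continuous_id.update j (by fun_prop)

lemma sig_stdS (j : Fin n) {x : Fin n → ℝ} (hx : x ∈ stdS n) : sig j x ∈ stdS n := by
  refine ⟨fun i => ?_, ?_⟩
  · rcases eq_or_ne i j with rfl | h
    · rw [sig_self]; linarith [hx.2]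
    · rw [sig_ne h]; exact hx.1 i
  · rw [sum_sig]; linarith [hx.1 j]

lemma sig_affine (j : Fin n) (x y : Fin n → ℝ) {a b : ℝ} (hab : a + b = 1) :
    sig j (a • x + b • y) = a • sig j x + b • sig j y := by
  ext i
  rcases eq_or_ne i j with rfl | h
  · simp only [sig_self, Pi.add_apply, Pi.smul_apply, smul_eq_mul, Finset.sum_add_distrib, ← Finset.mul_sum]
    linear_combination -hab
  · simp only [sig_ne h, Pi.add_apply, Pi.smul_apply]

lemma sig_bar (j : Fin n) : sig j (bar n) = bar n := by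
  ext i
  rcases eq_or_ne i j with rfl | h
  · rw [sig_self, sum_bar]
    simp only [bar]
    field_simp
    ring
  · rw [sig_ne h]

/-- matrix of the linear part of `sig j`. -/
noncomputable def sigMat (j : Fin n) : Matrix (Fin n) (Fin n) ℝ :=
  1 + vecMulVec (Pi.single j 1) (fun i => -1 - (Pi.single j (1:ℝ) : Fin n → ℝ) i)

lemma sigMat_mulVec (j : Fin n) (x : Fin n → ℝ) : sigMat j *ᵥ x + Pi.single j 1 = sig j x := by
  ext i
  simp only [sigMat, add_mulVec, one_mulVec, Pi.add_apply, vecMulVec_mulVec]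
  have h : (fun i => -1 - (Pi.single j (1:ℝ) : Fin n → ℝ) i) ⬝ᵥ x = -(∑ i, x i) - x j := by
    simp only [dotProduct, sub_mul, Finset.sum_sub_distrib]
    congr 1
    · simp [Finset.sum_neg_distrib]
    · simp [Pi.single_apply]
  rw [h]
  rcases eq_or_ne i j with rfl | hij
  · rw [sig_self]; simp; ring
  · rw [sig_ne hij]; simp [hij]

lemma det_sigMat (j : Fin n) : (sigMat j).det = -1 := by
  rw [sigMat, det_rank_one]
  have : ∀ i : Fin n, (-1 - (Pi.single j (1:ℝ) : Fin n → ℝ) i) * (Pi.single j (1:ℝ) : Fin n → ℝ) i =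
      if i = j then -2 else 0 := by
    intro i
    by_cases h : i = j <;> simp [h]
    norm_num
  simp only [this, Finset.sum_ite_eq', Finset.mem_univ, if_true]
  norm_num

/-- the integrand -/
noncomputable def FF (x : Fin n → ℝ) : ℝ := ∑ i, (x i) ^ 2 + (1 - ∑ i, x i) ^ 2 - 2 / ((n:ℝ) + 1)

lemma FF_sig (j : Fin n) (x : Fin n → ℝ) : FF (sig j x) = FF x := by
  simp only [FF]
  rw [sum_sig]
  have h1 : ∑ i, (sig j x i) ^ 2 = ∑ i, (x i) ^ 2 - (x j) ^ 2 + (1 - ∑ i, x i) ^ 2 := by
    have : (fun i => (sig j x i) ^ 2) = Function.update (fun i => (x i) ^ 2) j ((1 - ∑ i, x i) ^ 2) := by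
      ext i
      rcases eq_or_ne i j with rfl | h
      · rw [sig_self]; simp
      · rw [sig_ne h, Function.update_of_ne h]
    calc ∑ i, (sig j x i) ^ 2 = ∑ i, Function.update (fun i => (x i) ^ 2) j ((1 - ∑ i, x i) ^ 2) i := by
          rw [← this]
      _ = _ := by rw [sum_update]
  rw [h1]
  ring

lemma continuous_FF : Continuous (FF : (Fin n → ℝ) → ℝ) := by unfold FF; fun_prop

/-- Assumptions on the body in position. -/
structure Pos (K : Set (Fin n → ℝ)) (ε : ℝ) : Prop where
  convex : Convex ℝ K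
  closed : IsClosed K
  sub : K ⊆ stdS n
  c0 : (fun _ => 1 / (n:ℝ)) ∈ K
  cj : ∀ j, Function.update (fun _ => 1 / (n:ℝ)) j 0 ∈ K
  near : ∀ x ∈ stdS n, bar n + (1 + ε)⁻¹ • (x - bar n) ∈ K

namespace Pos

variable {K : Set (Fin n → ℝ)} {ε : ℝ} (hK : Pos K ε)
include hK

lemma toNear : Near K ε := ⟨hK.convex, hK.closed, hK.sub, hK.c0, hK.near⟩

lemma near_sig (j : Fin n) : Near (sig j ⁻¹' K) ε := by
  refine ⟨?_, hK.closed.preimage (continuous_sig j), ?_, ?_, ?_⟩
  · intro x hx y hy a b ha hb hab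
    show sig j (a • x + b • y) ∈ K
    rw [sig_affine j x y hab]
    exact hK.convex hx hy ha hb hab
  · intro x hx
    have := sig_stdS j (hK.sub hx)
    rwa [sig_sig] at this
  · show sig j (fun _ => 1 / (n:ℝ)) ∈ K
    have : sig j (fun _ => 1 / (n:ℝ)) = Function.update (fun _ => 1 / (n:ℝ)) j 0 := by
      have hn : (n:ℝ) ≠ 0 := by
        have := j.pos
        positivity
      simp only [sig]
      congr 1
      simp
      field_simp
      ring
    rw [this]
    exact hK.cj j
  · intro x hx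
    have h1 := hK.near _ (sig_stdS j hx)
    show sig j (bar n + (1 + ε)⁻¹ • (x - bar n)) ∈ K
    have e1 : bar n + (1 + ε)⁻¹ • (x - bar n) = (1 - (1 + ε)⁻¹) • bar n + (1 + ε)⁻¹ • x := by
      ext i; simp; ring
    have e2 : bar n + (1 + ε)⁻¹ • (sig j x - bar n) = (1 - (1 + ε)⁻¹) • bar n + (1 + ε)⁻¹ • sig j x := by
      ext i; simp; ring
    rw [e1, sig_affine j _ _ (by ring), sig_bar, ← e2]
    exact h1

lemma total (hn : 2 ≤ n) (hε : 0 ≤ ε) (hε4 : ε * ((n:ℝ) * (n + 1) * (n + 2) * (n + 3)) ≤ 4) :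
    0 ≤ ∫ x in stdS n \ K, FF x := by
  set φ : Fin (n + 1) → (Fin n → ℝ) → ℝ := fun i x => Fin.cases (1 - ∑ i, x i) (fun j => x j) i with hφ
  have hφ0 : ∀ x, φ 0 x = 1 - ∑ i, x i := fun x => rfl
  have hφs : ∀ j : Fin n, ∀ x, φ j.succ x = x j := fun j x => rfl
  have hc : ∀ i, Continuous (φ i) := by
    intro i
    refine Fin.cases ?_ (fun j => ?_) i
    · show Continuous fun x : Fin n → ℝ => 1 - ∑ i, x i
      fun_prop
    · exact continuous_apply j
  have hnull : ∀ j : Fin n, volume {x : Fin n → ℝ | 1 - ∑ i, x i = x j} = 0 := by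
    intro j
    have h := null_hyperplane (fun i => 1 + (Pi.single j (1:ℝ) : Fin n → ℝ) i) (by
      intro h
      have := congrFun h j
      simp at this) 1
    refine measure_mono_null (fun x hx => ?_) h
    simp only [mem_ofPred_eq] at hx ⊢
    simp only [add_mul, one_mul, Finset.sum_add_distrib]
    have : ∑ i, (Pi.single j (1:ℝ) : Fin n → ℝ) i * x i = x j := by simp [Pi.single_apply]
    rw [this]
    linarith
  have hne : ∀ i j, i ≠ j → volume {x | φ i x = φ j x} = 0 := by
    intro i j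
    refine Fin.cases ?_ (fun i' => ?_) i <;> refine Fin.cases ?_ (fun j' => ?_) j
    · intro h; exact absurd rfl h
    · intro _; exact hnull j'
    · intro _
      have := hnull i'
      refine measure_mono_null (fun x hx => ?_) this
      exact (Eq.symm hx)
    · intro h
      exact null_eq_coord (fun hij : i' = j' => h (congrArg Fin.succ hij))
  have hs : MeasurableSet (stdS n \ K) := measurableSet_stdS.diff hK.closed.measurableSet
  have hint : IntegrableOn FF (stdS n \ K) :=
    (continuous_FF.continuousOn.integrableOn_compact isCompact_stdS).mono_set sdiff_subset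
  rw [integral_argmin (by omega) φ hc hne hs hint]
  refine Finset.sum_nonneg fun i _ => ?_
  refine Fin.cases ?_ (fun j => ?_) i
  · -- region 0
    have h := hK.toNear.region0 hε hn hε4
    have e : (stdS n \ K) ∩ {x | ∀ i, φ 0 x ≤ φ i x} = (stdS n ∩ {x | ∀ i, 1 - ∑ j, x j ≤ x i}) \ K := by
      ext x
      simp only [mem_inter_iff, mem_sdiff, mem_ofPred_eq]
      constructor
      · rintro ⟨⟨h1, h2⟩, h3⟩
        exact ⟨⟨h1, fun i => h3 i.succ⟩, h2⟩
      · rintro ⟨⟨h1, h3⟩, h2⟩
        refine ⟨⟨h1, h2⟩, fun i => ?_⟩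
        refine Fin.cases le_rfl (fun j => h3 j) i
    rw [e]
    exact h
  · have h := (hK.near_sig j).region0 hε hn hε4
    have e : (stdS n \ K) ∩ {x | ∀ i, φ j.succ x ≤ φ i x} =
        (fun x => sigMat j *ᵥ x + Pi.single j 1) '' ((stdS n ∩ {x | ∀ i, 1 - ∑ j, x j ≤ x i}) \ (sig j ⁻¹' K)) := by
      have hf : (fun x => sigMat j *ᵥ x + Pi.single j 1) = sig j := funext (sigMat_mulVec j)
      rw [hf]
      ext x
      simp only [mem_inter_iff, mem_sdiff, mem_ofPred_eq, mem_image, mem_preimage]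
      constructor
      · rintro ⟨⟨h1, h2⟩, h3⟩
        refine ⟨sig j x, ⟨⟨sig_stdS j h1, fun i => ?_⟩, ?_⟩, sig_sig j x⟩
        · rw [sum_sig]
          have h4 : x j ≤ 1 - ∑ i, x i := h3 0
          rcases eq_or_ne i j with rfl | hij
          · rw [sig_self]; linarith
          · rw [sig_ne hij]
            have : x j ≤ x i := h3 i.succ
            linarith
        · rw [sig_sig]; exact h2
      · rintro ⟨y, ⟨⟨h1, h2⟩, h3⟩, rfl⟩
        refine ⟨⟨sig_stdS j h1, h3⟩, fun i => ?_⟩
        rw [hφs, sig_self]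
        refine Fin.cases ?_ (fun i' => ?_) i
        · rw [hφ0, sum_sig]
          have := h2 j
          linarith
        · rw [hφs]
          rcases eq_or_ne i' j with rfl | hij
          · rw [sig_self]
          · rw [sig_ne hij]; exact h2 i'
    have hmeas : MeasurableSet ((stdS n ∩ {x | ∀ i, 1 - ∑ j, x j ≤ x i}) \ (sig j ⁻¹' K)) := by
      refine (measurableSet_stdS.inter ?_).diff (hK.closed.preimage (continuous_sig j)).measurableSet
      have : {x : Fin n → ℝ | ∀ i, 1 - ∑ j, x j ≤ x i} = ⋂ i, {x | 1 - ∑ j, x j ≤ x i} := by ext; simp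
      rw [this]
      exact MeasurableSet.iInter fun i => (isClosed_le (by fun_prop) (by fun_prop)).measurableSet
    rw [e, integral_image_affine _ _ (by rw [det_sigMat]; norm_num) hmeas, det_sigMat]
    simp only [sigMat_mulVec, FF_sig]
    simpa [FF] using h

end Pos

end Vale.Agent.P254
end

section

open MeasureTheory Set Real Matrix
open scoped Pointwise

namespace Vale.Agent.P254

variable {n : ℕ}

namespace SubLin

variable {G : (Fin n → ℝ) → ℝ} {ε : ℝ} (hG : SubLin G ε)
include hG

/-- second order version with a linear gain -/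
lemma second_order_q (hn : 2 ≤ n) (hε : ε * (((n:ℝ) + 3) * (n + 1) ^ 2) ≤ 1) :
    (1 / (n:ℝ)) * (∫ v in orth n, (Real.exp (-∑ i, v i) - Real.exp (-(∑ i, v i + G v)))) ≤
    ∫ v in orth n, (∑ i, (v i) ^ 2 - (∑ i, v i) ^ 2 / (n + 1) - (n + 2)) *
      (Real.exp (-∑ i, v i) - Real.exp (-(∑ i, v i + G v))) := by
  have hn' : (2:ℝ) ≤ n := by exact_mod_cast hn
  have hn0 : (0:ℝ) < n := by linarith
  set s : (Fin n → ℝ) → ℝ := fun v => ∑ i, v i with hs
  have hsc : Continuous s := by rw [hs]; fun_prop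
  have hss : ∀ v ∈ orth n, ∑ i, v i ≤ s v := fun v _ => le_rfl
  have hst : Tame s := Tame.sum _ fun i _ => Tame.coord i
  have hGt : Tame G := hG.tame
  have hlin : ∀ t : ℝ, ∀ v, s (t • v) = t * s v := by intro t v; simp [hs, Finset.mul_sum]
  have hGh : ∀ t : ℝ, 0 < t → ∀ v ∈ orth n, G (t • v) = t ^ 1 * G v := by
    intro t ht v _; rw [hG.smul t ht.le, pow_one]
  have hsn : ∀ v ∈ orth n, 0 ≤ s v := fun v hv => sum_nonneg_of_orth hv
  set I := W s G with hI
  have hI0 : 0 ≤ I := by
    refine setIntegral_nonneg measurableSet_orth fun v hv => ?_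
    exact mul_nonneg (hG.nonneg v hv) (Real.exp_pos _).le
  have J1 : W s (fun v => s v * G v) = (n + 1) * I := by
    have := W_homog hsc hss 1 hGt hlin hst hGh hG.nonneg
    simpa using this
  have J2 : W s (fun v => s v * (s v * G v)) = (n + 2) * ((n + 1) * I) := by
    have := W_homog hsc hss 2 (hst.mul hGt) hlin hst
      (fun t ht v hv => by rw [hlin, hGh t ht v hv]; ring)
      (fun v hv => mul_nonneg (hsn v hv) (hG.nonneg v hv))
    rw [this, J1]; norm_num
  have hq : Tame (fun v : Fin n → ℝ => ∑ i, (v i) ^ 2) := Tame.sum _ fun i _ => (Tame.coord i).pow 2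
  set Kq := W s (fun v => (∑ i, (v i) ^ 2) * G v) with hKq
  have K1 : 2 * ((n:ℝ) + 1) ^ 2 / n * I ≤ Kq := by
    have := hG.key_ineq hn
    have e : (fun v => (∑ i, (v i) ^ 2 - 2 * ((n:ℝ) + 1) ^ 2 / n) * G v) =
        fun v => (∑ i, (v i) ^ 2) * G v - 2 * ((n:ℝ) + 1) ^ 2 / n * G v := by
      ext v; ring
    rw [e, W_sub hsc hss (hq.mul hGt) ((Tame.const _).mul hGt), W_const_mul] at this
    linarith
  have J3 : W s (fun v => s v * ((∑ i, (v i) ^ 2) * G v)) = (n + 3) * Kq := by
    have := W_homog hsc hss 3 (hq.mul hGt) hlin hst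
      (fun t ht v hv => by
        rw [hGh t ht v hv]
        simp only [Pi.smul_apply, smul_eq_mul, mul_pow, ← Finset.mul_sum]
        ring)
      (fun v hv => mul_nonneg (Finset.sum_nonneg fun i _ => sq_nonneg _) (hG.nonneg v hv))
    rw [this, ← hKq]; norm_num
  -- lower bound
  set f : (Fin n → ℝ) → ℝ := fun v => (((∑ i, (v i) ^ 2) * G v - (1 / ((n:ℝ) + 1)) * (s v * (s v * G v)))
    - (n + 2) * G v) - ε / 2 * (s v * ((∑ i, (v i) ^ 2) * G v)) with hf
  have hft : Tame f := (((hq.mul hGt).sub ((Tame.const _).mul (hst.mul (hst.mul hGt)))).sub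
    ((Tame.const _).mul hGt)).sub ((Tame.const _).mul (hst.mul (hq.mul hGt)))
  have hWf : 1 / n * I ≤ W s f := by
    rw [hf, W_sub hsc hss (((hq.mul hGt).sub ((Tame.const _).mul (hst.mul (hst.mul hGt)))).sub
      ((Tame.const _).mul hGt)) ((Tame.const _).mul (hst.mul (hq.mul hGt))),
      W_sub hsc hss ((hq.mul hGt).sub ((Tame.const _).mul (hst.mul (hst.mul hGt)))) ((Tame.const _).mul hGt),
      W_sub hsc hss (hq.mul hGt) ((Tame.const _).mul (hst.mul (hst.mul hGt))),
      W_const_mul, W_const_mul, W_const_mul, J2, J3]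
    have hI2 : W s G = I := rfl
    have hKq2 : W s (fun v => (∑ i, (v i) ^ 2) * G v) = Kq := rfl
    rw [hI2, hKq2]
    have hc : 0 ≤ 1 - ε / 2 * (n + 3) := by
      have h1 : ε * (n + 3) ≤ 1 := by
        rcases le_or_gt ε 0 with h | h
        · have : ε * (n + 3) ≤ 0 := mul_nonpos_of_nonpos_of_nonneg h (by positivity)
          linarith
        · have : ε * (n + 3) ≤ ε * ((n + 3) * (n + 1) ^ 2) := by
            refine mul_le_mul_of_nonneg_left ?_ h.le
            nlinarith
          linarith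
      linarith
    have h3 : (1 - ε / 2 * (n + 3)) * (2 * ((n:ℝ) + 1) ^ 2 / n * I) ≤ (1 - ε / 2 * (n + 3)) * Kq :=
      mul_le_mul_of_nonneg_left K1 hc
    have h4 : (1 - ε / 2 * (n + 3)) * (2 * ((n:ℝ) + 1) ^ 2 / n * I) - 2 * (n + 2) * I =
        (2 - ε * ((n + 3) * (n + 1) ^ 2)) * (I / n) := by
      field_simp
      ring
    have h5 : 1 * (I / n) ≤ (2 - ε * ((n + 3) * (n + 1) ^ 2)) * (I / n) := by
      refine mul_le_mul_of_nonneg_right (by linarith) (by positivity)
    have h6 : 1 / ((n:ℝ) + 1) * ((n + 2) * ((n + 1) * I)) = (n + 2) * I := by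
      field_simp
    rw [h6]
    have h7 : 1 / (n:ℝ) * I = 1 * (I / n) := by ring
    rw [h7]
    linarith
  have hup : ∀ v, 1 - Real.exp (-G v) ≤ G v := by
    intro v
    have := Real.add_one_le_exp (-G v); linarith
  have e1 : ∀ v : Fin n → ℝ, Real.exp (-∑ i, v i) - Real.exp (-(∑ i, v i + G v)) =
      (1 - Real.exp (-G v)) * Real.exp (-s v) := by
    intro v
    rw [sub_mul, one_mul, ← Real.exp_add]
    congr 2
    simp only [hs]; ring
  have hexpi : IntegrableOn (fun v : Fin n → ℝ => Real.exp (-∑ i, v i) - Real.exp (-(∑ i, v i + G v))) (orth n) := by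
    have hT : Tame (fun _ : Fin n → ℝ => (1:ℝ)) := Tame.const 1
    have h1 := hT.integrable (ℓ := fun v => ∑ i, v i) (by fun_prop) (fun v _ => le_rfl)
    have h2 := hT.integrable (ℓ := fun v => ∑ i, v i + G v) (by have := hG.cont; fun_prop)
      (fun v hv => by have := hG.nonneg v hv; linarith)
    refine (h1.sub h2).congr_fun (fun v _ => ?_) measurableSet_orth
    simp only [Pi.sub_apply, one_mul]
  have hIle : (∫ v in orth n, (Real.exp (-∑ i, v i) - Real.exp (-(∑ i, v i + G v)))) ≤ I := by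
    refine setIntegral_mono_on hexpi (hGt.integrable hsc hss) measurableSet_orth fun v hv => ?_
    rw [e1]
    exact mul_le_mul_of_nonneg_right (hup v) (Real.exp_pos _).le
  refine (mul_le_mul_of_nonneg_left hIle (by positivity)).trans (hWf.trans ?_)
  have hgi : IntegrableOn (fun v => (∑ i, (v i) ^ 2 - (∑ i, v i) ^ 2 / (n + 1) - (n + 2)) *
      (Real.exp (-∑ i, v i) - Real.exp (-(∑ i, v i + G v)))) (orth n) := by
    have hT : Tame (fun v : Fin n → ℝ => ∑ i, (v i) ^ 2 - (∑ i, v i) ^ 2 / (n + 1) - (n + 2)) := by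
      have := (hq.sub ((Tame.const (1 / ((n:ℝ)+1))).mul (hst.pow 2))).sub (Tame.const ((n:ℝ) + 2))
      refine (by
        convert this using 2
        simp only [hs]
        ring)
    have h1 := hT.integrable (ℓ := fun v => ∑ i, v i) (by fun_prop) (fun v _ => le_rfl)
    have h2 := hT.integrable (ℓ := fun v => ∑ i, v i + G v) (by have := hG.cont; fun_prop)
      (fun v hv => by have := hG.nonneg v hv; linarith)
    refine (h1.sub h2).congr_fun (fun v _ => ?_) measurableSet_orth
    simp only [Pi.sub_apply]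
    ring
  refine setIntegral_mono_on (hft.integrable hsc hss) hgi measurableSet_orth fun v hv => ?_
  have hG0 := hG.nonneg v hv
  have hG1 := hG.le v hv
  have hs0 := hsn v hv
  rw [e1, ← mul_assoc]
  refine mul_le_mul_of_nonneg_right ?_ (Real.exp_pos _).le
  have hlo : G v - (G v) ^ 2 / 2 ≤ 1 - Real.exp (-G v) := by
    have h1 := Real.quadratic_le_exp_of_nonneg hG0
    have h2 : Real.exp (-G v) * Real.exp (G v) = 1 := by rw [← Real.exp_add]; simp
    have h3 := Real.exp_pos (-G v)
    have h4 : Real.exp (-G v) ≤ 1 - G v + G v ^ 2 / 2 := by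
      by_contra hcon
      push Not at hcon
      have h5 : 0 < 1 - G v + G v ^ 2 / 2 := by nlinarith [sq_nonneg (G v - 1)]
      have h6 : (1 - G v + G v ^ 2 / 2) * (1 + G v + G v ^ 2 / 2) < Real.exp (-G v) * Real.exp (G v) :=
        mul_lt_mul hcon h1 (by positivity) h3.le
      rw [h2] at h6
      nlinarith [sq_nonneg (G v), sq_nonneg (G v ^ 2)]
    linarith
  set q := ∑ i, (v i) ^ 2 with hqd
  have hq0 : 0 ≤ q := Finset.sum_nonneg fun i _ => sq_nonneg _
  have hr : 0 ≤ (∑ i, v i) ^ 2 / ((n:ℝ) + 1) + (n + 2) := by positivity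
  have h7 : q * (G v - (G v) ^ 2 / 2) ≤ q * (1 - Real.exp (-G v)) := mul_le_mul_of_nonneg_left hlo hq0
  have h8 : ((∑ i, v i) ^ 2 / ((n:ℝ) + 1) + (n + 2)) * (1 - Real.exp (-G v)) ≤
      ((∑ i, v i) ^ 2 / ((n:ℝ) + 1) + (n + 2)) * G v := mul_le_mul_of_nonneg_left (hup v) hr
  have h9 : q * (G v) ^ 2 ≤ ε * (s v * (q * G v)) := by
    calc q * (G v) ^ 2 = q * G v * G v := by ring
      _ ≤ q * G v * (ε * s v) := by gcongr
      _ = _ := by ring
  simp only [hf]
  have h10 : (∑ i, v i) = s v := rfl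
  rw [h10] at h8 ⊢
  have e2 : 1 / ((n:ℝ) + 1) * (s v * (s v * G v)) = (s v) ^ 2 / (n + 1) * G v := by ring
  rw [e2]
  nlinarith

/-- The solid version of the quantitative second order inequality. -/
lemma solid_q (hn : 2 ≤ n) (hε : ε * (((n:ℝ) + 3) * (n + 1) ^ 2) ≤ 1) :
    (1 / ((n:ℝ) * (n + 1) * (n + 2))) * (∫ _v in stdS n \ {v | ∑ i, v i + G v ≤ 1}, (1:ℝ)) ≤
    ∫ v in stdS n \ {v | ∑ i, v i + G v ≤ 1}, (∑ i, (v i) ^ 2 - (1 + (∑ i, v i) ^ 2) / (n + 1)) := by
  have hn' : (2:ℝ) ≤ n := by exact_mod_cast hn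
  have hn0 : (0:ℝ) < n := by linarith
  set s : (Fin n → ℝ) → ℝ := fun v => ∑ i, v i with hs
  have hsc : Continuous s := by rw [hs]; fun_prop
  set g : (Fin n → ℝ) → ℝ := fun v => s v + G v with hg
  have hgc : Continuous g := by rw [hg]; have := hG.cont; fun_prop
  set F : (Fin n → ℝ) → ℝ := fun v => ∑ i, (v i) ^ 2 - (1 + (s v) ^ 2) / (n + 1) with hF
  have hFc : Continuous F := by rw [hF]; fun_prop
  have hcomp : ∀ A : Set (Fin n → ℝ), A ⊆ stdS n → IntegrableOn F A := by
    intro A hA
    exact (hFc.continuousOn.integrableOn_compact isCompact_stdS).mono_set hA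
  -- difference of integrals
  have hA : orth n ∩ {v | g v ≤ 1} ⊆ stdS n := by
    rintro v ⟨hv, hgv⟩
    refine ⟨hv, ?_⟩
    have h1 : s v + G v ≤ 1 := hgv
    have h2 := hG.nonneg v hv
    show s v ≤ 1
    linarith
  have e1 : stdS n \ {v | ∑ i, v i + G v ≤ 1} = stdS n \ (orth n ∩ {v | g v ≤ 1}) := by
    ext v
    simp only [mem_sdiff, mem_ofPred_eq, mem_inter_iff, not_and]
    constructor
    · rintro ⟨h1, h2⟩
      exact ⟨h1, fun _ => h2⟩
    · rintro ⟨h1, h2⟩
      exact ⟨h1, h2 h1.1⟩
  have hone : ∀ A : Set (Fin n → ℝ), A ⊆ stdS n → IntegrableOn (fun _ => (1:ℝ)) A := by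
    intro A hA
    exact (continuous_const.continuousOn.integrableOn_compact isCompact_stdS).mono_set hA
  have hmeasA : MeasurableSet (orth n ∩ {v | g v ≤ 1}) :=
    isClosed_orth.measurableSet.inter (measurableSet_le hgc.measurable measurable_const)
  rw [e1, setIntegral_sdiff hmeasA (hcomp _ subset_rfl) hA, setIntegral_sdiff hmeasA (hone _ subset_rfl) hA]
  -- layer cake
  have T0 : Tame (fun _ : Fin n → ℝ => (1:ℝ)) := Tame.const 1
  have T1 : Tame (fun v : Fin n → ℝ => ∑ i, (v i) ^ 2) := Tame.sum _ fun i _ => (Tame.coord i).pow 2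
  have T2 : Tame (fun v : Fin n → ℝ => (s v) ^ 2) := (Tame.sum _ fun i _ => Tame.coord i).pow 2
  have H0 : ∀ g : (Fin n → ℝ) → ℝ, Continuous g → (∀ t : ℝ, 0 < t → ∀ v ∈ orth n, g (t • v) = t * g v) →
      (∀ v ∈ orth n, s v ≤ g v) →
      (n.factorial : ℝ) * ∫ v in orth n ∩ {v | g v ≤ 1}, (1:ℝ) = ∫ v in orth n, 1 * Real.exp (-g v) := by
    intro g hgc hgh hgs
    have hgn : ∀ v ∈ orth n, 0 ≤ g v := fun v hv => (sum_nonneg_of_orth hv).trans (hgs v hv)
    have L0 := layer_cake g (fun _ => 1) 0 hgc.measurable measurable_const hgh hgn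
      (fun t _ v _ => by simp) (T0.integrable hgc hgs)
    rw [L0]; rfl
  have H : ∀ g : (Fin n → ℝ) → ℝ, Continuous g → (∀ t : ℝ, 0 < t → ∀ v ∈ orth n, g (t • v) = t * g v) →
      (∀ v ∈ orth n, s v ≤ g v) →
      ((n + 2).factorial : ℝ) * ∫ v in orth n ∩ {v | g v ≤ 1}, F v =
        ∫ v in orth n, (∑ i, (v i) ^ 2 - (s v) ^ 2 / (n + 1) - (n + 2)) * Real.exp (-g v) := by
    intro g hgc hgh hgs
    have hgn : ∀ v ∈ orth n, 0 ≤ g v := fun v hv => (sum_nonneg_of_orth hv).trans (hgs v hv)
    have L0 := layer_cake g (fun _ => 1) 0 hgc.measurable measurable_const hgh hgn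
      (fun t _ v _ => by simp) (T0.integrable hgc hgs)
    have L1 := layer_cake g (fun v => ∑ i, (v i) ^ 2) 2 hgc.measurable (by fun_prop) hgh hgn
      (fun t _ v _ => by simp [mul_pow, Finset.mul_sum]) (T1.integrable hgc hgs)
    have L2 := layer_cake g (fun v => (s v) ^ 2) 2 hgc.measurable (by fun_prop) hgh hgn
      (fun t _ v _ => by simp [hs, mul_pow, ← Finset.mul_sum]) (T2.integrable hgc hgs)
    have hsub : orth n ∩ {v | g v ≤ 1} ⊆ stdS n := by
      rintro v ⟨hv, hgv⟩
      exact ⟨hv, (hgs v hv).trans hgv⟩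
    have i0 : IntegrableOn (fun _ : Fin n → ℝ => (1:ℝ)) (orth n ∩ {v | g v ≤ 1}) :=
      (continuous_const.continuousOn.integrableOn_compact isCompact_stdS).mono_set hsub
    have i1 : IntegrableOn (fun v : Fin n → ℝ => ∑ i, (v i) ^ 2) (orth n ∩ {v | g v ≤ 1}) :=
      (ContinuousOn.integrableOn_compact isCompact_stdS (by fun_prop)).mono_set hsub
    have i2 : IntegrableOn (fun v : Fin n → ℝ => (s v) ^ 2) (orth n ∩ {v | g v ≤ 1}) :=
      (ContinuousOn.integrableOn_compact isCompact_stdS (by fun_prop)).mono_set hsub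
    have e2 : ∫ v in orth n ∩ {v | g v ≤ 1}, F v =
        (∫ v in orth n ∩ {v | g v ≤ 1}, ∑ i, (v i) ^ 2) -
        (1 / ((n:ℝ) + 1)) * ((∫ v in orth n ∩ {v | g v ≤ 1}, (1:ℝ)) + ∫ v in orth n ∩ {v | g v ≤ 1}, (s v) ^ 2) := by
      have i02 : IntegrableOn (fun v => (1 / ((n:ℝ) + 1)) * (1 + (s v) ^ 2)) (orth n ∩ {v | g v ≤ 1}) :=
        (i0.add i2).const_mul _
      rw [← integral_add i0 i2, ← integral_const_mul, ← integral_sub i1 i02]
      refine integral_congr_ae (Filter.Eventually.of_forall fun v => ?_)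
      simp only [hF]
      ring
    have j0 := T0.integrable hgc hgs
    have j1 := T1.integrable hgc hgs
    have j2 := T2.integrable hgc hgs
    have e3 : ∫ v in orth n, (∑ i, (v i) ^ 2 - (s v) ^ 2 / (n + 1) - (n + 2)) * Real.exp (-g v) =
        (∫ v in orth n, (∑ i, (v i) ^ 2) * Real.exp (-g v)) -
        (1 / ((n:ℝ) + 1)) * (∫ v in orth n, (s v) ^ 2 * Real.exp (-g v)) -
        (n + 2) * ∫ v in orth n, 1 * Real.exp (-g v) := by
      have j12 : IntegrableOn (fun v => (∑ i, (v i) ^ 2) * Real.exp (-g v) -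
          (1 / ((n:ℝ) + 1)) * ((s v) ^ 2 * Real.exp (-g v))) (orth n) := j1.sub (j2.const_mul _)
      rw [← integral_const_mul, ← integral_const_mul, ← integral_sub j1 (j2.const_mul _),
        ← integral_sub j12 (j0.const_mul _)]
      refine integral_congr_ae (Filter.Eventually.of_forall fun v => ?_)
      ring
    rw [e2, e3, L0, L1, L2]
    have hfac : ((n + 2).factorial : ℝ) = (n + 2) * ((n + 1) * (n + 0).factorial) := by
      rw [Nat.factorial_succ, Nat.factorial_succ]; push_cast; ring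
    have hfac2 : (((n + 0).factorial : ℕ) : ℝ) ≠ 0 := by positivity
    rw [hfac]
    field_simp
    ring
  have hsh : ∀ t : ℝ, 0 < t → ∀ v ∈ orth n, s (t • v) = t * s v :=
    fun t ht v _ => by simp [hs, Finset.mul_sum]
  have hgh : ∀ t : ℝ, 0 < t → ∀ v ∈ orth n, g (t • v) = t * g v := fun t ht v _ => by
    simp only [hg]
    rw [hG.smul t ht.le]
    simp [hs, Finset.mul_sum, mul_add]
  have hgs : ∀ v ∈ orth n, s v ≤ g v := fun v hv => by have := hG.nonneg v hv; simp only [hg]; linarith
  have HU := H s hsc hsh (fun v _ => le_rfl)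
  have HA := H g hgc hgh hgs
  have HU0 := H0 s hsc hsh (fun v _ => le_rfl)
  have HA0 := H0 g hgc hgh hgs
  have hst : stdS n = orth n ∩ {v | s v ≤ 1} := rfl
  have key := hG.second_order_q hn hε
  have e4 : ∫ v in orth n, (∑ i, (v i) ^ 2 - (∑ i, v i) ^ 2 / (n + 1) - (n + 2)) *
      (Real.exp (-∑ i, v i) - Real.exp (-(∑ i, v i + G v))) =
      (∫ v in orth n, (∑ i, (v i) ^ 2 - (s v) ^ 2 / (n + 1) - (n + 2)) * Real.exp (-s v)) -
      ∫ v in orth n, (∑ i, (v i) ^ 2 - (s v) ^ 2 / (n + 1) - (n + 2)) * Real.exp (-g v) := by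
    have hT : Tame (fun v : Fin n → ℝ => ∑ i, (v i) ^ 2 - (s v) ^ 2 / (n + 1) - (n + 2)) := by
      have := (T1.sub ((Tame.const (1 / ((n:ℝ)+1))).mul T2)).sub (Tame.const ((n:ℝ) + 2))
      convert this using 2
      ring
    rw [← integral_sub (hT.integrable hsc fun v _ => le_rfl)
      (hT.integrable hgc fun v hv => by have := hG.nonneg v hv; simp only [hg]; linarith)]
    refine integral_congr_ae (Filter.Eventually.of_forall fun v => ?_)
    simp only [hs, hg]
    ring
  have e5 : ∫ v in orth n, (Real.exp (-∑ i, v i) - Real.exp (-(∑ i, v i + G v))) =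
      (∫ v in orth n, 1 * Real.exp (-s v)) - ∫ v in orth n, 1 * Real.exp (-g v) := by
    rw [← integral_sub (T0.integrable hsc fun v _ => le_rfl)
      (T0.integrable hgc fun v hv => by have := hG.nonneg v hv; simp only [hg]; linarith)]
    refine integral_congr_ae (Filter.Eventually.of_forall fun v => ?_)
    simp only [hs, hg]
    ring
  rw [e4, e5, ← HU, ← HA, ← HU0, ← HA0, ← hst] at key
  have hpos : (0:ℝ) < ((n + 2).factorial : ℝ) := by positivity
  have hfac : ((n + 2).factorial : ℝ) = (n + 2) * ((n + 1) * n.factorial) := by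
    rw [Nat.factorial_succ, Nat.factorial_succ]; push_cast; ring
  have hfac2 : ((n.factorial : ℕ) : ℝ) ≠ 0 := by positivity
  have h1 : ((n + 2).factorial : ℝ) * ((1 / ((n:ℝ) * (n + 1) * (n + 2))) *
      ((∫ v in stdS n, (1:ℝ)) - ∫ v in orth n ∩ {v | g v ≤ 1}, (1:ℝ))) =
      1 / n * ((n.factorial : ℝ) * (∫ v in stdS n, (1:ℝ)) -
        (n.factorial : ℝ) * ∫ v in orth n ∩ {v | g v ≤ 1}, (1:ℝ)) := by
    rw [hfac]
    field_simp
  have h2 : ((n + 2).factorial : ℝ) * ((1 / ((n:ℝ) * (n + 1) * (n + 2))) *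
      ((∫ v in stdS n, (1:ℝ)) - ∫ v in orth n ∩ {v | g v ≤ 1}, (1:ℝ))) ≤
      ((n + 2).factorial : ℝ) * ((∫ v in stdS n, F v) - ∫ v in orth n ∩ {v | g v ≤ 1}, F v) := by
    rw [h1]
    linarith
  exact le_of_mul_le_mul_left h2 hpos

end SubLin

namespace Near

variable {K : Set (Fin n → ℝ)} {ε : ℝ} (hK : Near K ε)
include hK

/-- The region inequality in the original coordinates. -/
lemma region0_q (hε : 0 ≤ ε) (hn : 2 ≤ n) (hε4 : ε * (((n:ℝ) + 3) * (n + 1) ^ 2) ≤ 1) :
    (1 / ((n:ℝ) * (n + 1) * (n + 2))) *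
      (∫ _x in (stdS n ∩ {x | ∀ i, 1 - ∑ j, x j ≤ x i}) \ K, (1:ℝ)) ≤
    ∫ x in (stdS n ∩ {x | ∀ i, 1 - ∑ j, x j ≤ x i}) \ K,
      (∑ i, (x i) ^ 2 + (1 - ∑ i, x i) ^ 2 - 2 / ((n:ℝ) + 1)) := by
  have hS := hK.subLin hε (by omega)
  have hmeas : MeasurableSet (stdS n \ {v : Fin n → ℝ | ∑ i, v i + (gauge (trans K) (mM v) - ∑ i, v i) ≤ 1}) := by
    refine measurableSet_stdS.diff ?_
    have := hS.cont
    exact (isClosed_le (by fun_prop) continuous_const).measurableSet
  rw [← hK.image_theta hε, integral_image_affine _ _ (by rw [det_mMat]; positivity) hmeas,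
    integral_image_affine _ _ (by rw [det_mMat]; positivity) hmeas]
  have := hS.solid_q hn hε4
  have h0 : 0 ≤ |(mMat n).det| := abs_nonneg _
  have h1 := mul_le_mul_of_nonneg_left this h0
  rw [← mul_assoc, mul_comm |(mMat n).det| (1 / _), mul_assoc] at h1
  refine h1.trans_eq ?_
  congr 1
  refine integral_congr_ae (Filter.Eventually.of_forall fun v => ?_)
  simp only [mMat_mulVec]
  have hsum : 1 - ∑ j, (mM v + bar n) j = (1 - ∑ i, v i) / (n + 1) := by
    simp only [Pi.add_apply, Finset.sum_add_distrib, sum_mM, sum_bar]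
    field_simp
    ring
  have hco : ∀ i, (mM v + bar n) i = v i + (1 - ∑ i, v i) / (n + 1) := by
    intro i
    simp only [Pi.add_apply, mM, bar]
    ring
  have hsq : ∑ i, ((mM v + bar n) i) ^ 2 = ∑ i, (v i) ^ 2 +
      2 * ((1 - ∑ i, v i) / (n + 1)) * ∑ i, v i + n * ((1 - ∑ i, v i) / (n + 1)) ^ 2 := by
    have h1 : ∀ i, ((mM v + bar n) i) ^ 2 = (v i) ^ 2 + 2 * ((1 - ∑ i, v i) / (n + 1)) * v i +
        ((1 - ∑ i, v i) / (n + 1)) ^ 2 := by intro i; rw [hco]; ring
    simp only [h1, Finset.sum_add_distrib, ← Finset.mul_sum, Finset.sum_const, Finset.card_univ,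
      Fintype.card_fin, nsmul_eq_mul]
  rw [hsum, hsq]
  field_simp
  ring

end Near

namespace Pos

variable {K : Set (Fin n → ℝ)} {ε : ℝ} (hK : Pos K ε)
include hK

lemma total_q (hn : 2 ≤ n) (hε : 0 ≤ ε) (hε4 : ε * (((n:ℝ) + 3) * (n + 1) ^ 2) ≤ 1) :
    (1 / ((n:ℝ) * (n + 1) * (n + 2))) * (∫ _x in stdS n \ K, (1:ℝ)) ≤ ∫ x in stdS n \ K, FF x := by
  set φ : Fin (n + 1) → (Fin n → ℝ) → ℝ := fun i x => Fin.cases (1 - ∑ i, x i) (fun j => x j) i with hφ
  have hφ0 : ∀ x, φ 0 x = 1 - ∑ i, x i := fun x => rfl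
  have hφs : ∀ j : Fin n, ∀ x, φ j.succ x = x j := fun j x => rfl
  have hc : ∀ i, Continuous (φ i) := by
    intro i
    refine Fin.cases ?_ (fun j => ?_) i
    · show Continuous fun x : Fin n → ℝ => 1 - ∑ i, x i
      fun_prop
    · exact continuous_apply j
  have hnull : ∀ j : Fin n, volume {x : Fin n → ℝ | 1 - ∑ i, x i = x j} = 0 := by
    intro j
    have h := null_hyperplane (fun i => 1 + (Pi.single j (1:ℝ) : Fin n → ℝ) i) (by
      intro h
      have := congrFun h j
      simp at this) 1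
    refine measure_mono_null (fun x hx => ?_) h
    simp only [mem_ofPred_eq] at hx ⊢
    simp only [add_mul, one_mul, Finset.sum_add_distrib]
    have : ∑ i, (Pi.single j (1:ℝ) : Fin n → ℝ) i * x i = x j := by simp [Pi.single_apply]
    rw [this]
    linarith
  have hne : ∀ i j, i ≠ j → volume {x | φ i x = φ j x} = 0 := by
    intro i j
    refine Fin.cases ?_ (fun i' => ?_) i <;> refine Fin.cases ?_ (fun j' => ?_) j
    · intro h; exact absurd rfl h
    · intro _; exact hnull j'
    · intro _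
      have := hnull i'
      refine measure_mono_null (fun x hx => ?_) this
      exact (Eq.symm hx)
    · intro h
      exact null_eq_coord (fun hij : i' = j' => h (congrArg Fin.succ hij))
  have hs : MeasurableSet (stdS n \ K) := measurableSet_stdS.diff hK.closed.measurableSet
  have hint : IntegrableOn FF (stdS n \ K) :=
    (continuous_FF.continuousOn.integrableOn_compact isCompact_stdS).mono_set sdiff_subset
  have hint1 : IntegrableOn (fun _ : Fin n → ℝ => (1:ℝ)) (stdS n \ K) :=
    (continuous_const.continuousOn.integrableOn_compact isCompact_stdS).mono_set sdiff_subset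
  rw [integral_argmin (by omega) φ hc hne hs hint, integral_argmin (by omega) φ hc hne hs hint1,
    Finset.mul_sum]
  refine Finset.sum_le_sum fun i _ => ?_
  refine Fin.cases ?_ (fun j => ?_) i
  · -- region 0
    have h := hK.toNear.region0_q hε hn hε4
    have e : (stdS n \ K) ∩ {x | ∀ i, φ 0 x ≤ φ i x} = (stdS n ∩ {x | ∀ i, 1 - ∑ j, x j ≤ x i}) \ K := by
      ext x
      simp only [mem_inter_iff, mem_sdiff, mem_ofPred_eq]
      constructor
      · rintro ⟨⟨h1, h2⟩, h3⟩
        exact ⟨⟨h1, fun i => h3 i.succ⟩, h2⟩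
      · rintro ⟨⟨h1, h3⟩, h2⟩
        refine ⟨⟨h1, h2⟩, fun i => ?_⟩
        refine Fin.cases le_rfl (fun j => h3 j) i
    rw [e]
    exact h
  · have h := (hK.near_sig j).region0_q hε hn hε4
    have e : (stdS n \ K) ∩ {x | ∀ i, φ j.succ x ≤ φ i x} =
        (fun x => sigMat j *ᵥ x + Pi.single j 1) '' ((stdS n ∩ {x | ∀ i, 1 - ∑ j, x j ≤ x i}) \ (sig j ⁻¹' K)) := by
      have hf : (fun x => sigMat j *ᵥ x + Pi.single j 1) = sig j := funext (sigMat_mulVec j)
      rw [hf]
      ext x
      simp only [mem_inter_iff, mem_sdiff, mem_ofPred_eq, mem_image, mem_preimage]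
      constructor
      · rintro ⟨⟨h1, h2⟩, h3⟩
        refine ⟨sig j x, ⟨⟨sig_stdS j h1, fun i => ?_⟩, ?_⟩, sig_sig j x⟩
        · rw [sum_sig]
          have h4 : x j ≤ 1 - ∑ i, x i := h3 0
          rcases eq_or_ne i j with rfl | hij
          · rw [sig_self]; linarith
          · rw [sig_ne hij]
            have : x j ≤ x i := h3 i.succ
            linarith
        · rw [sig_sig]; exact h2
      · rintro ⟨y, ⟨⟨h1, h2⟩, h3⟩, rfl⟩
        refine ⟨⟨sig_stdS j h1, h3⟩, fun i => ?_⟩
        rw [hφs, sig_self]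
        refine Fin.cases ?_ (fun i' => ?_) i
        · rw [hφ0, sum_sig]
          have := h2 j
          linarith
        · rw [hφs]
          rcases eq_or_ne i' j with rfl | hij
          · rw [sig_self]
          · rw [sig_ne hij]; exact h2 i'
    have hmeas : MeasurableSet ((stdS n ∩ {x | ∀ i, 1 - ∑ j, x j ≤ x i}) \ (sig j ⁻¹' K)) := by
      refine (measurableSet_stdS.inter ?_).diff (hK.closed.preimage (continuous_sig j)).measurableSet
      have : {x : Fin n → ℝ | ∀ i, 1 - ∑ j, x j ≤ x i} = ⋂ i, {x | 1 - ∑ j, x j ≤ x i} := by ext; simp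
      rw [this]
      exact MeasurableSet.iInter fun i => (isClosed_le (by fun_prop) (by fun_prop)).measurableSet
    rw [e, integral_image_affine _ _ (by rw [det_sigMat]; norm_num) hmeas,
      integral_image_affine _ _ (by rw [det_sigMat]; norm_num) hmeas, det_sigMat]
    simp only [sigMat_mulVec, FF_sig]
    simpa [FF] using h

end Pos

end Vale.Agent.P254
end

section

open MeasureTheory Set Matrix Filter Topology
open scoped Pointwise

namespace Vale.Agent.P254

variable {n : ℕ} {K : Set (Fin n → ℝ)}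

/-! ### Determinants of substochastic matrices -/

lemma abs_det_le_prod_sum {m : ℕ} (A : Matrix (Fin m) (Fin m) ℝ) :
    |A.det| ≤ ∏ i, ∑ j, |A i j| := by
  have h1 : |A.det| ≤ ∑ σ : Equiv.Perm (Fin m), ∏ i, |A i (σ i)| := by
    rw [← det_transpose, det_apply]
    refine (Finset.abs_sum_le_sum_abs _ _).trans (Finset.sum_le_sum fun σ _ => ?_)
    have : |Equiv.Perm.sign σ • ∏ i, Aᵀ (σ i) i| = ∏ i, |A i (σ i)| := by
      rw [Units.smul_def, zsmul_eq_mul, abs_mul, Finset.abs_prod]
      have hs : |((Equiv.Perm.sign σ : ℤ) : ℝ)| = 1 := by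
        rcases Int.units_eq_one_or (Equiv.Perm.sign σ) with h | h <;> rw [h] <;> simp
      rw [hs, one_mul]
      rfl
    rw [this]
  refine h1.trans ?_
  rw [Finset.prod_univ_sum]
  have h2 : ∑ σ : Equiv.Perm (Fin m), ∏ i, |A i (σ i)| =
      ∑ p ∈ Finset.image (fun (σ : Equiv.Perm (Fin m)) => (⇑σ : Fin m → Fin m)) Finset.univ,
        ∏ i, |A i (p i)| := by
    rw [Finset.sum_image]
    intro σ _ τ _ h
    exact Equiv.coe_fn_injective h
  rw [h2]
  refine Finset.sum_le_sum_of_subset_of_nonneg ?_ fun p _ _ => Finset.prod_nonneg fun i _ => abs_nonneg _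
  intro p _
  simp

/-- The probability that exactly one of a family of independent events of probability at most
`c ∈ [1/2, 1]` occurs is at most `c`. -/
lemma exactly_one_le {ι : Type*} [DecidableEq ι] (m : ι → ℝ) {c : ℝ} (hc : 1 / 2 ≤ c) (hc1 : c ≤ 1)
    (s : Finset ι) (h0 : ∀ i ∈ s, 0 ≤ m i) (h1 : ∀ i ∈ s, m i ≤ c) :
    0 ≤ ∑ k ∈ s, m k * ∏ r ∈ s.erase k, (1 - m r) ∧
    0 ≤ ∏ r ∈ s, (1 - m r) ∧
    ∑ k ∈ s, m k * ∏ r ∈ s.erase k, (1 - m r) ≤ c ∧
    ∑ k ∈ s, m k * ∏ r ∈ s.erase k, (1 - m r) + ∏ r ∈ s, (1 - m r) ≤ 1 := by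
  induction s using Finset.induction_on with
  | empty => simp; linarith
  | insert i s hi ih =>
    obtain ⟨hb0, ha0, hbc, hab⟩ := ih (fun j hj => h0 j (Finset.mem_insert_of_mem hj))
      (fun j hj => h1 j (Finset.mem_insert_of_mem hj))
    have hm0 := h0 i (Finset.mem_insert_self i s)
    have hm1 := h1 i (Finset.mem_insert_self i s)
    set a := ∏ r ∈ s, (1 - m r) with ha
    set b := ∑ k ∈ s, m k * ∏ r ∈ s.erase k, (1 - m r) with hb
    have e1 : ∏ r ∈ insert i s, (1 - m r) = (1 - m i) * a := Finset.prod_insert hi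
    have e2 : ∑ k ∈ insert i s, m k * ∏ r ∈ (insert i s).erase k, (1 - m r) = m i * a + (1 - m i) * b := by
      rw [Finset.sum_insert hi, Finset.erase_insert hi]
      congr 1
      rw [hb, Finset.mul_sum]
      refine Finset.sum_congr rfl fun k hk => ?_
      have hik : i ≠ k := fun h => hi (h ▸ hk)
      have : (insert i s).erase k = insert i (s.erase k) := Finset.erase_insert_of_ne hik
      rw [this, Finset.prod_insert (fun h => hi (Finset.mem_of_mem_erase h))]
      ring
    rw [e1, e2]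
    have hmi : 0 ≤ 1 - m i := by linarith
    refine ⟨by positivity, by positivity, ?_, ?_⟩
    · -- m a + (1-m) b ≤ m (1 - b) + (1 - m) b ≤ c
      have h2 : m i * a ≤ m i * (1 - b) := mul_le_mul_of_nonneg_left (by linarith) hm0
      have h3 : m i * (1 - b) + (1 - m i) * b ≤ c := by
        -- m + b - 2 m b ≤ c  on [0,c]^2
        nlinarith [mul_nonneg (sub_nonneg.2 hm1) (sub_nonneg.2 hbc), mul_nonneg hm0 (sub_nonneg.2 hbc),
          mul_nonneg hb0 (sub_nonneg.2 hm1), mul_nonneg hm0 hb0,
          mul_nonneg (mul_nonneg hm0 hb0) (by linarith : (0:ℝ) ≤ 2 * c - 1)]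
      linarith
    · nlinarith

lemma abs_det_le_of_col_le {M : Matrix (Fin (n + 1)) (Fin (n + 1)) ℝ} (h0 : ∀ k l, 0 ≤ M k l)
    (h1 : ∀ k, ∑ l, M k l = 1) (l : Fin (n + 1)) {c : ℝ} (hc : 1 / 2 ≤ c) (hc1 : c ≤ 1)
    (hl : ∀ k, M k l ≤ c) : |M.det| ≤ c := by
  rw [det_succ_column M l]
  have key := (exactly_one_le (fun k => M k l) hc hc1 Finset.univ (fun k _ => h0 k l)
    (fun k _ => hl k)).2.2.1
  refine (Finset.abs_sum_le_sum_abs _ _).trans (le_trans (Finset.sum_le_sum fun k _ => ?_) key)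
  rw [abs_mul, abs_mul, abs_pow, abs_neg, abs_one, one_pow, one_mul, abs_of_nonneg (h0 k l)]
  refine mul_le_mul_of_nonneg_left ?_ (h0 k l)
  refine (abs_det_le_prod_sum _).trans (le_of_eq ?_)
  have e1 : Finset.univ.erase k = Finset.univ.image k.succAbove := by
    rw [Fin.image_succAbove_univ]
    ext x; simp
  rw [e1, Finset.prod_image (fun a _ b _ h => Fin.succAbove_right_injective h)]
  refine Finset.prod_congr rfl fun r _ => ?_
  have h2 := h1 (k.succAbove r)
  rw [Fin.sum_univ_succAbove _ l] at h2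
  have : ∀ j, |M.submatrix k.succAbove l.succAbove r j| = M (k.succAbove r) (l.succAbove j) := by
    intro j
    rw [submatrix_apply, abs_of_nonneg (h0 _ _)]
  simp only [this]
  linarith

/-- The matrix of barycentric coordinates of the vertices of `aff A b '' stdS n`. -/
noncomputable def baryM (A : Matrix (Fin n) (Fin n) ℝ) (b : Fin n → ℝ) :
    Matrix (Fin (n + 1)) (Fin (n + 1)) ℝ := fun k l => lam (aff A b (stdV n k)) l

lemma det_baryM (A : Matrix (Fin n) (Fin n) ℝ) (b : Fin n → ℝ) : (baryM A b).det = A.det := by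
  set M := baryM A b with hM
  -- subtract the first row
  set B : Matrix (Fin (n + 1)) (Fin (n + 1)) ℝ := fun k l => if k = 0 then M 0 l else M k l - M 0 l with hB
  have h1 : M.det = B.det := by
    refine det_eq_of_forall_row_eq_smul_add_const (fun k => if k = 0 then 0 else 1) 0 (by simp) ?_
    intro k l
    by_cases hk : k = 0
    · subst hk; simp [hB]
    · simp [hB, hk]
  have h2 := det_updateCol_sum B 0 (fun _ => 1)
  rw [one_smul] at h2
  rw [h1, ← h2, det_succ_column_zero, Fin.sum_univ_succ]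
  have hrow : ∀ k : Fin n, ∀ l, B k.succ l = lam (aff A b (stdV n k.succ)) l - lam (aff A b (stdV n 0)) l := by
    intro k l
    simp only [hB, Fin.succ_ne_zero, if_false]
    rfl
  have hc0 : ∀ k : Fin (n + 1), (B.updateCol 0 fun k => ∑ i, (1:ℝ) • B k i) k 0 = if k = 0 then 1 else 0 := by
    intro k
    rw [updateCol_self]
    simp only [one_smul]
    refine Fin.cases ?_ (fun k => ?_) k
    · rw [if_pos rfl]
      have : ∀ i, B 0 i = lam (aff A b (stdV n 0)) i := fun i => by simp [hB]; rfl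
      simp only [this, sum_lam]
    · rw [if_neg (Fin.succ_ne_zero k)]
      simp only [hrow, Finset.sum_sub_distrib, sum_lam, sub_self]
  have hz : ∀ k : Fin n, (-1:ℝ) ^ ((k.succ : Fin (n+1)) : ℕ) *
      (B.updateCol 0 fun k => ∑ i, (1:ℝ) • B k i) k.succ 0 *
      ((B.updateCol 0 fun k => ∑ i, (1:ℝ) • B k i).submatrix k.succ.succAbove Fin.succ).det = 0 := by
    intro k
    rw [hc0, if_neg (Fin.succ_ne_zero k)]
    ring
  rw [Finset.sum_eq_zero (fun k _ => hz k), add_zero, hc0, if_pos rfl]
  simp only [Fin.val_zero, pow_zero, one_mul]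
  have : (B.updateCol 0 fun k => ∑ i, (1:ℝ) • B k i).submatrix (Fin.succAbove 0) Fin.succ = Aᵀ := by
    ext k l
    rw [submatrix_apply, Fin.zero_succAbove, updateCol_ne (Fin.succ_ne_zero l), hrow, lam_succ, lam_succ,
      stdV_zero, stdV_succ, aff_apply, aff_apply]
    simp [Pi.single_apply]
  rw [this, det_transpose]

/-- A simplex inside `stdS` with almost the same volume has a vertex near each vertex. -/
lemma exists_vertex_near {A : Matrix (Fin n) (Fin n) ℝ} {b : Fin n → ℝ}
    (hsub : aff A b '' stdS n ⊆ stdS n) {τ : ℝ} (hτ0 : 0 ≤ τ) (hτ : τ ≤ 1 / 2) (hdet : 1 - τ < |A.det|)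
    (l : Fin (n + 1)) : ∃ k, 1 - τ ≤ lam (aff A b (stdV n k)) l := by
  by_contra hcon
  push Not at hcon
  have hmem : ∀ k, aff A b (stdV n k) ∈ stdS n := by
    intro k
    refine hsub (mem_image_of_mem _ ?_)
    rw [mem_stdS_iff]
    intro l
    rw [lam_stdV]
    split_ifs <;> norm_num
  have := abs_det_le_of_col_le (M := baryM A b) (fun k l => mem_stdS_iff.mp (hmem k) l)
    (fun k => sum_lam _) l (c := 1 - τ) (by linarith) (by linarith) (fun k => (hcon k).le)
  rw [det_baryM] at this
  linarith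

/-- version of `shrunk_subset` with the corner condition as hypothesis -/
lemma shrunk_of_corner (hn : 0 < n) (hKv : Convex ℝ K)
    (h0 : (fun _ => 1 / (n : ℝ)) ∈ K)
    (hj : ∀ j : Fin n, Function.update (fun _ => 1 / (n : ℝ)) j 0 ∈ K) {ε : ℝ} (hε : 0 < ε)
    (hcorner : ∀ k, ∃ y ∈ K, y ∈ stdS n ∧ 1 - ε / (n + 1 + ε) ≤ lam y k)
    {x : Fin n → ℝ} (hx : x ∈ stdS n) :
    (1 + ε)⁻¹ • x + (1 - (1 + ε)⁻¹) • (fun _ => 1 / ((n : ℝ) + 1)) ∈ K := by
  have hn0 : (0 : ℝ) < n := by exact_mod_cast hn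
  set c : Fin n → ℝ := fun _ => 1 / ((n : ℝ) + 1) with hc
  set τ := ε / (n + 1 + ε) with hτ
  have hτ0 : 0 < τ := by positivity
  have hτ1 : τ ≤ 1 := by
    rw [hτ, div_le_one (by positivity)]; linarith
  have hlc : ∀ l, lam c l = 1 / ((n : ℝ) + 1) := by
    intro l
    refine Fin.cases ?_ (fun i => ?_) l
    · simp only [lam_zero, hc, Finset.sum_const, Finset.card_univ, Fintype.card_fin, nsmul_eq_mul]
      field_simp
      ring
    · rfl
  set θ := ε / ((1 + ε) * (n + 1)) with hθ
  have hθ0 : 0 < θ := by positivity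
  set α := 1 - n * θ with hα
  have h1ε : 0 < 1 + ε := by linarith
  have hnθ : n * θ < 1 := by
    rw [hθ, ← mul_div_assoc, div_lt_one (by positivity)]
    nlinarith
  have hα0 : 0 < α := by rw [hα]; linarith
  have hα1 : 1 - α = n * θ := by rw [hα]; ring
  have hα1' : 0 < 1 - α := by rw [hα1]; positivity
  -- the shrunk vertices belong to K
  have hvert : ∀ k, (1 + ε)⁻¹ • stdV n k + (1 - (1 + ε)⁻¹) • c ∈ K := by
    intro k
    obtain ⟨y, hyK, hyS, hy⟩ := hcorner k
    set p := (1 + ε)⁻¹ • stdV n k + (1 - (1 + ε)⁻¹) • c with hp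
    have hlp : ∀ l, lam p l = (1 + ε)⁻¹ * (if l = k then 1 else 0) + θ := by
      intro l
      rw [hp, lam_comb (by ring), lam_stdV, hlc, hθ]
      congr 1
      field_simp
      ring
    set z := (1 - α)⁻¹ • p + (1 - (1 - α)⁻¹) • y with hz
    have hzK : z ∈ K := by
      refine inner_mem hn hKv h0 hj (fun l => ?_)
      rw [hz, lam_comb (by ring), hlp]
      have e : (1 - α)⁻¹ * ((1 + ε)⁻¹ * (if l = k then 1 else 0) + θ) + (1 - (1 - α)⁻¹) * lam y l
          = (1 - α)⁻¹ * ((1 + ε)⁻¹ * (if l = k then 1 else 0) + θ - α * lam y l) := by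
        have : (1 : ℝ) = (1 - α)⁻¹ * (1 - α) := by rw [inv_mul_cancel₀ hα1'.ne']
        calc (1 - α)⁻¹ * ((1 + ε)⁻¹ * (if l = k then 1 else 0) + θ) + (1 - (1 - α)⁻¹) * lam y l
            = (1 - α)⁻¹ * ((1 + ε)⁻¹ * (if l = k then 1 else 0) + θ)
              + ((1 - α)⁻¹ * (1 - α) - (1 - α)⁻¹) * lam y l := by rw [← this]
          _ = _ := by ring
      rw [e, inv_mul_le_iff₀ hα1', hα1]
      have hr : (n * θ) * (1 / (n : ℝ)) = θ := by field_simp
      rw [hr]
      by_cases hlk : l = k
      · subst hlk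
        simp only [if_true, mul_one]
        have h3 : (1 + ε)⁻¹ + θ = α := by
          rw [hα, hθ]; field_simp; ring
        rw [h3]
        have h4 : α * (1 - τ) ≤ α * lam y l := mul_le_mul_of_nonneg_left hy hα0.le
        have h5 : α * τ = θ := by
          rw [hα, hτ, hθ]; field_simp; ring
        nlinarith
      · simp only [if_neg hlk, mul_zero, zero_add]
        have := mem_stdS_iff.mp hyS l
        nlinarith [mul_nonneg hα0.le this]
    have hcomb := hKv hyK hzK hα0.le hα1'.le (by ring)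
    have e2 : α • y + (1 - α) • z = p := by
      rw [hz]
      ext i
      simp only [Pi.add_apply, Pi.smul_apply, smul_eq_mul]
      field_simp
      ring
    rwa [e2] at hcomb
  have h := hKv.sum_mem (t := Finset.univ) (w := lam x)
    (z := fun k => (1 + ε)⁻¹ • stdV n k + (1 - (1 + ε)⁻¹) • c)
    (fun l _ => mem_stdS_iff.mp hx l) (sum_lam x) (fun l _ => hvert l)
  convert h using 1
  simp_rw [smul_add]
  rw [Finset.sum_add_distrib]
  have e1 : ∑ l, lam x l • (1 + ε)⁻¹ • stdV n l = (1 + ε)⁻¹ • x := by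
    conv_rhs => rw [eq_sum_lam x, Finset.smul_sum]
    refine Finset.sum_congr rfl (fun l _ => ?_)
    rw [smul_comm]
  have e2 : ∑ l, lam x l • (1 - (1 + ε)⁻¹) • c = (1 - (1 + ε)⁻¹) • c := by
    rw [← Finset.sum_smul, sum_lam, one_smul]
  rw [e1, e2]

/-- **Quantitative criterion.** -/
lemma criterion_q (hn : 0 < n) (hK : IsCompact K) (hV : 0 < (volume K).toReal) (hsub : K ⊆ stdS n)
    (H : (1 / ((n:ℝ) * (n + 1) * (n + 2))) * (∫ _x in stdS n \ K, (1:ℝ)) ≤
      ∫ x in stdS n \ K, (qq x - 2 / ((n : ℝ) + 1))) :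
    (covMatrix K).det / (volume K).toReal ^ 2
        ≤ (1 - (1 - (volume K).toReal / (volume (stdS n)).toReal) / (n:ℝ) ^ 2) ^ n *
          ((covMatrix (stdS n)).det / (volume (stdS n)).toReal ^ 2) := by
  set V := (volume K).toReal with hVd
  set W := (volume (stdS n)).toReal with hWd
  have hW : 0 < W := volume_stdS_pos
  have hn0 : (0 : ℝ) < n := by exact_mod_cast hn
  have hn1' : (1 : ℝ) ≤ n := by exact_mod_cast hn
  have hfin : volume (stdS n) ≠ ⊤ := isCompact_stdS.measure_ne_top
  have hVW : V ≤ W := ENNReal.toReal_mono hfin (measure_mono hsub)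
  -- the integral of `qq` over `K`
  have hcq := continuous_qq (n := n)
  have hdiff : ∫ x in stdS n \ K, (qq x - 2 / ((n : ℝ) + 1))
      = (∫ x in stdS n, (qq x - 2 / ((n : ℝ) + 1))) - ∫ x in K, (qq x - 2 / ((n : ℝ) + 1)) :=
    setIntegral_sdiff₀ hK.measurableSet.nullMeasurableSet
      (intOn isCompact_stdS (by fun_prop)) hsub
  have hdiff1 : ∫ _x in stdS n \ K, (1:ℝ) = W - V := by
    rw [setIntegral_sdiff₀ hK.measurableSet.nullMeasurableSet
      (intOn isCompact_stdS (by fun_prop)) hsub, setIntegral_const, setIntegral_const]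
    simp only [Measure.real, smul_eq_mul, ← hVd, ← hWd, mul_one]
  rw [hdiff, hdiff1, integral_sub (intOn isCompact_stdS hcq) (intOn isCompact_stdS (by fun_prop)),
    integral_sub (intOn hK hcq) (intOn hK (by fun_prop)), setIntegral_const, setIntegral_const,
    integral_stdS_qq] at H
  simp only [Measure.real, smul_eq_mul, ← hVd, ← hWd] at H
  have hn1 : (0 : ℝ) < (n : ℝ) + 1 := by positivity
  have hn2 : (0 : ℝ) < (n : ℝ) + 2 := by positivity
  set Q := ∫ x in K, qq x with hQ
  set p := V / W with hp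
  have hp0 : 0 < p := div_pos hV hW
  have hp1 : p ≤ 1 := (div_le_one hW).mpr hVW
  have hVp : V = p * W := by rw [hp]; field_simp
  -- bound on the normalised trace
  set X := (Bmat n * covMatrix K).trace / n with hX
  have htr := trace_le hK hV
  have hX1 : X ≤ (1 / p) * ((1 + (1 + 2 / (n : ℝ)) * (p - 1)) - (1 - p) / (n:ℝ) ^ 2) := by
    have h1 : V⁻¹ * Q - 1 / ((n : ℝ) + 1) ≤ (1 / ((n : ℝ) + 1)) * ((1 / p) * (p - 2 / ((n : ℝ) + 2)))
        - (1 / ((n:ℝ) * (n + 1) * (n + 2))) * ((1 / p) * (1 - p)) := by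
      have hQle : Q ≤ W * (2 / ((n : ℝ) + 2)) - W * (2 / ((n : ℝ) + 1)) + V * (2 / ((n : ℝ) + 1))
          - (1 / ((n:ℝ) * (n + 1) * (n + 2))) * (W - V) := by
        linarith
      have : V⁻¹ * Q ≤ V⁻¹ * (W * (2 / ((n : ℝ) + 2)) - W * (2 / ((n : ℝ) + 1))
          + V * (2 / ((n : ℝ) + 1)) - (1 / ((n:ℝ) * (n + 1) * (n + 2))) * (W - V)) :=
        mul_le_mul_of_nonneg_left hQle (inv_nonneg.mpr hV.le)
      refine (sub_le_sub_right this _).trans (le_of_eq ?_)
      rw [hVp]
      field_simp
      ring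
    have h2 : (Bmat n * covMatrix K).trace
        ≤ ((n : ℝ) + 1) * (n + 2) * ((1 / ((n : ℝ) + 1)) * ((1 / p) * (p - 2 / ((n : ℝ) + 2)))
        - (1 / ((n:ℝ) * (n + 1) * (n + 2))) * ((1 / p) * (1 - p))) :=
      htr.trans (mul_le_mul_of_nonneg_left h1 (by positivity))
    rw [hX, div_le_iff₀ hn0]
    refine h2.trans (le_of_eq ?_)
    field_simp
    ring
  have hC := covMatrix_posSemidef hK
  have hX0 : 0 ≤ X := by
    rw [hX, trace_Bmat_mul]
    have h1 : 0 ≤ ∑ i, covMatrix K i i := Finset.sum_nonneg (fun i _ => hC.diag_nonneg)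
    have h2 : 0 ≤ ∑ i, ∑ j, covMatrix K j i := by
      have := cov_quad hK (fun _ => (1 : ℝ))
      simp only [one_mul, mul_one] at this
      rw [Finset.sum_comm, this]
      exact mul_nonneg (inv_nonneg.mpr ENNReal.toReal_nonneg) (integral_nonneg (fun x => sq_nonneg _))
    positivity
  have hdet := det_mul_det_le hn Bmat_posSemidef hC
  rw [← hX] at hdet
  -- Bernoulli
  have hB : 1 + (1 + 2 / (n : ℝ)) * (p - 1) ≤ p ^ (1 + 2 / (n : ℝ)) := by
    have := one_add_mul_self_le_rpow_one_add (s := p - 1) (by linarith) (p := 1 + 2 / (n : ℝ))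
      (by have : 0 < 2 / (n : ℝ) := by positivity
          linarith)
    rwa [add_sub_cancel] at this
  have hpow : (1 / p) * p ^ (1 + 2 / (n : ℝ)) = p ^ (2 / (n : ℝ)) := by
    rw [Real.rpow_add hp0, Real.rpow_one]; field_simp
  set g := 1 - (1 - p) / (n:ℝ) ^ 2 with hg
  have hpr1 : p ^ (1 + 2 / (n : ℝ)) ≤ 1 := Real.rpow_le_one hp0.le hp1 (by positivity)
  have hB2 : (1 + (1 + 2 / (n : ℝ)) * (p - 1)) - (1 - p) / (n:ℝ) ^ 2 ≤ p ^ (1 + 2 / (n : ℝ)) * g := by
    have h3 : 0 ≤ (1 - p) / (n:ℝ) ^ 2 := div_nonneg (by linarith) (by positivity)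
    have h4 : p ^ (1 + 2 / (n : ℝ)) * ((1 - p) / (n:ℝ) ^ 2) ≤ 1 * ((1 - p) / (n:ℝ) ^ 2) :=
      mul_le_mul_of_nonneg_right hpr1 h3
    rw [hg, mul_sub, mul_one]
    linarith
  have hX2 : X ≤ p ^ (2 / (n : ℝ)) * g := by
    rw [← hpow, mul_assoc]
    exact hX1.trans (mul_le_mul_of_nonneg_left hB2 (by positivity))
  have hpn : (p ^ (2 / (n : ℝ)) * g) ^ n = p ^ 2 * g ^ n := by
    rw [mul_pow, ← Real.rpow_natCast, ← Real.rpow_mul hp0.le, div_mul_cancel₀ _ hn0.ne']
    norm_num
  have hdetB : 0 < (Bmat n).det := by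
    have h1 := det_B_mul_det_cov (n := n)
    have h2 : 0 ≤ (Bmat n).det := Bmat_posSemidef.det_nonneg
    rcases h2.lt_or_eq with h | h
    · exact h
    · rw [← h, zero_mul] at h1; norm_num at h1
  have hdetC : (covMatrix (stdS n)).det = ((Bmat n).det)⁻¹ := by
    exact eq_inv_of_mul_eq_one_right det_B_mul_det_cov
  have h5 : (Bmat n).det * (covMatrix K).det ≤ p ^ 2 * g ^ n := by
    rw [← hpn]
    exact hdet.trans (pow_le_pow_left₀ hX0 hX2 n)
  rw [hdetC, hVp, ← mul_div_assoc, div_le_div_iff₀ (by positivity) (by positivity)]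
  have h6 : (covMatrix K).det ≤ ((Bmat n).det)⁻¹ * (p ^ 2 * g ^ n) := by
    rw [inv_mul_eq_div, le_div_iff₀ hdetB]
    linarith
  calc (covMatrix K).det * W ^ 2 ≤ ((Bmat n).det)⁻¹ * (p ^ 2 * g ^ n) * W ^ 2 :=
        mul_le_mul_of_nonneg_right h6 (sq_nonneg _)
    _ = _ := by ring

/-- The quantitative criterion in terms of the isotropic constant. -/
lemma isoConst_criterion_q (hn : 0 < n) (hK : IsCompact K) (hV : 0 < (volume K).toReal)
    (hsub : K ⊆ stdS n)
    (H : (1 / ((n:ℝ) * (n + 1) * (n + 2))) * (∫ _x in stdS n \ K, (1:ℝ)) ≤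
      ∫ x in stdS n \ K, (qq x - 2 / ((n : ℝ) + 1))) :
    isoConst K ≤ (1 - (1 - (volume K).toReal / (volume (stdS n)).toReal) / (2 * (n:ℝ) ^ 2)) *
      isoConst (stdS n) := by
  have h1 := criterion_q hn hK hV hsub H
  have hn0 : (0 : ℝ) < n := by exact_mod_cast hn
  have hn1' : (1 : ℝ) ≤ n := by exact_mod_cast hn
  have h0 : 0 ≤ (covMatrix K).det / (volume K).toReal ^ 2 :=
    div_nonneg (covMatrix_posSemidef hK).det_nonneg (by positivity)
  have h0' : 0 ≤ (covMatrix (stdS n)).det / (volume (stdS n)).toReal ^ 2 :=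
    div_nonneg (covMatrix_posSemidef isCompact_stdS).det_nonneg (by positivity)
  set p := (volume K).toReal / (volume (stdS n)).toReal with hp
  have hp0 : 0 < p := div_pos hV volume_stdS_pos
  have hfin : volume (stdS n) ≠ ⊤ := isCompact_stdS.measure_ne_top
  have hp1 : p ≤ 1 := (div_le_one volume_stdS_pos).mpr (ENNReal.toReal_mono hfin (measure_mono hsub))
  have hd0 : 0 ≤ (1 - p) / (n:ℝ) ^ 2 := div_nonneg (by linarith) (by positivity)
  have hd1 : (1 - p) / (n:ℝ) ^ 2 ≤ 1 := by
    rw [div_le_one (by positivity)]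
    nlinarith
  set d := (1 - p) / (n:ℝ) ^ 2 with hd
  have h2 : isoConst K ≤ ((1 - d) ^ n * ((covMatrix (stdS n)).det / (volume (stdS n)).toReal ^ 2)) ^
      (1 / (2 * (n : ℝ))) := Real.rpow_le_rpow h0 h1 (by positivity)
  refine h2.trans ?_
  rw [Real.mul_rpow (pow_nonneg (by linarith) n) h0']
  refine mul_le_mul_of_nonneg_right ?_ (Real.rpow_nonneg h0' _)
  have h3 : ((1 - d) ^ n) ^ (1 / (2 * (n : ℝ))) = (1 - d) ^ ((1:ℝ) / 2) := by
    rw [← Real.rpow_natCast, ← Real.rpow_mul (by linarith)]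
    congr 1
    field_simp
  rw [h3, ← Real.sqrt_eq_rpow]
  have h4 : (1 - p) / (2 * (n:ℝ) ^ 2) = d / 2 := by rw [hd]; field_simp
  rw [h4]
  refine Real.sqrt_le_iff.mpr ⟨by linarith, by nlinarith⟩

end Vale.Agent.P254
end

section

open MeasureTheory Set Matrix Filter Topology
open scoped Pointwise

namespace Vale.Agent.P254

variable {n : ℕ} {K : Set (Fin n → ℝ)}

lemma region_q (hn : 0 < n) {ε : ℝ} (hε : 0 ≤ ε) (hε4 : ε * (((n:ℝ) + 3) * (n + 1) ^ 2) ≤ 1)
    (hKc : IsCompact K) (hKv : Convex ℝ K) (hsub : K ⊆ stdS n)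
    (h0 : (fun _ => 1 / (n : ℝ)) ∈ K)
    (hj : ∀ j : Fin n, Function.update (fun _ => 1 / (n : ℝ)) j 0 ∈ K)
    (hnear : ∀ x ∈ stdS n, (1 + ε)⁻¹ • x + (1 - (1 + ε)⁻¹) • (fun _ => 1 / ((n : ℝ) + 1)) ∈ K) :
    (1 / ((n:ℝ) * (n + 1) * (n + 2))) * (∫ _x in stdS n \ K, (1:ℝ)) ≤
      ∫ x in stdS n \ K, (qq x - 2 / ((n : ℝ) + 1)) := by
  rcases Nat.lt_or_ge n 2 with h2 | h2
  · -- dimension one: `K` is the whole segment
    have h1 : n = 1 := by omega
    subst h1
    have : stdS 1 ⊆ K := by
      intro x hx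
      have hx0 := hx.1 0
      have hx1 : x 0 ≤ 1 := by have := hx.2; simpa using this
      have := hKv (hj 0) h0 (sub_nonneg.mpr hx1) hx0 (by ring)
      convert this using 1
      ext i
      have hi : i = 0 := Subsingleton.elim _ _
      subst hi
      simp
    have e : stdS 1 \ K = ∅ := sdiff_eq_empty.mpr this
    rw [e]
    simp
  · have hP : Pos K ε := by
      refine ⟨hKv, hKc.isClosed, hsub, h0, hj, fun x hx => ?_⟩
      have := hnear x hx
      convert this using 1
      ext i
      simp only [bar, Pi.add_apply, Pi.smul_apply, Pi.sub_apply, smul_eq_mul]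
      ring
    have := hP.total_q h2 hε hε4
    exact this

lemma isoConst_stdS_pos (hn : 0 < n) : 0 < isoConst (stdS n) := by
  have h1 : 0 < (covMatrix (stdS n)).det := by
    have h2 := det_B_mul_det_cov (n := n)
    have h3 : 0 ≤ (covMatrix (stdS n)).det := (covMatrix_posSemidef isCompact_stdS).det_nonneg
    rcases h3.lt_or_eq with h | h
    · exact h
    · rw [← h, mul_zero] at h2; norm_num at h2
  have h4 : 0 < (volume (stdS n)).toReal := volume_stdS_pos
  exact Real.rpow_pos_of_pos (by positivity) _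

/-- The quantitative theorem, given a maximal position and the corner condition. -/
lemma assembly_q (hn : 0 < n) {ε : ℝ} (hε : 0 < ε) (hε4 : ε * (((n:ℝ) + 3) * (n + 1) ^ 2) ≤ 1)
    {S : Set (Fin n → ℝ)} (hK : IsConvexBody K) (hS : IsSimplex S)
    (hcor : ∀ (A : Matrix (Fin n) (Fin n) ℝ) (b : Fin n → ℝ), A.det ≠ 0 → IsMaxPos (aff A b '' K) →
      (∀ T : Set (Fin n → ℝ), IsSimplex T → K ⊆ T →
        (volume K).toReal * (volume (stdS n)).toReal
          ≤ (volume (aff A b '' K)).toReal * (volume T).toReal) →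
      ∀ k, ∃ y ∈ aff A b '' K, y ∈ stdS n ∧ 1 - ε / (n + 1 + ε) ≤ lam y k) :
    (∃ T₀ : Set (Fin n → ℝ), IsSimplex T₀ ∧ K ⊆ T₀ ∧
      (∀ T : Set (Fin n → ℝ), IsSimplex T → K ⊆ T → (volume T₀).toReal ≤ (volume T).toReal) ∧
      isoConst K ≤ (1 - (1 - (volume K).toReal / (volume T₀).toReal) / (2 * (n:ℝ) ^ 2)) * isoConst S) ∧
    (isoConst K = isoConst S ↔ IsSimplex K) := by
  obtain ⟨A, b, hA, hmax, hbest⟩ := exists_position hn hK
  have hcorner := hcor A b hA hmax hbest
  obtain ⟨hKv, hKc, hKi⟩ := hK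
  set K' := aff A b '' K with hK'
  have hV : 0 < (volume K).toReal := volume_pos_of_interior hKi hKc
  have hK'c : IsCompact K' := isCompact_aff_image A b hKc
  have hK'v : Convex ℝ K' := by
    rw [hK', ← coe_affMap]; exact hKv.affine_image _
  have hV' : (volume K').toReal = |A.det| * (volume K).toReal :=
    volume_aff_image hA b hKc.measurableSet
  have hA' : 0 < |A.det| := abs_pos.mpr hA
  have hV'0 : 0 < (volume K').toReal := by
    rw [hV']; exact mul_pos hA' hV
  have hW : 0 < (volume (stdS n)).toReal := volume_stdS_pos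
  have hc0 := hmax.centroid_mem hn hK'c hK'v
  have hcj := hmax.centroids_mem hn hK'c hK'v
  have hH := region_q hn hε.le hε4 hK'c hK'v hmax.1 hc0 hcj
    (fun x hx => shrunk_of_corner hn hK'v hc0 hcj hε hcorner hx)
  have hle := isoConst_criterion_q hn hK'c hV'0 hmax.1 hH
  have e1 : isoConst K' = isoConst K := isoConst_aff_image hA b hKc hV.ne'
  rw [e1] at hle
  -- the minimal simplex
  have hu : IsUnit A.det := isUnit_iff_ne_zero.mpr hA
  have hu' : (A⁻¹).det ≠ 0 := by
    rw [det_nonsing_inv, Ring.inverse_eq_inv']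
    exact inv_ne_zero hA
  have hdetinv : |(A⁻¹).det| = |A.det|⁻¹ := by
    rw [det_nonsing_inv, Ring.inverse_eq_inv', abs_inv]
  set T₀ := aff A⁻¹ (-(A⁻¹ *ᵥ b)) '' stdS n with hT₀
  have hT₀s : IsSimplex T₀ := isSimplex_image hu' _
  have hvT₀ : (volume T₀).toReal = |A.det|⁻¹ * (volume (stdS n)).toReal := by
    rw [hT₀, volume_aff_image hu' _ isCompact_stdS.measurableSet, hdetinv]
  have hKT₀ : K ⊆ T₀ := by
    intro x hx
    refine ⟨aff A b x, hmax.1 (mem_image_of_mem _ hx), ?_⟩
    rw [aff_aff, nonsing_inv_mul _ hu]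
    simp [aff]
  have hmin : ∀ T : Set (Fin n → ℝ), IsSimplex T → K ⊆ T → (volume T₀).toReal ≤ (volume T).toReal := by
    intro T hT hKT
    have h1 := hbest T hT hKT
    rw [hV'] at h1
    rw [hvT₀, inv_mul_le_iff₀ hA']
    have h2 : (volume K).toReal * (volume (stdS n)).toReal ≤
        (volume K).toReal * (|A.det| * (volume T).toReal) := by linarith
    exact le_of_mul_le_mul_left h2 hV
  have hratio : (volume K').toReal / (volume (stdS n)).toReal = (volume K).toReal / (volume T₀).toReal := by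
    rw [hV', hvT₀]
    field_simp
  refine ⟨⟨T₀, hT₀s, hKT₀, hmin, ?_⟩, fun heq => ?_, fun hs => ?_⟩
  · rw [isoConst_simplex hS, ← hratio]
    exact hle
  · rw [isoConst_simplex hS] at heq
    have hpos := isoConst_stdS_pos hn
    have hn0 : (0 : ℝ) < n := by exact_mod_cast hn
    rw [heq] at hle
    have h7 : (volume (stdS n)).toReal ≤ (volume K').toReal := by
      by_contra hlt
      push Not at hlt
      have h8 : (volume K').toReal / (volume (stdS n)).toReal < 1 := (div_lt_one hW).mpr hlt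
      have h9 : 0 < (1 - (volume K').toReal / (volume (stdS n)).toReal) / (2 * (n:ℝ) ^ 2) :=
        div_pos (by linarith) (by positivity)
      nlinarith
    have hK'i : (interior K').Nonempty := by
      by_contra hne
      rw [not_nonempty_iff_eq_empty] at hne
      have : volume K' = 0 := by
        have h8 := hK'v.addHaar_frontier (volume : Measure (Fin n → ℝ))
        have h9 : K' ⊆ frontier K' := by
          rw [hK'c.isClosed.frontier_eq, hne, sdiff_empty]
        exact measure_mono_null h9 h8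
      rw [this] at hV'0
      simp at hV'0
    exact isSimplex_of_aff_image hA b (eq_stdS_of_volume hK'c hmax.1 hK'i h7)
  · rw [isoConst_simplex hS, isoConst_simplex hs]

/-- **Quantitative local maximality of the simplex.** -/
theorem main_q (hn : 1 ≤ n) {S : Set (Fin n → ℝ)} (hK : IsConvexBody K) (hS : IsSimplex S)
    (h : (∃ T, IsSimplex T ∧ K ⊆ T ∧
        (1 - 1 / ((n : ℝ) + 2) ^ (4 * n)) * (volume T).toReal ≤ (volume K).toReal) ∨
      (∃ T, ∃ z : Fin n → ℝ, ∃ r : ℝ, 0 < r ∧ r ≤ 1 + 1 / ((n : ℝ) + 2) ^ 5 ∧ IsSimplex T ∧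
        T ⊆ K ∧ K ⊆ (fun x => z + r • x) '' T)) :
    (∃ T₀ : Set (Fin n → ℝ), IsSimplex T₀ ∧ K ⊆ T₀ ∧
      (∀ T : Set (Fin n → ℝ), IsSimplex T → K ⊆ T → (volume T₀).toReal ≤ (volume T).toReal) ∧
      isoConst K ≤ (1 - (1 - (volume K).toReal / (volume T₀).toReal) / (2 * (n:ℝ) ^ 2)) * isoConst S) ∧
    (isoConst K = isoConst S ↔ IsSimplex K) := by
  have hn1 : (1 : ℝ) ≤ n := by exact_mod_cast hn
  have hn0 : (0 : ℝ) < n := by linarith
  set ε : ℝ := 1 / (((n:ℝ) + 3) * (n + 1) ^ 2) with hεd
  have hε : 0 < ε := by positivity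
  have hε4 : ε * (((n:ℝ) + 3) * (n + 1) ^ 2) ≤ 1 := by
    rw [hεd, div_mul_cancel₀]
    positivity
  set τ := ε / (n + 1 + ε) with hτ
  have hτ0 : 0 < τ := by positivity
  have e1 : τ = 1 / (((n:ℝ) + 3) * (n + 1) ^ 3 + 1) := by
    rw [hτ, hεd]; field_simp
  have h4 : 1 / ((n : ℝ) + 2) ^ 4 < τ := by
    rw [e1, div_lt_div_iff₀ (by positivity) (by positivity)]
    nlinarith [pow_pos hn0 2, pow_pos hn0 3, pow_pos hn0 4]
  have hτ2 : τ ≤ 1 / 2 := by
    rw [e1, div_le_div_iff₀ (by positivity) (by positivity)]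
    nlinarith [pow_pos hn0 2, pow_pos hn0 3, pow_pos hn0 4]
  refine assembly_q hn hε hε4 hK hS ?_
  intro A b hA hmax hbest k
  obtain ⟨hKv, hKc, hKi⟩ := hK
  set K' := aff A b '' K with hK'
  have hV : 0 < (volume K).toReal := volume_pos_of_interior hKi hKc
  have hK'c : IsCompact K' := isCompact_aff_image A b hKc
  have hV' : (volume K').toReal = |A.det| * (volume K).toReal :=
    volume_aff_image hA b hKc.measurableSet
  have hA' : 0 < |A.det| := abs_pos.mpr hA
  have hW : 0 < (volume (stdS n)).toReal := volume_stdS_pos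
  rcases h with ⟨T, hT, hKT, hvol⟩ | ⟨T, z, r, hr0, hr, hT, hTK, hKT⟩
  · -- volume closeness
    have hTpos : 0 < (volume T).toReal := by
      obtain ⟨A0, b0, hA0, rfl⟩ := hT.exists_aff
      rw [volume_aff_image hA0 b0 isCompact_stdS.measurableSet]
      exact mul_pos (abs_pos.mpr hA0) volume_stdS_pos
    have h1 := hbest T hT hKT
    set δ := 1 / ((n : ℝ) + 2) ^ (4 * n) with hδ
    have h2 : (1 - δ) * (volume (stdS n)).toReal ≤ (volume K').toReal := by
      have h3 : (1 - δ) * (volume T).toReal * (volume (stdS n)).toReal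
          ≤ (volume K).toReal * (volume (stdS n)).toReal := mul_le_mul_of_nonneg_right hvol hW.le
      have h4 : ((1 - δ) * (volume (stdS n)).toReal) * (volume T).toReal
          ≤ (volume K').toReal * (volume T).toReal := by linarith
      exact le_of_mul_le_mul_right h4 hTpos
    have hfin : volume (stdS n) ≠ ⊤ := isCompact_stdS.measure_ne_top
    have h5 : (volume (stdS n \ K')).toReal = (volume (stdS n)).toReal - (volume K').toReal := by
      rw [measure_sdiff hmax.1 hK'c.measurableSet.nullMeasurableSet hK'c.measure_ne_top,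
        ENNReal.toReal_sub_of_le (measure_mono hmax.1) hfin]
    have hδτ : δ < τ ^ n := by
      have h2 : δ = (1 / ((n : ℝ) + 2) ^ 4) ^ n := by
        rw [hδ, div_pow, one_pow, pow_mul]
      rw [h2]
      exact pow_lt_pow_left₀ h4 (by positivity) (by omega)
    have h6 : (volume (stdS n \ K')).toReal < τ ^ n * (volume (stdS n)).toReal := by
      rw [h5]
      have := mul_lt_mul_of_pos_right hδτ hW
      linarith
    exact exists_corner hτ0 (by linarith) h6 k
  · -- Banach-Mazur closeness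
    obtain ⟨A1, b1, hA1, rfl⟩ := hT.exists_aff
    have hA1' : 0 < |A1.det| := abs_pos.mpr hA1
    -- the outer simplex
    have hrdet : (r • A1).det ≠ 0 := by
      rw [det_smul]
      exact mul_ne_zero (pow_ne_zero _ hr0.ne') hA1
    have eT' : (fun x => z + r • x) '' (aff A1 b1 '' stdS n) = aff (r • A1) (r • b1 + z) '' stdS n := by
      rw [← image_comp]
      refine image_congr fun x _ => ?_
      simp only [Function.comp_apply, aff, smul_add, smul_mulVec]
      abel
    have h1 := hbest _ (isSimplex_image hrdet (r • b1 + z)) (by rw [← eT']; exact hKT)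
    rw [hV', volume_aff_image hrdet _ isCompact_stdS.measurableSet, det_smul, Fintype.card_fin,
      abs_mul, abs_pow, abs_of_pos hr0] at h1
    have h2 : 1 ≤ |A.det| * |A1.det| * r ^ n := by
      have h3 : ((volume K).toReal * (volume (stdS n)).toReal) * 1 ≤
          ((volume K).toReal * (volume (stdS n)).toReal) * (|A.det| * |A1.det| * r ^ n) := by
        linarith
      exact le_of_mul_le_mul_left h3 (mul_pos hV hW)
    have hcomp : aff (A * A1) (A *ᵥ b1 + b) '' stdS n = aff A b '' (aff A1 b1 '' stdS n) := by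
      rw [← image_comp]
      refine image_congr fun x _ => ?_
      rw [Function.comp_apply, aff_aff]
    have hsubK : aff (A * A1) (A *ᵥ b1 + b) '' stdS n ⊆ K' := by
      rw [hcomp]; exact image_mono hTK
    have hdet : 1 - τ < |(A * A1).det| := by
      rw [det_mul, abs_mul]
      set x : ℝ := 1 / ((n : ℝ) + 2) ^ 5 with hx
      have hx0 : 0 < x := by positivity
      have hnx : n * x < τ := by
        refine lt_trans ?_ h4
        rw [hx, mul_one_div, div_lt_div_iff₀ (by positivity) (by positivity)]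
        have : ((n:ℝ) + 2) ^ 5 = (n + 2) * (n + 2) ^ 4 := by ring
        rw [this]
        have h5 : 0 < ((n:ℝ) + 2) ^ 4 := by positivity
        nlinarith
      have hx1 : x ≤ 1 := by
        nlinarith
      have h6 : 1 - n * x ≤ (1 - x) ^ n := by
        have := one_add_mul_le_pow (a := -x) (by linarith) n
        calc 1 - n * x = 1 + n * (-x) := by ring
          _ ≤ (1 + -x) ^ n := this
          _ = (1 - x) ^ n := by ring
      have h7 : r ^ n * (1 - x) ^ n ≤ 1 := by
        rw [← mul_pow]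
        refine pow_le_one₀ (mul_nonneg hr0.le (by linarith)) ?_
        calc r * (1 - x) ≤ (1 + x) * (1 - x) := mul_le_mul_of_nonneg_right hr (by linarith)
          _ ≤ 1 := by nlinarith
      have hrn : 0 < r ^ n := pow_pos hr0 n
      have h8 : r ^ n * (1 - n * x) ≤ 1 :=
        (mul_le_mul_of_nonneg_left h6 hrn.le).trans h7
      have h9 : (1 - n * x) ≤ |A.det| * |A1.det| := by
        have : (1 - n * x) * r ^ n ≤ |A.det| * |A1.det| * r ^ n := by linarith
        exact le_of_mul_le_mul_right this hrn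
      linarith
    obtain ⟨l, hl⟩ := exists_vertex_near (hsubK.trans hmax.1) hτ0.le hτ2 hdet k
    have hmem : stdV n l ∈ stdS n := by
      rw [mem_stdS_iff]
      intro j
      rw [lam_stdV]
      split_ifs <;> norm_num
    exact ⟨_, hsubK (mem_image_of_mem _ hmem), hmax.1 (hsubK (mem_image_of_mem _ hmem)), hl⟩

end Vale.Agent.P254
end

section

open MeasureTheory Set Filter
open scoped NNReal Topology

namespace Vale.Agent.P254.Unc

variable {n : ℕ}

private theorem infDist_mono_of_lower {L : Set (X n)} (hlow : IsLowerSet L) (hne : L.Nonempty) :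
    Monotone (fun x : X n => Metric.infDist x L) := by
  intro x y hxy
  refine (Metric.le_infDist hne).2 ?_
  intro z hz
  have hz' : x ⊓ z ∈ L := hlow inf_le_right hz
  refine (Metric.infDist_le_dist_of_mem hz').trans ?_
  refine (dist_pi_le_iff dist_nonneg).2 ?_
  intro k
  have h1 : dist (y k) (z k) ≤ dist y z := dist_le_pi_dist y z k
  refine le_trans ?_ h1
  have hxyk : ((x k : unitInterval) : ℝ) ≤ y k := hxy k
  have e1 : dist (x k) ((x ⊓ z) k) = |((x k : unitInterval) : ℝ) - min (x k : ℝ) (z k)| := by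
    rw [Subtype.dist_eq, Real.dist_eq]
    congr 2
  have e2 : dist (y k) (z k) = |((y k : unitInterval) : ℝ) - z k| := by
    rw [Subtype.dist_eq, Real.dist_eq]
  rw [e1, e2]
  rcases le_total (x k : ℝ) (z k : ℝ) with h | h
  · rw [min_eq_left h, sub_self, abs_zero]
    exact abs_nonneg _
  · rw [min_eq_right h, abs_of_nonneg (by linarith), abs_of_nonneg (by linarith)]
    linarith

/-- the bump -/
private noncomputable def bmp (L : Set (X n)) (m : ℕ) (x : X n) : ℝ :=
  max 0 (1 - ((m : ℝ) + 1) * Metric.infDist x L)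

private theorem bmp_nonneg (L : Set (X n)) (m : ℕ) (x : X n) : 0 ≤ bmp L m x := le_max_left _ _

private theorem bmp_le_one (L : Set (X n)) (m : ℕ) (x : X n) : bmp L m x ≤ 1 := by
  unfold bmp
  refine max_le zero_le_one ?_
  have : 0 ≤ ((m : ℝ) + 1) * Metric.infDist x L := mul_nonneg (by positivity) Metric.infDist_nonneg
  linarith

private theorem bmp_lip (L : Set (X n)) (m : ℕ) : ∃ K : ℝ≥0, LipschitzWith K (bmp L m) := by
  have h1 : LipschitzWith 1 (fun x : X n => Metric.infDist x L) := Metric.lipschitz_infDist_pt L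
  refine ⟨(m : ℝ≥0) + 1, ?_⟩
  refine LipschitzWith.of_dist_le_mul ?_
  intro x y
  have h2 := h1.dist_le_mul x y
  rw [Real.dist_eq] at h2 ⊢
  have h3 : |bmp L m x - bmp L m y| ≤
      |(1 - ((m : ℝ) + 1) * Metric.infDist x L) - (1 - ((m : ℝ) + 1) * Metric.infDist y L)| := by
    unfold bmp
    rw [max_comm 0 (1 - ((m : ℝ) + 1) * Metric.infDist x L),
      max_comm 0 (1 - ((m : ℝ) + 1) * Metric.infDist y L)]
    exact abs_max_sub_max_le_abs _ _ _
  refine h3.trans ?_
  have h4 : (1 - ((m : ℝ) + 1) * Metric.infDist x L) - (1 - ((m : ℝ) + 1) * Metric.infDist y L)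
      = -(((m : ℝ) + 1) * (Metric.infDist x L - Metric.infDist y L)) := by ring
  rw [h4, abs_neg, abs_mul, abs_of_nonneg (by positivity : (0 : ℝ) ≤ (m : ℝ) + 1)]
  have h5 : (((m : ℝ≥0) + 1 : ℝ≥0) : ℝ) = (m : ℝ) + 1 := by push_cast; ring
  rw [h5]
  refine mul_le_mul_of_nonneg_left ?_ (by positivity)
  simpa using h2

private theorem bmp_anti {L : Set (X n)} (hlow : IsLowerSet L) (hne : L.Nonempty) (m : ℕ) :
    Antitone (bmp L m) := by
  intro x y hxy
  unfold bmp
  refine max_le_max le_rfl ?_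
  have h := infDist_mono_of_lower hlow hne hxy
  have : ((m : ℝ) + 1) * Metric.infDist x L ≤ ((m : ℝ) + 1) * Metric.infDist y L :=
    mul_le_mul_of_nonneg_left h (by positivity)
  linarith

private theorem bmp_tendsto {L : Set (X n)} (hL : IsClosed L) (hne : L.Nonempty) (x : X n) :
    Tendsto (fun m => bmp L m x) atTop (𝓝 (L.indicator (fun _ => (1 : ℝ)) x)) := by
  by_cases hx : x ∈ L
  · rw [Set.indicator_of_mem hx]
    have : ∀ m, bmp L m x = 1 := by
      intro m
      unfold bmp
      rw [Metric.infDist_zero_of_mem hx]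
      simp
    simp only [this]
    exact tendsto_const_nhds
  · rw [Set.indicator_of_notMem hx]
    have hpos : 0 < Metric.infDist x L := by
      rcases lt_or_eq_of_le (Metric.infDist_nonneg (x := x) (s := L)) with h | h
      · exact h
      · exact absurd ((hL.mem_iff_infDist_zero hne).2 h.symm) hx
    obtain ⟨N, hN⟩ := exists_nat_gt (1 / Metric.infDist x L)
    refine tendsto_atTop_of_eventually_const (i₀ := N) ?_
    intro m hm
    unfold bmp
    refine max_eq_left ?_
    have h1 : (1 : ℝ) < N * Metric.infDist x L := by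
      rw [div_lt_iff₀ hpos] at hN
      exact hN
    have h2 : (N : ℝ) ≤ m := by exact_mod_cast hm
    have h3 : (N : ℝ) * Metric.infDist x L ≤ ((m : ℝ) + 1) * Metric.infDist x L :=
      mul_le_mul_of_nonneg_right (by linarith) hpos.le
    linarith

private theorem bmp_cont (L : Set (X n)) (m : ℕ) : Continuous (bmp L m) := by
  obtain ⟨K, hK⟩ := bmp_lip L m
  exact hK.continuous

private theorem int_tendsto {L : Set (X n)} (hL : IsClosed L) (hne : L.Nonempty) {f : X n → ℝ}
    (hf : Continuous f) :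
    Tendsto (fun m => ∫ x, f x * bmp L m x) atTop (𝓝 (∫ x in L, f x)) := by
  obtain ⟨C, hC⟩ := (isCompact_univ (X := X n)).exists_bound_of_continuousOn hf.continuousOn
  rw [← integral_indicator hL.measurableSet]
  refine tendsto_integral_of_dominated_convergence (fun _ => C) ?_ (integrable_const _) ?_ ?_
  · intro m
    exact (hf.mul (bmp_cont L m)).aestronglyMeasurable
  · intro m
    refine Eventually.of_forall fun x => ?_
    rw [norm_mul]
    have h1 : ‖bmp L m x‖ ≤ 1 := by
      rw [Real.norm_eq_abs, abs_of_nonneg (bmp_nonneg L m x)]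
      exact bmp_le_one L m x
    have h2 := hC x (mem_univ x)
    calc ‖f x‖ * ‖bmp L m x‖ ≤ ‖f x‖ * 1 := mul_le_mul_of_nonneg_left h1 (norm_nonneg _)
      _ ≤ C := by simpa using h2
  · refine Eventually.of_forall fun x => ?_
    have h := (bmp_tendsto hL hne x).const_mul (f x)
    have e : L.indicator f x = f x * L.indicator (fun _ => (1 : ℝ)) x := by
      by_cases hx : x ∈ L
      · simp [hx]
      · simp [hx]
    rw [e]
    exact h

/-- D1: Lipschitz antitone densities close to the uniform density of a closed lower set -/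
theorem exists_dens_approx (L : Set (X n)) (hL : IsClosed L) (hlow : IsLowerSet L)
    (hpos : 0 < (volume L).toReal) (S : Finset (X n → ℝ)) (hS : ∀ f ∈ S, Continuous f)
    {ε : ℝ} (hε : 0 < ε) :
    ∃ ρ, Dens n ρ ∧ ∀ f ∈ S, |∫ x, f x * ρ x - (∫ x in L, f x) / (volume L).toReal| ≤ ε := by
  have hne : L.Nonempty := by
    rcases L.eq_empty_or_nonempty with h | h
    · rw [h] at hpos; simp at hpos
    · exact h
  have hI : Tendsto (fun m => ∫ x, bmp L m x) atTop (𝓝 (volume L).toReal) := by
    have h := int_tendsto hL hne (f := fun _ => (1 : ℝ)) continuous_const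
    simpa [Measure.real] using h
  have hIpos : ∀ᶠ m in atTop, 0 < ∫ x, bmp L m x := hI.eventually (lt_mem_nhds hpos)
  have hconv : ∀ f ∈ S, Tendsto (fun m => ∫ x, f x * (bmp L m x / ∫ y, bmp L m y)) atTop
      (𝓝 ((∫ x in L, f x) / (volume L).toReal)) := by
    intro f hf
    have h1 := (int_tendsto hL hne (hS f hf)).div hI hpos.ne'
    refine h1.congr ?_
    intro m
    simp only [Pi.div_apply]
    rw [← integral_div]
    refine integral_congr_ae (Eventually.of_forall fun x => ?_)
    simp only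
    ring
  have hev : ∀ᶠ m in atTop, ∀ f ∈ S,
      |∫ x, f x * (bmp L m x / ∫ y, bmp L m y) - (∫ x in L, f x) / (volume L).toReal| ≤ ε := by
    rw [Filter.eventually_all_finset]
    intro f hf
    have h := (hconv f hf).sub_const ((∫ x in L, f x) / (volume L).toReal)
    rw [sub_self] at h
    have h2 := h.abs
    rw [abs_zero] at h2
    filter_upwards [h2.eventually (gt_mem_nhds hε)] with m hm
    have hint : Integrable (fun x => f x * (bmp L m x / ∫ y, bmp L m y)) (volume : Measure (X n)) :=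
      ((hS f hf).mul ((bmp_cont L m).div_const _)).integrable_of_hasCompactSupport
        (HasCompactSupport.of_compactSpace _)
    rw [integral_sub hint (integrable_const _), integral_const]
    simp only [Measure.real, measure_univ, ENNReal.toReal_one, one_smul]
    exact hm.le
  obtain ⟨m, hm1, hm2⟩ := (hIpos.and hev).exists
  refine ⟨fun x => bmp L m x / ∫ y, bmp L m y, ⟨?_, ?_, ?_, ?_⟩, hm2⟩
  · intro x y hxy
    exact div_le_div_of_nonneg_right (bmp_anti hlow hne m hxy) hm1.le
  · intro x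
    exact div_nonneg (bmp_nonneg L m x) hm1.le
  · obtain ⟨K, hK⟩ := bmp_lip L m
    refine ⟨K * ⟨(∫ y, bmp L m y)⁻¹, (inv_pos.2 hm1).le⟩, LipschitzWith.of_dist_le_mul ?_⟩
    intro x y
    have h := hK.dist_le_mul x y
    rw [Real.dist_eq] at h ⊢
    have e : bmp L m x / (∫ y, bmp L m y) - bmp L m y / (∫ y, bmp L m y)
        = (bmp L m x - bmp L m y) * (∫ y, bmp L m y)⁻¹ := by ring
    rw [e, abs_mul, abs_of_pos (inv_pos.2 hm1)]
    have : (((K * ⟨(∫ y, bmp L m y)⁻¹, (inv_pos.2 hm1).le⟩ : ℝ≥0)) : ℝ)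
        = K * (∫ y, bmp L m y)⁻¹ := rfl
    rw [this]
    calc |bmp L m x - bmp L m y| * (∫ y, bmp L m y)⁻¹ ≤ (K * dist x y) * (∫ y, bmp L m y)⁻¹ :=
          mul_le_mul_of_nonneg_right h (inv_pos.2 hm1).le
      _ = K * (∫ y, bmp L m y)⁻¹ * dist x y := by ring
  · rw [integral_div]
    exact div_self hm1.ne'

end Vale.Agent.P254.Unc
end

section

/-! P254, unconditional bodies, leaf P2: the one-variable isotonic regression `Q k` on the cube. -/

set_option autoImplicit false

namespace Vale.Agent.P254.Unc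

open MeasureTheory
open scoped NNReal

variable {n : ℕ}

/-- the largest average -/
noncomputable def Avs (k : Fin n) (f : X n → ℝ) (x : X n) : ℝ :=
  ⨆ b : unitInterval, ∫ u : unitInterval, f (Function.update x k (b * u))

/-- `Q`, in terms of `Avs` -/
noncomputable def Q0 (k : Fin n) (f : X n → ℝ) (x : X n) : ℝ := min (Avs k f x) (upB k f x)

theorem Q_eq_Q0 : (Q : Fin n → (X n → ℝ) → X n → ℝ) = Q0 := rfl

theorem mid1_coe (a b : unitInterval) : ((mid1 a b : unitInterval) : ℝ) = ((a : ℝ) + b) / 2 := rfl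

theorem mid_update (x y : X n) (k : Fin n) (a c : unitInterval) :
    mid (Function.update x k a) (Function.update y k c) =
      Function.update (mid x y) k (mid1 a c) := by
  funext i
  by_cases h : i = k
  · subst h
    simp [mid]
  · simp [mid, Function.update_of_ne h]

theorem mid1_mul (b c u : unitInterval) : mid1 (b * u) (c * u) = mid1 b c * u := by
  apply Subtype.ext
  simp only [mid1_coe, Set.Icc.coe_mul]
  ring

theorem mid1_mono {a b c d : unitInterval} (h : a ≤ c) (h' : b ≤ d) : mid1 a b ≤ mid1 c d := by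
  have h1 : (a : ℝ) ≤ c := h
  have h2 : (b : ℝ) ≤ d := h'
  show ((mid1 a b : unitInterval) : ℝ) ≤ ((mid1 c d : unitInterval) : ℝ)
  rw [mid1_coe, mid1_coe]
  linarith

theorem pk_bdd {f : X n → ℝ} (hf : Continuous f) : ∃ C : ℝ, ∀ x, |f x| ≤ C := by
  obtain ⟨C, hC⟩ := (isCompact_univ (X := X n)).exists_bound_of_continuousOn hf.continuousOn
  exact ⟨C, fun x => hC x (Set.mem_univ x)⟩

theorem pk_cont {f : X n → ℝ} (hf : Continuous f) (k : Fin n) (x : X n) (b : unitInterval) :
    Continuous fun u : unitInterval => f (Function.update x k (b * u)) :=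
  hf.comp (continuous_const.update k (continuous_const.mul continuous_id))

theorem pk_int {f : X n → ℝ} (hf : Continuous f) (k : Fin n) (x : X n) (b : unitInterval) :
    Integrable fun u : unitInterval => f (Function.update x k (b * u)) :=
  (pk_cont hf k x b).integrable_of_hasCompactSupport (HasCompactSupport.of_compactSpace _)

theorem pk_av_bdd {f : X n → ℝ} (hf : Continuous f) (k : Fin n) (x : X n) :
    BddAbove (Set.range fun b : unitInterval =>
      ∫ u : unitInterval, f (Function.update x k (b * u))) := by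
  obtain ⟨C, hC⟩ := pk_bdd hf
  refine ⟨C, ?_⟩
  rintro _ ⟨b, rfl⟩
  refine (integral_mono (pk_int hf k x b) (integrable_const C)
    fun u => (abs_le.1 (hC _)).2).trans ?_
  simp

theorem pk_up_bdd {f : X n → ℝ} (hf : Continuous f) (k : Fin n) (x : X n) :
    BddAbove (Set.range fun s : unitInterval => f (Function.update x k (x k ⊔ s))) := by
  obtain ⟨C, hC⟩ := pk_bdd hf
  refine ⟨C, ?_⟩
  rintro _ ⟨b, rfl⟩
  exact (abs_le.1 (hC _)).2

theorem le_Avs {f : X n → ℝ} (hf : Continuous f) (k : Fin n) (x : X n) (b : unitInterval) :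
    ∫ u : unitInterval, f (Function.update x k (b * u)) ≤ Avs k f x :=
  le_ciSup (pk_av_bdd hf k x) b

theorem le_Up {f : X n → ℝ} (hf : Continuous f) (k : Fin n) (x : X n) (s : unitInterval) :
    f (Function.update x k (x k ⊔ s)) ≤ upB k f x :=
  le_ciSup (pk_up_bdd hf k x) s

/-- a later value -/
theorem le_Up' {f : X n → ℝ} (hf : Continuous f) (k : Fin n) (x : X n) {s : unitInterval}
    (h : x k ≤ s) : f (Function.update x k s) ≤ upB k f x := by
  have := le_Up hf k x s
  rwa [sup_eq_right.2 h] at this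

theorem le_Up_self {f : X n → ℝ} (hf : Continuous f) (k : Fin n) (x : X n) : f x ≤ upB k f x := by
  have := le_Up' hf k x (le_refl (x k))
  rwa [Function.update_eq_self] at this

theorem Rel.av {z f0 f1 : X n → ℝ} (h : Rel z f0 f1) (hz : Continuous z) (h0 : Continuous f0)
    (h1 : Continuous f1) (k : Fin n) : Rel (Avs k z) (Avs k f0) (Avs k f1) := by
  intro x y
  have key : ∀ b c : unitInterval, (∫ u : unitInterval, f0 (Function.update x k (b * u))) +
      (∫ u : unitInterval, f1 (Function.update y k (c * u))) ≤ 2 * Avs k z (mid x y) := by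
    intro b c
    have e1 := le_Avs hz k (mid x y) (mid1 b c)
    have e2 : (∫ u : unitInterval, f0 (Function.update x k (b * u))) +
        (∫ u : unitInterval, f1 (Function.update y k (c * u))) ≤
        2 * ∫ u : unitInterval, z (Function.update (mid x y) k (mid1 b c * u)) := by
      rw [← integral_add (pk_int h0 k x b) (pk_int h1 k y c), ← integral_const_mul]
      refine integral_mono ((pk_int h0 k x b).add (pk_int h1 k y c))
        ((pk_int hz k _ _).const_mul 2) fun u => ?_
      have e3 := h (Function.update x k (b * u)) (Function.update y k (c * u))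
      rw [mid_update, mid1_mul] at e3
      show f0 _ + f1 _ ≤ 2 * z _
      linarith
    linarith
  have s1 : Avs k f0 x ≤ 2 * Avs k z (mid x y) - Avs k f1 y := by
    refine ciSup_le fun b => ?_
    have s2 : Avs k f1 y ≤ 2 * Avs k z (mid x y) -
        ∫ u : unitInterval, f0 (Function.update x k (b * u)) :=
      ciSup_le fun c => by linarith [key b c]
    linarith
  linarith

theorem Rel.up {z f0 f1 : X n → ℝ} (h : Rel z f0 f1) (hz : Continuous z) (k : Fin n) :
    Rel (upB k z) (upB k f0) (upB k f1) := by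
  intro x y
  have key : ∀ b c : unitInterval, f0 (Function.update x k (x k ⊔ b)) +
      f1 (Function.update y k (y k ⊔ c)) ≤ 2 * upB k z (mid x y) := by
    intro b c
    have e3 := h (Function.update x k (x k ⊔ b)) (Function.update y k (y k ⊔ c))
    rw [mid_update] at e3
    have e1 := le_Up' hz k (mid x y) (s := mid1 (x k ⊔ b) (y k ⊔ c))
      (mid1_mono le_sup_left le_sup_left)
    linarith
  have s1 : upB k f0 x ≤ 2 * upB k z (mid x y) - upB k f1 y := by
    refine ciSup_le fun b => ?_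
    have s2 : upB k f1 y ≤ 2 * upB k z (mid x y) - f0 (Function.update x k (x k ⊔ b)) :=
      ciSup_le fun c => by linarith [key b c]
    linarith
  linarith

/-- **the regression preserves `Rel`** (in particular concavity, `Rel f f f`) -/
theorem Rel.q {z f0 f1 : X n → ℝ} (h : Rel z f0 f1) (hz : Continuous z) (h0 : Continuous f0)
    (h1 : Continuous f1) (k : Fin n) : Rel (Q0 k z) (Q0 k f0) (Q0 k f1) := by
  intro x y
  have a1 := h.av hz h0 h1 k x y
  have a2 := h.up hz k x y
  have b1 : Q0 k f0 x ≤ Avs k f0 x := min_le_left _ _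
  have b2 : Q0 k f0 x ≤ upB k f0 x := min_le_right _ _
  have b3 : Q0 k f1 y ≤ Avs k f1 y := min_le_left _ _
  have b4 : Q0 k f1 y ≤ upB k f1 y := min_le_right _ _
  refine le_min ?_ ?_ <;> linarith

/-- monotonicity -/
theorem Avs_mono {f g : X n → ℝ} (hf : Continuous f) (hg : Continuous g) (k : Fin n)
    (h : ∀ x, f x ≤ g x) (x : X n) : Avs k f x ≤ Avs k g x :=
  ciSup_le fun b => (integral_mono (pk_int hf k x b) (pk_int hg k x b) fun _ => h _).trans
    (le_Avs hg k x b)

theorem Up_mono {f g : X n → ℝ} (hg : Continuous g) (k : Fin n)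
    (h : ∀ x, f x ≤ g x) (x : X n) : upB k f x ≤ upB k g x :=
  ciSup_le fun b => (h _).trans (le_Up hg k x b)

theorem Q_mono {f g : X n → ℝ} (hf : Continuous f) (hg : Continuous g) (k : Fin n)
    (h : ∀ x, f x ≤ g x) (x : X n) : Q0 k f x ≤ Q0 k g x :=
  min_le_min (Avs_mono hf hg k h x) (Up_mono hg k h x)

theorem Avs_add_const {f : X n → ℝ} (hf : Continuous f) (k : Fin n) (c : ℝ) (x : X n) :
    Avs k (fun x => f x + c) x = Avs k f x + c := by
  have h : ∀ b : unitInterval, ∫ u : unitInterval, (f (Function.update x k (b * u)) + c) =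
      (∫ u : unitInterval, f (Function.update x k (b * u))) + c := fun b => by
    rw [integral_add (pk_int hf k x b) (integrable_const c)]
    simp
  show (⨆ b : unitInterval, ∫ u : unitInterval, (f (Function.update x k (b * u)) + c)) = _
  simp only [h]
  refine le_antisymm (ciSup_le fun b => by linarith [le_Avs hf k x b]) ?_
  have h2 : BddAbove (Set.range fun b : unitInterval =>
      (∫ u : unitInterval, f (Function.update x k (b * u))) + c) := by
    obtain ⟨C, hC⟩ := pk_av_bdd hf k x
    refine ⟨C + c, ?_⟩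
    rintro _ ⟨b, rfl⟩
    have := hC ⟨b, rfl⟩
    show (∫ u : unitInterval, f (Function.update x k (b * u))) + c ≤ C + c
    linarith
  have h3 : Avs k f x ≤ (⨆ b : unitInterval,
      ((∫ u : unitInterval, f (Function.update x k (b * u))) + c)) - c :=
    ciSup_le fun b => by linarith [le_ciSup h2 b]
  linarith

theorem Up_add_const {f : X n → ℝ} (hf : Continuous f) (k : Fin n) (c : ℝ) (x : X n) :
    upB k (fun x => f x + c) x = upB k f x + c := by
  have hg : Continuous fun x => f x + c := hf.add continuous_const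
  refine le_antisymm (ciSup_le fun b => by linarith [le_Up hf k x b]) ?_
  have h3 : upB k f x ≤ upB k (fun x => f x + c) x - c :=
    ciSup_le fun b => by linarith [le_Up hg k x b]
  linarith

theorem Q_add_const {f : X n → ℝ} (hf : Continuous f) (k : Fin n) (c : ℝ) (x : X n) :
    Q0 k (fun x => f x + c) x = Q0 k f x + c := by
  rw [Q0, Q0, Avs_add_const hf, Up_add_const hf, min_add_add_right]

/-- sup-norm contraction -/
theorem Q_close {f g : X n → ℝ} (hf : Continuous f) (hg : Continuous g) (k : Fin n) {e : ℝ}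
    (h : ∀ x, |f x - g x| ≤ e) (x : X n) : |Q0 k f x - Q0 k g x| ≤ e := by
  have h1 := Q_mono (g := fun y => g y + e) hf (hg.add continuous_const) k
    (fun y => (by linarith [(abs_le.1 (h y)).2] : f y ≤ g y + e)) x
  have h2 := Q_mono (g := fun y => f y + e) hg (hf.add continuous_const) k
    (fun y => (by linarith [(abs_le.1 (h y)).1] : g y ≤ f y + e)) x
  rw [Q_add_const hg] at h1
  rw [Q_add_const hf] at h2
  exact abs_le.2 ⟨by linarith, by linarith⟩

theorem pk_dist_update (x y : X n) (k : Fin n) (c : unitInterval) :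
    dist (Function.update x k c) (Function.update y k c) ≤ dist x y := by
  refine (dist_pi_le_iff dist_nonneg).2 fun i => ?_
  by_cases h : i = k
  · subst h
    simp
  · rw [Function.update_of_ne h, Function.update_of_ne h]
    exact dist_le_pi_dist x y i

theorem pk_dist_sup (a b s : unitInterval) : dist (a ⊔ s) (b ⊔ s) ≤ dist a b := by
  rw [Subtype.dist_eq, Subtype.dist_eq, Real.dist_eq, Real.dist_eq,
    (Subtype.mono_coe (· ∈ Set.Icc (0 : ℝ) 1)).map_max,
    (Subtype.mono_coe (· ∈ Set.Icc (0 : ℝ) 1)).map_max]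
  exact abs_max_sub_max_le_abs _ _ _

theorem pk_dist_update_sup (x y : X n) (k : Fin n) (s : unitInterval) :
    dist (Function.update x k (x k ⊔ s)) (Function.update y k (y k ⊔ s)) ≤ dist x y := by
  refine (dist_pi_le_iff dist_nonneg).2 fun i => ?_
  by_cases h : i = k
  · subst h
    simp only [Function.update_self]
    exact (pk_dist_sup _ _ _).trans (dist_le_pi_dist x y i)
  · rw [Function.update_of_ne h, Function.update_of_ne h]
    exact dist_le_pi_dist x y i

theorem Avs_lip {f : X n → ℝ} {M : NNReal} (hf : LipschitzWith M f) (k : Fin n) :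
    LipschitzWith M (Avs k f) := by
  have hc := hf.continuous
  have key : ∀ x y, Avs k f x ≤ Avs k f y + M * dist x y := by
    intro x y
    refine ciSup_le fun b => ?_
    have h1 : ∫ u : unitInterval, f (Function.update x k (b * u)) ≤
        (∫ u : unitInterval, f (Function.update y k (b * u))) + M * dist x y := by
      have h2 : (∫ u : unitInterval, (f (Function.update y k (b * u)) + M * dist x y)) =
          (∫ u : unitInterval, f (Function.update y k (b * u))) + M * dist x y := by
        rw [integral_add (pk_int hc k y b) (integrable_const _)]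
        simp
      rw [← h2]
      refine integral_mono (pk_int hc k x b) ((pk_int hc k y b).add (integrable_const _))
        fun u => ?_
      have h3 := hf.dist_le_mul (Function.update x k (b * u)) (Function.update y k (b * u))
      rw [Real.dist_eq] at h3
      have h4 := mul_le_mul_of_nonneg_left (pk_dist_update x y k (b * u)) M.2
      have h5 := (abs_le.1 (h3.trans h4)).2
      show f _ ≤ f _ + M * dist x y
      have h6 : (M : ℝ) * dist x y = (↑M : ℝ) * dist x y := rfl
      change f _ - f _ ≤ (M : ℝ) * dist x y at h5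
      linarith
    linarith [le_Avs hc k y b]
  refine LipschitzWith.of_dist_le_mul fun x y => ?_
  rw [Real.dist_eq]
  have h1 := key x y
  have h2 := key y x
  rw [dist_comm y x] at h2
  exact abs_le.2 ⟨by linarith, by linarith⟩

theorem Up_lip {f : X n → ℝ} {M : NNReal} (hf : LipschitzWith M f) (k : Fin n) :
    LipschitzWith M (upB k f) := by
  have hc := hf.continuous
  have key : ∀ x y, upB k f x ≤ upB k f y + M * dist x y := by
    intro x y
    refine ciSup_le fun s => ?_
    have h3 := hf.dist_le_mul (Function.update x k (x k ⊔ s)) (Function.update y k (y k ⊔ s))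
    rw [Real.dist_eq] at h3
    have h4 := mul_le_mul_of_nonneg_left (pk_dist_update_sup x y k s) M.2
    have h5 := (abs_le.1 (h3.trans h4)).2
    change f _ - f _ ≤ (M : ℝ) * dist x y at h5
    linarith [le_Up hc k y s]
  refine LipschitzWith.of_dist_le_mul fun x y => ?_
  rw [Real.dist_eq]
  have h1 := key x y
  have h2 := key y x
  rw [dist_comm y x] at h2
  exact abs_le.2 ⟨by linarith, by linarith⟩

/-- **the regression preserves the Lipschitz constant** -/
theorem Q_lip0 {f : X n → ℝ} {M : NNReal} (hf : LipschitzWith M f) (k : Fin n) :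
    LipschitzWith M (Q0 k f) := by
  have := (Avs_lip hf k).min (Up_lip hf k)
  rwa [max_self] at this

/-- `Av` does not depend on the coordinate `k` -/
theorem Avs_update (k : Fin n) (f : X n → ℝ) (x : X n) (a : unitInterval) :
    Avs k f (Function.update x k a) = Avs k f x := by
  simp only [Avs, Function.update_idem]

theorem Up_anti {f : X n → ℝ} (hf : Continuous f) (k : Fin n) (x : X n) {a b : unitInterval}
    (h : a ≤ b) : upB k f (Function.update x k b) ≤ upB k f (Function.update x k a) := by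
  refine ciSup_le fun s => ?_
  have := le_Up' hf k (Function.update x k a) (s := b ⊔ s)
    (by rw [Function.update_self]; exact h.trans le_sup_left)
  simpa only [Function.update_idem, Function.update_self] using this

/-- **the regression is antitone in the coordinate `k`** -/
theorem Q_anti {f : X n → ℝ} (hf : Continuous f) (k : Fin n) (x : X n) {a b : unitInterval}
    (h : a ≤ b) : Q0 k f (Function.update x k b) ≤ Q0 k f (Function.update x k a) := by
  refine le_min ((min_le_left _ _).trans ?_) ((min_le_right _ _).trans (Up_anti hf k x h))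
  rw [Avs_update, Avs_update]

/-- antitonicity in another coordinate is preserved -/
theorem Q_anti_ne {f : X n → ℝ} (hf : Continuous f) {k j : Fin n} (hjk : j ≠ k)
    (ha : ∀ (x : X n) (a b : unitInterval), a ≤ b →
      f (Function.update x j b) ≤ f (Function.update x j a))
    (x : X n) {a b : unitInterval} (h : a ≤ b) :
    Q0 k f (Function.update x j b) ≤ Q0 k f (Function.update x j a) := by
  refine min_le_min ?_ ?_
  · refine ciSup_le fun c => le_trans ?_ (le_Avs hf k _ c)
    refine integral_mono (pk_int hf k _ c) (pk_int hf k _ c) fun u => ?_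
    show f _ ≤ f _
    rw [Function.update_comm hjk, Function.update_comm hjk]
    exact ha _ a b h
  · refine ciSup_le fun s => le_trans ?_ (le_Up hf k _ s)
    rw [Function.update_of_ne hjk.symm, Function.update_of_ne hjk.symm,
      Function.update_comm hjk, Function.update_comm hjk]
    exact ha _ a b h

/-- the regression fixes the functions antitone in `k` -/
theorem Q_eq_self {f : X n → ℝ} (hf : Continuous f) (k : Fin n)
    (ha : ∀ (x : X n) (a b : unitInterval), a ≤ b →
      f (Function.update x k b) ≤ f (Function.update x k a)) (x : X n) : Q0 k f x = f x := by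
  have h1 : upB k f x = f x := by
    refine le_antisymm (ciSup_le fun s => ?_) (le_Up_self hf k x)
    have := ha x (x k) (x k ⊔ s) le_sup_left
    rwa [Function.update_eq_self] at this
  have h2 : f x ≤ Avs k f x := by
    refine le_trans ?_ (le_Avs hf k x 0)
    have h3 := ha x 0 (x k) unitInterval.nonneg'
    rw [Function.update_eq_self] at h3
    simpa using h3
  rw [Q0, h1, min_eq_right h2]

theorem Q_bound {f : X n → ℝ} (hf : Continuous f) (k : Fin n) {C : ℝ} (h : ∀ x, |f x| ≤ C)
    (x : X n) : |Q0 k f x| ≤ C := by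
  have h0 : ∀ y, Q0 k (fun _ : X n => (0 : ℝ)) y = 0 := fun y =>
    Q_eq_self continuous_const k (fun _ _ _ _ => le_refl _) y
  have := Q_close hf continuous_const k (g := fun _ => (0 : ℝ)) (e := C)
    (fun y => by simpa using h y) x
  rwa [h0, sub_zero] at this

/-! ### the official statements -/

theorem Q_rel {M : ℝ≥0} (k : Fin n) {z f g : X n → ℝ} (hz : LipschitzWith M z)
    (hf : LipschitzWith M f) (hg : LipschitzWith M g) (h : Rel z f g) :
    Rel (Q k z) (Q k f) (Q k g) :=
  h.q hz.continuous hf.continuous hg.continuous k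

theorem Q_lip {M : ℝ≥0} (k : Fin n) {f : X n → ℝ} (hf : LipschitzWith M f) :
    LipschitzWith M (Q k f) := Q_lip0 hf k

theorem Q_bdd {M : ℝ≥0} (k : Fin n) {f : X n → ℝ} (hf : LipschitzWith M f) {N : ℝ}
    (hN : ∀ x, |f x| ≤ N) : ∀ x, |Q k f x| ≤ N := Q_bound hf.continuous k hN

theorem Q_antiK {M : ℝ≥0} (k : Fin n) {f : X n → ℝ} (hf : LipschitzWith M f) :
    AntiK k (Q k f) := fun x _ _ h => Q_anti hf.continuous k x h

theorem Q_update (k : Fin n) (f : X n → ℝ) (x : X n) (t : unitInterval) :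
    Q k f (Function.update x k t) = reg (fun s => f (Function.update x k s)) t := by
  simp only [Q, avgB, upB, reg, Function.update_idem, Function.update_self]

end Vale.Agent.P254.Unc
end

section

open MeasureTheory Set
open scoped NNReal

namespace Vale.Agent.P254.Unc

variable {n : ℕ} {M : ℝ≥0}

theorem p3_mid_update (k : Fin n) (x : X n) (a b : unitInterval) :
    mid (Function.update x k a) (Function.update x k b) = Function.update x k (mid1 a b) := by
  funext i
  by_cases h : i = k
  · subst h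
    simp [mid]
  · simp only [mid, Function.update_of_ne h]
    apply Subtype.ext
    simp only [mid1]
    ring

theorem p3_slice {k : Fin n} {f : X n → ℝ} (hf : Good M f) (x : X n) :
    Continuous (fun s : unitInterval => f (Function.update x k s)) ∧
      ∀ a b, (f (Function.update x k a) + f (Function.update x k b)) / 2 ≤
        f (Function.update x k (mid1 a b)) := by
  constructor
  · exact hf.lip.continuous.comp (continuous_const.update k continuous_id)
  · intro a b
    rw [← p3_mid_update]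
    exact hf.conc _ _

/-- P3 (from P1, P2, int_update) -/
theorem Q_le (k : Fin n) {f v : X n → ℝ} (hf : Good M f) (hv : AntiK k v) (hvc : Continuous v) :
    ∫ x, (f x - Q k f x) * v x ≤ 0 := by
  rw [← int_update k (fun x => (f x - Q k f x) * v x)
    ((hf.lip.continuous.sub (Q_lip k hf.lip).continuous).mul hvc)]
  refine integral_nonpos fun x => ?_
  obtain ⟨h1, h2⟩ := p3_slice (k := k) hf x
  have h3 := reg_le (fun s => f (Function.update x k s)) h1 h2
    (fun s => v (Function.update x k s)) (fun s t hst => hv x s t hst)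
  simp only [Pi.zero_apply, Q_update]
  exact h3

/-- P3 -/
theorem Q_eq (k : Fin n) {f : X n → ℝ} (hf : Good M f) :
    ∫ x, (f x - Q k f x) * Q k f x = 0 := by
  rw [← int_update k (fun x => (f x - Q k f x) * Q k f x)
    ((hf.lip.continuous.sub (Q_lip k hf.lip).continuous).mul (Q_lip k hf.lip).continuous)]
  refine integral_eq_zero_of_ae (Filter.Eventually.of_forall fun x => ?_)
  obtain ⟨h1, h2⟩ := p3_slice (k := k) hf x
  have h3 := reg_eq (fun s => f (Function.update x k s)) h1 h2
  simp only [Pi.zero_apply, Q_update]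
  exact h3

end Vale.Agent.P254.Unc
end

section

open MeasureTheory Set
open scoped NNReal BoundedContinuousFunction

namespace Vale.Agent.P254.Unc

variable {n : ℕ}

/-- The triple defined by a bounded continuous function. -/
def toTr (F : X n →ᵇ (Fin 3 → ℝ)) : Tr n := fun i x => F x i

theorem continuous_toTr (i : Fin 3) (x : X n) :
    Continuous (fun F : X n →ᵇ (Fin 3 → ℝ) => toTr F i x) := by
  unfold toTr
  exact (continuous_apply i).comp (continuous_eval_const (F := X n →ᵇ (Fin 3 → ℝ)) x)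

theorem isClosed_BB (M : ℝ≥0) (N : ℝ) :
    IsClosed {F : X n →ᵇ (Fin 3 → ℝ) | toTr F ∈ BB n M N} := by
  have h : {F : X n →ᵇ (Fin 3 → ℝ) | toTr F ∈ BB n M N} =
      (⋂ i, ⋂ x, ⋂ y, {F | dist (toTr F i x) (toTr F i y) ≤ M * dist x y}) ∩
      (⋂ i, ⋂ x, ⋂ y, {F | (toTr F i x + toTr F i y) / 2 ≤ toTr F i (mid x y)}) ∩
      (⋂ i, ⋂ x, {F | |toTr F i x| ≤ N}) ∩
      (⋂ x, ⋂ y, {F | (toTr F 0 x + toTr F 1 y) / 2 ≤ toTr F 2 (mid x y)}) := by
    ext F
    simp only [mem_ofPred_eq, mem_inter_iff, mem_iInter, BB, Rel]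
    constructor
    · rintro ⟨h1, h2, h3⟩
      exact ⟨⟨⟨fun i x y => (h1 i).lip.dist_le_mul x y, fun i x y => (h1 i).conc x y⟩, h2⟩, h3⟩
    · rintro ⟨⟨⟨h1, h2⟩, h3⟩, h4⟩
      exact ⟨fun i => ⟨LipschitzWith.of_dist_le_mul (h1 i), h2 i⟩, h3, h4⟩
  rw [h]
  refine ((IsClosed.inter ?_ ?_).inter ?_).inter ?_
  · refine isClosed_iInter fun i => isClosed_iInter fun x => isClosed_iInter fun y => ?_
    exact isClosed_le ((continuous_toTr i x).dist (continuous_toTr i y)) continuous_const
  · refine isClosed_iInter fun i => isClosed_iInter fun x => isClosed_iInter fun y => ?_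
    exact isClosed_le (((continuous_toTr i x).add (continuous_toTr i y)).div_const _)
      (continuous_toTr i _)
  · refine isClosed_iInter fun i => isClosed_iInter fun x => ?_
    exact isClosed_le (continuous_toTr i x).abs continuous_const
  · refine isClosed_iInter fun x => isClosed_iInter fun y => ?_
    exact isClosed_le (((continuous_toTr 0 x).add (continuous_toTr 1 y)).div_const _)
      (continuous_toTr 2 _)

theorem isClosed_VV (M : ℝ≥0) (N : ℝ) {β : Tr n} (hβ : ∀ i, Continuous (β i)) :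
    IsClosed {F : X n →ᵇ (Fin 3 → ℝ) | toTr F ∈ VV n M N β} := by
  have h : {F : X n →ᵇ (Fin 3 → ℝ) | toTr F ∈ VV n M N β} =
      ⋂ i, ⋂ ρ : {ρ : X n → ℝ // Antitone ρ ∧ ∃ K, LipschitzWith K ρ},
        ({F : X n →ᵇ (Fin 3 → ℝ) | toTr F ∈ BB n M N} ∩
          (fun F => ∫ x, (β i x - toTr F i x) * (ρ : X n → ℝ) x) ⁻¹' (Iic 0)) := by
    ext F
    simp only [mem_ofPred_eq, mem_inter_iff, mem_iInter, VV, mem_preimage, mem_Iic]
    constructor
    · rintro ⟨h1, h2⟩ i ρ
      exact ⟨h1, h2 i ρ.1 ρ.2.1 ρ.2.2⟩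
    · intro h
      refine ⟨(h 0 ⟨fun _ => 0, fun _ _ _ => le_rfl, 0, LipschitzWith.const 0⟩).1, ?_⟩
      intro i ρ h1 h2
      exact (h i ⟨ρ, h1, h2⟩).2
  rw [h]
  refine isClosed_iInter fun i => isClosed_iInter fun ρ => ?_
  obtain ⟨ρ, hρ, K, hK⟩ := ρ
  refine ContinuousOn.preimage_isClosed_of_isClosed ?_ (isClosed_BB M N) isClosed_Iic
  have hρc : Continuous ρ := hK.continuous
  obtain ⟨C, hC⟩ : ∃ C, ∀ x, |ρ x| ≤ C := by
    obtain ⟨C, hC⟩ := (isCompact_range hρc.abs).bddAbove
    exact ⟨C, fun x => hC ⟨x, rfl⟩⟩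
  obtain ⟨D, hD⟩ : ∃ D, ∀ x, |β i x| ≤ D := by
    obtain ⟨C, hC⟩ := (isCompact_range (hβ i).abs).bddAbove
    exact ⟨C, fun x => hC ⟨x, rfl⟩⟩
  refine continuousOn_of_dominated (bound := fun _ => (D + N) * C) ?_ ?_ ?_ ?_
  · intro F hF
    have h1 : Continuous (fun x => toTr F i x) := (hF.1 i).lip.continuous
    exact (((hβ i).sub h1).mul hρc).aestronglyMeasurable
  · intro F hF
    refine Filter.Eventually.of_forall fun x => ?_
    rw [Real.norm_eq_abs, abs_mul]
    have h1 : |β i x - toTr F i x| ≤ D + N :=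
      (abs_sub _ _).trans (add_le_add (hD x) (hF.2.1 i x))
    exact mul_le_mul h1 (hC x) (abs_nonneg _) ((abs_nonneg _).trans h1)
  · exact integrable_const _
  · refine Filter.Eventually.of_forall fun x => ?_
    exact ((continuous_const.sub (continuous_toTr i x)).mul continuous_const).continuousOn

theorem isCompact_VV (M : ℝ≥0) (N : ℝ) {β : Tr n} (hβ : ∀ i, Continuous (β i)) :
    IsCompact {F : X n →ᵇ (Fin 3 → ℝ) | toTr F ∈ VV n M N β} := by
  refine BoundedContinuousFunction.arzela_ascoli₂ (Set.pi univ fun _ => Icc (-N) N)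
    (isCompact_univ_pi fun _ => isCompact_Icc) _ (isClosed_VV M N hβ) ?_ ?_
  · intro F x hF i _
    exact abs_le.1 (hF.1.2.1 i x)
  · refine LipschitzWith.uniformEquicontinuous _ M ?_ |>.equicontinuous
    rintro ⟨F, hF⟩
    refine LipschitzWith.of_dist_le_mul fun x y => ?_
    refine (dist_pi_le_iff (by positivity)).2 fun i => ?_
    exact (hF.1.1 i).lip.dist_le_mul x y

/-- P4: compactness (Arzela-Ascoli), then minimise -/
theorem exists_min_VV {M : ℝ≥0} {N : ℝ} {β : Tr n} (hβ : β ∈ BB n M N) :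
    ∃ u ∈ VV n M N β, ∀ v ∈ VV n M N β, ∑ i, ∫ x, (u i x) ^ 2 ≤ ∑ i, ∫ x, (v i x) ^ 2 := by
  have hβc : ∀ i, Continuous (β i) := fun i => (hβ.1 i).lip.continuous
  have key : ∀ v : Tr n, v ∈ VV n M N β → ∃ F : X n →ᵇ (Fin 3 → ℝ), toTr F = v := by
    intro v hv
    refine ⟨BoundedContinuousFunction.mkOfCompact
      ⟨fun x i => v i x, continuous_pi fun i => (hv.1.1 i).lip.continuous⟩, ?_⟩
    rfl
  have hβV : β ∈ VV n M N β := by
    refine ⟨hβ, fun i ρ _ _ => ?_⟩
    simp
  obtain ⟨F0, hF0⟩ := key β hβV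
  have hcont : ContinuousOn (fun F : X n →ᵇ (Fin 3 → ℝ) => ∑ i, ∫ x, (toTr F i x) ^ 2)
      {F : X n →ᵇ (Fin 3 → ℝ) | toTr F ∈ VV n M N β} := by
    refine continuousOn_finsetSum _ fun i _ => ?_
    refine continuousOn_of_dominated (bound := fun _ => N ^ 2) ?_ ?_ ?_ ?_
    · intro F hF
      have h1 : Continuous (fun x => toTr F i x) := (hF.1.1 i).lip.continuous
      exact (h1.pow 2).aestronglyMeasurable
    · intro F hF
      refine Filter.Eventually.of_forall fun x => ?_
      rw [Real.norm_eq_abs, abs_pow]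
      exact pow_le_pow_left₀ (abs_nonneg _) (hF.1.2.1 i x) 2
    · exact integrable_const _
    · refine Filter.Eventually.of_forall fun x => ?_
      exact ((continuous_toTr i x).pow 2).continuousOn
  obtain ⟨F, hF, hmin⟩ := (isCompact_VV M N hβc).exists_isMinOn ⟨F0, by
    show toTr F0 ∈ VV n M N β
    rw [hF0]; exact hβV⟩ hcont
  refine ⟨toTr F, hF, fun v hv => ?_⟩
  obtain ⟨G, rfl⟩ := key v hv
  exact hmin hv

end Vale.Agent.P254.Unc
end

section

/-! P254-UNC, block P5, final form: the isotonic regression of a triple. -/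

open MeasureTheory Set
open scoped NNReal

namespace Vale.Agent.P254.Unc

variable {n : ℕ} {M : ℝ≥0}

theorem isotonic_triple {f0 f1 z : X n → ℝ} (h0 : Good M f0) (h1 : Good M f1) (hz : Good M z)
    (hR : Rel z f0 f1) :
    ∃ g0 g1 w : X n → ℝ, Good M g0 ∧ Good M g1 ∧ Good M w ∧ Rel w g0 g1 ∧
      IsProj f0 g0 ∧ IsProj f1 g1 ∧ IsProj z w :=
  isotonic_triple_of (fun hβ => exists_min_VV hβ)
    (fun k _ _ _ _ hv => Q_mem_VV_of k (fun _ _ _ hz hf hg h => Q_rel k hz hf hg h)
      (fun _ hf => Q_lip k hf) (fun _ hf _ hN => Q_bdd k hf hN)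
      (fun _ _ hf hv hvc => Q_le k hf hv hvc) hv)
    (fun k _ _ hf => Q_eq k hf) (fun k _ _ hf => Q_antiK k hf)
    (fun h => antitone_of_antiK h) h0 h1 hz hR

end Vale.Agent.P254.Unc
end

section

/-! P254-UNC, block D2: `UNC n` implies the functional inequality for strongly concave `G`. -/

open MeasureTheory Set
open scoped NNReal

namespace Vale.Agent.P254.Unc

variable {n : ℕ}

/-- The test functions `G, x_1, …, x_n`. -/
noncomputable def D2HH (G : X n → ℝ) : Option (Fin n) → X n → ℝ
  | none => G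
  | some k => fun x => ((x k : unitInterval) : ℝ)

/-- linear combination of the test functions -/
noncomputable def D2PS (G : X n → ℝ) (u : Option (Fin n) → ℝ) (x : X n) : ℝ :=
  ∑ i, u i * D2HH G i x

theorem d2_PS_eq (G : X n → ℝ) (u : Option (Fin n) → ℝ) (x : X n) :
    D2PS G u x = u none * G x + ∑ k, u (some k) * ((x k : unitInterval) : ℝ) := by
  simp only [D2PS, Fintype.sum_option, D2HH]

theorem d2_HH_lip {G : X n → ℝ} {M : ℝ≥0} (hG : LipschitzWith M G) (i : Option (Fin n)) :
    LipschitzWith (M + 1) (D2HH G i) := by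
  cases i with
  | none => exact hG.weaken (by simp)
  | some k =>
    refine LipschitzWith.of_dist_le_mul (fun x y => ?_)
    have h1 : dist (D2HH G (some k) x) (D2HH G (some k) y) = dist (x k) (y k) := rfl
    rw [h1]
    calc dist (x k) (y k) ≤ dist x y := dist_le_pi_dist x y k
      _ = 1 * dist x y := (one_mul _).symm
      _ ≤ ((M + 1 : ℝ≥0) : ℝ) * dist x y := by
        refine mul_le_mul_of_nonneg_right ?_ dist_nonneg
        push_cast
        linarith [M.2]

theorem d2_HH_cont {G : X n → ℝ} {M : ℝ≥0} (hG : LipschitzWith M G) (i : Option (Fin n)) :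
    Continuous (D2HH G i) := (d2_HH_lip hG i).continuous

theorem d2_PS_cont {G : X n → ℝ} {M : ℝ≥0} (hG : LipschitzWith M G) (u : Option (Fin n) → ℝ) :
    Continuous (D2PS G u) :=
  continuous_finsetSum _ (fun i _ => continuous_const.mul (d2_HH_cont hG i))

/-- Lipschitz constant of a combination. -/
theorem d2_PS_lip {G : X n → ℝ} {M : ℝ≥0} (hG : LipschitzWith M G) (u : Option (Fin n) → ℝ)
    (B : ℝ≥0) (hB : ∑ i, |u i| ≤ B) : LipschitzWith (B * (M + 1)) (D2PS G u) := by
  refine LipschitzWith.of_dist_le_mul (fun x y => ?_)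
  rw [Real.dist_eq]
  have h1 : D2PS G u x - D2PS G u y = ∑ i, u i * (D2HH G i x - D2HH G i y) := by
    simp only [D2PS]
    rw [← Finset.sum_sub_distrib]
    exact Finset.sum_congr rfl (fun i _ => by ring)
  rw [h1]
  calc |∑ i, u i * (D2HH G i x - D2HH G i y)| ≤ ∑ i, |u i * (D2HH G i x - D2HH G i y)| :=
        Finset.abs_sum_le_sum_abs _ _
    _ ≤ ∑ i, |u i| * (((M + 1 : ℝ≥0) : ℝ) * dist x y) := by
        refine Finset.sum_le_sum (fun i _ => ?_)
        rw [abs_mul]
        refine mul_le_mul_of_nonneg_left ?_ (abs_nonneg _)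
        have := (d2_HH_lip hG i).dist_le_mul x y
        rwa [Real.dist_eq] at this
    _ = (∑ i, |u i|) * (((M + 1 : ℝ≥0) : ℝ) * dist x y) := by rw [Finset.sum_mul]
    _ ≤ (B : ℝ) * (((M + 1 : ℝ≥0) : ℝ) * dist x y) := by
        refine mul_le_mul_of_nonneg_right hB (mul_nonneg (NNReal.coe_nonneg _) dist_nonneg)
    _ = ((B * (M + 1) : ℝ≥0) : ℝ) * dist x y := by push_cast; ring

theorem d2_mid_coe (x y : X n) (k : Fin n) :
    ((mid x y k : unitInterval) : ℝ) = (((x k : unitInterval) : ℝ) + ((y k : unitInterval) : ℝ)) / 2 :=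
  rfl

/-- Strong concavity of a combination with `u none ≥ a ≥ 0`. -/
theorem d2_PS_conc {G : X n → ℝ} {κ : ℝ}
    (hG : ∀ x y, (G x + G y) / 2 + κ * ∑ k, ((x k : ℝ) - y k) ^ 2 ≤ G (mid x y))
    (u : Option (Fin n) → ℝ) (hu : 0 ≤ u none) (x y : X n) :
    (D2PS G u x + D2PS G u y) / 2 + u none * (κ * ∑ k, ((x k : ℝ) - y k) ^ 2) ≤ D2PS G u (mid x y) := by
  rw [d2_PS_eq, d2_PS_eq, d2_PS_eq]
  have h1 : ∑ k, u (some k) * ((mid x y k : unitInterval) : ℝ) =
      (∑ k, u (some k) * ((x k : unitInterval) : ℝ) +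
        ∑ k, u (some k) * ((y k : unitInterval) : ℝ)) / 2 := by
    rw [← Finset.sum_add_distrib, Finset.sum_div]
    exact Finset.sum_congr rfl (fun k _ => by rw [d2_mid_coe]; ring)
  rw [h1]
  have := mul_le_mul_of_nonneg_left (hG x y) hu
  linarith

theorem d2_dist_sq_le (x y : X n) : dist x y ^ 2 ≤ ∑ k, ((x k : ℝ) - y k) ^ 2 := by
  have hnn : 0 ≤ ∑ k, ((x k : ℝ) - y k) ^ 2 := Finset.sum_nonneg (fun k _ => sq_nonneg _)
  have h : dist x y ≤ Real.sqrt (∑ k, ((x k : ℝ) - y k) ^ 2) := by
    rw [dist_pi_le_iff (Real.sqrt_nonneg _)]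
    intro k
    have h1 : dist (x k) (y k) = |(x k : ℝ) - y k| := rfl
    rw [h1]
    apply Real.abs_le_sqrt
    exact Finset.single_le_sum (f := fun k => ((x k : ℝ) - y k) ^ 2)
      (fun i _ => sq_nonneg _) (Finset.mem_univ k)
  calc dist x y ^ 2 ≤ (Real.sqrt (∑ k, ((x k : ℝ) - y k) ^ 2)) ^ 2 :=
        pow_le_pow_left₀ dist_nonneg h 2
    _ = _ := Real.sq_sqrt hnn


theorem d2_integrable_cont {f : X n → ℝ} (hf : Continuous f) : Integrable f :=
  hf.integrable_of_hasCompactSupport (HasCompactSupport.of_compactSpace f)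

theorem Dens.d2_cont {ρ : X n → ℝ} (h : Dens n ρ) : Continuous ρ := by
  obtain ⟨K, hK⟩ := h.lip
  exact hK.continuous

/-- moment vector of a density -/
noncomputable def D2vv (G : X n → ℝ) (ρ : X n → ℝ) : Option (Fin n) → ℝ :=
  fun i => ∫ x, D2HH G i x * ρ x

theorem d2_sum_vv {G : X n → ℝ} {M : ℝ≥0} (hG : LipschitzWith M G) {ρ : X n → ℝ} (hρ : Dens n ρ)
    (u : Option (Fin n) → ℝ) : ∑ i, u i * D2vv G ρ i = ∫ x, D2PS G u x * ρ x := by
  have h1 : ∀ x, D2PS G u x * ρ x = ∑ i, u i * (D2HH G i x * ρ x) := by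
    intro x
    simp only [D2PS]
    rw [Finset.sum_mul]
    exact Finset.sum_congr rfl (fun i _ => by ring)
  simp only [h1]
  have hi : ∀ i ∈ (Finset.univ : Finset (Option (Fin n))),
      Integrable (fun x => u i * (D2HH G i x * ρ x)) := fun i _ =>
    (d2_integrable_cont ((d2_HH_cont hG i).mul hρ.d2_cont)).const_mul (u i)
  rw [integral_finsetSum _ hi]
  refine Finset.sum_congr rfl (fun i _ => ?_)
  rw [integral_const_mul]
  rfl

def D2V0 (G : X n → ℝ) : Set (Option (Fin n) → ℝ) := {v | ∃ ρ, Dens n ρ ∧ v = D2vv G ρ}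

theorem d2_V0_convex {G : X n → ℝ} {M : ℝ≥0} (hG : LipschitzWith M G) : Convex ℝ (D2V0 G) := by
  rintro v ⟨ρ, hρ, rfl⟩ w ⟨σ, hσ, rfl⟩ a b ha hb hab
  refine ⟨fun x => a * ρ x + b * σ x, ⟨?_, ?_, ?_, ?_⟩, ?_⟩
  · intro x y hxy
    have h1 := mul_le_mul_of_nonneg_left (hρ.anti hxy) ha
    have h2 := mul_le_mul_of_nonneg_left (hσ.anti hxy) hb
    show a * ρ y + b * σ y ≤ a * ρ x + b * σ x
    linarith
  · intro x
    have := hρ.nonneg x
    have := hσ.nonneg x
    positivity
  · obtain ⟨K1, h1⟩ := hρ.lip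
    obtain ⟨K2, h2⟩ := hσ.lip
    refine ⟨Real.toNNReal (a * K1 + b * K2), LipschitzWith.of_dist_le_mul (fun x y => ?_)⟩
    have e1 := h1.dist_le_mul x y
    have e2 := h2.dist_le_mul x y
    rw [Real.dist_eq] at e1 e2 ⊢
    rw [Real.coe_toNNReal _ (by positivity)]
    have e3 : a * ρ x + b * σ x - (a * ρ y + b * σ y) = a * (ρ x - ρ y) + b * (σ x - σ y) := by
      ring
    rw [e3]
    calc |a * (ρ x - ρ y) + b * (σ x - σ y)| ≤ |a * (ρ x - ρ y)| + |b * (σ x - σ y)| :=
          abs_add_le _ _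
      _ = a * |ρ x - ρ y| + b * |σ x - σ y| := by
          rw [abs_mul, abs_mul, abs_of_nonneg ha, abs_of_nonneg hb]
      _ ≤ a * (K1 * dist x y) + b * (K2 * dist x y) := by
          have := mul_le_mul_of_nonneg_left e1 ha
          have := mul_le_mul_of_nonneg_left e2 hb
          linarith
      _ = (a * K1 + b * K2) * dist x y := by ring
  · have i1 := (d2_integrable_cont hρ.d2_cont).const_mul a
    have i2 := (d2_integrable_cont hσ.d2_cont).const_mul b
    rw [integral_add i1 i2, integral_const_mul, integral_const_mul, hρ.int, hσ.int]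
    linarith
  · funext i
    simp only [D2vv, Pi.add_apply, Pi.smul_apply, smul_eq_mul]
    have i1 : Integrable (fun x => a * (D2HH G i x * ρ x)) :=
      (d2_integrable_cont ((d2_HH_cont hG i).mul hρ.d2_cont)).const_mul a
    have i2 : Integrable (fun x => b * (D2HH G i x * σ x)) :=
      (d2_integrable_cont ((d2_HH_cont hG i).mul hσ.d2_cont)).const_mul b
    have : ∀ x, D2HH G i x * (a * ρ x + b * σ x) = a * (D2HH G i x * ρ x) + b * (D2HH G i x * σ x) := by
      intro x; ring
    simp only [this]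
    rw [integral_add i1 i2, integral_const_mul, integral_const_mul]

theorem d2_exists_bound {f : X n → ℝ} (hf : Continuous f) : ∃ B : ℝ, 0 ≤ B ∧ ∀ x, |f x| ≤ B := by
  obtain ⟨B, hB⟩ := isCompact_univ.exists_bound_of_continuousOn hf.continuousOn
  refine ⟨max B 0, le_max_right _ _, fun x => ?_⟩
  have := hB x (mem_univ x)
  rw [Real.norm_eq_abs] at this
  exact this.trans (le_max_left _ _)

theorem d2_vv_bound {G : X n → ℝ} {M : ℝ≥0} (hG : LipschitzWith M G) :
    ∃ B : ℝ, 0 ≤ B ∧ ∀ ρ, Dens n ρ → ∀ i, |D2vv G ρ i| ≤ B := by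
  classical
  have h : ∀ i, ∃ B : ℝ, 0 ≤ B ∧ ∀ x, |D2HH G i x| ≤ B := fun i => d2_exists_bound (d2_HH_cont hG i)
  choose B hB0 hB using h
  refine ⟨∑ i, B i, Finset.sum_nonneg (fun i _ => hB0 i), fun ρ hρ i => ?_⟩
  have h1 : |D2vv G ρ i| ≤ ∫ x, B i * ρ x := by
    rw [D2vv, ← Real.norm_eq_abs]
    refine norm_integral_le_of_norm_le ((d2_integrable_cont hρ.d2_cont).const_mul _) ?_
    filter_upwards with x
    rw [Real.norm_eq_abs, abs_mul, abs_of_nonneg (hρ.nonneg x)]
    exact mul_le_mul_of_nonneg_right (hB i x) (hρ.nonneg x)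
  rw [integral_const_mul, hρ.int, mul_one] at h1
  exact h1.trans (Finset.single_le_sum (f := B) (fun j _ => hB0 j) (Finset.mem_univ i))

theorem d2_V_compact {G : X n → ℝ} {M : ℝ≥0} (hG : LipschitzWith M G) :
    IsCompact (closure (D2V0 G)) := by
  obtain ⟨B, hB0, hB⟩ := d2_vv_bound (n := n) hG
  have hb : Bornology.IsBounded (D2V0 G) := by
    rw [isBounded_iff_forall_norm_le]
    refine ⟨B, ?_⟩
    rintro v ⟨ρ, hρ, rfl⟩
    rw [pi_norm_le_iff_of_nonneg hB0]
    intro i
    rw [Real.norm_eq_abs]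
    exact hB ρ hρ i
  exact Metric.isCompact_of_isClosed_isBounded isClosed_closure hb.closure

/-- moment vectors of convex closed lower sets -/
def D2SS (G : X n → ℝ) : Set (Option (Fin n) → ℝ) :=
  {s | ∃ L : Set (X n), IsClosed L ∧ L.Nonempty ∧ IsLowerSet L ∧
      (∀ x ∈ L, ∀ y ∈ L, mid x y ∈ L) ∧ 0 < (volume L).toReal ∧
      s = fun i => (∫ x in L, D2HH G i x) / (volume L).toReal}

theorem d2_SS_subset {G : X n → ℝ} {M : ℝ≥0} (hG : LipschitzWith M G) :
    D2SS G ⊆ closure (D2V0 G) := by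
  classical
  rintro s ⟨L, hL, hne, hlow, hmid, hpos, rfl⟩
  rw [Metric.mem_closure_iff]
  intro ε hε
  obtain ⟨ρ, hρ, happ⟩ := exists_dens_approx L hL hlow hpos
    (Finset.univ.image (D2HH G)) (by
      intro f hf
      obtain ⟨i, _, rfl⟩ := Finset.mem_image.mp hf
      exact d2_HH_cont hG i) (half_pos hε)
  refine ⟨D2vv G ρ, ⟨ρ, hρ, rfl⟩, ?_⟩
  rw [dist_pi_lt_iff hε]
  intro i
  have := happ (D2HH G i) (Finset.mem_image_of_mem _ (Finset.mem_univ i))
  have hi : Integrable (fun x => D2HH G i x * ρ x) :=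
    d2_integrable_cont ((d2_HH_cont hG i).mul hρ.d2_cont)
  rw [integral_sub hi (integrable_const _), integral_const] at this
  simp only [probReal_univ, one_smul] at this
  rw [dist_comm, Real.dist_eq]
  exact lt_of_le_of_lt this (half_lt_self hε)

theorem d2_SS_bound {G : X n → ℝ} {M : ℝ≥0} (hG : LipschitzWith M G) (hU : UNC n) :
    ∀ s ∈ D2SS G, ∏ i, s i ≤ (∫ x, max (G x) 0) / 2 ^ n := by
  rintro s ⟨L, hL, hne, hlow, hmid, hpos, rfl⟩
  set m := (volume L).toReal with hm
  have hunc := hU L hL hne hlow hmid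
  rw [Fintype.prod_option]
  have hk : ∀ k : Fin n, 0 ≤ ∫ x in L, D2HH G (some k) x := fun k =>
    setIntegral_nonneg hL.measurableSet (fun x _ => (x k).2.1)
  have e1 : ∏ k : Fin n, ((∫ x in L, D2HH G (some k) x) / m) =
      (∏ k : Fin n, (2 * ∫ x in L, ((x k : unitInterval) : ℝ))) / (2 ^ n * m ^ n) := by
    have : ∀ k : Fin n, (∫ x in L, D2HH G (some k) x) / m =
        (2 * ∫ x in L, ((x k : unitInterval) : ℝ)) / (2 * m) := by
      intro k
      have h2 : ∫ x in L, D2HH G (some k) x = ∫ x in L, ((x k : unitInterval) : ℝ) := rfl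
      rw [h2]
      field_simp
    simp only [this]
    rw [Finset.prod_div_distrib, Finset.prod_const, Finset.card_univ, Fintype.card_fin, mul_pow]
  have e2 : ∏ k : Fin n, ((∫ x in L, D2HH G (some k) x) / m) ≤ m / 2 ^ n := by
    rw [e1, div_le_div_iff₀ (by positivity) (by positivity)]
    calc (∏ k : Fin n, (2 * ∫ x in L, ((x k : unitInterval) : ℝ))) * 2 ^ n ≤ m ^ (n + 1) * 2 ^ n :=
          mul_le_mul_of_nonneg_right hunc (by positivity)
      _ = m * (2 ^ n * m ^ n) := by ring
  have e0 : 0 ≤ ∏ k : Fin n, ((∫ x in L, D2HH G (some k) x) / m) :=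
    Finset.prod_nonneg (fun k _ => div_nonneg (hk k) hpos.le)
  have hGi : Integrable (fun x => max (G x) 0) :=
    d2_integrable_cont (hG.continuous.max continuous_const)
  have hIG : ∫ x in L, D2HH G none x ≤ ∫ x, max (G x) 0 := by
    calc ∫ x in L, D2HH G none x ≤ ∫ x in L, max (G x) 0 :=
          setIntegral_mono (d2_integrable_cont (d2_HH_cont hG none)).integrableOn hGi.integrableOn
            (fun x => le_max_left _ _)
      _ ≤ ∫ x, max (G x) 0 :=
          setIntegral_le_integral hGi (Filter.Eventually.of_forall (fun x => le_max_right _ _))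
  have hI0 : 0 ≤ ∫ x, max (G x) 0 := integral_nonneg (fun x => le_max_right _ _)
  rcases le_or_gt (∫ x in L, D2HH G none x) 0 with h | h
  · have : (∫ x in L, D2HH G none x) / m * ∏ k : Fin n, ((∫ x in L, D2HH G (some k) x) / m) ≤ 0 :=
      mul_nonpos_of_nonpos_of_nonneg (div_nonpos_of_nonpos_of_nonneg h hpos.le) e0
    exact this.trans (by positivity)
  · calc (∫ x in L, D2HH G none x) / m * ∏ k : Fin n, ((∫ x in L, D2HH G (some k) x) / m)
        ≤ (∫ x in L, D2HH G none x) / m * (m / 2 ^ n) :=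
          mul_le_mul_of_nonneg_left e2 (by positivity)
      _ = (∫ x in L, D2HH G none x) / 2 ^ n := by field_simp
      _ ≤ (∫ x, max (G x) 0) / 2 ^ n := by gcongr


theorem d2_Good_PS {G : X n → ℝ} {M : ℝ≥0} {κ : ℝ} (hκ : 0 < κ) (hG : LipschitzWith M G)
    (hc : ∀ x y, (G x + G y) / 2 + κ * ∑ k, ((x k : ℝ) - y k) ^ 2 ≤ G (mid x y))
    (u : Option (Fin n) → ℝ) (hu : 0 ≤ u none)
    (B : ℝ≥0) (hB : ∑ i, |u i| ≤ B) : Good (B * (M + 1)) (D2PS G u) := by
  refine ⟨d2_PS_lip hG u B hB, fun x y => ?_⟩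
  have h := d2_PS_conc hc u hu x y
  have h2 : 0 ≤ u none * (κ * ∑ k, ((x k : ℝ) - y k) ^ 2) :=
    mul_nonneg hu (mul_nonneg hκ.le (Finset.sum_nonneg (fun k _ => sq_nonneg _)))
  linarith

/-- linear functional bound extended to the closure -/
theorem d2_closure_le {G : X n → ℝ} (u : Option (Fin n) → ℝ) (c : ℝ)
    (h : ∀ v ∈ D2V0 G, ∑ i, u i * v i ≤ c) : ∀ v ∈ closure (D2V0 G), ∑ i, u i * v i ≤ c := by
  have hc : IsClosed {v : Option (Fin n) → ℝ | ∑ i, u i * v i ≤ c} :=
    isClosed_le (continuous_finsetSum _ (fun i _ => continuous_const.mul (continuous_apply i)))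
      continuous_const
  exact closure_minimal (fun v hv => h v hv) hc

theorem d2_dual_F1 {G : X n → ℝ} {M : ℝ≥0} {κ : ℝ} (hκ : 0 < κ) (hG : LipschitzWith M G)
    (hc : ∀ x y, (G x + G y) / 2 + κ * ∑ k, ((x k : ℝ) - y k) ^ 2 ≤ G (mid x y))
    (u : Option (Fin n) → ℝ) (hu : ∀ i, 0 < u i) (ε : ℝ) (hε : 0 < ε) :
    ∃ s ∈ D2SS G, ∀ v ∈ closure (D2V0 G), ∑ i, u i * v i ≤ ∑ i, u i * s i + ε := by
  have hgood := d2_Good_PS hκ hG hc u (hu none).le (Real.toNNReal (∑ i, |u i|))
    (Real.le_coe_toNNReal _)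
  obtain ⟨g, _, _, hg, _, _, _, hp, _, _⟩ := isotonic_triple hgood hgood hgood hgood.conc
  obtain ⟨L, hL, hne, hlow, hmid, hpos, hge⟩ := hp.exists_set hgood.lip.continuous hg hε
  refine ⟨fun i => (∫ x in L, D2HH G i x) / (volume L).toReal,
    ⟨L, hL, hne, hlow, hmid, hpos, rfl⟩, ?_⟩
  have e1 : ∑ i, u i * ((∫ x in L, D2HH G i x) / (volume L).toReal) =
      (∫ x in L, D2PS G u x) / (volume L).toReal := by
    have hi : ∀ i ∈ (Finset.univ : Finset (Option (Fin n))),
        Integrable (fun x => u i * D2HH G i x) (volume.restrict L) := fun i _ =>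
      ((d2_integrable_cont (d2_HH_cont hG i)).integrableOn (s := L)).const_mul (u i)
    have : ∫ x in L, D2PS G u x = ∑ i, u i * ∫ x in L, D2HH G i x := by
      simp only [D2PS]
      rw [integral_finsetSum _ hi]
      exact Finset.sum_congr rfl (fun i _ => integral_const_mul _ _)
    rw [this, Finset.sum_div]
    exact Finset.sum_congr rfl (fun i _ => by ring)
  rw [e1]
  have e2 : g 0 - ε ≤ (∫ x in L, D2PS G u x) / (volume L).toReal := by
    rw [le_div_iff₀ hpos]
    exact hge
  apply d2_closure_le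
  rintro v ⟨ρ, hρ, rfl⟩
  rw [d2_sum_vv hG hρ u]
  have := hp.dens_le hgood.lip.continuous hg.lip.continuous hρ
  linarith

theorem d2_mid_zero : mid (0 : X n) 0 = 0 := by
  funext k
  apply Subtype.ext
  show (((0 : unitInterval) : ℝ) + ((0 : unitInterval) : ℝ)) / 2 = ((0 : unitInterval) : ℝ)
  simp

theorem d2_PS_add {G : X n → ℝ} (u : Option (Fin n) → ℝ) (i : Option (Fin n)) (η : ℝ)
    [DecidableEq (Option (Fin n))] (x : X n) :
    D2PS G (Function.update u i (u i + η)) x = D2PS G u x + η * D2HH G i x := by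
  simp only [D2PS]
  rw [← Finset.add_sum_erase _ _ (Finset.mem_univ i), ← Finset.add_sum_erase _ _ (Finset.mem_univ i)]
  rw [Function.update_self]
  have : ∑ j ∈ Finset.univ.erase i, Function.update u i (u i + η) j * D2HH G j x =
      ∑ j ∈ Finset.univ.erase i, u j * D2HH G j x := by
    refine Finset.sum_congr rfl (fun j hj => ?_)
    rw [Function.update_of_ne (Finset.ne_of_mem_erase hj)]
  rw [this]
  ring

theorem d2_dual_F2 {G : X n → ℝ} {M : ℝ≥0} {κ : ℝ} (hκ : 0 < κ) (hG : LipschitzWith M G)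
    (hc : ∀ x y, (G x + G y) / 2 + κ * ∑ k, ((x k : ℝ) - y k) ^ 2 ≤ G (mid x y))
    (u : Option (Fin n) → ℝ) (hu : ∀ i, 0 < u i) :
    ∃ C η₀ : ℝ, 0 < η₀ ∧ ∀ i : Option (Fin n), ∀ η : ℝ, 0 < η → η ≤ η₀ →
      ∀ v ∈ closure (D2V0 G), ∀ w ∈ closure (D2V0 G), ∀ c : ℝ,
      (∀ x ∈ closure (D2V0 G), ∑ i, u i * x i ≤ c) →
      ∑ i, u i * v i + ∑ i, u i * w i + η * (v i - w i) ≤ 2 * c + C * η ^ 2 := by
  classical
  set Λ : ℝ := (M : ℝ) + 1 with hΛ
  have hΛ0 : 0 < Λ := by have := M.2; simp only [hΛ]; linarith [NNReal.coe_nonneg M]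
  set a : ℝ := u none * κ with ha
  have ha0 : 0 < a := mul_pos (hu none) hκ
  set C₀ : ℝ := Λ ^ 2 / (4 * a) with hC₀
  refine ⟨2 * C₀, u none / 2, half_pos (hu none), ?_⟩
  intro i η hη hηle
  -- the three functions
  set f0 : X n → ℝ := D2PS G (Function.update u i (u i + η)) with hf0
  set f1 : X n → ℝ := D2PS G (Function.update u i (u i + -η)) with hf1
  set z : X n → ℝ := fun x => D2PS G u x + C₀ * η ^ 2 with hz
  have hf0e : ∀ x, f0 x = D2PS G u x + η * D2HH G i x := fun x => d2_PS_add u i η x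
  have hf1e : ∀ x, f1 x = D2PS G u x + (-η) * D2HH G i x := fun x => d2_PS_add u i (-η) x
  -- common Lipschitz constant
  set B : ℝ≥0 := Real.toNNReal ((∑ j, |u j|) + η) with hB
  have hBv : (B : ℝ) = (∑ j, |u j|) + η :=
    Real.coe_toNNReal _ (add_nonneg (Finset.sum_nonneg (fun j _ => abs_nonneg _)) hη.le)
  have habs : ∀ t : ℝ, |t| = η → ∑ j, |Function.update u i (u i + t) j| ≤ (B : ℝ) := by
    intro t ht
    rw [hBv]
    rw [← Finset.add_sum_erase _ _ (Finset.mem_univ i),
      ← Finset.add_sum_erase (a := i) Finset.univ (fun j => |u j|) (Finset.mem_univ i)]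
    rw [Function.update_self]
    have : ∑ j ∈ Finset.univ.erase i, |Function.update u i (u i + t) j| =
        ∑ j ∈ Finset.univ.erase i, |u j| := by
      refine Finset.sum_congr rfl (fun j hj => ?_)
      rw [Function.update_of_ne (Finset.ne_of_mem_erase hj)]
    rw [this]
    have := abs_add_le (u i) t
    rw [ht] at this
    linarith
  have hupd : ∀ t : ℝ, |t| = η → 0 ≤ Function.update u i (u i + t) none := by
    intro t ht
    by_cases hi : i = none
    · subst hi
      rw [Function.update_self]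
      have := neg_abs_le t
      rw [ht] at this
      have := hu none
      linarith
    · rw [Function.update_of_ne (Ne.symm hi)]
      exact (hu none).le
  have habη : |η| = η := abs_of_pos hη
  have habη' : |-η| = η := by rw [abs_neg, habη]
  have hg0 : Good (B * (M + 1)) f0 :=
    d2_Good_PS hκ hG hc _ (hupd η habη) B (habs η habη)
  have hg1 : Good (B * (M + 1)) f1 :=
    d2_Good_PS hκ hG hc _ (hupd (-η) habη') B (habs (-η) habη')
  have hgu : Good (B * (M + 1)) (D2PS G u) :=
    d2_Good_PS hκ hG hc u (hu none).le B (by rw [hBv]; linarith)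
  have hgz : Good (B * (M + 1)) z := by
    refine ⟨LipschitzWith.of_dist_le_mul (fun x y => ?_), fun x y => ?_⟩
    · have := hgu.lip.dist_le_mul x y
      rw [Real.dist_eq] at this ⊢
      simp only [hz]
      have e : D2PS G u x + C₀ * η ^ 2 - (D2PS G u y + C₀ * η ^ 2) = D2PS G u x - D2PS G u y := by ring
      rw [e]
      exact this
    · have := hgu.conc x y
      simp only [hz]
      linarith
  have hR : Rel z f0 f1 := by
    intro x y
    rw [hf0e, hf1e]
    simp only [hz]
    have h1 := d2_PS_conc hc u (hu none).le x y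
    have h2 : |D2HH G i x - D2HH G i y| ≤ Λ * dist x y := by
      have := (d2_HH_lip hG i).dist_le_mul x y
      rw [Real.dist_eq] at this
      push_cast at this
      exact this
    have h3 := d2_dist_sq_le x y
    have h4 : D2HH G i x - D2HH G i y ≤ Λ * dist x y := (le_abs_self _).trans h2
    have h5 : a * dist x y ^ 2 ≤ u none * (κ * ∑ k, ((x k : ℝ) - y k) ^ 2) := by
      have := mul_le_mul_of_nonneg_left h3 ha0.le
      calc a * dist x y ^ 2 ≤ a * ∑ k, ((x k : ℝ) - y k) ^ 2 := this
        _ = _ := by simp only [ha]; ring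
    have h6 : η * (D2HH G i x - D2HH G i y) ≤ η * (Λ * dist x y) :=
      mul_le_mul_of_nonneg_left h4 hη.le
    have h7 : η * (Λ * dist x y) / 2 ≤ a * dist x y ^ 2 + C₀ * η ^ 2 := by
      have h8 : C₀ * η ^ 2 = (Λ * η) ^ 2 / (4 * a) := by simp only [hC₀]; ring
      have h9 : 0 ≤ (2 * a * dist x y - Λ * η) ^ 2 / (4 * a) := by positivity
      have h10 : (2 * a * dist x y - Λ * η) ^ 2 / (4 * a) =
          a * dist x y ^ 2 - η * (Λ * dist x y) + (Λ * η) ^ 2 / (4 * a) := by
        field_simp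
        ring
      have h11 : 0 ≤ η * (Λ * dist x y) := by
        have := dist_nonneg (x := x) (y := y)
        positivity
      rw [h8]
      linarith
    linarith
  obtain ⟨g0, g1, w0, hG0, hG1, hGw, hRw, hp0, hp1, hpz⟩ := isotonic_triple hg0 hg1 hgz hR
  -- the bound for densities
  have hbase : ∀ v ∈ closure (D2V0 G), ∀ w ∈ closure (D2V0 G), ∀ c : ℝ,
      (∀ x ∈ closure (D2V0 G), ∑ i, u i * x i ≤ c) →
      ∑ i, u i * v i + ∑ i, u i * w i + η * (v i - w i) ≤ 2 * c + 2 * C₀ * η ^ 2 := by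
    intro v hv w hw c hcb
    -- `w0 0 ≤ c + C₀ η²`
    have hw0 : w0 0 ≤ c + C₀ * η ^ 2 := by
      refine le_of_forall_pos_le_add (fun ε hε => ?_)
      obtain ⟨ρ, hρ, hge⟩ := hpz.exists_dens hgz.lip.continuous hGw.lip hε
      have e1 : ∫ x, z x * ρ x = ∑ j, u j * D2vv G ρ j + C₀ * η ^ 2 := by
        rw [d2_sum_vv hG hρ u]
        have e2 : ∀ x, z x * ρ x = D2PS G u x * ρ x + C₀ * η ^ 2 * ρ x := by
          intro x; simp only [hz]; ring
        simp only [e2]
        have i1 : Integrable (fun x => D2PS G u x * ρ x) :=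
          d2_integrable_cont ((d2_PS_cont hG u).mul hρ.d2_cont)
        have i2 : Integrable (fun x => C₀ * η ^ 2 * ρ x) := (d2_integrable_cont hρ.d2_cont).const_mul _
        rw [integral_add i1 i2, integral_const_mul, hρ.int, mul_one]
      have e3 := hcb (D2vv G ρ) (subset_closure ⟨ρ, hρ, rfl⟩)
      linarith
    have h00 : g0 0 + g1 0 ≤ 2 * w0 0 := by
      have := hRw 0 0
      rw [d2_mid_zero] at this
      linarith
    -- for `v`
    have hv' : ∑ j, Function.update u i (u i + η) j * v j ≤ g0 0 := by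
      refine d2_closure_le _ _ ?_ v hv
      rintro v' ⟨ρ, hρ, rfl⟩
      rw [d2_sum_vv hG hρ]
      exact hp0.dens_le hg0.lip.continuous hG0.lip.continuous hρ
    have hw' : ∑ j, Function.update u i (u i + -η) j * w j ≤ g1 0 := by
      refine d2_closure_le _ _ ?_ w hw
      rintro v' ⟨ρ, hρ, rfl⟩
      rw [d2_sum_vv hG hρ]
      exact hp1.dens_le hg1.lip.continuous hG1.lip.continuous hρ
    have hupdsum : ∀ (t : ℝ) (v : Option (Fin n) → ℝ),
        ∑ j, Function.update u i (u i + t) j * v j = ∑ j, u j * v j + t * v i := by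
      intro t v
      rw [← Finset.add_sum_erase _ _ (Finset.mem_univ i),
        ← Finset.add_sum_erase (a := i) Finset.univ (fun j => u j * v j) (Finset.mem_univ i)]
      rw [Function.update_self]
      have : ∑ j ∈ Finset.univ.erase i, Function.update u i (u i + t) j * v j =
          ∑ j ∈ Finset.univ.erase i, u j * v j := by
        refine Finset.sum_congr rfl (fun j hj => ?_)
        rw [Function.update_of_ne (Finset.ne_of_mem_erase hj)]
      rw [this]
      ring
    rw [hupdsum] at hv' hw'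
    linarith
  exact hbase

/-- D2: the main step -/
theorem cxs_of_unc (n : ℕ) (h : UNC n) : CXs n := by
  intro ρ G M κ hκ hρ hG hc
  have hkk : ∀ k : Fin n, 0 ≤ ∫ x, ((x k : unitInterval) : ℝ) * ρ x := fun k =>
    integral_nonneg (fun x => mul_nonneg (x k).2.1 (hρ.nonneg x))
  have hprod0 : 0 ≤ ∏ k : Fin n, (2 * ∫ x, ((x k : unitInterval) : ℝ) * ρ x) :=
    Finset.prod_nonneg (fun k _ => mul_nonneg (by norm_num) (hkk k))
  have hI0 : 0 ≤ ∫ x, max (G x) 0 := integral_nonneg (fun x => le_max_right _ _)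
  by_cases hpos : ∀ i, 0 < D2vv G ρ i
  · have key := prod_le_of_dual (closure (D2V0 G)) (D2SS G) ((∫ x, max (G x) 0) / 2 ^ n)
      (d2_V_compact hG) (d2_V0_convex hG).closure (d2_SS_subset hG)
      (fun u hu ε hε => d2_dual_F1 hκ hG hc u hu ε hε) (fun u hu => d2_dual_F2 hκ hG hc u hu)
      (d2_SS_bound hG h) (D2vv G ρ) (subset_closure ⟨ρ, hρ, rfl⟩) hpos
    rw [Fintype.prod_option] at key
    have e1 : D2vv G ρ none = ∫ x, G x * ρ x := rfl
    have e2 : ∀ k : Fin n, D2vv G ρ (some k) = ∫ x, ((x k : unitInterval) : ℝ) * ρ x := fun k => rfl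
    simp only [e1, e2] at key
    rw [le_div_iff₀ (by positivity)] at key
    rw [Finset.prod_mul_distrib, Finset.prod_const, Finset.card_univ, Fintype.card_fin]
    linarith
  · push Not at hpos
    obtain ⟨i, hi⟩ := hpos
    cases i with
    | none =>
      have : (∫ x, G x * ρ x) * ∏ k : Fin n, (2 * ∫ x, ((x k : unitInterval) : ℝ) * ρ x) ≤ 0 :=
        mul_nonpos_of_nonpos_of_nonneg hi hprod0
      linarith
    | some k =>
      have h0 : ∫ x, ((x k : unitInterval) : ℝ) * ρ x = 0 := le_antisymm hi (hkk k)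
      have : ∏ k : Fin n, (2 * ∫ x, ((x k : unitInterval) : ℝ) * ρ x) = 0 :=
        Finset.prod_eq_zero (Finset.mem_univ k) (by rw [h0, mul_zero])
      rw [this, mul_zero]
      exact hI0

end Vale.Agent.P254.Unc
end

section

/-! P254/FV1, L1: the support functional of the antitone Lipschitz probability densities. -/

open MeasureTheory Set
open scoped NNReal

namespace Vale.Agent.P254.FV1

open Unc

variable {n : ℕ}

theorem Sup_dens_one : Dens n (fun _ => (1 : ℝ)) := by
  refine ⟨fun _ _ _ => le_rfl, fun _ => zero_le_one, ⟨0, LipschitzWith.const _⟩, ?_⟩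
  simp

theorem Sup_cont {ρ : X n → ℝ} (h : Dens n ρ) : Continuous ρ := by
  obtain ⟨K, hK⟩ := h.lip
  exact hK.continuous

theorem Sup_bound {f : X n → ℝ} (hf : Continuous f) :
    ∃ B : ℝ, ∀ ρ, Dens n ρ → ∫ x, f x * ρ x ≤ B := by
  obtain ⟨C, hC⟩ := (isCompact_univ (X := X n)).exists_bound_of_continuousOn hf.continuousOn
  refine ⟨C, fun ρ hρ => ?_⟩
  have hc := Sup_cont hρ
  calc ∫ x, f x * ρ x ≤ ∫ x, C * ρ x := by
        refine integral_mono (Unc.integrable_of_cont (hf.mul hc))
          (Unc.integrable_of_cont (continuous_const.mul hc)) fun x => ?_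
        have h := hC x (mem_univ x)
        rw [Real.norm_eq_abs] at h
        exact mul_le_mul_of_nonneg_right ((le_abs_self _).trans h) (hρ.nonneg x)
    _ = C := by rw [integral_const_mul, hρ.int, mul_one]

theorem Sup_bdd {f : X n → ℝ} (hf : Continuous f) :
    BddAbove {r : ℝ | ∃ ρ, Dens n ρ ∧ r = ∫ x, f x * ρ x} := by
  obtain ⟨B, hB⟩ := Sup_bound hf
  refine ⟨B, ?_⟩
  rintro _ ⟨ρ, hρ, rfl⟩
  exact hB ρ hρ

theorem le_Sf {f ρ : X n → ℝ} (hf : Continuous f) (hρ : Dens n ρ) : ∫ x, f x * ρ x ≤ Sf f :=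
  le_csSup (Sup_bdd hf) ⟨ρ, hρ, rfl⟩

theorem Sf_le {f : X n → ℝ} {c : ℝ} (h : ∀ ρ, Dens n ρ → ∫ x, f x * ρ x ≤ c) : Sf f ≤ c := by
  refine csSup_le ⟨_, ⟨fun _ => 1, Sup_dens_one, rfl⟩⟩ ?_
  rintro _ ⟨ρ, hρ, rfl⟩
  exact h ρ hρ

theorem exists_Sf {f : X n → ℝ} (hf : Continuous f) {ε : ℝ} (hε : 0 < ε) :
    ∃ ρ, Dens n ρ ∧ Sf f - ε ≤ ∫ x, f x * ρ x := by
  have hne : {r : ℝ | ∃ ρ, Dens n ρ ∧ r = ∫ x, f x * ρ x}.Nonempty :=
    ⟨_, ⟨fun _ => 1, Sup_dens_one, rfl⟩⟩
  obtain ⟨r, ⟨ρ, hρ, rfl⟩, h⟩ := exists_lt_of_lt_csSup hne (show Sf f - ε < sSup _ by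
    show Sf f - ε < Sf f
    linarith)
  exact ⟨ρ, hρ, h.le⟩

theorem Sf_le_add {f g : X n → ℝ} (hf : Continuous f) (hg : Continuous g) {ε : ℝ}
    (h : ∀ x, f x ≤ g x + ε) : Sf f ≤ Sf g + ε := by
  refine Sf_le fun ρ hρ => ?_
  have hc := Sup_cont hρ
  have h1 := le_Sf hg hρ
  have h2 : ∫ x, f x * ρ x ≤ ∫ x, (g x * ρ x + ε * ρ x) := by
    refine integral_mono (Unc.integrable_of_cont (hf.mul hc))
      (Unc.integrable_of_cont ((hg.mul hc).add (continuous_const.mul hc))) fun x => ?_
    have := mul_le_mul_of_nonneg_right (h x) (hρ.nonneg x)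
    simp only []
    linarith
  have h3 : ∫ x, (g x * ρ x + ε * ρ x) = (∫ x, g x * ρ x) + ∫ x, ε * ρ x :=
    integral_add (Unc.integrable_of_cont (hg.mul hc))
      (Unc.integrable_of_cont (continuous_const.mul hc))
  have h4 : ∫ x, ε * ρ x = ε := by rw [integral_const_mul, hρ.int, mul_one]
  rw [h3, h4] at h2
  linarith

theorem Sf_dist {f g : X n → ℝ} (hf : Continuous f) (hg : Continuous g) {ε : ℝ}
    (h : ∀ x, |f x - g x| ≤ ε) : |Sf f - Sf g| ≤ ε := by
  rw [abs_sub_le_iff]
  constructor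
  · have := Sf_le_add hf hg (ε := ε) fun x => by have := (abs_le.1 (h x)).2; linarith
    linarith
  · have := Sf_le_add hg hf (ε := ε) fun x => by have := (abs_le.1 (h x)).1; linarith
    linarith

theorem Sup_mid_zero : mid (0 : X n) 0 = 0 := by
  funext k
  apply Subtype.ext
  show (((0 : unitInterval) : ℝ) + ((0 : unitInterval) : ℝ)) / 2 = ((0 : unitInterval) : ℝ)
  simp

theorem Sf_mid {M : ℝ≥0} {f0 f1 z : X n → ℝ} (h0 : Good M f0) (h1 : Good M f1) (hz : Good M z)
    (hR : Rel z f0 f1) : (Sf f0 + Sf f1) / 2 ≤ Sf z := by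
  obtain ⟨g0, g1, w, hg0, hg1, hw, hrel, p0, p1, pz⟩ := isotonic_triple h0 h1 hz hR
  have e0 : Sf f0 ≤ g0 0 := Sf_le fun ρ hρ => p0.dens_le h0.lip.continuous hg0.lip.continuous hρ
  have e1 : Sf f1 ≤ g1 0 := Sf_le fun ρ hρ => p1.dens_le h1.lip.continuous hg1.lip.continuous hρ
  have e2 := hrel 0 0
  rw [Sup_mid_zero] at e2
  have e3 : w 0 ≤ Sf z := by
    refine le_of_forall_pos_le_add fun ε hε => ?_
    obtain ⟨ρ, hρ, h⟩ := pz.exists_dens hz.lip.continuous hw.lip hε
    have := le_Sf hz.lip.continuous hρ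
    linarith
  linarith

end Vale.Agent.P254.FV1
end

section

/-! P254-FV1, L3: separation (Hahn-Banach) for the moment vectors. -/

open MeasureTheory Set Filter Topology
open scoped NNReal

namespace Vale.Agent.P254.FV1

open Unc

variable {n : ℕ}

theorem sep_dens_one : Dens n (fun _ => (1 : ℝ)) where
  anti := fun _ _ _ => le_refl _
  nonneg := fun _ => zero_le_one
  lip := ⟨0, LipschitzWith.const _⟩
  int := by simp

theorem sep_Sf_le {f : X n → ℝ} {c : ℝ} (h : ∀ ρ, Dens n ρ → ∫ x, f x * ρ x ≤ c) : Sf f ≤ c := by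
  refine csSup_le ⟨_, _, sep_dens_one, rfl⟩ ?_
  rintro r ⟨ρ, hρ, rfl⟩
  exact h ρ hρ

theorem sep_mem (hCX : CX n) {G : X n → ℝ} {M : ℝ≥0} (hG : LipschitzWith M G) (hR : Rel G G G) :
    ∀ w ∈ closure (D2V0 G), ∏ i, w i ≤ (∫ x, max (G x) 0) / 2 ^ n := by
  have hc : IsClosed {w : Option (Fin n) → ℝ | ∏ i, w i ≤ (∫ x, max (G x) 0) / 2 ^ n} :=
    isClosed_le (continuous_finsetProd _ (fun i _ => continuous_apply i)) continuous_const
  refine closure_minimal ?_ hc
  rintro w ⟨ρ, hρ, rfl⟩
  obtain ⟨K, hK⟩ := hρ.lip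
  have h := hCX ρ G K M hρ.anti hρ.nonneg hK hG hR
  rw [hρ.int, one_pow, one_mul, Finset.prod_mul_distrib, Finset.prod_const, Finset.card_univ,
    Fintype.card_fin] at h
  show ∏ i, D2vv G ρ i ≤ _
  rw [le_div_iff₀ (by positivity), Fintype.prod_option]
  have e1 : D2vv G ρ none = ∫ x, G x * ρ x := rfl
  have e2 : ∀ k : Fin n, D2vv G ρ (some k) = ∫ x, ((x k : unitInterval) : ℝ) * ρ x := fun _ => rfl
  rw [e1, Finset.prod_congr rfl (fun k _ => e2 k)]
  calc _ = (∫ x, G x * ρ x) * (2 ^ n * ∏ k : Fin n, ∫ x, ((x k : unitInterval) : ℝ) * ρ x) := by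
        ring
    _ ≤ _ := h

theorem sep (hCX : CX n) {G : X n → ℝ} {M : ℝ≥0} (hG : LipschitzWith M G) (hR : Rel G G G)
    (v : Option (Fin n) → ℝ) (hv : ∀ i, 0 ≤ v i)
    (h : ∀ u : Option (Fin n) → ℝ, (∀ i, 0 ≤ u i) → ∑ i, u i * v i ≤ Sf (D2PS G u)) :
    ∏ i, v i ≤ (∫ x, max (G x) 0) / 2 ^ n := by
  classical
  by_cases hd : Disjoint (closure (D2V0 G)) (Ici v)
  · exfalso
    obtain ⟨f, a, b, h1, h2, h3⟩ := geometric_hahn_banach_compact_closed
      (d2_V0_convex hG).closure (d2_V_compact hG) (convex_Ici v) isClosed_Ici hd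
    set u : Option (Fin n) → ℝ := fun i => f (Pi.single i 1) with hu
    have hf : ∀ z : Option (Fin n) → ℝ, f z = ∑ i, u i * z i := by
      intro z
      conv_lhs => rw [← Finset.univ_sum_single z]
      rw [map_sum]
      refine Finset.sum_congr rfl (fun i _ => ?_)
      have : (Pi.single i (z i) : Option (Fin n) → ℝ) = z i • Pi.single i 1 := by
        rw [← Pi.single_smul]
        simp
      rw [this, map_smul, smul_eq_mul, mul_comm]
    have hu0 : ∀ i, 0 ≤ u i := by
      intro i
      by_contra hneg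
      rw [not_le] at hneg
      have hb := h3 v self_mem_Ici
      have hz : v + ((f v - b) / (-u i)) • (Pi.single i 1 : Option (Fin n) → ℝ) ∈ Ici v := by
        rw [mem_Ici]
        refine le_add_of_nonneg_right ?_
        intro j
        have h5 : 0 ≤ (f v - b) / (-u i) := div_nonneg (by linarith) (by linarith)
        have h6 : (0 : ℝ) ≤ (Pi.single i 1 : Option (Fin n) → ℝ) j := by
          by_cases hj : j = i
          · subst hj
            simp
          · rw [Pi.single_eq_of_ne hj]
        exact mul_nonneg h5 h6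
      have h4 := h3 _ hz
      rw [map_add, map_smul, smul_eq_mul] at h4
      have h7 : f (Pi.single i 1) = u i := rfl
      rw [h7] at h4
      have h8 : (f v - b) / (-u i) * u i = -(f v - b) := by
        have h9 : u i ≠ 0 := hneg.ne
        rw [div_neg, neg_mul, div_mul_cancel₀ _ h9]
      rw [h8] at h4
      linarith
    have h5 := h u hu0
    rw [← hf v] at h5
    have h6 : Sf (D2PS G u) ≤ a := by
      refine sep_Sf_le (fun ρ hρ => ?_)
      rw [← d2_sum_vv hG hρ u, ← hf]
      exact (h1 _ (subset_closure ⟨ρ, hρ, rfl⟩)).le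
    have h7 := h3 v self_mem_Ici
    linarith
  · rw [not_disjoint_iff] at hd
    obtain ⟨w, hw, hvw⟩ := hd
    refine le_trans ?_ (sep_mem hCX hG hR w hw)
    exact Finset.prod_le_prod (fun i _ => hv i) (fun i _ => hvw i)

end Vale.Agent.P254.FV1
end

section

/-!
P254, unconditional bodies, block E1b: fibre lengths of a closed lower set in the direction of the
coordinate `0` of the cube, and Fubini.
-/

open MeasureTheory Set
open scoped NNReal

namespace Vale.Agent.P254.Unc

variable {n : ℕ}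

theorem Hf_nonneg (L : Set (X (n + 1))) (x : X n) : 0 ≤ Hf L x := ENNReal.toReal_nonneg

theorem Hf_le_one (L : Set (X (n + 1))) (x : X n) : Hf L x ≤ 1 := by
  unfold Hf
  have h : volume {t : unitInterval | (Fin.cons t x : X (n + 1)) ∈ L} ≤ 1 := prob_le_one
  exact ENNReal.toReal_le_of_le_ofReal zero_le_one (by simpa using h)

theorem cons_le_cons' {x y : X n} (h : x ≤ y) (t : unitInterval) :
    (Fin.cons t x : X (n + 1)) ≤ Fin.cons t y := by
  intro k
  refine Fin.cases ?_ (fun j => ?_) k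
  · simp
  · simpa using h j

theorem Hf_antitone {L : Set (X (n + 1))} (hlow : IsLowerSet L) : Antitone (Hf L) := by
  intro x y hxy
  unfold Hf
  refine ENNReal.toReal_mono (measure_ne_top _ _) (measure_mono ?_)
  intro t ht
  exact hlow (cons_le_cons' hxy t) ht

/-- The measurable equivalence between the cube and `I × (cube of dimension one less)`. -/
theorem measurable_cons : Measurable
    (fun p : unitInterval × X n => (Fin.cons p.1 p.2 : X (n + 1))) := by
  refine measurable_pi_lambda _ fun k => ?_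
  refine Fin.cases ?_ (fun j => ?_) k
  · simpa using measurable_fst
  · simp only [Fin.cons_succ]
    exact (measurable_pi_apply j).comp measurable_snd

theorem Hf_measurable {L : Set (X (n + 1))} (hL : MeasurableSet L) : Measurable (Hf L) := by
  unfold Hf
  have h : MeasurableSet
      ((fun p : unitInterval × X n => (Fin.cons p.1 p.2 : X (n + 1))) ⁻¹' L) :=
    measurable_cons hL
  exact (measurable_measure_prodMk_right h).ennreal_toReal

/-- Fubini for the first coordinate. -/
theorem integral_cons {F : X (n + 1) → ℝ} (hF : Integrable F) :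
    ∫ z, F z = ∫ x : X n, ∫ t : unitInterval, F (Fin.cons t x) := by
  have mp := (volume_preserving_piFinSuccAbove (fun _ : Fin (n + 1) => unitInterval) 0).symm
  have he : ∀ p : unitInterval × X n,
      (MeasurableEquiv.piFinSuccAbove (fun _ : Fin (n + 1) => unitInterval) 0).symm p
        = Fin.cons p.1 p.2 := by
    intro p
    rw [MeasurableEquiv.piFinSuccAbove_symm_apply, Fin.insertNthEquiv]
    simp only [Equiv.coe_fn_mk]
    exact Fin.insertNth_zero _ _
  have h1 : ∫ z, F z = ∫ p : unitInterval × X n, F (Fin.cons p.1 p.2) := by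
    rw [← mp.integral_comp']
    refine integral_congr_ae (Filter.Eventually.of_forall fun p => ?_)
    exact congrArg F (he p)
  have hint : Integrable (fun p : unitInterval × X n => F (Fin.cons p.1 p.2)) := by
    have := (mp.integrable_comp_emb (MeasurableEquiv.measurableEmbedding _)).2 hF
    refine this.congr (Filter.Eventually.of_forall fun p => ?_)
    exact congrArg F (he p)
  rw [h1]
  exact integral_prod_symm _ hint

/-- Fubini for the first coordinate, on a measurable set. -/
theorem setIntegral_cons {L : Set (X (n + 1))} (hL : MeasurableSet L) {F : X (n + 1) → ℝ}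
    (hF : Integrable F) :
    ∫ z in L, F z = ∫ x : X n, ∫ t in {t : unitInterval | (Fin.cons t x : X (n + 1)) ∈ L},
      F (Fin.cons t x) := by
  rw [← integral_indicator hL, integral_cons (hF.indicator hL)]
  refine integral_congr_ae (Filter.Eventually.of_forall fun x => ?_)
  have hS : MeasurableSet {t : unitInterval | (Fin.cons t x : X (n + 1)) ∈ L} :=
    (measurable_cons.comp measurable_prodMk_right) hL
  simp only
  rw [← integral_indicator hS]
  rfl

/-- A closed lower set of the unit interval has `∫ t = |S|²/2`. -/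
theorem integral_id_lower {S : Set unitInterval} (hS : IsClosed S) (hlow : IsLowerSet S) :
    ∫ t in S, (t : ℝ) = (volume S).toReal ^ 2 / 2 := by
  rcases S.eq_empty_or_nonempty with h | h
  · subst h; simp
  · obtain ⟨a, ha⟩ := hS.isCompact.exists_isGreatest h
    have hSa : S = Iic a := by
      ext t
      exact ⟨fun ht => ha.2 ht, fun ht => hlow ht ha.1⟩
    rw [hSa, unitInterval.volume_Iic, ENNReal.toReal_ofReal a.2.1]
    have h1 : ∫ t in Iic a, (t : ℝ) = ∫ t : unitInterval,
        (fun s : ℝ => (Iic (a : ℝ)).indicator (fun s => s) s) (t : ℝ) := by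
      rw [← integral_indicator measurableSet_Iic]
      rfl
    rw [h1]
    have h2 := integral_subtype_comap (μ := (volume : Measure ℝ))
      (measurableSet_Icc : MeasurableSet (Icc (0 : ℝ) 1))
      (fun s : ℝ => (Iic (a : ℝ)).indicator (fun s => s) s)
    have h3 : ∫ t : unitInterval, (fun s : ℝ => (Iic (a : ℝ)).indicator (fun s => s) s) (t : ℝ)
        = ∫ s in Icc (0 : ℝ) 1, (Iic (a : ℝ)).indicator (fun s => s) s := h2
    rw [h3, setIntegral_indicator measurableSet_Iic]
    have h4 : Icc (0 : ℝ) 1 ∩ Iic (a : ℝ) = Icc 0 (a : ℝ) := by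
      ext s
      simp only [mem_inter_iff, mem_Icc, mem_Iic]
      constructor
      · rintro ⟨⟨h0, _⟩, h2⟩; exact ⟨h0, h2⟩
      · rintro ⟨h0, h2⟩; exact ⟨⟨h0, h2.trans a.2.2⟩, h2⟩
    rw [h4, integral_Icc_eq_integral_Ioc, ← intervalIntegral.integral_of_le a.2.1]
    simp

theorem fib_isClosed {L : Set (X (n + 1))} (hL : IsClosed L) (x : X n) :
    IsClosed {t : unitInterval | (Fin.cons t x : X (n + 1)) ∈ L} := by
  refine hL.preimage ?_
  refine continuous_pi fun k => ?_
  refine Fin.cases ?_ (fun j => ?_) k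
  · simpa using continuous_id'
  · simpa using continuous_const

theorem fib_isLowerSet {L : Set (X (n + 1))} (hlow : IsLowerSet L) (x : X n) :
    IsLowerSet {t : unitInterval | (Fin.cons t x : X (n + 1)) ∈ L} := by
  intro s t hts hs
  refine hlow ?_ hs
  intro k
  refine Fin.cases ?_ (fun j => ?_) k
  · simpa using hts
  · simp

theorem integrable_coord (m : ℕ) (k : Fin m) :
    Integrable (fun x : X m => ((x k : unitInterval) : ℝ)) := by
  refine Integrable.of_bound (C := 1) ?_ (Filter.Eventually.of_forall fun x => ?_)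
  · exact (measurable_subtype_coe.comp (measurable_pi_apply k)).aestronglyMeasurable
  · rw [Real.norm_eq_abs, abs_of_nonneg (x k).2.1]
    exact (x k).2.2

theorem vol_eq_integral_Hf {L : Set (X (n + 1))} (hL : IsClosed L) :
    (volume L).toReal = ∫ x, Hf L x := by
  have h := setIntegral_cons hL.measurableSet (F := fun _ => (1 : ℝ)) (integrable_const _)
  simp only [integral_const, smul_eq_mul, mul_one] at h
  rw [Measure.real, Measure.restrict_apply_univ] at h
  rw [h]
  refine integral_congr_ae (Filter.Eventually.of_forall fun x => ?_)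
  simp [Hf, Measure.real]

theorem integral_zero_eq {L : Set (X (n + 1))} (hL : IsClosed L) (hlow : IsLowerSet L) :
    ∫ z in L, ((z 0 : unitInterval) : ℝ) = ∫ x, (Hf L x) ^ 2 / 2 := by
  rw [setIntegral_cons hL.measurableSet (integrable_coord (n + 1) 0)]
  refine integral_congr_ae (Filter.Eventually.of_forall fun x => ?_)
  simp only [Fin.cons_zero]
  exact integral_id_lower (fib_isClosed hL x) (fib_isLowerSet hlow x)

theorem integral_succ_eq {L : Set (X (n + 1))} (hL : IsClosed L) (k : Fin n) :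
    ∫ z in L, ((z k.succ : unitInterval) : ℝ) = ∫ x, ((x k : unitInterval) : ℝ) * Hf L x := by
  rw [setIntegral_cons hL.measurableSet (integrable_coord (n + 1) k.succ)]
  refine integral_congr_ae (Filter.Eventually.of_forall fun x => ?_)
  simp only [Fin.cons_succ, integral_const, smul_eq_mul]
  rw [Measure.real, Measure.restrict_apply_univ, mul_comm]
  rfl

theorem fub_vol (L : Set (X (n + 1))) (hL : IsClosed L) :
    (volume L).toReal = ∫ x : X n, Hf L x := vol_eq_integral_Hf hL

theorem fub_zero (L : Set (X (n + 1))) (hL : IsClosed L) (hlow : IsLowerSet L) :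
    2 * ∫ p in L, ((p 0 : unitInterval) : ℝ) = ∫ x : X n, Hf L x ^ 2 := by
  rw [integral_zero_eq hL hlow, ← integral_const_mul]
  refine integral_congr_ae (Filter.Eventually.of_forall fun x => ?_)
  simp only
  ring

theorem fub_succ (L : Set (X (n + 1))) (hL : IsClosed L) (k : Fin n) :
    ∫ p in L, ((p k.succ : unitInterval) : ℝ) = ∫ x : X n, ((x k : unitInterval) : ℝ) * Hf L x :=
  integral_succ_eq hL k

end Vale.Agent.P254.Unc
end

section

/-! P254/FV1, L4: the functional inequality with one free variable, from `CX`. -/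

open MeasureTheory Set
open scoped NNReal

namespace Vale.Agent.P254.FV1

open Unc

variable {n : ℕ}

/-- The section of a function at the value `t` of the first coordinate. -/
def Fcx_sec (G : X (n + 1) → ℝ) (t : unitInterval) (x : X n) : ℝ := G (Fin.cons t x)

theorem Fcx_cons_dist (s t : unitInterval) (x y : X n) :
    dist (Fin.cons s x : X (n + 1)) (Fin.cons t y) ≤ max (dist s t) (dist x y) := by
  rw [dist_pi_le_iff (le_max_of_le_left dist_nonneg)]
  intro k
  refine Fin.cases ?_ (fun j => ?_) k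
  · simp only [Fin.cons_zero]
    exact le_max_left _ _
  · simp only [Fin.cons_succ]
    exact (dist_le_pi_dist x y j).trans (le_max_right _ _)

theorem Fcx_cons_cont :
    Continuous (fun p : X n × unitInterval => (Fin.cons p.2 p.1 : X (n + 1))) := by
  refine continuous_pi fun k => ?_
  refine Fin.cases ?_ (fun j => ?_) k
  · simpa using continuous_snd
  · simp only [Fin.cons_succ]
    exact (continuous_apply j).comp continuous_fst

theorem Fcx_cons_cont' :
    Continuous (fun p : unitInterval × X n => (Fin.cons p.1 p.2 : X (n + 1))) :=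
  Fcx_cons_cont.comp continuous_swap

theorem Fcx_fub {F : X (n + 1) → ℝ} (hF : Continuous F) :
    ∫ z, F z = ∫ t : unitInterval, ∫ x : X n, F (Fin.cons t x) := by
  rw [integral_cons (d2_integrable_cont hF)]
  refine integral_integral_swap (f := fun (x : X n) (t : unitInterval) => F (Fin.cons t x)) ?_
  have hc : Continuous (Function.uncurry fun (x : X n) (t : unitInterval) => F (Fin.cons t x)) :=
    hF.comp Fcx_cons_cont
  exact hc.integrable_of_hasCompactSupport (HasCompactSupport.of_compactSpace _)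

theorem Fcx_int_cont {F : X (n + 1) → ℝ} (hF : Continuous F) :
    Continuous (fun t : unitInterval => ∫ x : X n, F (Fin.cons t x)) := by
  have hc : Continuous (Function.uncurry fun (t : unitInterval) (x : X n) => F (Fin.cons t x)) :=
    hF.comp Fcx_cons_cont'
  have h := continuous_parametric_integral_of_continuous (μ := (volume : Measure (X n))) hc
    (isCompact_univ (X := X n))
  simpa using h

theorem Fcx_sec_lip {G : X (n + 1) → ℝ} {M : ℝ≥0} (hG : LipschitzWith M G) (t : unitInterval) :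
    LipschitzWith M (Fcx_sec G t) := by
  refine LipschitzWith.of_dist_le_mul fun x y => ?_
  refine (hG.dist_le_mul _ _).trans (mul_le_mul_of_nonneg_left ?_ M.2)
  refine (Fcx_cons_dist t t x y).trans ?_
  rw [dist_self]
  exact max_le dist_nonneg le_rfl

theorem Fcx_mid_self (t : unitInterval) : mid1 t t = t := by
  apply Subtype.ext
  show ((t : ℝ) + t) / 2 = t
  ring

theorem Fcx_mid_cons (s t : unitInterval) (x y : X n) :
    mid (Fin.cons s x : X (n + 1)) (Fin.cons t y) = Fin.cons (mid1 s t) (mid x y) := by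
  funext k
  refine Fin.cases ?_ (fun j => ?_) k
  · rfl
  · rfl

theorem Fcx_sec_rel {G : X (n + 1) → ℝ} (hR : Rel G G G) (s t : unitInterval) :
    Rel (Fcx_sec G (mid1 s t)) (Fcx_sec G s) (Fcx_sec G t) := by
  intro x y
  have h := hR (Fin.cons s x) (Fin.cons t y)
  rw [Fcx_mid_cons] at h
  exact h

theorem Fcx_rel {G : X (n + 1) → ℝ} (hR : Rel G G G) (u : Option (Fin n) → ℝ) (hu : 0 ≤ u none)
    (s t : unitInterval) :
    Rel (D2PS (Fcx_sec G (mid1 s t)) u) (D2PS (Fcx_sec G s) u) (D2PS (Fcx_sec G t) u) := by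
  intro x y
  rw [d2_PS_eq, d2_PS_eq, d2_PS_eq]
  have h1 : ∑ k, u (some k) * ((mid x y k : unitInterval) : ℝ) =
      (∑ k, u (some k) * ((x k : unitInterval) : ℝ) +
        ∑ k, u (some k) * ((y k : unitInterval) : ℝ)) / 2 := by
    rw [← Finset.sum_add_distrib, Finset.sum_div]
    exact Finset.sum_congr rfl (fun k _ => by rw [d2_mid_coe]; ring)
  rw [h1]
  have := mul_le_mul_of_nonneg_left (Fcx_sec_rel hR s t x y) hu
  linarith

theorem Fcx_good {G : X (n + 1) → ℝ} {M : ℝ≥0} (hG : LipschitzWith M G) (hR : Rel G G G)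
    (u : Option (Fin n) → ℝ) (hu : 0 ≤ u none) (t : unitInterval) :
    Good (Real.toNNReal (∑ i, |u i|) * (M + 1)) (D2PS (Fcx_sec G t) u) := by
  refine ⟨d2_PS_lip (Fcx_sec_lip hG t) u _ (Real.le_coe_toNNReal _), ?_⟩
  have h := Fcx_rel hR u hu t t
  rw [Fcx_mid_self] at h
  exact h

theorem Fcx_phi_cont {G : X (n + 1) → ℝ} {M : ℝ≥0} (hG : LipschitzWith M G)
    (u : Option (Fin n) → ℝ) : Continuous (fun t => Sf (D2PS (Fcx_sec G t) u)) := by
  have h : LipschitzWith (Real.toNNReal |u none| * M) (fun t => Sf (D2PS (Fcx_sec G t) u)) := by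
    refine LipschitzWith.of_dist_le_mul fun s t => ?_
    rw [Real.dist_eq]
    refine Sf_dist (d2_PS_cont (Fcx_sec_lip hG s) u) (d2_PS_cont (Fcx_sec_lip hG t) u) fun x => ?_
    rw [d2_PS_eq, d2_PS_eq]
    have e : u none * Fcx_sec G s x + ∑ k, u (some k) * ((x k : unitInterval) : ℝ) -
        (u none * Fcx_sec G t x + ∑ k, u (some k) * ((x k : unitInterval) : ℝ)) =
        u none * (Fcx_sec G s x - Fcx_sec G t x) := by ring
    rw [e, abs_mul, NNReal.coe_mul, Real.coe_toNNReal _ (abs_nonneg _), mul_assoc]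
    refine mul_le_mul_of_nonneg_left ?_ (abs_nonneg _)
    rw [← Real.dist_eq]
    refine (hG.dist_le_mul _ _).trans (mul_le_mul_of_nonneg_left ?_ M.2)
    refine (Fcx_cons_dist s t x x).trans ?_
    rw [dist_self]
    exact max_le le_rfl dist_nonneg
  exact h.continuous

theorem Fcx_phi_mid {G : X (n + 1) → ℝ} {M : ℝ≥0} (hG : LipschitzWith M G) (hR : Rel G G G)
    (u : Option (Fin n) → ℝ) (hu : 0 ≤ u none) (s t : unitInterval) :
    (Sf (D2PS (Fcx_sec G s) u) + Sf (D2PS (Fcx_sec G t) u)) / 2 ≤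
      Sf (D2PS (Fcx_sec G (mid1 s t)) u) :=
  Sf_mid (Fcx_good hG hR u hu s) (Fcx_good hG hR u hu t) (Fcx_good hG hR u hu _)
    (Fcx_rel hR u hu s t)

theorem Fcx_sec_le {ρ : X (n + 1) → ℝ} {K : ℝ≥0} (hρ : LipschitzWith K ρ) (h0 : ∀ x, 0 ≤ ρ x)
    (hanti : ∀ x y, x ≤ y → x 0 = y 0 → ρ y ≤ ρ x) {f : X n → ℝ} (hf : Continuous f)
    (t : unitInterval) :
    ∫ x, f x * Fcx_sec ρ t x ≤ Sf f * ∫ x, Fcx_sec ρ t x := by
  have hlip := Fcx_sec_lip hρ t
  have hn : ∀ x, 0 ≤ Fcx_sec ρ t x := fun x => h0 _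
  have hp0 : 0 ≤ ∫ x, Fcx_sec ρ t x := integral_nonneg hn
  rcases hp0.eq_or_lt with h | h
  · have h1 : Fcx_sec ρ t =ᵐ[volume] 0 :=
      (integral_eq_zero_iff_of_nonneg hn (d2_integrable_cont hlip.continuous)).1 h.symm
    have h2 : ∫ x, f x * Fcx_sec ρ t x = 0 := by
      rw [← integral_zero (X n) ℝ]
      refine integral_congr_ae ?_
      filter_upwards [h1] with x hx
      rw [hx]
      simp
    rw [h2, ← h, mul_zero]
  · set p : ℝ := ∫ x, Fcx_sec ρ t x with hp
    have hd : Dens n (fun x => Fcx_sec ρ t x / p) := by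
      refine ⟨fun x y hxy => ?_, fun x => div_nonneg (hn x) hp0, ?_, ?_⟩
      · refine div_le_div_of_nonneg_right ?_ hp0
        refine hanti _ _ (cons_le_cons' hxy t) ?_
        simp
      · refine ⟨Real.toNNReal (1 / p) * K, LipschitzWith.of_dist_le_mul fun x y => ?_⟩
        have h3 := hlip.dist_le_mul x y
        rw [Real.dist_eq] at h3 ⊢
        have e : Fcx_sec ρ t x / p - Fcx_sec ρ t y / p =
            (1 / p) * (Fcx_sec ρ t x - Fcx_sec ρ t y) := by ring
        have hpp : 0 ≤ 1 / p := by positivity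
        rw [e, abs_mul, NNReal.coe_mul, Real.coe_toNNReal _ hpp, mul_assoc, abs_of_nonneg hpp]
        exact mul_le_mul_of_nonneg_left h3 hpp
      · rw [integral_div, ← hp, div_self h.ne']
    have h4 := le_Sf hf hd
    have h5 : ∫ x, f x * (Fcx_sec ρ t x / p) = (∫ x, f x * Fcx_sec ρ t x) / p := by
      rw [← integral_div]
      refine integral_congr_ae (Filter.Eventually.of_forall fun x => ?_)
      simp only
      ring
    rw [h5, div_le_iff₀ h] at h4
    exact h4

/-- The combination of the test functions on the large cube. -/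
noncomputable def Fcx_W (G : X (n + 1) → ℝ) (u : Option (Fin n) → ℝ) (z : X (n + 1)) : ℝ :=
  u none * G z + ∑ k : Fin n, u (some k) * ((z k.succ : unitInterval) : ℝ)

theorem Fcx_W_cont {G : X (n + 1) → ℝ} (hG : Continuous G) (u : Option (Fin n) → ℝ) :
    Continuous (Fcx_W G u) := by
  unfold Fcx_W
  refine (continuous_const.mul hG).add (continuous_finsetSum _ fun k _ => continuous_const.mul ?_)
  exact continuous_subtype_val.comp (continuous_apply k.succ)

theorem Fcx_W_cons (G : X (n + 1) → ℝ) (u : Option (Fin n) → ℝ) (t : unitInterval) (x : X n) :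
    Fcx_W G u (Fin.cons t x) = D2PS (Fcx_sec G t) u x := by
  rw [d2_PS_eq]
  simp only [Fcx_W, Fcx_sec, Fin.cons_succ]

theorem Fcx_W_int {G ρ : X (n + 1) → ℝ} (hG : Continuous G) (hρ : Continuous ρ)
    (u : Option (Fin n) → ℝ) :
    ∫ z, Fcx_W G u z * ρ z = u none * (∫ z, G z * ρ z) +
      ∑ k : Fin n, u (some k) * (∫ z, ((z k.succ : unitInterval) : ℝ) * ρ z) := by
  have hk : ∀ k : Fin n, Continuous fun z : X (n + 1) => ((z k.succ : unitInterval) : ℝ) :=
    fun k => continuous_subtype_val.comp (continuous_apply k.succ)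
  have h1 : ∀ z, Fcx_W G u z * ρ z = u none * (G z * ρ z) +
      ∑ k : Fin n, u (some k) * (((z k.succ : unitInterval) : ℝ) * ρ z) := by
    intro z
    simp only [Fcx_W]
    rw [add_mul, Finset.sum_mul]
    congr 1
    · ring
    · exact Finset.sum_congr rfl fun k _ => by ring
  simp only [h1]
  have i1 : Integrable fun z => u none * (G z * ρ z) :=
    d2_integrable_cont (continuous_const.mul (hG.mul hρ))
  have i2 : ∀ k ∈ (Finset.univ : Finset (Fin n)),
      Integrable fun z : X (n + 1) => u (some k) * (((z k.succ : unitInterval) : ℝ) * ρ z) :=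
    fun k _ => d2_integrable_cont (continuous_const.mul ((hk k).mul hρ))
  rw [integral_add i1 (integrable_finsetSum _ i2), integral_finsetSum _ i2, integral_const_mul]
  congr 1
  exact Finset.sum_congr rfl fun k _ =>
    integral_const_mul (u (some k)) (fun z : X (n + 1) => ((z k.succ : unitInterval) : ℝ) * ρ z)

theorem Fcx_key {G ρ : X (n + 1) → ℝ} {K M : ℝ≥0} (hG : LipschitzWith M G) (hR : Rel G G G)
    (hρ : LipschitzWith K ρ) (h0 : ∀ x, 0 ≤ ρ x) (hanti : ∀ x y, x ≤ y → x 0 = y 0 → ρ y ≤ ρ x)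
    (T : unitInterval) (hT : (T : ℝ) * ∫ x, ρ x = ∫ x, ((x 0 : unitInterval) : ℝ) * ρ x)
    (u : Option (Fin n) → ℝ) (hu : 0 ≤ u none) :
    ∫ z, Fcx_W G u z * ρ z ≤ Sf (D2PS (Fcx_sec G T) u) * ∫ z, ρ z := by
  have hρc := hρ.continuous
  have hx0 : Continuous fun z : X (n + 1) => ((z 0 : unitInterval) : ℝ) :=
    continuous_subtype_val.comp (continuous_apply 0)
  have e1 : ∫ z, ρ z = ∫ t : unitInterval, ∫ x : X n, Fcx_sec ρ t x := Fcx_fub hρc
  have e2 : ∫ x, ((x 0 : unitInterval) : ℝ) * ρ x =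
      ∫ t : unitInterval, (t : ℝ) * ∫ x : X n, Fcx_sec ρ t x := by
    rw [Fcx_fub (F := fun x => ((x 0 : unitInterval) : ℝ) * ρ x) (hx0.mul hρc)]
    refine integral_congr_ae (Filter.Eventually.of_forall fun t => ?_)
    simp only [Fin.cons_zero]
    rw [integral_const_mul]
    rfl
  have hpc : Continuous (fun t : unitInterval => ∫ x : X n, Fcx_sec ρ t x) := Fcx_int_cont hρc
  have hphi := Fcx_phi_cont hG u
  have hj := jensen (fun t => Sf (D2PS (Fcx_sec G t) u)) (fun t => ∫ x : X n, Fcx_sec ρ t x)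
    hphi (Fcx_phi_mid hG hR u hu) hpc (fun t => integral_nonneg fun x => h0 _) T
    (by rw [← e1, ← e2]; exact hT)
  rw [e1]
  refine le_trans ?_ hj
  rw [Fcx_fub (F := fun z => Fcx_W G u z * ρ z) ((Fcx_W_cont hG.continuous u).mul hρc)]
  have hI : Continuous fun t : unitInterval => ∫ x : X n, Fcx_W G u (Fin.cons t x) * ρ (Fin.cons t x) :=
    Fcx_int_cont ((Fcx_W_cont hG.continuous u).mul hρc)
  refine integral_mono (hI.integrable_of_hasCompactSupport (HasCompactSupport.of_compactSpace _))
    ((hphi.mul hpc).integrable_of_hasCompactSupport (HasCompactSupport.of_compactSpace _)) fun t => ?_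
  have h1 := Fcx_sec_le hρ h0 hanti (d2_PS_cont (Fcx_sec_lip hG t) u) t
  simp only [Fcx_W_cons]
  exact h1

theorem fcx_of_cx (n : ℕ) (hCX : CX n) : FCX n := by
  intro G ρ K M hG hR hρ h0 hanti T hT
  set m : ℝ := ∫ x, ρ x with hm
  have hm0 : 0 ≤ m := integral_nonneg h0
  have hkk : ∀ k : Fin n, 0 ≤ ∫ x, ((x k.succ : unitInterval) : ℝ) * ρ x := fun k =>
    integral_nonneg (fun x => mul_nonneg (x k.succ).2.1 (h0 x))
  have hprod0 : 0 ≤ ∏ k : Fin n, (2 * ∫ x, ((x k.succ : unitInterval) : ℝ) * ρ x) :=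
    Finset.prod_nonneg (fun k _ => mul_nonneg (by norm_num) (hkk k))
  have hI0 : 0 ≤ ∫ x : X n, max (G (Fin.cons T x)) 0 := integral_nonneg (fun x => le_max_right _ _)
  have hR0 : 0 ≤ m ^ (n + 1) * ∫ x : X n, max (G (Fin.cons T x)) 0 :=
    mul_nonneg (pow_nonneg hm0 _) hI0
  rcases le_or_gt (∫ x, G x * ρ x) 0 with hg | hg
  · exact (mul_nonpos_of_nonpos_of_nonneg hg hprod0).trans hR0
  rcases hm0.eq_or_lt with h | hmpos
  · exfalso
    have h1 : ρ =ᵐ[volume] 0 :=
      (integral_eq_zero_iff_of_nonneg h0 (d2_integrable_cont hρ.continuous)).1 h.symm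
    have h2 : ∫ x, G x * ρ x = 0 := by
      rw [← integral_zero (X (n + 1)) ℝ]
      refine integral_congr_ae ?_
      filter_upwards [h1] with x hx
      rw [hx]
      simp
    exact absurd h2 hg.ne'
  · -- the moment vector
    set v : Option (Fin n) → ℝ := fun i => match i with
      | none => (∫ x, G x * ρ x) / m
      | some k => (∫ x, ((x k.succ : unitInterval) : ℝ) * ρ x) / m with hv
    have hv0 : ∀ i, 0 ≤ v i := by
      intro i
      cases i with
      | none => exact div_nonneg hg.le hm0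
      | some k => exact div_nonneg (hkk k) hm0
    have hsep := sep hCX (Fcx_sec_lip hG T)
      (by have h := Fcx_sec_rel hR T T; rw [Fcx_mid_self] at h; exact h) v hv0 (by
        intro u hu
        have h1 := Fcx_key hG hR hρ h0 hanti T hT u (hu none)
        rw [Fcx_W_int hG.continuous hρ.continuous u, ← hm] at h1
        rw [Fintype.sum_option]
        have h2 : u none * v none + ∑ k : Fin n, u (some k) * v (some k) =
            (u none * (∫ z, G z * ρ z) +
              ∑ k : Fin n, u (some k) * (∫ z, ((z k.succ : unitInterval) : ℝ) * ρ z)) / m := by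
          rw [add_div, Finset.sum_div]
          congr 1
          · simp only [hv]
            ring
          · refine Finset.sum_congr rfl fun k _ => ?_
            simp only [hv]
            ring
        rw [h2, div_le_iff₀ hmpos]
        exact h1)
    rw [Fintype.prod_option] at hsep
    simp only [hv] at hsep
    rw [Finset.prod_div_distrib, Finset.prod_const, Finset.card_univ, Fintype.card_fin,
      div_mul_div_comm, div_le_div_iff₀ (by positivity) (by positivity)] at hsep
    rw [Finset.prod_mul_distrib, Finset.prod_const, Finset.card_univ, Fintype.card_fin]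
    have e3 : ∫ x : X n, max (Fcx_sec G T x) 0 = ∫ x : X n, max (G (Fin.cons T x)) 0 := rfl
    rw [e3] at hsep
    calc (∫ x, G x * ρ x) * (2 ^ n * ∏ k : Fin n, ∫ x, ((x k.succ : unitInterval) : ℝ) * ρ x)
        = (∫ x, G x * ρ x) * (∏ k : Fin n, ∫ x, ((x k.succ : unitInterval) : ℝ) * ρ x) * 2 ^ n := by
          ring
      _ ≤ (∫ x : X n, max (G (Fin.cons T x)) 0) * (m * m ^ n) := hsep
      _ = m ^ (n + 1) * ∫ x : X n, max (G (Fin.cons T x)) 0 := by ring

end Vale.Agent.P254.FV1
end

section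

/-! P254/FV1, leaf L7 (hedge, helper422): `FCX n → FUNC n`, by the limit `N → ∞`. -/

open MeasureTheory Set Filter Topology
open scoped NNReal

namespace Vale.Agent.P254.FV1

open Unc

namespace CubeH

variable {n : ℕ}

theorem continuous_cons' : Continuous (fun p : unitInterval × X n => (Fin.cons p.1 p.2 : X (n + 1))) := by
  refine continuous_pi fun k => ?_
  refine Fin.cases ?_ (fun j => ?_) k
  · simpa using continuous_fst
  · simp only [Fin.cons_succ]
    exact (continuous_apply j).comp continuous_snd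

theorem cont_coord (m : ℕ) (k : Fin m) : Continuous (fun x : X m => ((x k : unitInterval) : ℝ)) :=
  continuous_subtype_val.comp (continuous_apply k)

theorem abs_coord_le (m : ℕ) (k : Fin m) (x : X m) : |((x k : unitInterval) : ℝ)| ≤ 1 := by
  rw [abs_of_nonneg (x k).2.1]
  exact (x k).2.2

/-- dominated convergence with bound `1` on a cube -/
theorem lim1 {m : ℕ} {F : ℕ → X m → ℝ} {f : X m → ℝ} (hc : ∀ N, Continuous (F N))
    (hb : ∀ N x, |F N x| ≤ 1) (hl : ∀ x, Tendsto (fun N => F N x) atTop (𝓝 (f x))) :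
    Tendsto (fun N => ∫ x, F N x) atTop (𝓝 (∫ x, f x)) := by
  refine tendsto_integral_of_dominated_convergence (fun _ => (1 : ℝ))
    (fun N => (hc N).aestronglyMeasurable) (integrable_const _)
    (fun N => Eventually.of_forall fun x => ?_) (Eventually.of_forall hl)
  rw [Real.norm_eq_abs]
  exact hb N x

/-- dominated convergence with bound `B` on a cube -/
theorem limB {m : ℕ} {F : ℕ → X m → ℝ} {f : X m → ℝ} (B : ℝ) (hc : ∀ N, Continuous (F N))
    (hb : ∀ N x, |F N x| ≤ B) (hl : ∀ x, Tendsto (fun N => F N x) atTop (𝓝 (f x))) :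
    Tendsto (fun N => ∫ x, F N x) atTop (𝓝 (∫ x, f x)) := by
  refine tendsto_integral_of_dominated_convergence (fun _ => B)
    (fun N => (hc N).aestronglyMeasurable) (integrable_const _)
    (fun N => Eventually.of_forall fun x => ?_) (Eventually.of_forall hl)
  rw [Real.norm_eq_abs]
  exact hb N x

theorem core (h : FCX n) {H : X (n + 1) → ℝ} (hH0 : ∀ x, 0 ≤ H x) {g : ℕ → X (n + 1) → ℝ}
    (hlip : ∀ N, ∃ K, LipschitzWith K (g N)) (hrel : ∀ N, Rel (g N) (g N) (g N))
    (hanti : ∀ N x y, x ≤ y → x 0 = y 0 → g N y ≤ g N x) (hle : ∀ N x, g N x ≤ 1)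
    (hge : ∀ N x, 0 < H x → H x ≤ g N x)
    (hlim : ∀ x, Tendsto (fun N => max (g N x) 0) atTop (𝓝 (H x)))
    (T : unitInterval)
    (hT : (T : ℝ) * ∫ x, H x = ∫ x : X (n + 1), ((x 0 : unitInterval) : ℝ) * H x) :
    (∫ x, H x ^ 2) * ∏ k : Fin n, (2 * ∫ x : X (n + 1), ((x k.succ : unitInterval) : ℝ) * H x) ≤
      (∫ x, H x) ^ (n + 1) * ∫ x : X n, H (Fin.cons T x) := by
  set ρ : ℕ → X (n + 1) → ℝ := fun N x => max (g N x) 0 with hρ
  have hgc : ∀ N, Continuous (g N) := fun N => by
    obtain ⟨K, hK⟩ := hlip N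
    exact hK.continuous
  have hc : ∀ N, Continuous (ρ N) := fun N => (hgc N).max continuous_const
  have hρ0 : ∀ N x, 0 ≤ ρ N x := fun N x => le_max_right _ _
  have hb : ∀ N x, |ρ N x| ≤ 1 := by
    intro N x
    rw [abs_of_nonneg (hρ0 N x)]
    exact max_le (hle N x) zero_le_one
  have hH1 : ∀ x, H x ≤ 1 := fun x =>
    le_of_tendsto' (hlim x) (fun N => max_le (hle N x) zero_le_one)
  have hHm : Measurable H :=
    measurable_of_tendsto_metrizable (f := ρ) (fun N => (hc N).measurable)
      (tendsto_pi_nhds.2 hlim)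
  have hHb : ∀ x, |H x| ≤ 1 := fun x => by rw [abs_of_nonneg (hH0 x)]; exact hH1 x
  have hHi : Integrable H := Integrable.of_bound (C := 1) hHm.aestronglyMeasurable
    (Eventually.of_forall fun x => by rw [Real.norm_eq_abs]; exact hHb x)
  have hI0 : 0 ≤ ∫ x, H x := integral_nonneg hH0
  have hR0 : 0 ≤ ∫ x : X n, H (Fin.cons T x) := integral_nonneg fun x => hH0 _
  have hP0 : 0 ≤ ∏ k : Fin n, (2 * ∫ x : X (n + 1), ((x k.succ : unitInterval) : ℝ) * H x) := by
    refine Finset.prod_nonneg fun k _ => ?_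
    have : 0 ≤ ∫ x : X (n + 1), ((x k.succ : unitInterval) : ℝ) * H x :=
      integral_nonneg fun x => mul_nonneg (x k.succ).2.1 (hH0 x)
    positivity
  rcases hI0.eq_or_lt with hz | hpos
  · -- `H = 0` a.e.
    have h0 : H =ᵐ[volume] 0 := (integral_eq_zero_iff_of_nonneg hH0 hHi).1 hz.symm
    have h1 : ∫ x, H x ^ 2 = 0 := by
      have : (fun x => H x ^ 2) =ᵐ[volume] fun _ => (0 : ℝ) := by
        filter_upwards [h0] with x hx
        simp [hx]
      rw [integral_congr_ae this]
      simp
    rw [h1, zero_mul]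
    exact mul_nonneg (pow_nonneg hI0 _) hR0
  · -- limits
    have l1 : Tendsto (fun N => ∫ x, ρ N x) atTop (𝓝 (∫ x, H x)) := lim1 hc hb hlim
    have lk : ∀ k : Fin (n + 1), Tendsto (fun N => ∫ x : X (n + 1), ((x k : unitInterval) : ℝ) * ρ N x)
        atTop (𝓝 (∫ x : X (n + 1), ((x k : unitInterval) : ℝ) * H x)) := by
      intro k
      refine lim1 (fun N => (cont_coord _ k).mul (hc N)) (fun N x => ?_) (fun x => (hlim x).const_mul _)
      rw [abs_mul]
      exact mul_le_one₀ (abs_coord_le _ k x) (abs_nonneg _) (hb N x)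
    have hev : ∀ᶠ N in atTop, 0 < ∫ x, ρ N x := l1.eventually (lt_mem_nhds hpos)
    -- the barycenters
    set τ : ℕ → ℝ := fun N => (∫ x : X (n + 1), ((x 0 : unitInterval) : ℝ) * ρ N x) / ∫ x, ρ N x with hτ
    have hρi : ∀ N, Integrable (ρ N) := fun N =>
      (hc N).integrable_of_hasCompactSupport (HasCompactSupport.of_compactSpace _)
    have hτ0 : ∀ N, 0 ≤ τ N := fun N =>
      div_nonneg (integral_nonneg fun x => mul_nonneg (x 0).2.1 (hρ0 N x)) (integral_nonneg (hρ0 N))
    have hτ1 : ∀ N, τ N ≤ 1 := by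
      intro N
      refine div_le_one_of_le₀ ?_ (integral_nonneg (hρ0 N))
      refine integral_mono ?_ (hρi N) fun x => ?_
      · exact ((cont_coord _ 0).mul (hc N)).integrable_of_hasCompactSupport
          (HasCompactSupport.of_compactSpace _)
      · exact mul_le_of_le_one_left (hρ0 N x) (x 0).2.2
    set TN : ℕ → unitInterval := fun N => ⟨τ N, hτ0 N, hτ1 N⟩ with hTN
    have hτlim : Tendsto τ atTop (𝓝 (T : ℝ)) := by
      have h1 : Tendsto τ atTop (𝓝 ((∫ x : X (n + 1), ((x 0 : unitInterval) : ℝ) * H x) / ∫ x, H x)) :=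
        (lk 0).div l1 hpos.ne'
      have h2 : (∫ x : X (n + 1), ((x 0 : unitInterval) : ℝ) * H x) / (∫ x, H x) = T := by
        rw [← hT]
        field_simp
      rwa [h2] at h1
    have hTNlim : Tendsto TN atTop (𝓝 T) := by
      rw [tendsto_subtype_rng]
      exact hτlim
    -- the inequality for fixed `G = g M`
    have main : ∀ M, (∫ x, H x ^ 2) *
        ∏ k : Fin n, (2 * ∫ x : X (n + 1), ((x k.succ : unitInterval) : ℝ) * H x) ≤
        (∫ x, H x) ^ (n + 1) * ∫ x : X n, max (g M (Fin.cons T x)) 0 := by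
      intro M
      obtain ⟨KM, hKM⟩ := hlip M
      -- bound of `g M`
      obtain ⟨B, hB⟩ : ∃ B : ℝ, ∀ x, |g M x| ≤ B := by
        obtain ⟨B, hB⟩ := isCompact_univ.exists_bound_of_continuousOn (hgc M).continuousOn
        exact ⟨B, fun x => by simpa using hB x (mem_univ x)⟩
      have hB0 : 0 ≤ B := (abs_nonneg _).trans (hB (fun _ => 0))
      have step : ∀ᶠ N in atTop, (∫ x, g M x * ρ N x) *
          ∏ k : Fin n, (2 * ∫ x : X (n + 1), ((x k.succ : unitInterval) : ℝ) * ρ N x) ≤
          (∫ x, ρ N x) ^ (n + 1) * ∫ x : X n, max (g M (Fin.cons (TN N) x)) 0 := by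
        filter_upwards [hev] with N hN
        obtain ⟨KN, hKN⟩ := hlip N
        refine h (g M) (ρ N) KN KM hKM (hrel M) (hKN.max_const 0) (hρ0 N) ?_ (TN N) ?_
        · intro x y hxy h0
          exact max_le_max (hanti N x y hxy h0) le_rfl
        · show τ N * _ = _
          rw [hτ]
          field_simp
      have a1 : Tendsto (fun N => ∫ x, g M x * ρ N x) atTop (𝓝 (∫ x, g M x * H x)) := by
        refine limB B (fun N => (hgc M).mul (hc N)) (fun N x => ?_) (fun x => (hlim x).const_mul _)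
        rw [abs_mul]
        calc |g M x| * |ρ N x| ≤ B * 1 := mul_le_mul (hB x) (hb N x) (abs_nonneg _) hB0
          _ = B := mul_one B
      have a2 : Tendsto (fun N => (∫ x, g M x * ρ N x) *
          ∏ k : Fin n, (2 * ∫ x : X (n + 1), ((x k.succ : unitInterval) : ℝ) * ρ N x)) atTop
          (𝓝 ((∫ x, g M x * H x) *
            ∏ k : Fin n, (2 * ∫ x : X (n + 1), ((x k.succ : unitInterval) : ℝ) * H x))) :=
        a1.mul (tendsto_finsetProd _ fun k _ => (lk k.succ).const_mul 2)
      have a3 : Tendsto (fun N => ∫ x : X n, max (g M (Fin.cons (TN N) x)) 0) atTop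
          (𝓝 (∫ x : X n, max (g M (Fin.cons T x)) 0)) := by
        refine lim1 (fun N => ?_) (fun N x => ?_) (fun x => ?_)
        · exact ((hgc M).comp (continuous_cons'.comp (continuous_const.prodMk continuous_id))).max
            continuous_const
        · rw [abs_of_nonneg (le_max_right _ _)]
          exact max_le (hle M _) zero_le_one
        · have hcc : Continuous (fun t : unitInterval => max (g M (Fin.cons t x)) 0) :=
            ((hgc M).comp (continuous_cons'.comp (continuous_id.prodMk continuous_const))).max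
              continuous_const
          exact (hcc.tendsto T).comp hTNlim
      have a4 := le_of_tendsto_of_tendsto a2 ((l1.pow (n + 1)).mul a3) step
      refine le_trans ?_ a4
      refine mul_le_mul_of_nonneg_right ?_ hP0
      refine integral_mono ?_ ?_ fun x => ?_
      · refine Integrable.of_bound (C := 1) (hHm.pow_const 2).aestronglyMeasurable
          (Eventually.of_forall fun x => ?_)
        rw [Real.norm_eq_abs, abs_pow]
        exact pow_le_one₀ (abs_nonneg _) (hHb x)
      · refine Integrable.of_bound (C := B) ((hgc M).measurable.mul hHm).aestronglyMeasurable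
          (Eventually.of_forall fun x => ?_)
        rw [Real.norm_eq_abs, abs_mul]
        calc |g M x| * |H x| ≤ B * 1 := mul_le_mul (hB x) (hHb x) (abs_nonneg _) hB0
          _ = B := mul_one B
      · show H x ^ 2 ≤ g M x * H x
        rcases (hH0 x).eq_or_lt with hx | hx
        · rw [← hx]; simp
        · rw [pow_two]
          exact mul_le_mul_of_nonneg_right (hge M x hx) hx.le
    have b1 : Tendsto (fun M => ∫ x : X n, max (g M (Fin.cons T x)) 0) atTop
        (𝓝 (∫ x : X n, H (Fin.cons T x))) := by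
      refine lim1 (fun N => ?_) (fun N x => ?_) (fun x => hlim _)
      · exact ((hgc N).comp (continuous_cons'.comp (continuous_const.prodMk continuous_id))).max
          continuous_const
      · rw [abs_of_nonneg (le_max_right _ _)]
        exact max_le (hle N _) zero_le_one
    exact ge_of_tendsto' (b1.const_mul _) main

end CubeH

/-- L7 with L5, L6 as hypotheses. -/
theorem func_of_fcx_of (n : ℕ)
    (hsup : ∀ L : Set (X (n + 2)), IsClosed L → L.Nonempty → LowE L →
      (∀ x ∈ L, ∀ y ∈ L, mid x y ∈ L) →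
      ∃ g : ℕ → X (n + 1) → ℝ, (∀ N, ∃ K, LipschitzWith K (g N)) ∧ (∀ N, Rel (g N) (g N) (g N)) ∧
        (∀ N x y, x ≤ y → x 0 = y 0 → g N y ≤ g N x) ∧ (∀ N x, g N x ≤ 1) ∧
        (∀ N x, 0 < Hf L x → Hf L x ≤ g N x) ∧
        ∀ x, Tendsto (fun N => max (g N x) 0) atTop (𝓝 (Hf L x)))
    (hzero : ∀ L : Set (X (n + 2)), IsClosed L → LowE L →
      2 * ∫ p in L, ((p 0 : unitInterval) : ℝ) = ∫ x : X (n + 1), Hf L x ^ 2)
    (hsec : ∀ L : Set (X (n + 2)), IsClosed L → ∀ T : unitInterval,
      (volume {q : X (n + 1) |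
        (Fin.cons (q 0) (Fin.cons T (Fin.tail q)) : X (n + 2)) ∈ L}).toReal =
        ∫ x : X n, Hf L (Fin.cons T x))
    (h : FCX n) : FUNC n := by
  intro L hL hne hlow hmid T hT
  obtain ⟨g, hlip, hrel, hanti, hle, hge, hlim⟩ := hsup L hL hne hlow hmid
  have hT' : (T : ℝ) * ∫ x, Hf L x = ∫ x : X (n + 1), ((x 0 : unitInterval) : ℝ) * Hf L x := by
    rw [← fub_vol L hL, hT]
    exact fub_succ L hL 0
  have h1 := CubeH.core h (fun x => Hf_nonneg L x) hlip hrel hanti hle hge hlim T hT'
  rw [hzero L hL hlow, fub_vol L hL, hsec L hL T]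
  simp only [fub_succ L hL]
  exact h1

end Vale.Agent.P254.FV1
end

section

/-! P254, one free direction, leaf L6: Fubini for closed sets which are closed downwards in all
coordinates except the coordinate `1`. -/

open MeasureTheory Set
open scoped NNReal

namespace Vale.Agent.P254.FV1

open Unc

variable {n : ℕ}

/-- The fibres in the direction of the coordinate `0` are lower sets. -/
theorem fib_isLowerSetF {L : Set (X (n + 2))} (hlow : LowE L) (x : X (n + 1)) :
    IsLowerSet {t : unitInterval | (Fin.cons t x : X (n + 2)) ∈ L} := by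
  intro s t hts hs
  refine hlow _ hs _ ?_ ?_
  · intro k
    refine Fin.cases ?_ (fun j => ?_) k
    · simpa using hts
    · simp
  · have h1 : (1 : Fin (n + 2)) = Fin.succ 0 := rfl
    rw [h1, Fin.cons_succ, Fin.cons_succ]

theorem fub_zeroF (L : Set (X (n + 2))) (hL : IsClosed L) (hlow : LowE L) :
    2 * ∫ p in L, ((p 0 : unitInterval) : ℝ) = ∫ x : X (n + 1), Hf L x ^ 2 := by
  have h : ∫ z in L, ((z 0 : unitInterval) : ℝ) = ∫ x, (Hf L x) ^ 2 / 2 := by
    rw [setIntegral_cons hL.measurableSet (integrable_coord (n + 2) 0)]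
    refine integral_congr_ae (Filter.Eventually.of_forall fun x => ?_)
    simp only [Fin.cons_zero]
    exact integral_id_lower (fib_isClosed hL x) (fib_isLowerSetF hlow x)
  rw [h, ← integral_const_mul]
  refine integral_congr_ae (Filter.Eventually.of_forall fun x => ?_)
  simp only
  ring

theorem fub_sec (L : Set (X (n + 2))) (hL : IsClosed L) (T : unitInterval) :
    (volume {q : X (n + 1) | (Fin.cons (q 0) (Fin.cons T (Fin.tail q)) : X (n + 2)) ∈ L}).toReal =
      ∫ x : X n, Hf L (Fin.cons T x) := by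
  have hS : IsClosed
      {q : X (n + 1) | (Fin.cons (q 0) (Fin.cons T (Fin.tail q)) : X (n + 2)) ∈ L} := by
    refine hL.preimage ?_
    refine continuous_pi fun k => ?_
    refine Fin.cases ?_ (fun j => ?_) k
    · simpa using continuous_apply (0 : Fin (n + 1))
    · refine Fin.cases ?_ (fun i => ?_) j
      · simpa using continuous_const
      · simpa [Fin.tail] using continuous_apply (Fin.succ i)
  rw [vol_eq_integral_Hf hS]
  refine integral_congr_ae (Filter.Eventually.of_forall fun x => ?_)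
  simp [Hf]

end Vale.Agent.P254.FV1
end
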