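import Mathlib
import Vale.Agent.P254.Bdl.B1
import Vale.Agent.P254.Bdl.B3
import Vale.Agent.P254.Bdl.B2
import Vale.Agent.P254.EllDefs
import Vale.Agent.P254.Bdl.B4
import Vale.Agent.P254.Unc.FinDefs
import Vale.Agent.P254.Bdl.B7

set_option linter.all false

section

/-!
# P227/M/Dif: the gradient map of a uniformly convex function is a diffeomorphism

`GMap g A a b`: `g` has derivative `A`, `A` continuous, symmetric and
`a |v|^2 <= <A y v, v> <= b |v|^2`.  No potential is needed here.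
-/

noncomputable section

open MeasureTheory Set Filter Topology
open scoped RealInnerProductSpace NNReal

namespace Vale.Agent.P227.M.Dif

variable {E : Type*} [NormedAddCommGroup E] [InnerProductSpace ℝ E] [FiniteDimensional ℝ E]

/-- A (symmetric, uniformly elliptic) gradient-like map. -/
structure GMap (g : E → E) (A : E → E →L[ℝ] E) (a b : ℝ) : Prop where
  pos : 0 < a
  der : ∀ y, HasFDerivAt g (A y) y
  cont : Continuous A
  lower : ∀ y v, a * ‖v‖ ^ 2 ≤ ⟪A y v, v⟫
  upper : ∀ y v, ⟪A y v, v⟫ ≤ b * ‖v‖ ^ 2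
  symm : ∀ y v w, ⟪A y v, w⟫ = ⟪v, A y w⟫

namespace GMap

variable {g : E → E} {A : E → E →L[ℝ] E} {a b : ℝ}

omit [FiniteDimensional ℝ E] in
/-- Cauchy-Schwarz for a positive semidefinite operator. -/
lemma cs_op {T : E →L[ℝ] E} (hs : ∀ v w, ⟪T v, w⟫ = ⟪v, T w⟫) (hp : ∀ v, 0 ≤ ⟪T v, v⟫)
    (v w : E) : ⟪T v, w⟫ ^ 2 ≤ ⟪T v, v⟫ * ⟪T w, w⟫ := by
  have key : ∀ t : ℝ, 0 ≤ ⟪T w, w⟫ * (t * t) + (2 * ⟪T v, w⟫) * t + ⟪T v, v⟫ := by
    intro t
    have h := hp (v + t • w)
    have h2 : ⟪T w, v⟫ = ⟪T v, w⟫ := by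
      rw [hs w v, real_inner_comm]
    simp only [map_add, map_smul, inner_add_left, inner_add_right, inner_smul_left,
      inner_smul_right, RCLike.conj_to_real, h2] at h
    linarith
  have h := discrim_le_zero key
  unfold discrim at h
  nlinarith

omit [FiniteDimensional ℝ E] in
lemma norm_apply_le {T : E →L[ℝ] E} (hs : ∀ v w, ⟪T v, w⟫ = ⟪v, T w⟫)
    (hp : ∀ v, 0 ≤ ⟪T v, v⟫) (hb : ∀ v, ⟪T v, v⟫ ≤ b * ‖v‖ ^ 2) (v : E) :
    ‖T v‖ ≤ b * ‖v‖ := by
  by_cases h0 : T v = 0
  · by_cases hv : v = 0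
    · simp [hv]
    · have : 0 ≤ b * ‖v‖ ^ 2 := (hp v).trans (hb v)
      have hv' : 0 < ‖v‖ := norm_pos_iff.2 hv
      rw [h0, norm_zero]
      have : 0 ≤ (b * ‖v‖) * ‖v‖ := by nlinarith
      exact nonneg_of_mul_nonneg_left this hv'
  · have h1 := cs_op hs hp v (T v)
    rw [real_inner_self_eq_norm_sq] at h1
    have h2 : (‖T v‖ ^ 2) ^ 2 ≤ (b * ‖v‖ ^ 2) * (b * ‖T v‖ ^ 2) := by
      refine h1.trans ?_
      exact mul_le_mul (hb v) (hb _) (hp _) ((hp v).trans (hb v))
    have hT : 0 < ‖T v‖ := norm_pos_iff.2 h0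
    have hb0 : 0 ≤ b := by
      have := (hp (T v)).trans (hb (T v))
      exact nonneg_of_mul_nonneg_left this (by positivity)
    have h3 : ‖T v‖ ^ 2 ≤ (b * ‖v‖) ^ 2 := by
      have hT2 : 0 < ‖T v‖ ^ 2 := by positivity
      have : ‖T v‖ ^ 2 * ‖T v‖ ^ 2 ≤ (b * ‖v‖) ^ 2 * ‖T v‖ ^ 2 := by nlinarith
      exact le_of_mul_le_mul_right this hT2
    exact le_of_sq_le_sq h3 (by positivity)

omit [FiniteDimensional ℝ E] in
lemma nonneg_form (h : GMap g A a b) (y v : E) : 0 ≤ ⟪A y v, v⟫ :=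
  le_trans (by have := h.pos; positivity) (h.lower y v)

omit [FiniteDimensional ℝ E] in
lemma norm_A_apply_le (h : GMap g A a b) (y v : E) : ‖A y v‖ ≤ b * ‖v‖ :=
  norm_apply_le (h.symm y) (h.nonneg_form y) (h.upper y) v

omit [FiniteDimensional ℝ E] in
lemma le_norm_A_apply (h : GMap g A a b) (y v : E) : a * ‖v‖ ≤ ‖A y v‖ := by
  by_cases hv : v = 0
  · simp [hv]
  · have hv' : 0 < ‖v‖ := norm_pos_iff.2 hv
    have h1 := h.lower y v
    have h2 : ⟪A y v, v⟫ ≤ ‖A y v‖ * ‖v‖ := real_inner_le_norm _ _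
    have : (a * ‖v‖) * ‖v‖ ≤ ‖A y v‖ * ‖v‖ := by nlinarith
    exact le_of_mul_le_mul_right this hv'

omit [FiniteDimensional ℝ E] in
lemma continuous (h : GMap g A a b) : Continuous g :=
  continuous_iff_continuousAt.2 fun y => (h.der y).continuousAt

omit [FiniteDimensional ℝ E] in
/-- Strong monotonicity. -/
lemma mono (h : GMap g A a b) (y z : E) : a * ‖y - z‖ ^ 2 ≤ ⟪g y - g z, y - z⟫ := by
  set f : ℝ → ℝ := fun t => ⟪g (z + t • (y - z)), y - z⟫ with hf
  have hder : ∀ t : ℝ, HasDerivAt f ⟪A (z + t • (y - z)) (y - z), y - z⟫ t := by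
    intro t
    have h1 : HasDerivAt (fun t : ℝ => z + t • (y - z)) (y - z) t := by
      simpa using ((hasDerivAt_id t).smul_const (y - z)).const_add z
    have h2 : HasDerivAt (fun t : ℝ => g (z + t • (y - z))) (A (z + t • (y - z)) (y - z)) t :=
      (h.der _).comp_hasDerivAt t h1
    have h3 := h2.inner ℝ (hasDerivAt_const t (y - z))
    simpa using h3
  have hdiff : Differentiable ℝ f := fun t => (hder t).differentiableAt
  have hmv := (convex_Icc (0:ℝ) 1).mul_sub_le_image_sub_of_le_deriv (f := f)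
    hdiff.continuous.continuousOn hdiff.differentiableOn (C := a * ‖y - z‖ ^ 2)
    (fun t _ => by rw [(hder t).deriv]; exact h.lower _ _) 0 (by simp) 1 (by simp) zero_le_one
  have e1 : f 1 = ⟪g y, y - z⟫ := by simp [hf]
  have e0 : f 0 = ⟪g z, y - z⟫ := by simp [hf]
  rw [e1, e0] at hmv
  rw [inner_sub_left]
  linarith

omit [FiniteDimensional ℝ E] in
lemma le_dist (h : GMap g A a b) (y z : E) : a * ‖y - z‖ ≤ ‖g y - g z‖ := by
  by_cases hv : y - z = 0
  · simp [hv]
  · have hv' : 0 < ‖y - z‖ := norm_pos_iff.2 hv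
    have h1 := h.mono y z
    have h2 : ⟪g y - g z, y - z⟫ ≤ ‖g y - g z‖ * ‖y - z‖ := real_inner_le_norm _ _
    have : (a * ‖y - z‖) * ‖y - z‖ ≤ ‖g y - g z‖ * ‖y - z‖ := by nlinarith
    exact le_of_mul_le_mul_right this hv'

omit [FiniteDimensional ℝ E] in
lemma dist_le (h : GMap g A a b) (y z : E) : ‖g y - g z‖ ≤ b * ‖y - z‖ := by
  by_cases hyz : y = z
  · simp [hyz]
  have hb : 0 ≤ b := by
    have h1 := (h.nonneg_form y (y - z)).trans (h.upper y (y - z))
    exact nonneg_of_mul_nonneg_left h1 (by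
      have := norm_pos_iff.2 (sub_ne_zero.2 hyz); positivity)
  refine Convex.norm_image_sub_le_of_norm_hasFDerivWithin_le (𝕜 := ℝ) (s := univ)
    (f' := A) (fun x _ => (h.der x).hasFDerivWithinAt) (fun x _ => ?_) convex_univ
    (mem_univ z) (mem_univ y)
  exact ContinuousLinearMap.opNorm_le_bound _ hb (h.norm_A_apply_le x)

omit [FiniteDimensional ℝ E] in
lemma injective (h : GMap g A a b) : Function.Injective g := by
  intro y z hyz
  have h1 := h.le_dist y z
  rw [hyz, sub_self, norm_zero] at h1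
  have h2 : ‖y - z‖ ≤ 0 := by
    by_contra hc
    push Not at hc
    have := mul_pos h.pos hc
    linarith
  exact sub_eq_zero.1 (norm_le_zero_iff.1 h2)

/-- The derivative as an equivalence. -/
def eqv (h : GMap g A a b) (y : E) : E ≃L[ℝ] E :=
  LinearEquiv.toContinuousLinearEquiv
    (LinearEquiv.ofInjectiveEndo (A y : E →ₗ[ℝ] E) (by
      rw [injective_iff_map_eq_zero]
      intro v hv
      have h1 := h.le_norm_A_apply y v
      have h2 : A y v = 0 := hv
      rw [h2, norm_zero] at h1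
      have h3 : ‖v‖ ≤ 0 := by
        by_contra hc
        push Not at hc
        have := mul_pos h.pos hc
        linarith
      exact norm_le_zero_iff.1 h3))

@[simp] lemma eqv_apply (h : GMap g A a b) (y v : E) : h.eqv y v = A y v := rfl

lemma coe_eqv (h : GMap g A a b) (y : E) : (h.eqv y : E →L[ℝ] E) = A y := by
  ext v; rfl

lemma A_symm_apply (h : GMap g A a b) (y v : E) : A y ((h.eqv y).symm v) = v :=
  (h.eqv y).apply_symm_apply v

lemma symm_A_apply (h : GMap g A a b) (y v : E) : (h.eqv y).symm (A y v) = v :=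
  (h.eqv y).symm_apply_apply v

lemma strict (h : GMap g A a b) (y : E) : HasStrictFDerivAt g (h.eqv y : E →L[ℝ] E) y := by
  rw [coe_eqv]
  exact hasStrictFDerivAt_of_hasFDerivAt_of_continuousAt
    (Filter.Eventually.of_forall fun z => h.der z) h.cont.continuousAt

lemma isOpenMap (h : GMap g A a b) : IsOpenMap g :=
  isOpenMap_of_hasStrictFDerivAt_equiv (f' := h.eqv) h.strict

lemma surjective (h : GMap g A a b) : Function.Surjective g := by
  have hanti : AntilipschitzWith (Real.toNNReal a⁻¹) g := by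
    refine AntilipschitzWith.of_le_mul_dist fun y z => ?_
    rw [dist_eq_norm, dist_eq_norm, Real.coe_toNNReal _ (inv_nonneg.2 h.pos.le)]
    have := h.le_dist y z
    rw [inv_mul_eq_div, le_div_iff₀ h.pos]
    linarith
  have huc : UniformContinuous g := by
    have : LipschitzWith (Real.toNNReal b) g := by
      refine LipschitzWith.of_dist_le_mul fun y z => ?_
      rw [dist_eq_norm, dist_eq_norm]
      exact (h.dist_le y z).trans (mul_le_mul_of_nonneg_right (Real.le_coe_toNNReal b)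
        (norm_nonneg _))
    exact this.uniformContinuous
  have hcl : IsClosed (range g) := (hanti.isClosedEmbedding huc).isClosed_range
  have hop : IsOpen (range g) := h.isOpenMap.isOpen_range
  have hclop : IsClopen (range g) := ⟨hcl, hop⟩
  have := hclop.eq_univ ⟨g 0, mem_range_self 0⟩
  exact range_eq_univ.1 this

/-- The inverse map. -/
def inv (h : GMap g A a b) : E → E :=
  (Equiv.ofBijective g ⟨h.injective, h.surjective⟩).symm

lemma g_inv (h : GMap g A a b) (x : E) : g (h.inv x) = x :=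
  (Equiv.ofBijective g ⟨h.injective, h.surjective⟩).apply_symm_apply x

lemma inv_g (h : GMap g A a b) (y : E) : h.inv (g y) = y :=
  (Equiv.ofBijective g ⟨h.injective, h.surjective⟩).symm_apply_apply y

lemma inv_dist_le (h : GMap g A a b) (x z : E) : ‖h.inv x - h.inv z‖ ≤ a⁻¹ * ‖x - z‖ := by
  have := h.le_dist (h.inv x) (h.inv z)
  rw [h.g_inv, h.g_inv] at this
  rw [inv_mul_eq_div, le_div_iff₀ h.pos]
  linarith

lemma continuous_inv (h : GMap g A a b) : Continuous h.inv := by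
  have : LipschitzWith (Real.toNNReal a⁻¹) h.inv := by
    refine LipschitzWith.of_dist_le_mul fun y z => ?_
    rw [dist_eq_norm, dist_eq_norm]
    exact (h.inv_dist_le y z).trans (mul_le_mul_of_nonneg_right (Real.le_coe_toNNReal _)
      (norm_nonneg _))
  exact this.continuous

/-- `g` as a homeomorphism. -/
def homeo (h : GMap g A a b) : E ≃ₜ E where
  toEquiv := Equiv.ofBijective g ⟨h.injective, h.surjective⟩
  continuous_toFun := h.continuous
  continuous_invFun := h.continuous_inv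

@[simp] lemma homeo_apply (h : GMap g A a b) (y : E) : h.homeo y = g y := rfl

@[simp] lemma homeo_symm_apply (h : GMap g A a b) (x : E) : h.homeo.symm x = h.inv x := rfl

lemma inv_strict (h : GMap g A a b) (x : E) :
    HasStrictFDerivAt h.inv ((h.eqv (h.inv x)).symm : E →L[ℝ] E) x := by
  refine HasStrictFDerivAt.of_local_left_inverse h.continuous_inv.continuousAt
    (h.strict (h.inv x)) ?_
  exact Filter.Eventually.of_forall fun z => h.g_inv z

lemma inv_der (h : GMap g A a b) (x : E) :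
    HasFDerivAt h.inv ((h.eqv (h.inv x)).symm : E →L[ℝ] E) x :=
  (h.inv_strict x).hasFDerivAt

/-! ### Determinant and change of variables -/

lemma det_pos (h : GMap g A a b) (y : E) : 0 < (A y).det := by
  -- along `(1 - t) a I + t A`, the determinant never vanishes
  have hne : ∀ t ∈ Icc (0:ℝ) 1,
      ((1 - t) • (a • ContinuousLinearMap.id ℝ E) + t • A y : E →L[ℝ] E).det ≠ 0 := by
    intro t ht
    have hinj : Function.Injective
        ((1 - t) • (a • ContinuousLinearMap.id ℝ E) + t • A y : E →L[ℝ] E) := by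
      rw [injective_iff_map_eq_zero]
      intro v hv
      have h1 : ⟪((1 - t) • (a • ContinuousLinearMap.id ℝ E) + t • A y : E →L[ℝ] E) v, v⟫
          = (1 - t) * (a * ‖v‖ ^ 2) + t * ⟪A y v, v⟫ := by
        simp only [add_apply, smul_apply, ContinuousLinearMap.id_apply, inner_add_left,
          inner_smul_left, RCLike.conj_to_real, real_inner_self_eq_norm_sq]
      rw [hv, inner_zero_left] at h1
      have h2 := h.lower y v
      have h3 : (a * ‖v‖ ^ 2) ≤ (1 - t) * (a * ‖v‖ ^ 2) + t * ⟪A y v, v⟫ := by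
        nlinarith [mul_le_mul_of_nonneg_left h2 ht.1]
      have h4 : a * ‖v‖ ^ 2 ≤ 0 := by linarith
      have h5 : ‖v‖ ^ 2 ≤ 0 := by
        by_contra hc
        push Not at hc
        have := mul_pos h.pos hc
        linarith
      have h6 : ‖v‖ = 0 := by nlinarith [norm_nonneg v]
      exact norm_eq_zero.1 h6
    have := LinearEquiv.isUnit_det' (LinearEquiv.ofInjectiveEndo
      (((1 - t) • (a • ContinuousLinearMap.id ℝ E) + t • A y : E →L[ℝ] E) : E →ₗ[ℝ] E) hinj)
    exact this.ne_zero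
  set f : ℝ → ℝ := fun t =>
    ((1 - t) • (a • ContinuousLinearMap.id ℝ E) + t • A y : E →L[ℝ] E).det with hf
  have hcont : Continuous f := by
    refine ContinuousLinearMap.continuous_det.comp ?_
    fun_prop
  have h0 : 0 < f 0 := by
    have : f 0 = a ^ Module.finrank ℝ E := by
      simp only [hf, sub_zero, one_smul, zero_smul, add_zero]
      rw [ContinuousLinearMap.det]
      rw [show ((a • ContinuousLinearMap.id ℝ E : E →L[ℝ] E) : E →ₗ[ℝ] E)
        = a • (LinearMap.id : E →ₗ[ℝ] E) from rfl, LinearMap.det_smul, LinearMap.det_id, mul_one]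
    rw [this]
    exact pow_pos h.pos _
  have h1 : f 1 = (A y).det := by simp [hf]
  rw [← h1]
  by_contra hc
  push Not at hc
  obtain ⟨t, ht, ht0⟩ : (0:ℝ) ∈ f '' Icc 0 1 :=
    intermediate_value_Icc' zero_le_one hcont.continuousOn ⟨hc, h0.le⟩
  exact hne t ht ht0

variable [MeasurableSpace E] [BorelSpace E]

/-- Change of variables, general form. -/
theorem integral_comp_g {F : Type*} [NormedAddCommGroup F] [NormedSpace ℝ F]
    (h : GMap g A a b) (μ : Measure E) [μ.IsAddHaarMeasure] (G : E → F) :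
    ∫ x, G x ∂μ = ∫ y, (A y).det • G (g y) ∂μ := by
  have h1 := integral_image_eq_integral_abs_det_fderiv_smul μ (s := univ) MeasurableSet.univ
    (f := g) (f' := A) (fun x _ => (h.der x).hasFDerivWithinAt) h.injective.injOn G
  rw [image_univ, h.surjective.range_eq, setIntegral_univ, setIntegral_univ] at h1
  rw [h1]
  refine integral_congr_ae (Filter.Eventually.of_forall fun y => ?_)
  simp only [abs_of_pos (h.det_pos y)]

theorem integrable_comp_g {F : Type*} [NormedAddCommGroup F] [NormedSpace ℝ F]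
    (h : GMap g A a b) (μ : Measure E) [μ.IsAddHaarMeasure] (G : E → F) :
    Integrable G μ ↔ Integrable (fun y => (A y).det • G (g y)) μ := by
  have h1 := integrableOn_image_iff_integrableOn_abs_det_fderiv_smul μ (s := univ)
    MeasurableSet.univ
    (f := g) (f' := A) (fun x _ => (h.der x).hasFDerivWithinAt) h.injective.injOn G
  rw [image_univ, h.surjective.range_eq, integrableOn_univ, integrableOn_univ] at h1
  rw [h1]
  refine integrable_congr (Filter.Eventually.of_forall fun y => ?_)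
  simp only [abs_of_pos (h.det_pos y)]

/-- The potential of the law of `g(y)`, `y ~ exp(-phi)`. -/
def pot (h : GMap g A a b) (phi : E → ℝ) (x : E) : ℝ :=
  phi (h.inv x) + Real.log (A (h.inv x)).det

omit [MeasurableSpace E] [BorelSpace E] in
lemma pot_g (h : GMap g A a b) (phi : E → ℝ) (y : E) :
    h.pot phi (g y) = phi y + Real.log (A y).det := by
  rw [pot, h.inv_g]

omit [MeasurableSpace E] [BorelSpace E] in
lemma exp_neg_pot (h : GMap g A a b) (phi : E → ℝ) (y : E) :
    (A y).det * Real.exp (-(h.pot phi (g y))) = Real.exp (-(phi y)) := by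
  have hd := h.det_pos y
  rw [pot_g, neg_add, Real.exp_add, Real.exp_neg (Real.log _), Real.exp_log hd]
  field_simp

/-- `(g)_* (e^{-phi} dy) = e^{-V} dx`. -/
theorem integral_pot (h : GMap g A a b) (μ : Measure E) [μ.IsAddHaarMeasure]
    (phi : E → ℝ) (G : E → ℝ) :
    ∫ x, G x * Real.exp (-(h.pot phi x)) ∂μ = ∫ y, G (g y) * Real.exp (-(phi y)) ∂μ := by
  rw [h.integral_comp_g μ]
  refine integral_congr_ae (Filter.Eventually.of_forall fun y => ?_)
  simp only [smul_eq_mul]
  rw [← h.exp_neg_pot phi y]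
  ring

theorem integrable_pot (h : GMap g A a b) (μ : Measure E) [μ.IsAddHaarMeasure]
    (phi : E → ℝ) (G : E → ℝ) :
    Integrable (fun x => G x * Real.exp (-(h.pot phi x))) μ ↔
      Integrable (fun y => G (g y) * Real.exp (-(phi y))) μ := by
  rw [h.integrable_comp_g μ]
  refine integrable_congr (Filter.Eventually.of_forall fun y => ?_)
  simp only [smul_eq_mul]
  rw [← h.exp_neg_pot phi y]
  ring

end GMap

end Vale.Agent.P227.M.Dif
end
end

section

/-! # P227/M/ID: basic calculus of `pd`, `hess`, `tau` (helper294) -/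

open MeasureTheory
open scoped Topology

namespace Vale.Agent.P254.S2

open Vale.Agent.P227.M Vale.Agent.P254.MC

variable {n : ℕ}

lemma eq_sum_ei (v : E n) : v = ∑ i, v i • (ei i : E n) := by
  ext k
  simp [ei, Pi.single_apply]

lemma clm_apply {F : Type*} [NormedAddCommGroup F] [NormedSpace ℝ F] (L : E n →L[ℝ] F) (v : E n) :
    L v = ∑ i, v i • L (ei i) := by
  conv_lhs => rw [eq_sum_ei v]
  simp [map_sum]

lemma fderiv_apply_eq (f : E n → ℝ) (x v : E n) : fderiv ℝ f x v = ∑ i, v i * pd i f x := by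
  rw [clm_apply (fderiv ℝ f x) v]
  simp [pd]

lemma pd_add {f g : E n → ℝ} {x : E n} (i : Fin n) (hf : DifferentiableAt ℝ f x)
    (hg : DifferentiableAt ℝ g x) : pd i (fun z => f z + g z) x = pd i f x + pd i g x := by
  unfold pd
  rw [fderiv_fun_add hf hg]
  simp

lemma pd_mul {f g : E n → ℝ} {x : E n} (i : Fin n) (hf : DifferentiableAt ℝ f x)
    (hg : DifferentiableAt ℝ g x) :
    pd i (fun z => f z * g z) x = f x * pd i g x + pd i f x * g x := by
  unfold pd
  rw [fderiv_fun_mul hf hg]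
  simp [mul_comm]

lemma pd_sum {ι : Type*} {s : Finset ι} {f : ι → E n → ℝ} {x : E n} (i : Fin n)
    (hf : ∀ k ∈ s, DifferentiableAt ℝ (f k) x) :
    pd i (fun z => ∑ k ∈ s, f k z) x = ∑ k ∈ s, pd i (f k) x := by
  unfold pd
  rw [fderiv_fun_sum hf]
  simp

lemma pd_coord (i j : Fin n) (x : E n) : pd i (fun z : E n => z j) x = if j = i then 1 else 0 := by
  unfold pd
  have h : HasFDerivAt (fun z : E n => z j) (EuclideanSpace.proj j : E n →L[ℝ] ℝ) x :=
    (EuclideanSpace.proj j : E n →L[ℝ] ℝ).hasFDerivAt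
  rw [h.fderiv]
  simp [ei, Pi.single_apply]

/-- partial derivatives of `C^{k+1}` functions are `C^k` -/
lemma contDiff_pd {f : E n → ℝ} {m k : WithTop ℕ∞} (hf : ContDiff ℝ k f) (h : m + 1 ≤ k) (i : Fin n) :
    ContDiff ℝ m (pd i f) := by
  unfold pd
  exact (hf.fderiv_right h).clm_apply contDiff_const

lemma differentiable_pd {f : E n → ℝ} (hf : ContDiff ℝ 2 f) (i : Fin n) :
    Differentiable ℝ (pd i f) :=
  (contDiff_pd (m := 1) hf (by norm_num) i).differentiable (by norm_num)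

lemma hess_eq {f : E n → ℝ} (hf : ContDiff ℝ 2 f) (x : E n) (i j : Fin n) :
    hess f x i j = fderiv ℝ (fderiv ℝ f) x (ei i) (ei j) := by
  unfold hess pd
  have h : DifferentiableAt ℝ (fderiv ℝ f) x :=
    ((hf.fderiv_right (m := 1) (by norm_num)).differentiable (by norm_num)) x
  have := (h.hasFDerivAt.clm_apply (hasFDerivAt_const (ei j) x)).fderiv
  rw [this]
  simp

lemma hess_symm {f : E n → ℝ} (hf : ContDiff ℝ 2 f) (x : E n) (i j : Fin n) :
    hess f x i j = hess f x j i := by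
  rw [hess_eq hf, hess_eq hf]
  have h : IsSymmSndFDerivAt ℝ f x :=
    (hf.contDiffAt (x := x)).isSymmSndFDerivAt (by simp)
  exact h (ei i) (ei j)

lemma continuous_hess {f : E n → ℝ} (hf : ContDiff ℝ 2 f) (i j : Fin n) :
    Continuous (fun x => hess f x i j) := by
  unfold hess
  exact (contDiff_pd (m := 0) (contDiff_pd (m := 1) hf (by norm_num) j) (by norm_num) i).continuous

/-- the gradient as a vector -/
noncomputable def gr (f : E n → ℝ) (x : E n) : E n := WithLp.toLp 2 (fun i => pd i f x)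

@[simp] lemma gr_apply (f : E n → ℝ) (x : E n) (i : Fin n) : gr f x i = pd i f x := rfl

/-- the Hessian as an operator -/
noncomputable def Aop (f : E n → ℝ) (x : E n) : E n →L[ℝ] E n :=
  Matrix.toEuclideanCLM (𝕜 := ℝ) (n := Fin n) (hess f x)

lemma Aop_apply (f : E n → ℝ) (x v : E n) (i : Fin n) :
    Aop f x v i = ∑ j, hess f x i j * v j := by
  unfold Aop
  rw [Matrix.ofLp_toEuclideanCLM]
  rfl

lemma inner_eq (v w : E n) : inner ℝ v w = ∑ i, v i * w i := by
  simp [PiLp.inner_apply, mul_comm]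

lemma hasFDerivAt_gr {f : E n → ℝ} (hf : ContDiff ℝ 2 f) (x : E n) :
    HasFDerivAt (gr f) (Aop f x) x := by
  rw [← hasFDerivWithinAt_univ, hasFDerivWithinAt_piLp]
  intro i
  have h := (differentiable_pd hf i x).hasFDerivAt
  rw [hasFDerivWithinAt_univ]
  refine h.congr_fderiv ?_
  refine ContinuousLinearMap.ext fun v => ?_
  change fderiv ℝ (pd i f) x v = Aop f x v i
  rw [fderiv_apply_eq, Aop_apply]
  refine Finset.sum_congr rfl fun j _ => ?_
  rw [hess_symm hf x i j, mul_comm]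
  rfl

lemma continuous_Aop {f : E n → ℝ} (hf : ContDiff ℝ 2 f) : Continuous (Aop f) := by
  unfold Aop
  refine LinearMap.continuous_of_finiteDimensional
    ((Matrix.toEuclideanCLM (𝕜 := ℝ) (n := Fin n)).toAlgEquiv.toLinearMap) |>.comp ?_
  refine continuous_matrix fun i j => continuous_hess hf i j

lemma inner_Aop (f : E n → ℝ) (x v w : E n) :
    inner ℝ (Aop f x v) w = ∑ i, ∑ j, hess f x i j * v j * w i := by
  rw [inner_eq]
  refine Finset.sum_congr rfl fun i _ => ?_
  rw [Aop_apply, Finset.sum_mul]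

lemma gmap {ψ V : E n → ℝ} {c C M : ℝ} (h : MMc ψ V c C M) :
    Dif.GMap (gr ψ) (Aop ψ) c C where
  pos := h.c_pos
  der := fun x => hasFDerivAt_gr h.C2 x
  cont := continuous_Aop h.C2
  lower := fun x v => by
    have := h.lower x v
    rw [inner_Aop]
    unfold qf at this
    refine this.trans (le_of_eq ?_)
    refine Finset.sum_congr rfl fun i _ => Finset.sum_congr rfl fun j _ => by ring
  upper := fun x v => by
    have := h.upper x v
    rw [inner_Aop]
    unfold qf at this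
    refine le_trans (le_of_eq ?_) this
    refine Finset.sum_congr rfl fun i _ => Finset.sum_congr rfl fun j _ => by ring
  symm := fun x v w => by
    rw [real_inner_comm (Aop ψ x w) v, inner_Aop, inner_Aop, Finset.sum_comm]
    refine Finset.sum_congr rfl fun i _ => Finset.sum_congr rfl fun j _ => ?_
    rw [hess_symm h.C2 x j i]
    ring

lemma det_Aop (f : E n → ℝ) (x : E n) : (Aop f x).det = (hess f x).det := by
  unfold Aop ContinuousLinearMap.det
  have : ((Matrix.toEuclideanCLM (𝕜 := ℝ) (n := Fin n) (hess f x) : E n →L[ℝ] E n) : E n →ₗ[ℝ] E n)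
      = Matrix.toLin (PiLp.basisFun 2 ℝ (Fin n)) (PiLp.basisFun 2 ℝ (Fin n)) (hess f x) := rfl
  rw [this, LinearMap.det_toLin]

end Vale.Agent.P254.S2
end

section

/-! # P227/M/ID: the core weak identity `∫ (∑_b τ_ab ∂_b G) e^{-V} = ∫ x_a G e^{-V}` (helper294)

Change of variables `y = ∇ψ(x)`, no mollification. -/

open MeasureTheory
open scoped Topology

namespace Vale.Agent.P254.S2

open Vale.Agent.P227.M Vale.Agent.P254.MC

variable {n : ℕ} {ψ V : E n → ℝ} {c C M : ℝ}

lemma det_hess_pos (h : MMc ψ V c C M) (x : E n) : 0 < (hess ψ x).det := by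
  rw [← det_Aop]
  exact (gmap h).det_pos x

lemma isUnit_hess (h : MMc ψ V c C M) (x : E n) : IsUnit (hess ψ x).det :=
  (det_hess_pos h x).ne'.isUnit

lemma tau_mul_hess (h : MMc ψ V c C M) (x : E n) : tau ψ x * hess ψ x = 1 :=
  Matrix.nonsing_inv_mul _ (isUnit_hess h x)

lemma hess_mul_tau (h : MMc ψ V c C M) (x : E n) : hess ψ x * tau ψ x = 1 :=
  Matrix.mul_nonsing_inv _ (isUnit_hess h x)

lemma hess_transpose (h : MMc ψ V c C M) (x : E n) : (hess ψ x).transpose = hess ψ x := by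
  ext i j
  exact hess_symm h.C2 x j i

lemma tau_transpose (h : MMc ψ V c C M) (x : E n) : (tau ψ x).transpose = tau ψ x := by
  unfold tau
  rw [Matrix.transpose_nonsing_inv, hess_transpose h x]

lemma tau_symm (h : MMc ψ V c C M) (x : E n) (i j : Fin n) : tau ψ x i j = tau ψ x j i := by
  conv_lhs => rw [← tau_transpose h x]
  rfl

/-- `τ` as an operator -/
noncomputable def Top (ψ : E n → ℝ) (x : E n) : E n →L[ℝ] E n :=
  Matrix.toEuclideanCLM (𝕜 := ℝ) (n := Fin n) (tau ψ x)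

lemma Top_apply (ψ : E n → ℝ) (x v : E n) (i : Fin n) :
    Top ψ x v i = ∑ j, tau ψ x i j * v j := by
  unfold Top
  rw [Matrix.ofLp_toEuclideanCLM]
  rfl

lemma Aop_Top (h : MMc ψ V c C M) (x v : E n) : Aop ψ x (Top ψ x v) = v := by
  have : Aop ψ x * Top ψ x = 1 := by
    unfold Aop Top
    rw [← map_mul, hess_mul_tau h x, map_one]
  exact congrArg (fun T : E n →L[ℝ] E n => T v) this

lemma symm_apply_eq (h : MMc ψ V c C M) (x v : E n) : ((gmap h).eqv x).symm v = Top ψ x v := by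
  rw [ContinuousLinearEquiv.symm_apply_eq, Dif.GMap.eqv_apply, Aop_Top h]

lemma Top_ei (x : E n) (a b : Fin n) : Top ψ x (ei a) b = tau ψ x b a := by
  rw [Top_apply]
  simp [ei, Pi.single_apply]

/-- the Legendre transform -/
noncomputable def ph (h : MMc ψ V c C M) (y : E n) : ℝ :=
  inner ℝ ((gmap h).inv y) y - ψ ((gmap h).inv y)

lemma hasFDerivAt_inv (h : MMc ψ V c C M) (y : E n) :
    HasFDerivAt (gmap h).inv (Top ψ ((gmap h).inv y)) y := by
  have := (gmap h).inv_der y
  refine this.congr_fderiv ?_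
  refine ContinuousLinearMap.ext fun v => ?_
  exact symm_apply_eq h _ v

lemma hasFDerivAt_ph (h : MMc ψ V c C M) (y : E n) :
    HasFDerivAt (ph h) (innerSL ℝ ((gmap h).inv y)) y := by
  have h1 := hasFDerivAt_inv h y
  have h2 := h1.inner ℝ (hasFDerivAt_id y)
  have h3 : HasFDerivAt ψ (fderiv ℝ ψ ((gmap h).inv y)) ((gmap h).inv y) :=
    ((h.C2.differentiable (by norm_num)) _).hasFDerivAt
  have h4 := h2.sub (h3.comp y h1)
  refine h4.congr_fderiv ?_
  refine ContinuousLinearMap.ext fun v => ?_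
  simp only [sub_apply, ContinuousLinearMap.comp_apply,
    ContinuousLinearMap.prod_apply, fderivInnerCLM_apply, ContinuousLinearMap.id_apply,
    innerSL_apply_apply, id_eq]
  have h5 : fderiv ℝ ψ ((gmap h).inv y) (Top ψ ((gmap h).inv y) v)
      = inner ℝ (Top ψ ((gmap h).inv y) v) y := by
    rw [fderiv_apply_eq, inner_eq]
    refine Finset.sum_congr rfl fun i _ => ?_
    congr 1
    have := (gmap h).g_inv y
    conv_rhs => rw [← this]
    rfl
  rw [h5]
  ring

lemma ph_g (h : MMc ψ V c C M) (x : E n) : ph h (gr ψ x) = (∑ i, x i * pd i ψ x) - ψ x := by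
  unfold ph
  rw [(gmap h).inv_g, inner_eq]
  rfl

lemma det_exp (h : MMc ψ V c C M) (x : E n) :
    (Aop ψ x).det * Real.exp (-(ph h (gr ψ x))) = Real.exp (-(V x)) := by
  have hd := det_hess_pos h x
  rw [det_Aop, ph_g, h.ma x]
  rw [show -((∑ i, x i * pd i ψ x) - ψ x - Real.log (hess ψ x).det)
      = Real.log (hess ψ x).det + -((∑ i, x i * pd i ψ x) - ψ x) by ring, Real.exp_add,
    Real.exp_log hd]

/-- transfer of integrals -/
lemma integral_y (h : MMc ψ V c C M) (H : E n → ℝ) :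
    ∫ y, H ((gmap h).inv y) * Real.exp (-(ph h y)) = ∫ x, H x * Real.exp (-(V x)) := by
  rw [(gmap h).integral_comp_g volume]
  refine integral_congr_ae (Filter.Eventually.of_forall fun x => ?_)
  simp only [smul_eq_mul, (gmap h).inv_g]
  rw [← det_exp h x]
  ring

lemma integrable_y (h : MMc ψ V c C M) (H : E n → ℝ) :
    Integrable (fun y => H ((gmap h).inv y) * Real.exp (-(ph h y))) ↔
      Integrable (fun x => H x * Real.exp (-(V x))) := by
  rw [(gmap h).integrable_comp_g volume]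
  refine integrable_congr (Filter.Eventually.of_forall fun x => ?_)
  simp only [smul_eq_mul, (gmap h).inv_g]
  rw [← det_exp h x]
  ring

lemma hasFDerivAt_exp_ph (h : MMc ψ V c C M) (y : E n) :
    HasFDerivAt (fun y => Real.exp (-(ph h y)))
      (Real.exp (-(ph h y)) • (-(innerSL ℝ ((gmap h).inv y)))) y := by
  exact ((hasFDerivAt_ph h y).neg).exp

/-- CORE, `C¹` version with integrability -/
theorem core_c1 (h : MMc ψ V c C M) (a : Fin n) (G : E n → ℝ) (hG : Differentiable ℝ G)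
    (h1 : Integrable (fun x => (∑ b, tau ψ x a b * pd b G x) * Real.exp (-(V x))))
    (h2 : Integrable (fun x => (x a * G x) * Real.exp (-(V x))))
    (h3 : Integrable (fun x => G x * Real.exp (-(V x)))) :
    ∫ x, (∑ b, tau ψ x a b * pd b G x) * Real.exp (-(V x))
      = ∫ x, (x a * G x) * Real.exp (-(V x)) := by
  have hd : ∀ y, HasFDerivAt (fun y => G ((gmap h).inv y))
      ((fderiv ℝ G ((gmap h).inv y)).comp (Top ψ ((gmap h).inv y))) y := fun y =>
    (hG _).hasFDerivAt.comp y (hasFDerivAt_inv h y)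
  have hval : ∀ y, fderiv ℝ (fun y => G ((gmap h).inv y)) y (ei a)
      = ∑ b, tau ψ ((gmap h).inv y) a b * pd b G ((gmap h).inv y) := by
    intro y
    rw [(hd y).fderiv]
    rw [ContinuousLinearMap.comp_apply, fderiv_apply_eq]
    refine Finset.sum_congr rfl fun b _ => ?_
    rw [Top_ei, tau_symm h]
  have he : ∀ y, fderiv ℝ (fun y => Real.exp (-(ph h y))) y (ei a)
      = -((gmap h).inv y a * Real.exp (-(ph h y))) := by
    intro y
    rw [(hasFDerivAt_exp_ph h y).fderiv]
    simp only [smul_apply, neg_apply, innerSL_apply_apply, smul_eq_mul]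
    rw [inner_eq]
    simp [ei, Pi.single_apply]
    ring
  have hibp := integral_mul_fderiv_eq_neg_fderiv_mul_of_integrable (𝕜 := ℝ) (μ := volume)
    (f := fun y => G ((gmap h).inv y)) (g := fun y => Real.exp (-(ph h y))) (v := ei a)
    (by
      simp only [hval]
      exact (integrable_y h (fun x => ∑ b, tau ψ x a b * pd b G x)).2 h1)
    (by
      simp only [he]
      have := ((integrable_y h (fun x => x a * G x)).2 h2).neg
      refine this.congr (Filter.Eventually.of_forall fun y => ?_)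
      simp only [Pi.neg_apply]
      ring)
    ((integrable_y h G).2 h3)
    (fun y _ => (hd y).differentiableAt)
    (fun y _ => (hasFDerivAt_exp_ph h y).differentiableAt)
  simp only [hval, he] at hibp
  rw [← integral_y h (fun x => ∑ b, tau ψ x a b * pd b G x), ← integral_y h (fun x => x a * G x)]
  have e1 : ∫ y, G ((gmap h).inv y) * -((gmap h).inv y a * Real.exp (-(ph h y)))
      = - ∫ y, (gmap h).inv y a * G ((gmap h).inv y) * Real.exp (-(ph h y)) := by
    rw [← integral_neg]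
    refine integral_congr_ae (Filter.Eventually.of_forall fun y => ?_)
    simp only
    ring
  rw [e1] at hibp
  linarith

end Vale.Agent.P254.S2
end

section

/-! # P227/M/ID: `τ` is continuous, bounded, Lipschitz; `StmtStein`, `StmtIBP` (helper294) -/

open MeasureTheory
open scoped Topology

namespace Vale.Agent.P254.S2

open Vale.Agent.P227.M Vale.Agent.P254.MC

variable {n : ℕ} {ψ V : E n → ℝ} {c C M : ℝ}

lemma norm_Top_le (h : MMc ψ V c C M) (x v : E n) : ‖Top ψ x v‖ ≤ c⁻¹ * ‖v‖ := by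
  have h1 := (gmap h).le_norm_A_apply x (Top ψ x v)
  rw [Aop_Top h] at h1
  rw [inv_mul_eq_div, le_div_iff₀ h.c_pos, mul_comm]
  exact h1

lemma abs_tau_le (h : MMc ψ V c C M) (x : E n) (i j : Fin n) : |tau ψ x i j| ≤ c⁻¹ := by
  have h1 := norm_Top_le h x (ei j)
  rw [norm_ei, mul_one] at h1
  rw [← Top_ei]
  exact (abs_coord_le _ _).trans h1

lemma continuous_hessM (h : MMc ψ V c C M) : Continuous (fun x => hess ψ x) :=
  continuous_matrix fun i j => continuous_hess h.C2 i j

lemma continuous_tau (h : MMc ψ V c C M) (i j : Fin n) : Continuous (fun x => tau ψ x i j) := by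
  have h1 : Continuous (fun x => (hess ψ x).det⁻¹) :=
    (continuous_hessM h).matrix_det.inv₀ fun x => (det_hess_pos h x).ne'
  have h2 : Continuous (fun x => (hess ψ x).adjugate) := (continuous_hessM h).matrix_adjugate
  have e : (fun x => tau ψ x i j) = fun x => (hess ψ x).det⁻¹ * (hess ψ x).adjugate i j := by
    funext x
    unfold tau
    rw [Matrix.inv_def, Ring.inverse_eq_inv']
    rfl
  rw [e]
  exact h1.mul (h2.matrix_elem i j)

lemma gr_tau (h : MMc ψ V c C M) (i j : Fin n) : Gr (fun x => tau ψ x i j) :=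
  Gr.of_bound (continuous_tau h i j) (fun x => abs_tau_le h x i j)

lemma tau_sub (h : MMc ψ V c C M) (x y : E n) :
    tau ψ x - tau ψ y = tau ψ x * (hess ψ y - hess ψ x) * tau ψ y := by
  rw [mul_sub, sub_mul, tau_mul_hess h x, mul_assoc, hess_mul_tau h y]
  simp

/-- `τ` is Lipschitz -/
lemma tau_lip (h : MMc ψ V c C M) (i j : Fin n) (x y : E n) :
    |tau ψ x i j - tau ψ y i j| ≤ (n * (n * (c⁻¹ * M * c⁻¹))) * ‖x - y‖ := by
  have e : tau ψ x i j - tau ψ y i j
      = ∑ k, ∑ l, tau ψ x i k * (hess ψ y k l - hess ψ x k l) * tau ψ y l j := by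
    have := congrFun (congrFun (tau_sub h x y) i) j
    rw [Matrix.sub_apply] at this
    rw [this, Matrix.mul_apply]
    simp only [Matrix.mul_apply, Matrix.sub_apply, Finset.sum_mul]
    rw [Finset.sum_comm]
  rw [e]
  have hc : 0 ≤ c⁻¹ := inv_nonneg.2 h.c_pos.le
  have hM : ∀ k l, |hess ψ y k l - hess ψ x k l| ≤ M * ‖x - y‖ := fun k l => by
    have := h.lip k l y x
    rwa [norm_sub_rev] at this
  calc |∑ k, ∑ l, tau ψ x i k * (hess ψ y k l - hess ψ x k l) * tau ψ y l j|
      ≤ ∑ k : Fin n, ∑ l : Fin n, c⁻¹ * (M * ‖x - y‖) * c⁻¹ := by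
        refine (Finset.abs_sum_le_sum_abs _ _).trans (Finset.sum_le_sum fun k _ => ?_)
        refine (Finset.abs_sum_le_sum_abs _ _).trans (Finset.sum_le_sum fun l _ => ?_)
        rw [abs_mul, abs_mul]
        refine mul_le_mul ?_ (abs_tau_le h y l j) (abs_nonneg _) ?_
        · exact mul_le_mul (abs_tau_le h x i k) (hM k l) (abs_nonneg _) hc
        · exact mul_nonneg hc ((abs_nonneg _).trans (hM k l))
    _ = (n * (n * (c⁻¹ * M * c⁻¹))) * ‖x - y‖ := by
        simp only [Finset.sum_const, Finset.card_univ, Fintype.card_fin, nsmul_eq_mul]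
        ring

/-- CORE for `C¹` functions of polynomial growth -/
theorem core_gr {c₁ C₁ : ℝ} (hV : Reg V c₁ C₁) (h : MMc ψ V c C M) (a : Fin n) (G : E n → ℝ)
    (hG : Differentiable ℝ G) (hG0 : Gr G) (hG1 : ∀ b, Gr (pd b G)) :
    ∫ x, (∑ b, tau ψ x a b * pd b G x) * Real.exp (-(V x))
      = ∫ x, (x a * G x) * Real.exp (-(V x)) := by
  refine core_c1 h a G hG ?_ ?_ ?_
  · exact hV.integrable_gr (Gr.sum _ fun b _ => (gr_tau h a b).mul (hG1 b))
  · exact hV.integrable_gr ((Gr.coord a).mul hG0)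
  · exact hV.integrable_gr hG0

/-- Stein : `E tr (D²W τ) = E ⟨∇W, x⟩` for smooth `W` with bounded second derivatives -/
theorem stein {n : ℕ} {ψ V : E n → ℝ} {c C M c₁ C₁ : ℝ} (hV : Reg V c₁ C₁) (h : MMc ψ V c C M)
    (W : E n → ℝ) (hW : Piece W) :
    Ex V (fun x => (hess W x * tau ψ x).trace) = Ex V (fun x => ∑ i, x i * pd i W x) := by
  unfold Ex
  congr 1
  have hW2 : ContDiff ℝ 2 W := hW.C2
  have hcore : ∀ a, ∫ x, (∑ b, tau ψ x a b * pd b (pd a W) x) * Real.exp (-(V x))
      = ∫ x, (x a * pd a W x) * Real.exp (-(V x)) := by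
    intro a
    refine core_gr hV h a (pd a W) (differentiable_pd hW2 a) (hW.gr_pd a) fun b => ?_
    exact hW.gr_hess b a
  have e1 : ∀ x, (hess W x * tau ψ x).trace * Real.exp (-(V x))
      = ∑ a, (∑ b, tau ψ x a b * pd b (pd a W) x) * Real.exp (-(V x)) := by
    intro x
    rw [← Finset.sum_mul]
    congr 1
    rw [Matrix.trace]
    simp only [Matrix.diag_apply, Matrix.mul_apply]
    rw [Finset.sum_comm]
    refine Finset.sum_congr rfl fun a _ => Finset.sum_congr rfl fun b _ => ?_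
    rw [mul_comm]
    rfl
  have e2 : ∀ x, (∑ i, x i * pd i W x) * Real.exp (-(V x))
      = ∑ a, (x a * pd a W x) * Real.exp (-(V x)) := by
    intro x
    rw [← Finset.sum_mul]
  simp only [e1, e2]
  rw [integral_finsetSum, integral_finsetSum]
  · exact Finset.sum_congr rfl fun a _ => hcore a
  · intro a _
    exact hV.integrable_gr ((Gr.coord a).mul (hW.gr_pd a))
  · intro a _
    exact hV.integrable_gr (Gr.sum _ fun b _ => (gr_tau h a b).mul (hW.gr_hess b a))

lemma pd_compact {f : E n → ℝ} (hf : HasCompactSupport f) (i : Fin n) :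
    HasCompactSupport (pd i f) := by
  unfold pd
  exact (hf.fderiv ℝ).comp_left (g := fun L : E n →L[ℝ] ℝ => L (ei i)) (by simp)

lemma test_pd {f : E n → ℝ} (hf : Test f) (i : Fin n) : Test (pd i f) :=
  ⟨contDiff_pd_top hf.1 i, pd_compact hf.2 i⟩

lemma tGr {f : E n → ℝ} (hf : Test f) : Gr f := Gr.of_test hf.1.continuous hf.2

lemma tDiff {f : E n → ℝ} (hf : Test f) : Differentiable ℝ f :=
  hf.1.differentiable (by norm_num)

/-- integration by parts : `E (-L u) f = E ⟨∇f, s⟩`, `f` smooth -/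
theorem ibp {n : ℕ} {ψ V : E n → ℝ} {c C M c₁ C₁ : ℝ} (hV : Reg V c₁ C₁) (h : MMc ψ V c C M)
    (u f : E n → ℝ) (hu : Test u) (hf : ContDiff ℝ (⊤ : ℕ∞) f) :
    Ex V (fun x => -(Lop ψ u x) * f x) = Ex V (fun x => ∑ b, pd b f x * fld ψ u b x) := by
  unfold Ex
  congr 1
  have hfd : Differentiable ℝ f := hf.differentiable (by norm_num)
  -- the test function `f ∂_a u`
  have hT : ∀ a, Test (fun x => f x * pd a u x) := fun a =>
    ⟨hf.mul (test_pd hu a).1, (test_pd hu a).2.mul_left⟩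
  have hcore : ∀ a, ∫ x, (∑ b, tau ψ x a b * pd b (fun z => f z * pd a u z) x) * Real.exp (-(V x))
      = ∫ x, (x a * (f x * pd a u x)) * Real.exp (-(V x)) := by
    intro a
    refine core_gr hV h a _ (tDiff (hT a)) (tGr (hT a)) fun b => tGr (test_pd (hT a) b)
  have hi1 : ∀ a, Integrable (fun x =>
      (∑ b, tau ψ x a b * pd b (fun z => f z * pd a u z) x) * Real.exp (-(V x))) := fun a =>
    hV.integrable_gr (Gr.sum _ fun b _ => (gr_tau h a b).mul (tGr (test_pd (hT a) b)))
  have hi2 : ∀ a, Integrable (fun x => (x a * (f x * pd a u x)) * Real.exp (-(V x))) := fun a =>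
    hV.integrable_gr ((Gr.coord a).mul (tGr (hT a)))
  have hfu : ∀ a b, Test (fun x => pd b f x * pd a u x) := fun a b =>
    ⟨(contDiff_pd_top hf b).mul (test_pd hu a).1, (test_pd hu a).2.mul_left⟩
  have hi3 : Integrable (fun x => (∑ b, pd b f x * fld ψ u b x) * Real.exp (-(V x))) := by
    have : (fun x => (∑ b, pd b f x * fld ψ u b x)) =
        fun x => ∑ b, ∑ a, tau ψ x b a * (pd b f x * pd a u x) := by
      funext x
      refine Finset.sum_congr rfl fun b _ => ?_
      unfold fld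
      rw [Finset.mul_sum]
      exact Finset.sum_congr rfl fun a _ => by ring
    have h5 : Gr (fun x => ∑ b, pd b f x * fld ψ u b x) := by
      rw [this]
      exact Gr.sum _ fun b _ => Gr.sum _ fun a _ => (gr_tau h b a).mul (tGr (hfu a b))
    exact hV.integrable_gr h5
  have key : ∀ x, (-(Lop ψ u x) * f x) * Real.exp (-(V x))
      = (∑ b, pd b f x * fld ψ u b x) * Real.exp (-(V x))
        - ((∑ a, (∑ b, tau ψ x a b * pd b (fun z => f z * pd a u z) x) * Real.exp (-(V x)))
          - ∑ a, (x a * (f x * pd a u x)) * Real.exp (-(V x))) := by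
    intro x
    have e1 : ∀ a b, pd b (fun z => f z * pd a u z) x
        = f x * hess u x b a + pd b f x * pd a u x := fun a b => by
      rw [S2.pd_mul b (hfd x) (tDiff (test_pd hu a) x)]
      rfl
    simp only [e1, ← Finset.sum_mul]
    rw [← sub_mul, ← sub_mul]
    congr 1
    unfold Lop fld
    simp only [mul_add, Finset.sum_add_distrib]
    have e2 : ∑ a, ∑ b, tau ψ x a b * (f x * hess u x b a)
        = f x * ∑ i, ∑ j, tau ψ x i j * hess u x i j := by
      rw [Finset.mul_sum]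
      refine Finset.sum_congr rfl fun a _ => ?_
      rw [Finset.mul_sum]
      refine Finset.sum_congr rfl fun b _ => ?_
      rw [hess_symm (hu.1.of_le (by norm_cast)) x b a]
      ring
    have e3 : ∑ a, ∑ b, tau ψ x a b * (pd b f x * pd a u x)
        = ∑ b, pd b f x * ∑ a, tau ψ x b a * pd a u x := by
      rw [Finset.sum_comm]
      refine Finset.sum_congr rfl fun b _ => ?_
      rw [Finset.mul_sum]
      refine Finset.sum_congr rfl fun a _ => ?_
      rw [tau_symm h x a b]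
      ring
    have e4 : ∑ a, x a * (f x * pd a u x) = f x * ∑ i, x i * pd i u x := by
      rw [Finset.mul_sum]
      exact Finset.sum_congr rfl fun a _ => by ring
    rw [e2, e3, e4]
    ring
  have hs1 : Integrable (fun x => ∑ a,
      (∑ b, tau ψ x a b * pd b (fun z => f z * pd a u z) x) * Real.exp (-(V x))) :=
    integrable_finsetSum _ fun a _ => hi1 a
  have hs2 : Integrable (fun x => ∑ a, (x a * (f x * pd a u x)) * Real.exp (-(V x))) :=
    integrable_finsetSum _ fun a _ => hi2 a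
  have hz : ∫ x, ((∑ a, (∑ b, tau ψ x a b * pd b (fun z => f z * pd a u z) x) * Real.exp (-(V x)))
      - ∑ a, (x a * (f x * pd a u x)) * Real.exp (-(V x))) = 0 := by
    rw [integral_sub hs1 hs2, integral_finsetSum _ fun a _ => hi1 a,
      integral_finsetSum _ fun a _ => hi2 a, Finset.sum_congr rfl fun a _ => hcore a, sub_self]
  have hs3 : Integrable (fun x =>
      ((∑ a, (∑ b, tau ψ x a b * pd b (fun z => f z * pd a u z) x) * Real.exp (-(V x)))
      - ∑ a, (x a * (f x * pd a u x)) * Real.exp (-(V x)))) := hs1.sub hs2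
  simp only [key]
  rw [integral_sub hi3 hs3, hz, sub_zero]

end Vale.Agent.P254.S2
end

section

/-!
P254, block (Z), contact computation at the minimum (helper546).
-/

namespace Vale.Agent.P254.Z546

open Matrix Polynomial Filter Topology Asymptotics Set
open Vale.Agent.P254.L Vale.Agent.P254.S526

variable {n : ℕ}

/-! ### the one-variable function -/

/-- derivative of `-√(1-x)` -/
noncomputable def e1 (x : ℝ) : ℝ := 1 / (2 * Real.sqrt (1 - x))
/-- second derivative of `-√(1-x)` -/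
noncomputable def e2 (x : ℝ) : ℝ := 1 / (4 * ((1 - x) * Real.sqrt (1 - x)))

theorem hasDerivAt_sqrt' {x : ℝ} (hx : x < 1) :
    HasDerivAt (fun x : ℝ => Real.sqrt (1 - x)) (- e1 x) x := by
  have h1 : HasDerivAt (fun x : ℝ => 1 - x) (-1) x := by
    simpa using (hasDerivAt_id x).const_sub 1
  have h2 := h1.sqrt (by linarith : (1 - x) ≠ 0)
  refine h2.congr_deriv ?_
  unfold e1
  ring

theorem hasDerivAt_e1 {x : ℝ} (hx : x < 1) : HasDerivAt e1 (e2 x) x := by
  have hs : 0 < Real.sqrt (1 - x) := Real.sqrt_pos.2 (by linarith)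
  have h1 := ((hasDerivAt_sqrt' hx).const_mul 2).inv (by positivity)
  have e : e1 = fun x => (2 * Real.sqrt (1 - x))⁻¹ := by
    funext x; unfold e1; rw [one_div]
  rw [e]
  refine h1.congr_deriv ?_
  unfold e1 e2
  have h2 : Real.sqrt (1 - x) ^ 2 = 1 - x := Real.sq_sqrt (by linarith)
  generalize Real.sqrt (1 - x) = s at hs h2 ⊢
  rw [← h2]
  field_simp
  norm_num

theorem e1_mono {x y : ℝ} (hy : y < 1) (h : x ≤ y) : e1 x ≤ e1 y := by
  unfold e1
  have h1 : 0 < Real.sqrt (1 - y) := Real.sqrt_pos.2 (by linarith)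
  have h2 : Real.sqrt (1 - y) ≤ Real.sqrt (1 - x) := Real.sqrt_le_sqrt (by linarith)
  exact one_div_le_one_div_of_le (by positivity) (by linarith)

theorem dd1_e_nonneg {x y : ℝ} (hx : x < 1) (hy : y < 1) : 0 ≤ dd1 e1 e2 x y := by
  unfold dd1
  split_ifs with h
  · unfold e2
    have : 0 < 1 - x := by linarith
    positivity
  · rcases lt_or_gt_of_ne h with h1 | h1
    · exact div_nonneg_of_nonpos (by linarith [e1_mono hy h1.le]) (by linarith)
    · exact div_nonneg (by linarith [e1_mono hx h1.le]) (by linarith)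

/-- derivative of `ft` -/
noncomputable def g1 {F : Profile} (W : WProfile F) (ε x : ℝ) : ℝ :=
  W.w1 x + ε * e1 x + 1 / 2 * x⁻¹
/-- second derivative of `ft` -/
noncomputable def g2 {F : Profile} (W : WProfile F) (ε x : ℝ) : ℝ :=
  W.w2 x + ε * e2 x + 1 / 2 * (-(x ^ 2)⁻¹)

theorem hasDerivAt_ft {F : Profile} (W : WProfile F) (ε : ℝ) {x : ℝ} (hx : x ∈ Ioo (0 : ℝ) 1) :
    HasDerivAt (ft W ε) (g1 W ε x) x := by
  have h := ((W.d1 x hx).sub ((hasDerivAt_sqrt' hx.2).const_mul ε)).add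
    ((Real.hasDerivAt_log hx.1.ne').const_mul (1 / 2))
  refine h.congr_deriv ?_
  unfold g1
  ring

theorem hasDerivAt_g1 {F : Profile} (W : WProfile F) (ε : ℝ) {x : ℝ} (hx : x ∈ Ioo (0 : ℝ) 1) :
    HasDerivAt (g1 W ε) (g2 W ε x) x := by
  have h := ((W.d2 x hx).add ((hasDerivAt_e1 hx.2).const_mul ε)).add
    ((hasDerivAt_inv hx.1.ne').const_mul (1 / 2))
  exact h

theorem dd1_g {F : Profile} (W : WProfile F) (ε : ℝ) {x y : ℝ} (hx : x ∈ Ioo (0 : ℝ) 1)
    (hy : y ∈ Ioo (0 : ℝ) 1) :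
    x * y * dd1 (g1 W ε) (g2 W ε) x y
      = x * y * dd1 W.w1 W.w2 x y + ε * (x * y * dd1 e1 e2 x y) - 1 / 2 := by
  have hx0 := hx.1.ne'
  have hy0 := hy.1.ne'
  unfold dd1
  split_ifs with h
  · subst h
    unfold g2
    field_simp
    ring
  · have h1 : x - y ≠ 0 := sub_ne_zero.2 h
    unfold g1
    field_simp
    ring

/-! ### the contact computation -/

section
variable {F : Profile} {D : TiltData n} (E : EntData D) (W : WProfile F) {ε : ℝ}

/-- `∑_{kl} L_ak L_al K_ijkl` -/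
def KK (L : Mat n) (K : Fin n → Fin n → Fin n → Fin n → ℝ) (a : Fin n) : Mat n :=
  Matrix.of fun i j => ∑ k, L a k * ∑ l, L a l * K i j k l

theorem ev_nhds {x : ℝ} (hx : x ∈ Ioo (0 : ℝ) 1) {f f1 : ℝ → ℝ}
    (h : ∀ x ∈ Ioo (0 : ℝ) 1, HasDerivAt f (f1 x) x) : ∀ᶠ y in 𝓝 x, HasDerivAt f (f1 y) y := by
  filter_upwards [isOpen_Ioo.mem_nhds hx] with y hy
  exact h y hy

theorem conj_TT (L : Mat n) (T : Ten n) (a i j : Fin n) :
    (L * (Matrix.of fun i j => ∑ k, L a k * T i j k) * Lᵀ) i j = frT L T i j a := by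
  simp only [Matrix.mul_apply, Matrix.transpose_apply, Matrix.of_apply, frT]
  simp only [Finset.sum_mul, Finset.mul_sum]
  rw [Finset.sum_comm]
  refine Finset.sum_congr rfl fun p _ => Finset.sum_congr rfl fun q _ =>
    Finset.sum_congr rfl fun k _ => ?_
  ring

/-- (i) the second order test in the direction of the row `a` of the frame -/
theorem contact_c {B : Mat n} (hB : B.PosDef) {c : Vec n} {L : Mat n} {β : Vec n}
    (h : Fr (D.A B c) B L β) (a : Fin n)
    (hc : ∀ᶠ t in 𝓝 (0 : ℝ), GG E W ε B c ≤ GG E W ε B (c + t • (fun k => L a k))) :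
    0 ≤ 1 / 2 * (∑ i, ∑ j, E.Xi B c i j * L a i * L a j)
      - (1 / 2 * ∑ i, g1 W ε (β i) * (β i * (L * KK L (D.K B c) a * Lᵀ) i i)
        + 1 / 2 * ∑ i, ∑ j, dd1 (g1 W ε) (g2 W ε) (β i) (β j) * (β i * frT L (D.T B c) i j a)
            * (β j * frT L (D.T B c) j i a)) := by
  have hβ : ∀ i, β i ∈ Ioo (0 : ℝ) 1 := h.beta_mem hB c
  have hsy : ∀ c, (D.A B c)ᵀ = D.A B c := fun c => by
    ext i j; rw [Matrix.transpose_apply]; exact D.A_symm B c j i
  set e : Vec n := fun k => L a k with he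
  have hA : ∀ i j, J2 (𝓝 0) (fun t : ℝ => D.A B (c + t • e) i j) (D.A B c i j)
      ((Matrix.of fun i j => ∑ k, L a k * D.T B c i j k) i j)
      (((1 / 2 : ℝ) • KK L (D.K B c) a) i j) := by
    intro i j
    have h1 := J2.of_hasDerivAt (f := fun t : ℝ => D.A B (c + t • e) i j)
      (f' := fun t => ∑ k, e k * D.T B (c + t • e) i j k)
      (f2 := ∑ k, e k * ∑ l, e l * D.K B (c + (0 : ℝ) • e) i j k l)
      (Eventually.of_forall fun t => D.dA B hB.posSemidef c e i j t)
      (by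
        have h2 := HasDerivAt.fun_sum (u := Finset.univ) (fun k _ =>
          (D.dT B hB.posSemidef c e i j k 0).const_mul (e k))
        exact h2)
    simp only [zero_smul, add_zero] at h1
    refine h1.congr_coef rfl rfl ?_
    simp only [Matrix.smul_apply, KK, Matrix.of_apply, smul_eq_mul, he]
    ring
  have hPhi := phi_jet2 h (hsy c) hA (Eventually.of_forall fun t =>
    ⟨hsy _, exists_Fr (D.posA B hB.posSemidef _) hB.isHermitian⟩) (f := ft W ε) (f1 := g1 W ε)
    (f2 := g2 W ε) (fun i => ev_nhds (hβ i) fun x hx => hasDerivAt_ft W ε hx)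
    (fun i => hasDerivAt_g1 W ε (hβ i))
  have hE : J2 (𝓝 0) (fun t : ℝ => E.Ent B (c + t • e)) (E.Ent B c) (∑ i, E.g B c i * e i)
      (1 / 2 * ∑ i, ∑ j, E.Xi B c i j * e i * e j) := by
    refine (E.dE B hB.posSemidef c e).congr_left fun t => ?_
    ring
  have hG := ((((hE.add (J2.const (1 / 2 * Real.log B.det))).sub (J2.const (n : ℝ))).sub
      hPhi).neg).congr (g := fun t : ℝ => - GG E W ε B (c + t • e)) (a' := - GG E W ε B c)
      (Eventually.of_forall fun t => by unfold GG; rfl) (by unfold GG; rw [Phi_eq h]) rfl rfl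
  have h3 := (hG.le_test (by filter_upwards [hc] with t ht; linarith)).2
  simp only [conj_TT, Matrix.mul_smul, Matrix.smul_mul, Matrix.smul_apply, smul_eq_mul] at h3
  have h4 : ∑ i, g1 W ε (β i) * (β i * (1 / 2 * (L * KK L (D.K B c) a * Lᵀ) i i))
      = 1 / 2 * ∑ i, g1 W ε (β i) * (β i * (L * KK L (D.K B c) a * Lᵀ) i i) := by
    rw [Finset.mul_sum]
    exact Finset.sum_congr rfl fun i _ => by ring
  rw [h4] at h3
  linarith

/-- (ii) the first order test along the flow with the control `Q = Lᵀ diag r L` -/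
theorem contact_f {B : Mat n} (hB : B.PosDef) {c : Vec n} {L : Mat n} {β : Vec n}
    (h : Fr (D.A B c) B L β) {r : Vec n} (hr : ∀ i, 0 ≤ r i)
    (hc : ∀ᶠ t in 𝓝[≥] (0 : ℝ), GG E W ε B c ≤
      GG E W ε (B + t • (Lᵀ * Matrix.diagonal r * L))
        (c + t • ((Lᵀ * Matrix.diagonal r * L) *ᵥ D.mu B c))) :
    0 ≤ -(1 / 2) * (∑ a, r a * (1 + ∑ i, ∑ j, E.Xi B c i j * L a i * L a j))
      + 1 / 2 * ∑ i, r i / β i
      - ∑ i, g1 W ε (β i) * (r i * (1 - β i)
        - 1 / 2 * (β i * ∑ a, r a * (L * KK L (D.K B c) a * Lᵀ) i i)) := by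
  have hβ : ∀ i, β i ∈ Ioo (0 : ℝ) 1 := h.beta_mem hB c
  have hsy : ∀ B c, (D.A B c)ᵀ = D.A B c := fun B c => by
    ext i j; rw [Matrix.transpose_apply]; exact D.A_symm B c j i
  have hdr : (Matrix.diagonal r : Mat n).PosSemidef := by
    rw [Matrix.posSemidef_diagonal_iff]; exact hr
  set Q : Mat n := Lᵀ * Matrix.diagonal r * L with hQ
  have hQp : Q.PosSemidef := (psd_conj_iff h.isUnit).2 hdr
  have hl : 𝓝[≥] (0 : ℝ) ≤ 𝓝 0 := nhdsWithin_le_nhds
  have hQe : ∀ k l, Q k l = ∑ a, r a * (L a k * L a l) := by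
    intro k l
    rw [hQ, Matrix.mul_apply]
    refine Finset.sum_congr rfl fun a _ => ?_
    rw [Matrix.mul_diagonal, Matrix.transpose_apply]
    ring
  -- the matrix of the derivative of `A`
  set X : Mat n := -(D.A B c * Q * D.A B c)
    - (1 / 2 : ℝ) • ∑ a, r a • KK L (D.K B c) a with hX
  have hA : ∀ i j, J1 (𝓝[≥] 0) (fun t : ℝ => D.A (B + t • Q) (c + t • (Q *ᵥ D.mu B c)) i j)
      (D.A B c i j) (X i j) := by
    intro i j
    have h1 := J1.of_hasDerivWithinAt (D.fA B hB.posSemidef c Q hQp i j)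
    simp only [zero_smul, add_zero] at h1
    refine h1.congr_coef rfl ?_
    rw [hX]
    simp only [Matrix.sub_apply, Matrix.neg_apply, Matrix.smul_apply, Matrix.sum_apply, KK,
      Matrix.of_apply, smul_eq_mul]
    congr 2
    simp only [hQe, Finset.sum_mul, Finset.mul_sum]
    have e1 : ∀ k, ∑ l, ∑ a, r a * (L a k * L a l) * D.K B c i j k l
        = ∑ a, ∑ l, r a * (L a k * L a l) * D.K B c i j k l := fun k => Finset.sum_comm
    simp only [e1]
    rw [Finset.sum_comm]
    refine Finset.sum_congr rfl fun a _ => Finset.sum_congr rfl fun k _ =>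
      Finset.sum_congr rfl fun l _ => ?_
    ring
  have hpd : ∀ t : ℝ, 0 ≤ t → (B + t • Q).PosDef := fun t ht =>
    hB.add_posSemidef (hQp.smul ht)
  have hPhi := phi_jet1 hl h (hsy B c) hA (r := r) (by
    filter_upwards [self_mem_nhdsWithin] with t ht
    exact ⟨hsy _ _, exists_Fr (D.posA _ (hpd t ht).posSemidef _) (hpd t ht).isHermitian⟩)
    (f := ft W ε) (f1 := g1 W ε)
    (f2 := g2 W ε) (fun i => ev_nhds (hβ i) fun x hx => hasDerivAt_ft W ε hx)
    (fun i => hasDerivAt_g1 W ε (hβ i))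
  have hdet := logdet_jet1 hl h (r := r) (fun i => (hβ i).1)
  have hE := J1.of_hasDerivWithinAt (E.fE B hB.posSemidef c Q hQp)
  simp only [zero_smul, add_zero] at hE
  have hG := ((((hE.add (hdet.const_mul (1 / 2))).sub (J1.const (n : ℝ))).sub
      hPhi).neg).congr
      (g := fun t : ℝ => - GG E W ε (B + t • Q) (c + t • (Q *ᵥ D.mu B c)))
      (a' := - GG E W ε B c)
      (Eventually.of_forall fun t => by unfold GG; rfl) (by unfold GG; rw [Phi_eq h]) rfl
  have h3 := hG.le_test (by filter_upwards [hc] with t ht; linarith)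
  have hLX : ∀ i, (L * X * Lᵀ) i i
      = - r i - 1 / 2 * ∑ a, r a * (L * KK L (D.K B c) a * Lᵀ) i i := by
    intro i
    have e1 : L * (D.A B c * Q * D.A B c) * Lᵀ = Matrix.diagonal r := by
      rw [hQ]
      calc L * (D.A B c * (Lᵀ * Matrix.diagonal r * L) * D.A B c) * Lᵀ
          = (L * D.A B c * Lᵀ) * Matrix.diagonal r * (L * D.A B c * Lᵀ) := by
            simp only [Matrix.mul_assoc]
        _ = _ := by rw [h.hA, Matrix.one_mul, Matrix.mul_one]
    rw [hX, Matrix.mul_sub, Matrix.sub_mul, Matrix.mul_neg, Matrix.neg_mul, e1]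
    simp only [Matrix.sub_apply, Matrix.neg_apply, Matrix.diagonal_apply_eq, Matrix.mul_smul,
      Matrix.smul_mul, Matrix.smul_apply, Matrix.mul_sum, Matrix.sum_mul, Matrix.sum_apply,
      smul_eq_mul]
  have htr : (Q * D.A B c).trace = ∑ a, r a := by
    have e1 : Q * D.A B c = Lᵀ * (Matrix.diagonal r * (L * D.A B c)) := by
      rw [hQ]; simp only [Matrix.mul_assoc]
    rw [e1, Matrix.trace_mul_comm, Matrix.mul_assoc, h.hA, Matrix.mul_one,
      Matrix.trace_diagonal]
  have hXi : ∑ i, ∑ j, Q i j * E.Xi B c i j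
      = ∑ a, r a * ∑ i, ∑ j, E.Xi B c i j * L a i * L a j := by
    simp only [hQe, Finset.sum_mul, Finset.mul_sum]
    have e1 : ∀ k, ∑ l, ∑ a, r a * (L a k * L a l) * E.Xi B c k l
        = ∑ a, ∑ l, r a * (L a k * L a l) * E.Xi B c k l := fun k => Finset.sum_comm
    simp only [e1]
    rw [Finset.sum_comm]
    refine Finset.sum_congr rfl fun a _ => Finset.sum_congr rfl fun k _ =>
      Finset.sum_congr rfl fun l _ => ?_
    ring
  rw [htr, hXi, ← Finset.sum_add_distrib] at h3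
  have h5 : ∑ a, (r a + r a * ∑ i, ∑ j, E.Xi B c i j * L a i * L a j)
      = ∑ a, r a * (1 + ∑ i, ∑ j, E.Xi B c i j * L a i * L a j) :=
    Finset.sum_congr rfl fun a _ => by ring
  have h6 : ∑ i, g1 W ε (β i) * (r i + β i * (L * X * Lᵀ) i i)
      = ∑ i, g1 W ε (β i) * (r i * (1 - β i)
        - 1 / 2 * (β i * ∑ a, r a * (L * KK L (D.K B c) a * Lᵀ) i i)) :=
    Finset.sum_congr rfl fun i _ => by rw [hLX]; ring
  rw [h5, h6] at h3
  linarith

/-- the contact inequality: `(i)` and `(ii)` together -/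
theorem contact_ineq {B : Mat n} (hB : B.PosDef) {c : Vec n} {L : Mat n} {β : Vec n}
    (h : Fr (D.A B c) B L β) {r : Vec n} (hr : ∀ i, 0 ≤ r i)
    (hc : ∀ e : Vec n, ∀ᶠ t in 𝓝 (0 : ℝ), GG E W ε B c ≤ GG E W ε B (c + t • e))
    (hf : ∀ᶠ t in 𝓝[≥] (0 : ℝ), GG E W ε B c ≤
      GG E W ε (B + t • (Lᵀ * Matrix.diagonal r * L))
        (c + t • ((Lᵀ * Matrix.diagonal r * L) *ᵥ D.mu B c))) :
    0 ≤ ∑ a, r a * (∑ i, ∑ j, (1 / 2 * (1 / 2 - β i * β j * dd1 W.w1 W.w2 (β i) (β j)
        - ε * (β i * β j * dd1 e1 e2 (β i) (β j))))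
          * frT L (D.T B c) i j a ^ 2
      - (W.w1 (β a) + ε * e1 (β a)) * (1 - β a)) := by
  have hβ : ∀ i, β i ∈ Ioo (0 : ℝ) 1 := h.beta_mem hB c
  have h1 : ∀ a, 0 ≤ r a * _ := fun a => mul_nonneg (hr a) (contact_c E W hB h a (hc _))
  have h2 := Finset.sum_nonneg (s := Finset.univ) fun a _ => h1 a
  have h3 := contact_f E W hB h hr hf
  have hTs : ∀ i j a, frT L (D.T B c) j i a = frT L (D.T B c) i j a := by
    intro i j a
    unfold frT
    rw [Finset.sum_comm]
    refine Finset.sum_congr rfl fun p _ => Finset.sum_congr rfl fun q _ =>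
      Finset.sum_congr rfl fun k _ => ?_
    rw [(D.T_symm B c).1 q p k]
    ring
  have h4 := add_nonneg h2 h3
  refine h4.trans_eq ?_
  -- abbreviations
  have hK : ∑ a, r a * ∑ i, g1 W ε (β i) * (β i * (L * KK L (D.K B c) a * Lᵀ) i i)
      = ∑ i, g1 W ε (β i) * (β i * ∑ a, r a * (L * KK L (D.K B c) a * Lᵀ) i i) := by
    simp only [Finset.mul_sum]
    rw [Finset.sum_comm]
    exact Finset.sum_congr rfl fun i _ => Finset.sum_congr rfl fun a _ => by ring
  have e1 : ∑ a, r a * (1 / 2 * (∑ i, ∑ j, E.Xi B c i j * L a i * L a j)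
      - (1 / 2 * ∑ i, g1 W ε (β i) * (β i * (L * KK L (D.K B c) a * Lᵀ) i i)
        + 1 / 2 * ∑ i, ∑ j, dd1 (g1 W ε) (g2 W ε) (β i) (β j) * (β i * frT L (D.T B c) i j a)
            * (β j * frT L (D.T B c) j i a)))
      = 1 / 2 * (∑ a, r a * ∑ i, ∑ j, E.Xi B c i j * L a i * L a j)
        - 1 / 2 * (∑ a, r a * ∑ i, g1 W ε (β i) * (β i * (L * KK L (D.K B c) a * Lᵀ) i i))
        - 1 / 2 * ∑ a, r a * ∑ i, ∑ j, dd1 (g1 W ε) (g2 W ε) (β i) (β j)
            * (β i * frT L (D.T B c) i j a) * (β j * frT L (D.T B c) j i a) := by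
    rw [Finset.mul_sum Finset.univ _ (1 / 2 : ℝ), Finset.mul_sum Finset.univ _ (1 / 2 : ℝ),
      Finset.mul_sum Finset.univ _ (1 / 2 : ℝ), ← Finset.sum_sub_distrib,
      ← Finset.sum_sub_distrib]
    exact Finset.sum_congr rfl fun a _ => by ring
  have e2 : ∑ i, g1 W ε (β i) * (r i * (1 - β i)
        - 1 / 2 * (β i * ∑ a, r a * (L * KK L (D.K B c) a * Lᵀ) i i))
      = ∑ i, g1 W ε (β i) * (r i * (1 - β i))
        - 1 / 2 * ∑ i, g1 W ε (β i) * (β i * ∑ a, r a * (L * KK L (D.K B c) a * Lᵀ) i i) := by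
    rw [Finset.mul_sum Finset.univ _ (1 / 2 : ℝ), ← Finset.sum_sub_distrib]
    exact Finset.sum_congr rfl fun i _ => by ring
  have e3 : ∑ a, r a * (1 + ∑ i, ∑ j, E.Xi B c i j * L a i * L a j)
      = ∑ a, r a + ∑ a, r a * ∑ i, ∑ j, E.Xi B c i j * L a i * L a j := by
    rw [← Finset.sum_add_distrib]
    exact Finset.sum_congr rfl fun a _ => by ring
  rw [e1, e2, e3, hK]
  have e4 : ∑ a, r a * (∑ i, ∑ j, (1 / 2 * (1 / 2 - β i * β j * dd1 W.w1 W.w2 (β i) (β j)
        - ε * (β i * β j * dd1 Z546.e1 Z546.e2 (β i) (β j))))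
          * frT L (D.T B c) i j a ^ 2
      - (W.w1 (β a) + ε * Z546.e1 (β a)) * (1 - β a))
      = - (1 / 2 * ∑ a, r a * ∑ i, ∑ j, dd1 (g1 W ε) (g2 W ε) (β i) (β j)
            * (β i * frT L (D.T B c) i j a) * (β j * frT L (D.T B c) j i a))
        + (1 / 2 * ∑ i, r i / β i - 1 / 2 * ∑ a, r a
          - ∑ i, g1 W ε (β i) * (r i * (1 - β i))) := by
    rw [Finset.mul_sum Finset.univ _ (1 / 2 : ℝ), Finset.mul_sum Finset.univ _ (1 / 2 : ℝ),
      Finset.mul_sum Finset.univ _ (1 / 2 : ℝ), ← Finset.sum_sub_distrib,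
      ← Finset.sum_sub_distrib, ← Finset.sum_neg_distrib, ← Finset.sum_add_distrib]
    refine Finset.sum_congr rfl fun a _ => ?_
    have e5 : ∑ i, ∑ j, (1 / 2 * (1 / 2 - β i * β j * dd1 W.w1 W.w2 (β i) (β j)
        - ε * (β i * β j * dd1 Z546.e1 Z546.e2 (β i) (β j))))
          * frT L (D.T B c) i j a ^ 2
        = - (1 / 2 * ∑ i, ∑ j, dd1 (g1 W ε) (g2 W ε) (β i) (β j)
            * (β i * frT L (D.T B c) i j a) * (β j * frT L (D.T B c) j i a)) := by
      rw [Finset.mul_sum, ← Finset.sum_neg_distrib]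
      refine Finset.sum_congr rfl fun i _ => ?_
      rw [Finset.mul_sum, ← Finset.sum_neg_distrib]
      refine Finset.sum_congr rfl fun j _ => ?_
      rw [hTs i j a]
      have e6 := dd1_g W ε (hβ i) (hβ j)
      have e7 : dd1 (g1 W ε) (g2 W ε) (β i) (β j) * (β i * frT L (D.T B c) i j a)
            * (β j * frT L (D.T B c) i j a)
          = (β i * β j * dd1 (g1 W ε) (g2 W ε) (β i) (β j)) * frT L (D.T B c) i j a ^ 2 := by
        ring
      rw [e7, e6]
      ring
    rw [e5]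
    have hb := (hβ a).1.ne'
    unfold g1
    field_simp
    ring
  rw [e4]
  ring

end

end Vale.Agent.P254.Z546
end

section

/-! P254, static method: the contact computation (copy of `Z546/Contact` for `WP`). -/

namespace Vale.Agent.P254.St625

open Matrix Polynomial Filter Topology Asymptotics Set
open Vale.Agent.P254.L Vale.Agent.P254.S526
open Vale.Agent.P254.Z546 hiding g1 g2 hasDerivAt_ft hasDerivAt_g1 dd1_g contact_c contact_f contact_ineq

variable {n : ℕ}

/-- derivative of `ft` -/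
noncomputable def g1 {δ : ℝ} {k : ℝ → ℝ} (W : WP δ k) (ε x : ℝ) : ℝ :=
  W.w1 x + ε * e1 x + 1 / 2 * x⁻¹
/-- second derivative of `ft` -/
noncomputable def g2 {δ : ℝ} {k : ℝ → ℝ} (W : WP δ k) (ε x : ℝ) : ℝ :=
  W.w2 x + ε * e2 x + 1 / 2 * (-(x ^ 2)⁻¹)

theorem hasDerivAt_ft {δ : ℝ} {k : ℝ → ℝ} (W : WP δ k) (ε : ℝ) {x : ℝ} (hx : x ∈ Ioo (0 : ℝ) 1) :
    HasDerivAt (ft W ε) (g1 W ε x) x := by
  have h := ((W.d1 x hx).sub ((hasDerivAt_sqrt' hx.2).const_mul ε)).add
    ((Real.hasDerivAt_log hx.1.ne').const_mul (1 / 2))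
  refine h.congr_deriv ?_
  unfold g1
  ring

theorem hasDerivAt_g1 {δ : ℝ} {k : ℝ → ℝ} (W : WP δ k) (ε : ℝ) {x : ℝ} (hx : x ∈ Ioo (0 : ℝ) 1) :
    HasDerivAt (g1 W ε) (g2 W ε x) x := by
  have h := ((W.d2 x hx).add ((hasDerivAt_e1 hx.2).const_mul ε)).add
    ((hasDerivAt_inv hx.1.ne').const_mul (1 / 2))
  exact h

theorem dd1_g {δ : ℝ} {k : ℝ → ℝ} (W : WP δ k) (ε : ℝ) {x y : ℝ} (hx : x ∈ Ioo (0 : ℝ) 1)
    (hy : y ∈ Ioo (0 : ℝ) 1) :
    x * y * dd1 (g1 W ε) (g2 W ε) x y
      = x * y * dd1 W.w1 W.w2 x y + ε * (x * y * dd1 e1 e2 x y) - 1 / 2 := by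
  have hx0 := hx.1.ne'
  have hy0 := hy.1.ne'
  unfold dd1
  split_ifs with h
  · subst h
    unfold g2
    field_simp
    ring
  · have h1 : x - y ≠ 0 := sub_ne_zero.2 h
    unfold g1
    field_simp
    ring

/-! ### the contact computation -/

section
variable {δ : ℝ} {k : ℝ → ℝ} {D : TiltData n} (E : EntData D) (W : WP δ k) {ε : ℝ}

/-- (i) the second order test in the direction of the row `a` of the frame -/
theorem contact_c {B : Mat n} (hB : B.PosDef) {c : Vec n} {L : Mat n} {β : Vec n}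
    (h : Fr (D.A B c) B L β) (a : Fin n)
    (hc : ∀ᶠ t in 𝓝 (0 : ℝ), GG E W ε B c ≤ GG E W ε B (c + t • (fun k => L a k))) :
    0 ≤ 1 / 2 * (∑ i, ∑ j, E.Xi B c i j * L a i * L a j)
      - (1 / 2 * ∑ i, g1 W ε (β i) * (β i * (L * KK L (D.K B c) a * Lᵀ) i i)
        + 1 / 2 * ∑ i, ∑ j, dd1 (g1 W ε) (g2 W ε) (β i) (β j) * (β i * frT L (D.T B c) i j a)
            * (β j * frT L (D.T B c) j i a)) := by
  have hβ : ∀ i, β i ∈ Ioo (0 : ℝ) 1 := h.beta_mem hB c
  have hsy : ∀ c, (D.A B c)ᵀ = D.A B c := fun c => by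
    ext i j; rw [Matrix.transpose_apply]; exact D.A_symm B c j i
  set e : Vec n := fun k => L a k with he
  have hA : ∀ i j, J2 (𝓝 0) (fun t : ℝ => D.A B (c + t • e) i j) (D.A B c i j)
      ((Matrix.of fun i j => ∑ k, L a k * D.T B c i j k) i j)
      (((1 / 2 : ℝ) • KK L (D.K B c) a) i j) := by
    intro i j
    have h1 := J2.of_hasDerivAt (f := fun t : ℝ => D.A B (c + t • e) i j)
      (f' := fun t => ∑ k, e k * D.T B (c + t • e) i j k)
      (f2 := ∑ k, e k * ∑ l, e l * D.K B (c + (0 : ℝ) • e) i j k l)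
      (Eventually.of_forall fun t => D.dA B hB.posSemidef c e i j t)
      (by
        have h2 := HasDerivAt.fun_sum (u := Finset.univ) (fun k _ =>
          (D.dT B hB.posSemidef c e i j k 0).const_mul (e k))
        exact h2)
    simp only [zero_smul, add_zero] at h1
    refine h1.congr_coef rfl rfl ?_
    simp only [Matrix.smul_apply, KK, Matrix.of_apply, smul_eq_mul, he]
    ring
  have hPhi := phi_jet2 h (hsy c) hA (Eventually.of_forall fun t =>
    ⟨hsy _, exists_Fr (D.posA B hB.posSemidef _) hB.isHermitian⟩) (f := ft W ε) (f1 := g1 W ε)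
    (f2 := g2 W ε) (fun i => ev_nhds (hβ i) fun x hx => hasDerivAt_ft W ε hx)
    (fun i => hasDerivAt_g1 W ε (hβ i))
  have hE : J2 (𝓝 0) (fun t : ℝ => E.Ent B (c + t • e)) (E.Ent B c) (∑ i, E.g B c i * e i)
      (1 / 2 * ∑ i, ∑ j, E.Xi B c i j * e i * e j) := by
    refine (E.dE B hB.posSemidef c e).congr_left fun t => ?_
    ring
  have hG := ((((hE.add (J2.const (1 / 2 * Real.log B.det))).sub (J2.const (n : ℝ))).sub
      hPhi).neg).congr (g := fun t : ℝ => - GG E W ε B (c + t • e)) (a' := - GG E W ε B c)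
      (Eventually.of_forall fun t => by unfold GG; rfl) (by unfold GG; rw [Phi_eq h]) rfl rfl
  have h3 := (hG.le_test (by filter_upwards [hc] with t ht; linarith)).2
  simp only [conj_TT, Matrix.mul_smul, Matrix.smul_mul, Matrix.smul_apply, smul_eq_mul] at h3
  have h4 : ∑ i, g1 W ε (β i) * (β i * (1 / 2 * (L * KK L (D.K B c) a * Lᵀ) i i))
      = 1 / 2 * ∑ i, g1 W ε (β i) * (β i * (L * KK L (D.K B c) a * Lᵀ) i i) := by
    rw [Finset.mul_sum]
    exact Finset.sum_congr rfl fun i _ => by ring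
  rw [h4] at h3
  linarith

/-- (ii) the first order test along the flow with the control `Q = Lᵀ diag r L` -/
theorem contact_f {B : Mat n} (hB : B.PosDef) {c : Vec n} {L : Mat n} {β : Vec n}
    (h : Fr (D.A B c) B L β) {r : Vec n} (hr : ∀ i, 0 ≤ r i)
    (hc : ∀ᶠ t in 𝓝[≥] (0 : ℝ), GG E W ε B c ≤
      GG E W ε (B + t • (Lᵀ * Matrix.diagonal r * L))
        (c + t • ((Lᵀ * Matrix.diagonal r * L) *ᵥ D.mu B c))) :
    0 ≤ -(1 / 2) * (∑ a, r a * (1 + ∑ i, ∑ j, E.Xi B c i j * L a i * L a j))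
      + 1 / 2 * ∑ i, r i / β i
      - ∑ i, g1 W ε (β i) * (r i * (1 - β i)
        - 1 / 2 * (β i * ∑ a, r a * (L * KK L (D.K B c) a * Lᵀ) i i)) := by
  have hβ : ∀ i, β i ∈ Ioo (0 : ℝ) 1 := h.beta_mem hB c
  have hsy : ∀ B c, (D.A B c)ᵀ = D.A B c := fun B c => by
    ext i j; rw [Matrix.transpose_apply]; exact D.A_symm B c j i
  have hdr : (Matrix.diagonal r : Mat n).PosSemidef := by
    rw [Matrix.posSemidef_diagonal_iff]; exact hr
  set Q : Mat n := Lᵀ * Matrix.diagonal r * L with hQ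
  have hQp : Q.PosSemidef := (psd_conj_iff h.isUnit).2 hdr
  have hl : 𝓝[≥] (0 : ℝ) ≤ 𝓝 0 := nhdsWithin_le_nhds
  have hQe : ∀ k l, Q k l = ∑ a, r a * (L a k * L a l) := by
    intro k l
    rw [hQ, Matrix.mul_apply]
    refine Finset.sum_congr rfl fun a _ => ?_
    rw [Matrix.mul_diagonal, Matrix.transpose_apply]
    ring
  -- the matrix of the derivative of `A`
  set X : Mat n := -(D.A B c * Q * D.A B c)
    - (1 / 2 : ℝ) • ∑ a, r a • KK L (D.K B c) a with hX
  have hA : ∀ i j, J1 (𝓝[≥] 0) (fun t : ℝ => D.A (B + t • Q) (c + t • (Q *ᵥ D.mu B c)) i j)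
      (D.A B c i j) (X i j) := by
    intro i j
    have h1 := J1.of_hasDerivWithinAt (D.fA B hB.posSemidef c Q hQp i j)
    simp only [zero_smul, add_zero] at h1
    refine h1.congr_coef rfl ?_
    rw [hX]
    simp only [Matrix.sub_apply, Matrix.neg_apply, Matrix.smul_apply, Matrix.sum_apply, KK,
      Matrix.of_apply, smul_eq_mul]
    congr 2
    simp only [hQe, Finset.sum_mul, Finset.mul_sum]
    have e1 : ∀ k, ∑ l, ∑ a, r a * (L a k * L a l) * D.K B c i j k l
        = ∑ a, ∑ l, r a * (L a k * L a l) * D.K B c i j k l := fun k => Finset.sum_comm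
    simp only [e1]
    rw [Finset.sum_comm]
    refine Finset.sum_congr rfl fun a _ => Finset.sum_congr rfl fun k _ =>
      Finset.sum_congr rfl fun l _ => ?_
    ring
  have hpd : ∀ t : ℝ, 0 ≤ t → (B + t • Q).PosDef := fun t ht =>
    hB.add_posSemidef (hQp.smul ht)
  have hPhi := phi_jet1 hl h (hsy B c) hA (r := r) (by
    filter_upwards [self_mem_nhdsWithin] with t ht
    exact ⟨hsy _ _, exists_Fr (D.posA _ (hpd t ht).posSemidef _) (hpd t ht).isHermitian⟩)
    (f := ft W ε) (f1 := g1 W ε)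
    (f2 := g2 W ε) (fun i => ev_nhds (hβ i) fun x hx => hasDerivAt_ft W ε hx)
    (fun i => hasDerivAt_g1 W ε (hβ i))
  have hdet := logdet_jet1 hl h (r := r) (fun i => (hβ i).1)
  have hE := J1.of_hasDerivWithinAt (E.fE B hB.posSemidef c Q hQp)
  simp only [zero_smul, add_zero] at hE
  have hG := ((((hE.add (hdet.const_mul (1 / 2))).sub (J1.const (n : ℝ))).sub
      hPhi).neg).congr
      (g := fun t : ℝ => - GG E W ε (B + t • Q) (c + t • (Q *ᵥ D.mu B c)))
      (a' := - GG E W ε B c)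
      (Eventually.of_forall fun t => by unfold GG; rfl) (by unfold GG; rw [Phi_eq h]) rfl
  have h3 := hG.le_test (by filter_upwards [hc] with t ht; linarith)
  have hLX : ∀ i, (L * X * Lᵀ) i i
      = - r i - 1 / 2 * ∑ a, r a * (L * KK L (D.K B c) a * Lᵀ) i i := by
    intro i
    have e1 : L * (D.A B c * Q * D.A B c) * Lᵀ = Matrix.diagonal r := by
      rw [hQ]
      calc L * (D.A B c * (Lᵀ * Matrix.diagonal r * L) * D.A B c) * Lᵀ
          = (L * D.A B c * Lᵀ) * Matrix.diagonal r * (L * D.A B c * Lᵀ) := by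
            simp only [Matrix.mul_assoc]
        _ = _ := by rw [h.hA, Matrix.one_mul, Matrix.mul_one]
    rw [hX, Matrix.mul_sub, Matrix.sub_mul, Matrix.mul_neg, Matrix.neg_mul, e1]
    simp only [Matrix.sub_apply, Matrix.neg_apply, Matrix.diagonal_apply_eq, Matrix.mul_smul,
      Matrix.smul_mul, Matrix.smul_apply, Matrix.mul_sum, Matrix.sum_mul, Matrix.sum_apply,
      smul_eq_mul]
  have htr : (Q * D.A B c).trace = ∑ a, r a := by
    have e1 : Q * D.A B c = Lᵀ * (Matrix.diagonal r * (L * D.A B c)) := by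
      rw [hQ]; simp only [Matrix.mul_assoc]
    rw [e1, Matrix.trace_mul_comm, Matrix.mul_assoc, h.hA, Matrix.mul_one,
      Matrix.trace_diagonal]
  have hXi : ∑ i, ∑ j, Q i j * E.Xi B c i j
      = ∑ a, r a * ∑ i, ∑ j, E.Xi B c i j * L a i * L a j := by
    simp only [hQe, Finset.sum_mul, Finset.mul_sum]
    have e1 : ∀ k, ∑ l, ∑ a, r a * (L a k * L a l) * E.Xi B c k l
        = ∑ a, ∑ l, r a * (L a k * L a l) * E.Xi B c k l := fun k => Finset.sum_comm
    simp only [e1]
    rw [Finset.sum_comm]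
    refine Finset.sum_congr rfl fun a _ => Finset.sum_congr rfl fun k _ =>
      Finset.sum_congr rfl fun l _ => ?_
    ring
  rw [htr, hXi, ← Finset.sum_add_distrib] at h3
  have h5 : ∑ a, (r a + r a * ∑ i, ∑ j, E.Xi B c i j * L a i * L a j)
      = ∑ a, r a * (1 + ∑ i, ∑ j, E.Xi B c i j * L a i * L a j) :=
    Finset.sum_congr rfl fun a _ => by ring
  have h6 : ∑ i, g1 W ε (β i) * (r i + β i * (L * X * Lᵀ) i i)
      = ∑ i, g1 W ε (β i) * (r i * (1 - β i)
        - 1 / 2 * (β i * ∑ a, r a * (L * KK L (D.K B c) a * Lᵀ) i i)) :=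
    Finset.sum_congr rfl fun i _ => by rw [hLX]; ring
  rw [h5, h6] at h3
  linarith

/-- the contact inequality: `(i)` and `(ii)` together -/
theorem contact_ineq {B : Mat n} (hB : B.PosDef) {c : Vec n} {L : Mat n} {β : Vec n}
    (h : Fr (D.A B c) B L β) {r : Vec n} (hr : ∀ i, 0 ≤ r i)
    (hc : ∀ e : Vec n, ∀ᶠ t in 𝓝 (0 : ℝ), GG E W ε B c ≤ GG E W ε B (c + t • e))
    (hf : ∀ᶠ t in 𝓝[≥] (0 : ℝ), GG E W ε B c ≤
      GG E W ε (B + t • (Lᵀ * Matrix.diagonal r * L))
        (c + t • ((Lᵀ * Matrix.diagonal r * L) *ᵥ D.mu B c))) :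
    0 ≤ ∑ a, r a * (∑ i, ∑ j, (1 / 2 * (1 / 2 - β i * β j * dd1 W.w1 W.w2 (β i) (β j)
        - ε * (β i * β j * dd1 e1 e2 (β i) (β j))))
          * frT L (D.T B c) i j a ^ 2
      - (W.w1 (β a) + ε * e1 (β a)) * (1 - β a)) := by
  have hβ : ∀ i, β i ∈ Ioo (0 : ℝ) 1 := h.beta_mem hB c
  have h1 : ∀ a, 0 ≤ r a * _ := fun a => mul_nonneg (hr a) (contact_c E W hB h a (hc _))
  have h2 := Finset.sum_nonneg (s := Finset.univ) fun a _ => h1 a
  have h3 := contact_f E W hB h hr hf
  have hTs : ∀ i j a, frT L (D.T B c) j i a = frT L (D.T B c) i j a := by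
    intro i j a
    unfold frT
    rw [Finset.sum_comm]
    refine Finset.sum_congr rfl fun p _ => Finset.sum_congr rfl fun q _ =>
      Finset.sum_congr rfl fun k _ => ?_
    rw [(D.T_symm B c).1 q p k]
    ring
  have h4 := add_nonneg h2 h3
  refine h4.trans_eq ?_
  -- abbreviations
  have hK : ∑ a, r a * ∑ i, g1 W ε (β i) * (β i * (L * KK L (D.K B c) a * Lᵀ) i i)
      = ∑ i, g1 W ε (β i) * (β i * ∑ a, r a * (L * KK L (D.K B c) a * Lᵀ) i i) := by
    simp only [Finset.mul_sum]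
    rw [Finset.sum_comm]
    exact Finset.sum_congr rfl fun i _ => Finset.sum_congr rfl fun a _ => by ring
  have e1 : ∑ a, r a * (1 / 2 * (∑ i, ∑ j, E.Xi B c i j * L a i * L a j)
      - (1 / 2 * ∑ i, g1 W ε (β i) * (β i * (L * KK L (D.K B c) a * Lᵀ) i i)
        + 1 / 2 * ∑ i, ∑ j, dd1 (g1 W ε) (g2 W ε) (β i) (β j) * (β i * frT L (D.T B c) i j a)
            * (β j * frT L (D.T B c) j i a)))
      = 1 / 2 * (∑ a, r a * ∑ i, ∑ j, E.Xi B c i j * L a i * L a j)
        - 1 / 2 * (∑ a, r a * ∑ i, g1 W ε (β i) * (β i * (L * KK L (D.K B c) a * Lᵀ) i i))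
        - 1 / 2 * ∑ a, r a * ∑ i, ∑ j, dd1 (g1 W ε) (g2 W ε) (β i) (β j)
            * (β i * frT L (D.T B c) i j a) * (β j * frT L (D.T B c) j i a) := by
    rw [Finset.mul_sum Finset.univ _ (1 / 2 : ℝ), Finset.mul_sum Finset.univ _ (1 / 2 : ℝ),
      Finset.mul_sum Finset.univ _ (1 / 2 : ℝ), ← Finset.sum_sub_distrib,
      ← Finset.sum_sub_distrib]
    exact Finset.sum_congr rfl fun a _ => by ring
  have e2 : ∑ i, g1 W ε (β i) * (r i * (1 - β i)
        - 1 / 2 * (β i * ∑ a, r a * (L * KK L (D.K B c) a * Lᵀ) i i))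
      = ∑ i, g1 W ε (β i) * (r i * (1 - β i))
        - 1 / 2 * ∑ i, g1 W ε (β i) * (β i * ∑ a, r a * (L * KK L (D.K B c) a * Lᵀ) i i) := by
    rw [Finset.mul_sum Finset.univ _ (1 / 2 : ℝ), ← Finset.sum_sub_distrib]
    exact Finset.sum_congr rfl fun i _ => by ring
  have e3 : ∑ a, r a * (1 + ∑ i, ∑ j, E.Xi B c i j * L a i * L a j)
      = ∑ a, r a + ∑ a, r a * ∑ i, ∑ j, E.Xi B c i j * L a i * L a j := by
    rw [← Finset.sum_add_distrib]
    exact Finset.sum_congr rfl fun a _ => by ring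
  rw [e1, e2, e3, hK]
  have e4 : ∑ a, r a * (∑ i, ∑ j, (1 / 2 * (1 / 2 - β i * β j * dd1 W.w1 W.w2 (β i) (β j)
        - ε * (β i * β j * dd1 Z546.e1 Z546.e2 (β i) (β j))))
          * frT L (D.T B c) i j a ^ 2
      - (W.w1 (β a) + ε * Z546.e1 (β a)) * (1 - β a))
      = - (1 / 2 * ∑ a, r a * ∑ i, ∑ j, dd1 (g1 W ε) (g2 W ε) (β i) (β j)
            * (β i * frT L (D.T B c) i j a) * (β j * frT L (D.T B c) j i a))
        + (1 / 2 * ∑ i, r i / β i - 1 / 2 * ∑ a, r a
          - ∑ i, g1 W ε (β i) * (r i * (1 - β i))) := by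
    rw [Finset.mul_sum Finset.univ _ (1 / 2 : ℝ), Finset.mul_sum Finset.univ _ (1 / 2 : ℝ),
      Finset.mul_sum Finset.univ _ (1 / 2 : ℝ), ← Finset.sum_sub_distrib,
      ← Finset.sum_sub_distrib, ← Finset.sum_neg_distrib, ← Finset.sum_add_distrib]
    refine Finset.sum_congr rfl fun a _ => ?_
    have e5 : ∑ i, ∑ j, (1 / 2 * (1 / 2 - β i * β j * dd1 W.w1 W.w2 (β i) (β j)
        - ε * (β i * β j * dd1 Z546.e1 Z546.e2 (β i) (β j))))
          * frT L (D.T B c) i j a ^ 2
        = - (1 / 2 * ∑ i, ∑ j, dd1 (g1 W ε) (g2 W ε) (β i) (β j)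
            * (β i * frT L (D.T B c) i j a) * (β j * frT L (D.T B c) j i a)) := by
      rw [Finset.mul_sum, ← Finset.sum_neg_distrib]
      refine Finset.sum_congr rfl fun i _ => ?_
      rw [Finset.mul_sum, ← Finset.sum_neg_distrib]
      refine Finset.sum_congr rfl fun j _ => ?_
      rw [hTs i j a]
      have e6 := dd1_g W ε (hβ i) (hβ j)
      have e7 : dd1 (g1 W ε) (g2 W ε) (β i) (β j) * (β i * frT L (D.T B c) i j a)
            * (β j * frT L (D.T B c) i j a)
          = (β i * β j * dd1 (g1 W ε) (g2 W ε) (β i) (β j)) * frT L (D.T B c) i j a ^ 2 := by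
        ring
      rw [e7, e6]
      ring
    rw [e5]
    have hb := (hβ a).1.ne'
    unfold g1
    field_simp
    ring
  rw [e4]
  ring

end

end Vale.Agent.P254.St625
end

section

/-! # P227/M/SC2: the law of `⟨v, x⟩` and the heat potential on a line, by one linear change of variables
on `E × ℝ` (helper204). -/

open MeasureTheory Filter Topology

namespace Vale.Agent.P227.M.HL

variable {n : ℕ}

/-- dual direction, `⟨v, uu v⟩ = 1` -/
noncomputable def uu (v : E n) : E n := (‖v‖ ^ 2)⁻¹ • v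

/-- projection on `v^⊥` -/
noncomputable def pr (v : E n) : E n →L[ℝ] E n :=
  ContinuousLinearMap.id ℝ (E n) - (innerSL ℝ v).smulRight (uu v)

theorem pr_apply (v z : E n) : pr v z = z - inner ℝ v z • uu v := by
  simp [pr]

theorem inner_uu {v : E n} (hv : v ≠ 0) : inner ℝ v (uu v) = 1 := by
  have h : ‖v‖ ≠ 0 := norm_ne_zero_iff.2 hv
  rw [uu, inner_smul_right, real_inner_self_eq_norm_sq]
  field_simp

theorem inner_pr {v : E n} (hv : v ≠ 0) (z : E n) : inner ℝ v (pr v z) = 0 := by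
  rw [pr_apply, inner_sub_right, inner_smul_right, inner_uu hv]; ring

theorem inner_uu_pr {v : E n} (hv : v ≠ 0) (z : E n) : inner ℝ (uu v) (pr v z) = 0 := by
  rw [uu, inner_smul_left, inner_pr hv]; simp

theorem pr_uu {v : E n} (hv : v ≠ 0) : pr v (uu v) = 0 := by
  rw [pr_apply, inner_uu hv]; simp

theorem pr_pr {v : E n} (hv : v ≠ 0) (z : E n) : pr v (pr v z) = pr v z := by
  rw [pr_apply v (pr v z), inner_pr hv]; simp

theorem pr_add (v z : E n) : pr v z + inner ℝ v z • uu v = z := by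
  rw [pr_apply]; abel

/-- the linear map `(z, t) ↦ (t u + σ pr z, ⟨v, z⟩)` -/
noncomputable def Phi (v : E n) (σ : ℝ) : (E n × ℝ) →ₗ[ℝ] (E n × ℝ) where
  toFun p := (p.2 • uu v + σ • pr v p.1, inner ℝ v p.1)
  map_add' p q := by
    refine Prod.ext ?_ ?_
    · simp only [Prod.snd_add, Prod.fst_add, add_smul, map_add, smul_add]; abel
    · simp only [Prod.fst_add, Prod.snd_add, inner_add_right]
  map_smul' a p := by
    refine Prod.ext ?_ ?_
    · simp only [Prod.smul_snd, Prod.smul_fst, map_smul, smul_add, smul_smul, smul_eq_mul,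
        RingHom.id_apply]
      rw [mul_comm σ a]
    · simp only [Prod.smul_fst, inner_smul_right, Prod.smul_snd, smul_eq_mul, RingHom.id_apply]

theorem Phi_apply (v : E n) (σ : ℝ) (p : E n × ℝ) :
    Phi v σ p = (p.2 • uu v + σ • pr v p.1, inner ℝ v p.1) := rfl

/-- its inverse -/
noncomputable def Psi (v : E n) (σ : ℝ) : (E n × ℝ) →ₗ[ℝ] (E n × ℝ) where
  toFun p := (σ⁻¹ • pr v p.1 + p.2 • uu v, inner ℝ v p.1)
  map_add' p q := by
    refine Prod.ext ?_ ?_
    · simp only [Prod.snd_add, Prod.fst_add, add_smul, map_add, smul_add]; abel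
    · simp only [Prod.fst_add, Prod.snd_add, inner_add_right]
  map_smul' a p := by
    refine Prod.ext ?_ ?_
    · simp only [Prod.smul_snd, Prod.smul_fst, map_smul, smul_add, smul_smul, smul_eq_mul,
        RingHom.id_apply]
      rw [mul_comm σ⁻¹ a]
    · simp only [Prod.smul_fst, inner_smul_right, Prod.smul_snd, smul_eq_mul, RingHom.id_apply]

theorem Psi_apply (v : E n) (σ : ℝ) (p : E n × ℝ) :
    Psi v σ p = (σ⁻¹ • pr v p.1 + p.2 • uu v, inner ℝ v p.1) := rfl

theorem Psi_Phi {v : E n} (hv : v ≠ 0) {σ : ℝ} (hσ : σ ≠ 0) (p : E n × ℝ) :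
    Psi v σ (Phi v σ p) = p := by
  rw [Psi_apply, Phi_apply]
  refine Prod.ext ?_ ?_
  · simp only [map_add, map_smul, pr_uu hv, pr_pr hv, smul_zero, zero_add, smul_smul,
      inv_mul_cancel₀ hσ, one_smul]
    exact pr_add v p.1
  · simp only [inner_add_right, inner_smul_right, inner_uu hv, inner_pr hv]
    ring

theorem Phi_Psi {v : E n} (hv : v ≠ 0) {σ : ℝ} (hσ : σ ≠ 0) (p : E n × ℝ) :
    Phi v σ (Psi v σ p) = p := by
  rw [Psi_apply, Phi_apply]
  refine Prod.ext ?_ ?_
  · simp only [map_add, map_smul, pr_uu hv, pr_pr hv, smul_zero, add_zero, smul_smul,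
      mul_inv_cancel₀ hσ, one_smul]
    rw [add_comm]
    exact pr_add v p.1
  · simp only [inner_add_right, inner_smul_right, inner_uu hv, inner_pr hv]
    ring

theorem det_Phi_ne {v : E n} (hv : v ≠ 0) {σ : ℝ} (hσ : σ ≠ 0) : LinearMap.det (Phi v σ) ≠ 0 := by
  have h : LinearMap.det (Phi v σ) * LinearMap.det (Psi v σ) = 1 := by
    rw [← LinearMap.det_comp]
    have : (Phi v σ) ∘ₗ (Psi v σ) = LinearMap.id := LinearMap.ext fun p => Phi_Psi hv hσ p
    rw [this, LinearMap.det_id]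
  exact left_ne_zero_of_mul_eq_one h

theorem emb_Phi {v : E n} (hv : v ≠ 0) {σ : ℝ} (hσ : σ ≠ 0) : MeasurableEmbedding (Phi v σ) := by
  have hc : Continuous (Phi v σ) := LinearMap.continuous_of_finiteDimensional _
  exact hc.measurableEmbedding (Function.LeftInverse.injective (Psi_Phi hv hσ))

theorem cv_aux {v : E n} (hv : v ≠ 0) {σ : ℝ} (hσ : σ ≠ 0) (G : E n × ℝ → ℝ) :
    (∫ p, G (Phi v σ p)) = |(LinearMap.det (Phi v σ))⁻¹| * ∫ q, G q ∧
      (Integrable G → Integrable (fun p => G (Phi v σ p))) := by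
  have : (volume : Measure (E n × ℝ)).IsAddHaarMeasure := by
    rw [Measure.volume_eq_prod]; infer_instance
  have hm := Measure.map_linearMap_addHaar_eq_smul_addHaar (volume : Measure (E n × ℝ))
    (det_Phi_ne hv hσ)
  have he := emb_Phi hv hσ
  constructor
  · rw [← he.integral_map, hm, integral_smul_measure, ENNReal.toReal_ofReal (abs_nonneg _),
      smul_eq_mul]
  · intro hG
    have h2 : Integrable G (Measure.map (Phi v σ) volume) := by
      rw [hm]
      exact hG.smul_measure ENNReal.ofReal_ne_top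
    exact (he.integrable_map_iff).1 h2

theorem norm_sq_split {v : E n} (hv : v ≠ 0) {σ : ℝ} (hσ : σ ≠ 0) (z : E n) (t : ℝ) :
    ‖z‖ ^ 2 = ‖pr v (t • uu v + σ • pr v z)‖ ^ 2 / σ ^ 2 + (inner ℝ v z) ^ 2 * ‖uu v‖ ^ 2 := by
  have h1 : pr v (t • uu v + σ • pr v z) = σ • pr v z := by
    rw [map_add, map_smul, map_smul, pr_uu hv, pr_pr hv]; simp
  rw [h1, norm_smul, mul_pow, Real.norm_eq_abs, sq_abs]
  conv_lhs => rw [← pr_add v z]
  rw [norm_add_sq_real, inner_smul_right, real_inner_comm (uu v) (pr v z), inner_uu_pr hv, norm_smul,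
    mul_pow,
    Real.norm_eq_abs, sq_abs]
  field_simp
  ring

/-- **change of variables** -/
theorem cv {U : E n → ℝ} {c C : ℝ} (h : Reg U c C) {v : E n} (hv : v ≠ 0) {σ : ℝ} (hσ : 0 < σ) :
    ∃ κ : ℝ, 0 < κ ∧ ∀ φ : ℝ → ℝ,
      Integrable (fun x : E n => φ (inner ℝ v x) * Real.exp (-U x - ‖pr v x‖ ^ 2 / (2 * σ ^ 2))) →
      (∫ t : ℝ, φ t * Real.exp (-heat U (σ • pr v) (t • uu v)))
        = κ * ∫ x : E n, φ (inner ℝ v x) * Real.exp (-U x - ‖pr v x‖ ^ 2 / (2 * σ ^ 2)) := by
  have hu : uu v ≠ 0 := by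
    intro h0
    have := inner_uu hv
    rw [h0, inner_zero_right] at this
    exact zero_ne_one this
  have hun : 0 < ‖uu v‖ ^ 2 := by have := norm_pos_iff.2 hu; positivity
  have hg : Integrable (fun ζ : ℝ => Real.exp (-(‖uu v‖ ^ 2 / 2) * ζ ^ 2)) :=
    integrable_exp_neg_mul_sq (by positivity)
  have hgp : 0 < ∫ ζ : ℝ, Real.exp (-(‖uu v‖ ^ 2 / 2) * ζ ^ 2) := by
    rw [integral_gaussian]
    positivity
  have hdet : 0 < |(LinearMap.det (Phi v σ))⁻¹| := abs_pos.2 (inv_ne_zero (det_Phi_ne hv hσ.ne'))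
  refine ⟨|(LinearMap.det (Phi v σ))⁻¹| * ∫ ζ : ℝ, Real.exp (-(‖uu v‖ ^ 2 / 2) * ζ ^ 2),
    mul_pos hdet hgp, fun φ hφ => ?_⟩
  set G : E n × ℝ → ℝ := fun q => (φ (inner ℝ v q.1) *
    Real.exp (-U q.1 - ‖pr v q.1‖ ^ 2 / (2 * σ ^ 2))) * Real.exp (-(‖uu v‖ ^ 2 / 2) * q.2 ^ 2) with hG
  have hGi : Integrable G := hφ.mul_prod hg
  have hGv : ∫ q, G q = (∫ x : E n, φ (inner ℝ v x) *
      Real.exp (-U x - ‖pr v x‖ ^ 2 / (2 * σ ^ 2))) * ∫ ζ : ℝ, Real.exp (-(‖uu v‖ ^ 2 / 2) * ζ ^ 2) :=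
    integral_prod_mul (fun x : E n => φ (inner ℝ v x) *
      Real.exp (-U x - ‖pr v x‖ ^ 2 / (2 * σ ^ 2))) (fun ζ : ℝ => Real.exp (-(‖uu v‖ ^ 2 / 2) * ζ ^ 2))
  obtain ⟨h1, h2⟩ := cv_aux hv hσ.ne' G
  have h3 := h2 hGi
  have hpt : ∀ (z : E n) (t : ℝ), G (Phi v σ (z, t))
      = φ t * (f U (uu v) 0 (t • uu v + (σ • pr v) z) * Real.exp (-‖z‖ ^ 2 / 2)) := by
    intro z t
    rw [hG, Phi_apply]
    simp only [f, q_zero, one_mul, smul_apply]
    have e1 : inner ℝ v (t • uu v + σ • pr v z) = t := by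
      rw [inner_add_right, inner_smul_right, inner_smul_right, inner_uu hv, inner_pr hv]; ring
    rw [e1, mul_assoc, ← Real.exp_add, ← Real.exp_add]
    congr 2
    rw [norm_sq_split hv hσ.ne' z t]
    have := hσ.ne'
    field_simp
    ring
  have h4 : (∫ p, G (Phi v σ p)) = ∫ t : ℝ, φ t * Real.exp (-heat U (σ • pr v) (t • uu v)) := by
    rw [Measure.volume_eq_prod, integral_prod_symm _ (by rw [← Measure.volume_eq_prod]; exact h3)]
    refine integral_congr_ae (Eventually.of_forall fun t => ?_)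
    simp only [hpt]
    rw [integral_const_mul, heat_eq U (uu v), neg_neg, Real.exp_log (H_zero_pos h _ _ _)]
    rfl
  rw [← h4, h1, hGv]
  ring

end Vale.Agent.P227.M.HL
end

section

open MeasureTheory Set Matrix
open scoped Pointwise

namespace Vale.Agent.P254

variable {n : ℕ} {K : Set (Fin n → ℝ)}

/-- General criterion: `K` need not be contained in the standard simplex. -/
lemma criterion' (hn : 0 < n) (hK : IsCompact K) (hV : 0 < (volume K).toReal)
    (H : ∫ x in K, (qq x - 2 / ((n : ℝ) + 1)) ≤ ∫ x in stdS n, (qq x - 2 / ((n : ℝ) + 1))) :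
    (covMatrix K).det / (volume K).toReal ^ 2
        ≤ (covMatrix (stdS n)).det / (volume (stdS n)).toReal ^ 2 ∧
      (∫ x in K, (qq x - 2 / ((n : ℝ) + 1)) < ∫ x in stdS n, (qq x - 2 / ((n : ℝ) + 1)) →
        (covMatrix K).det / (volume K).toReal ^ 2
          < (covMatrix (stdS n)).det / (volume (stdS n)).toReal ^ 2) := by
  set V := (volume K).toReal with hVd
  set W := (volume (stdS n)).toReal with hWd
  have hW : 0 < W := volume_stdS_pos
  have hn0 : (0 : ℝ) < n := by exact_mod_cast hn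
  have hcq := continuous_qq (n := n)
  rw [integral_sub (intOn isCompact_stdS hcq) (intOn isCompact_stdS (by fun_prop)),
    integral_sub (intOn hK hcq) (intOn hK (by fun_prop)), setIntegral_const, setIntegral_const,
    integral_stdS_qq] at H ⊢
  simp only [Measure.real, smul_eq_mul, ← hVd, ← hWd] at H ⊢
  have hn1 : (0 : ℝ) < (n : ℝ) + 1 := by positivity
  have hn2 : (0 : ℝ) < (n : ℝ) + 2 := by positivity
  set Q := ∫ x in K, qq x with hQ
  set p := V / W with hp
  have hp0 : 0 < p := div_pos hV hW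
  have hVp : V = p * W := by rw [hp]; field_simp
  -- bound on the normalised trace
  set X := (Bmat n * covMatrix K).trace / n with hX
  have htr := trace_le hK hV
  set P := W * (2 / ((n : ℝ) + 2)) - W * (2 / ((n : ℝ) + 1)) + V * (2 / ((n : ℝ) + 1)) with hP
  have hXQ : X ≤ ((n : ℝ) + 1) * (n + 2) / n * (V⁻¹ * Q - 1 / ((n : ℝ) + 1)) := by
    rw [hX, div_mul_eq_mul_div]
    exact div_le_div_of_nonneg_right htr hn0.le
  have hid : ((n : ℝ) + 1) * (n + 2) / n * (V⁻¹ * P - 1 / ((n : ℝ) + 1))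
      = (1 / p) * (1 + (1 + 2 / (n : ℝ)) * (p - 1)) := by
    rw [hP, hVp]
    field_simp
    ring
  have hC := covMatrix_posSemidef hK
  have hX0 : 0 ≤ X := by
    rw [hX, trace_Bmat_mul]
    have h1 : 0 ≤ ∑ i, covMatrix K i i := Finset.sum_nonneg (fun i _ => hC.diag_nonneg)
    have h2 : 0 ≤ ∑ i, ∑ j, covMatrix K j i := by
      have := cov_quad hK (fun _ => (1 : ℝ))
      simp only [one_mul, mul_one] at this
      rw [Finset.sum_comm, this]
      exact mul_nonneg (inv_nonneg.mpr ENNReal.toReal_nonneg) (integral_nonneg (fun x => sq_nonneg _))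
    positivity
  have hdet := det_mul_det_le hn Bmat_posSemidef hC
  rw [← hX] at hdet
  -- Bernoulli
  have hB : 1 + (1 + 2 / (n : ℝ)) * (p - 1) ≤ p ^ (1 + 2 / (n : ℝ)) := by
    have := one_add_mul_self_le_rpow_one_add (s := p - 1) (by linarith) (p := 1 + 2 / (n : ℝ))
      (by have : 0 < 2 / (n : ℝ) := by positivity
          linarith)
    rwa [add_sub_cancel] at this
  have hpow : (1 / p) * p ^ (1 + 2 / (n : ℝ)) = p ^ (2 / (n : ℝ)) := by
    rw [Real.rpow_add hp0, Real.rpow_one]; field_simp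
  have hP2 : ((n : ℝ) + 1) * (n + 2) / n * (V⁻¹ * P - 1 / ((n : ℝ) + 1)) ≤ p ^ (2 / (n : ℝ)) := by
    rw [hid, ← hpow]
    exact mul_le_mul_of_nonneg_left hB (by positivity)
  have hpn : (p ^ (2 / (n : ℝ))) ^ n = p ^ 2 := by
    rw [← Real.rpow_natCast, ← Real.rpow_mul hp0.le, div_mul_cancel₀ _ hn0.ne']
    norm_num
  have hdetB : 0 < (Bmat n).det := by
    have h1 := det_B_mul_det_cov (n := n)
    have h2 : 0 ≤ (Bmat n).det := Bmat_posSemidef.det_nonneg
    rcases h2.lt_or_eq with h | h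
    · exact h
    · rw [← h, zero_mul] at h1; norm_num at h1
  have hdetC : (covMatrix (stdS n)).det = ((Bmat n).det)⁻¹ := by
    exact eq_inv_of_mul_eq_one_right det_B_mul_det_cov
  have final : ∀ D : ℝ, (Bmat n).det * D ≤ p ^ 2 → D / V ^ 2 ≤ ((Bmat n).det)⁻¹ / W ^ 2 := by
    intro D hD
    rw [hVp, div_le_div_iff₀ (by positivity) (by positivity), inv_mul_eq_div, le_div_iff₀ hdetB]
    nlinarith [mul_le_mul_of_nonneg_right hD (sq_nonneg W)]
  have final' : ∀ D : ℝ, (Bmat n).det * D < p ^ 2 → D / V ^ 2 < ((Bmat n).det)⁻¹ / W ^ 2 := by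
    intro D hD
    rw [hVp, div_lt_div_iff₀ (by positivity) (by positivity), inv_mul_eq_div, lt_div_iff₀ hdetB]
    have hW2 : 0 < W ^ 2 := by positivity
    nlinarith [mul_lt_mul_of_pos_right hD hW2]
  rw [hdetC]
  refine ⟨final _ (hdet.trans ?_), fun hlt => final' _ (hdet.trans_lt ?_)⟩
  · have hQle : Q ≤ P := by rw [hP]; linarith
    have hX2 : X ≤ p ^ (2 / (n : ℝ)) := by
      refine hXQ.trans (le_trans ?_ hP2)
      have : V⁻¹ * Q ≤ V⁻¹ * P := mul_le_mul_of_nonneg_left hQle (inv_nonneg.mpr hV.le)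
      exact mul_le_mul_of_nonneg_left (sub_le_sub_right this _) (by positivity)
    rw [← hpn]
    exact pow_le_pow_left₀ hX0 hX2 n
  · have hQlt : Q < P := by rw [hP]; linarith
    have hX3 : X < p ^ (2 / (n : ℝ)) := by
      refine hXQ.trans_lt (lt_of_lt_of_le ?_ hP2)
      have : V⁻¹ * Q < V⁻¹ * P := mul_lt_mul_of_pos_left hQlt (inv_pos.mpr hV)
      exact mul_lt_mul_of_pos_left (sub_lt_sub_right this _) (by positivity)
    rw [← hpn]
    exact pow_lt_pow_left₀ hX3 hX0 hn.ne'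

lemma isoConst_criterion' (hn : 0 < n) (hK : IsCompact K) (hV : 0 < (volume K).toReal)
    (H : ∫ x in K, (qq x - 2 / ((n : ℝ) + 1)) ≤ ∫ x in stdS n, (qq x - 2 / ((n : ℝ) + 1))) :
    isoConst K ≤ isoConst (stdS n) ∧
      (∫ x in K, (qq x - 2 / ((n : ℝ) + 1)) < ∫ x in stdS n, (qq x - 2 / ((n : ℝ) + 1)) →
        isoConst K < isoConst (stdS n)) := by
  obtain ⟨h1, h2⟩ := criterion' hn hK hV H
  have hn0 : (0 : ℝ) < n := by exact_mod_cast hn
  have h0 : 0 ≤ (covMatrix K).det / (volume K).toReal ^ 2 :=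
    div_nonneg (covMatrix_posSemidef hK).det_nonneg (by positivity)
  refine ⟨Real.rpow_le_rpow h0 h1 (by positivity), fun hlt => ?_⟩
  exact Real.rpow_lt_rpow h0 (h2 hlt) (by positivity)

/-- The quadratic function of the criterion is strictly convex. -/
lemma qq_parallelogram (x h : Fin n → ℝ) :
    qq (x + h) + qq (x - h) = 2 * qq x + 2 * (∑ i, h i ^ 2 + (∑ i, h i) ^ 2) := by
  simp only [qq, Pi.add_apply, Pi.sub_apply, Finset.sum_add_distrib, Finset.sum_sub_distrib]
  have e : ∀ i, (x i + h i) ^ 2 = x i ^ 2 + 2 * (x i * h i) + h i ^ 2 := by intro i; ring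
  have e' : ∀ i, (x i - h i) ^ 2 = x i ^ 2 - 2 * (x i * h i) + h i ^ 2 := by intro i; ring
  simp_rw [e, e']
  simp only [Finset.sum_add_distrib, Finset.sum_sub_distrib]
  ring

lemma qq_lt_of_isOpen (hn : 0 < n) {U : Set (Fin n → ℝ)} (hU : IsOpen U) {c : ℝ}
    (h : ∀ x ∈ U, qq x ≤ c) : ∀ x ∈ U, qq x < c := by
  intro x hx
  refine lt_of_le_of_ne (h x hx) (fun heq => ?_)
  obtain ⟨r, hr, hball⟩ := Metric.isOpen_iff.mp hU x hx
  set v : Fin n → ℝ := Pi.single ⟨0, hn⟩ (r / 2) with hv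
  have hnorm : ‖v‖ < r := by
    rw [hv, Pi.norm_single, Real.norm_eq_abs, abs_of_pos (by positivity)]
    linarith
  have h1 : x + v ∈ U := hball (by simpa [Metric.mem_ball, dist_eq_norm] using hnorm)
  have h2 : x - v ∈ U := hball (by simpa [Metric.mem_ball, dist_eq_norm] using hnorm)
  have h3 := qq_parallelogram x v
  have h4 : 0 < ∑ i, v i ^ 2 := by
    refine Finset.sum_pos' (fun i _ => sq_nonneg _) ⟨⟨0, hn⟩, Finset.mem_univ _, ?_⟩
    rw [hv, Pi.single_eq_same]
    positivity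
  have h5 : 0 ≤ (∑ i, v i) ^ 2 := sq_nonneg _
  have h6 := h _ h1
  have h7 := h _ h2
  linarith

/-- A point of a convex body outside a closed set gives an open piece. -/
lemma exists_open_piece {C D : Set (Fin n → ℝ)} (hC : Convex ℝ C) (hCi : (interior C).Nonempty)
    (hD : IsClosed D) (h : ¬ C ⊆ D) :
    ∃ U : Set (Fin n → ℝ), IsOpen U ∧ U.Nonempty ∧ U ⊆ C \ D := by
  obtain ⟨x, hx, hxD⟩ := not_subset.mp h
  have hcl : x ∈ closure (interior C) := by
    rw [hC.closure_interior_eq_closure_of_nonempty_interior hCi]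
    exact subset_closure hx
  obtain ⟨y, hy1, hy2⟩ := mem_closure_iff.mp hcl Dᶜ hD.isOpen_compl hxD
  exact ⟨Dᶜ ∩ interior C, hD.isOpen_compl.inter isOpen_interior, ⟨y, hy1, hy2⟩,
    fun z hz => ⟨interior_subset hz.2, hz.1⟩⟩

lemma setIntegral_pos_of_open {s U : Set (Fin n → ℝ)} {f : (Fin n → ℝ) → ℝ}
    (hs : MeasurableSet s) (hf : IntegrableOn f s) (h0 : ∀ x ∈ s, 0 ≤ f x) (hU : IsOpen U)
    (hne : U.Nonempty) (hUs : U ⊆ s) (hpos : ∀ x ∈ U, 0 < f x) : 0 < ∫ x in s, f x := by
  rw [setIntegral_pos_iff_support_of_nonneg_ae]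
  · refine lt_of_lt_of_le (hU.measure_pos volume hne) (measure_mono (fun x hx => ⟨?_, hUs hx⟩))
    exact (hpos x hx).ne'
  · exact (ae_restrict_iff' hs).mpr (Filter.Eventually.of_forall h0)
  · exact hf

lemma interior_stdS_nonempty : (interior (stdS n)).Nonempty := by
  by_contra hne
  rw [not_nonempty_iff_eq_empty] at hne
  have h8 := (convex_stdS (n := n)).addHaar_frontier (volume : Measure (Fin n → ℝ))
  rw [isClosed_stdS.frontier_eq, hne, sdiff_empty] at h8
  have := volume_stdS_pos (n := n)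
  rw [h8] at this
  simp at this

lemma sandwich_std (hn : 0 < n) (hK : IsConvexBody K)
    (h1 : stdS n ∩ {x | qq x ≤ 2 / ((n : ℝ) + 1)} ⊆ K)
    (h2 : K ⊆ stdS n ∪ {x | qq x ≤ 2 / ((n : ℝ) + 1)}) :
    isoConst K ≤ isoConst (stdS n) ∧ (isoConst K = isoConst (stdS n) → K = stdS n) := by
  obtain ⟨hKv, hKc, hKi⟩ := hK
  have hV : 0 < (volume K).toReal := volume_pos_of_interior hKi hKc
  set f : (Fin n → ℝ) → ℝ := fun x => qq x - 2 / ((n : ℝ) + 1) with hf
  have hfc : Continuous f := by rw [hf]; have := continuous_qq (n := n); fun_prop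
  have hKm := hKc.measurableSet
  have hSm := isCompact_stdS (n := n).measurableSet
  have eK : ∫ x in K, f x = (∫ x in K ∩ stdS n, f x) + ∫ x in K \ stdS n, f x :=
    (integral_inter_add_sdiff hSm (intOn hKc hfc)).symm
  have eS : ∫ x in stdS n, f x = (∫ x in K ∩ stdS n, f x) + ∫ x in stdS n \ K, f x := by
    rw [inter_comm K]
    exact (integral_inter_add_sdiff hKm (intOn isCompact_stdS hfc)).symm
  have p1 : ∀ x ∈ K \ stdS n, 0 ≤ -f x := by
    intro x hx
    rcases h2 hx.1 with h | h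
    · exact absurd h hx.2
    · have : qq x ≤ 2 / ((n : ℝ) + 1) := h
      simp only [hf]; linarith
  have p2 : ∀ x ∈ stdS n \ K, 0 < f x := by
    intro x hx
    by_contra hlt
    refine hx.2 (h1 ⟨hx.1, ?_⟩)
    simp only [hf] at hlt
    show qq x ≤ _
    linarith
  have q1 : 0 ≤ ∫ x in K \ stdS n, -f x := setIntegral_nonneg (hKm.diff hSm) p1
  have q2 : 0 ≤ ∫ x in stdS n \ K, f x :=
    setIntegral_nonneg (hSm.diff hKm) (fun x hx => (p2 x hx).le)
  rw [integral_neg] at q1
  have H : ∫ x in K, f x ≤ ∫ x in stdS n, f x := by rw [eK, eS]; linarith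
  obtain ⟨r1, r2⟩ := isoConst_criterion' hn hKc hV H
  refine ⟨r1, fun heq => ?_⟩
  have hnlt : ¬ (∫ x in K, f x < ∫ x in stdS n, f x) := fun h => (r2 h).ne heq
  refine Subset.antisymm ?_ ?_
  · by_contra hns
    obtain ⟨U, hU, hne, hUs⟩ := exists_open_piece hKv hKi isClosed_stdS hns
    have hneg : ∀ x ∈ U, 0 < -f x := by
      intro x hx
      have := qq_lt_of_isOpen hn hU (c := 2 / ((n : ℝ) + 1)) (fun y hy => by
        have := p1 y (hUs hy)
        simp only [hf] at this
        linarith) x hx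
      simp only [hf]; linarith
    have := setIntegral_pos_of_open (f := fun x => -f x) (hKm.diff hSm)
      ((intOn hKc hfc).neg.mono_set sdiff_subset) p1 hU hne hUs hneg
    rw [integral_neg] at this
    apply hnlt
    rw [eK, eS]; linarith
  · by_contra hns
    obtain ⟨U, hU, hne, hUs⟩ := exists_open_piece convex_stdS interior_stdS_nonempty
      hKc.isClosed hns
    have := setIntegral_pos_of_open (f := f) (hSm.diff hKm)
      ((intOn isCompact_stdS hfc).mono_set sdiff_subset) (fun x hx => (p2 x hx).le) hU hne hUs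
      (fun x hx => p2 x (hUs hx))
    apply hnlt
    rw [eK, eS]; linarith

lemma cov_std_inv : (covMatrix (stdS n))⁻¹ = Bmat n :=
  Matrix.inv_eq_left_inv Bmat_mul_cov

lemma quad_Bmat (y : Fin n → ℝ) :
    y ⬝ᵥ (Bmat n *ᵥ y) = ((n : ℝ) + 1) * (n + 2) * ((∑ i, y i) ^ 2 + ∑ i, y i ^ 2) := by
  simp only [dotProduct, mulVec, Bmat]
  have h1 : ∀ i, ∑ j, ((n : ℝ) + 1) * (n + 2) * (if i = j then 2 else 1) * y j
      = ((n : ℝ) + 1) * (n + 2) * (∑ j, y j + y i) := by
    intro i
    have : ∀ j, ((n : ℝ) + 1) * (n + 2) * (if i = j then 2 else 1) * y j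
        = ((n : ℝ) + 1) * (n + 2) * (y j + if i = j then y j else 0) := by
      intro j; split_ifs <;> ring
    simp_rw [this]
    rw [← Finset.mul_sum, Finset.sum_add_distrib]
    simp
  simp_rw [h1]
  have h2 : ∀ i, y i * (((n : ℝ) + 1) * (n + 2) * (∑ j, y j + y i))
      = ((n : ℝ) + 1) * (n + 2) * (y i * ∑ j, y j + y i ^ 2) := by intro i; ring
  simp_rw [h2]
  rw [← Finset.mul_sum, Finset.sum_add_distrib, ← Finset.sum_mul]
  ring

lemma quad_std (y : Fin n → ℝ) :
    (y - centroid (stdS n)) ⬝ᵥ (Bmat n *ᵥ (y - centroid (stdS n)))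
      = ((n : ℝ) + 1) * (n + 2) * (qq y - 1 / ((n : ℝ) + 1)) := by
  rw [quad_Bmat]
  simp only [Pi.sub_apply, centroid_stdS]
  have e4 : ∀ i, (y i - 1 / ((n : ℝ) + 1)) ^ 2
      = y i ^ 2 - 2 / ((n : ℝ) + 1) * y i + 1 / ((n : ℝ) + 1) ^ 2 := by
    intro i; field_simp; ring
  simp_rw [e4]
  rw [Finset.sum_sub_distrib, Finset.sum_add_distrib, Finset.sum_sub_distrib, ← Finset.mul_sum]
  simp only [Finset.sum_const, Finset.card_univ, Fintype.card_fin, nsmul_eq_mul, qq]
  field_simp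
  ring

lemma mem_momentEllipsoid_std (y : Fin n → ℝ) :
    y ∈ momentEllipsoid (stdS n) ↔ qq y ≤ 2 / ((n : ℝ) + 1) := by
  simp only [momentEllipsoid, mem_ofPred_eq, cov_std_inv, quad_std]
  have hn1 : (0 : ℝ) < (n : ℝ) + 1 := by positivity
  have hn2 : (0 : ℝ) < (n : ℝ) + 2 := by positivity
  have e : ((n : ℝ) + 1) * (n + 2) * (qq y - 1 / ((n : ℝ) + 1))
      = (n + 2) * (((n : ℝ) + 1) * qq y - 1) := by field_simp
  rw [e, le_div_iff₀ hn1]
  constructor
  · intro h
    have : ((n : ℝ) + 1) * qq y - 1 ≤ 1 := by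
      by_contra hc
      push Not at hc
      nlinarith
    linarith
  · intro h
    have : ((n : ℝ) + 1) * qq y - 1 ≤ 1 := by linarith
    nlinarith

lemma mem_momentEllipsoid_aff {A : Matrix (Fin n) (Fin n) ℝ} (hA : A.det ≠ 0) (b : Fin n → ℝ)
    {S : Set (Fin n → ℝ)} (hS : IsCompact S) (hV : (volume S).toReal ≠ 0) (y : Fin n → ℝ) :
    aff A b y ∈ momentEllipsoid (aff A b '' S) ↔ y ∈ momentEllipsoid S := by
  simp only [momentEllipsoid, mem_ofPred_eq]
  rw [cov_aff_image hA b hS hV, centroid_aff_image hA b hS hV]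
  have e1 : aff A b y - aff A b (centroid S) = A *ᵥ (y - centroid S) := by
    simp [aff, mulVec_sub]
  have hu : IsUnit A.det := isUnit_iff_ne_zero.mpr hA
  have hu' : IsUnit (Aᵀ).det := by rw [det_transpose]; exact hu
  rw [e1, Matrix.mul_inv_rev, Matrix.mul_inv_rev]
  have e2 : (A *ᵥ (y - centroid S)) ⬝ᵥ
      ((Aᵀ⁻¹ * ((covMatrix S)⁻¹ * A⁻¹)) *ᵥ (A *ᵥ (y - centroid S)))
      = (y - centroid S) ⬝ᵥ ((covMatrix S)⁻¹ *ᵥ (y - centroid S)) := by
    rw [mulVec_mulVec, ← vecMul_transpose A, ← dotProduct_mulVec, mulVec_mulVec]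
    congr 2
    rw [Matrix.mul_assoc Aᵀ⁻¹, ← Matrix.mul_assoc Aᵀ, Matrix.mul_nonsing_inv _ hu', Matrix.one_mul,
      Matrix.mul_assoc, Matrix.nonsing_inv_mul _ hu, Matrix.mul_one]
  rw [e2]

/-- **Sandwich theorem.** -/
theorem sandwich (hn : 1 ≤ n) {T : Set (Fin n → ℝ)} (hK : IsConvexBody K) (hT : IsSimplex T)
    (h1 : T ∩ momentEllipsoid T ⊆ K) (h2 : K ⊆ T ∪ momentEllipsoid T) :
    isoConst K ≤ isoConst T ∧ (isoConst K = isoConst T ↔ K = T) := by
  obtain ⟨A, b, hA, rfl⟩ := hT.exists_aff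
  have hVS := (volume_stdS_pos (n := n)).ne'
  have hu : IsUnit A.det := isUnit_iff_ne_zero.mpr hA
  have hu' : (A⁻¹).det ≠ 0 := by
    rw [det_nonsing_inv, Ring.inverse_eq_inv']
    exact inv_ne_zero hA
  set K' := aff A⁻¹ (-(A⁻¹ *ᵥ b)) '' K with hK'
  have eA : ∀ x, aff A b (aff A⁻¹ (-(A⁻¹ *ᵥ b)) x) = x := by
    intro x
    rw [aff_aff, mul_nonsing_inv _ hu]
    simp [aff, mulVec_neg, mulVec_mulVec, mul_nonsing_inv _ hu]
  have eA' : ∀ x, aff A⁻¹ (-(A⁻¹ *ᵥ b)) (aff A b x) = x := by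
    intro x
    rw [aff_aff, nonsing_inv_mul _ hu]
    simp [aff]
  have eK : K = aff A b '' K' := by
    rw [hK', ← image_comp]
    have : aff A b ∘ aff A⁻¹ (-(A⁻¹ *ᵥ b)) = id := funext eA
    rw [this, image_id]
  obtain ⟨hKv, hKc, hKi⟩ := hK
  have hV : 0 < (volume K).toReal := volume_pos_of_interior hKi hKc
  have hK'c : IsCompact K' := isCompact_aff_image _ _ hKc
  have hK'v : Convex ℝ K' := by
    rw [hK', ← coe_affMap]; exact hKv.affine_image _
  have hV' : 0 < (volume K').toReal := by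
    rw [hK', volume_aff_image hu' _ hKc.measurableSet]
    exact mul_pos (abs_pos.mpr hu') hV
  have hK'i : (interior K').Nonempty := by
    by_contra hne
    rw [not_nonempty_iff_eq_empty] at hne
    have h8 := hK'v.addHaar_frontier (volume : Measure (Fin n → ℝ))
    rw [hK'c.isClosed.frontier_eq, hne, sdiff_empty] at h8
    rw [h8] at hV'
    simp at hV'
  have g1 : stdS n ∩ {x | qq x ≤ 2 / ((n : ℝ) + 1)} ⊆ K' := by
    rintro x ⟨hx1, hx2⟩
    have hx3 : aff A b x ∈ K := h1 ⟨mem_image_of_mem _ hx1,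
      (mem_momentEllipsoid_aff hA b isCompact_stdS hVS x).mpr ((mem_momentEllipsoid_std x).mpr hx2)⟩
    rw [hK']
    exact ⟨aff A b x, hx3, eA' x⟩
  have g2 : K' ⊆ stdS n ∪ {x | qq x ≤ 2 / ((n : ℝ) + 1)} := by
    intro x hx
    have hx1 : aff A b x ∈ K := by rw [eK]; exact mem_image_of_mem _ hx
    rcases h2 hx1 with h | h
    · left
      obtain ⟨z, hz, hzx⟩ := h
      rwa [← aff_injective hA b hzx]
    · right
      exact (mem_momentEllipsoid_std x).mp ((mem_momentEllipsoid_aff hA b isCompact_stdS hVS x).mp h)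
  obtain ⟨r1, r2⟩ := sandwich_std hn ⟨hK'v, hK'c, hK'i⟩ g1 g2
  have e1 : isoConst K = isoConst K' := by
    conv_lhs => rw [eK]
    exact isoConst_aff_image hA b hK'c hV'.ne'
  rw [e1, isoConst_aff_image hA b isCompact_stdS hVS]
  refine ⟨r1, fun h => ?_, fun h => ?_⟩
  · rw [eK, r2 h]
  · rw [← isoConst_aff_image hA b hK'c hV'.ne', ← eK, h, isoConst_aff_image hA b isCompact_stdS hVS]

end Vale.Agent.P254
end

section

/-!
P254, bodies near unconditional bodies: Prekopa-Leindler in square-root coordinates.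
-/

open MeasureTheory Set
open scoped ENNReal

namespace Vale.Agent.P254.EX

open Unc

variable {n : ℕ}

/-- the open positive orthant -/
def Orth (n : ℕ) : Set (Fin n → ℝ) := {s | ∀ k, 0 < s k}

/-- squaring the coordinates -/
def sqm (s : Fin n → ℝ) : Fin n → ℝ := fun k => s k ^ 2

lemma orth_open : IsOpen (Orth n) := by
  have : Orth n = ⋂ k, {s : Fin n → ℝ | 0 < s k} := by ext; simp [Orth]
  rw [this]
  exact isOpen_iInter_of_finite fun k => isOpen_lt continuous_const (continuous_apply k)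

lemma sqm_cont : Continuous (sqm (n := n)) := by
  unfold sqm; fun_prop

lemma sqm_image : sqm '' (Orth n) = Orth n := by
  ext x
  constructor
  · rintro ⟨s, hs, rfl⟩ k
    have := hs k
    simp only [sqm]
    positivity
  · intro hx
    refine ⟨fun k => Real.sqrt (x k), fun k => Real.sqrt_pos.2 (hx k), ?_⟩
    funext k
    simp only [sqm]
    exact Real.sq_sqrt (hx k).le

lemma sqm_inj : InjOn (sqm (n := n)) (Orth n) := by
  intro s hs t ht h
  funext k
  have h1 := congrFun h k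
  simp only [sqm] at h1
  exact (pow_left_inj₀ (hs k).le (ht k).le two_ne_zero).1 h1

/-- the derivative of the squaring map -/
noncomputable def dsq (s : Fin n → ℝ) : (Fin n → ℝ) →L[ℝ] (Fin n → ℝ) :=
  LinearMap.toContinuousLinearMap (Matrix.toLin' (Matrix.diagonal fun k => 2 * s k))

lemma dsq_det (s : Fin n → ℝ) : (dsq s).det = ∏ k, (2 * s k) := by
  unfold dsq
  rw [LinearMap.det_toContinuousLinearMap, LinearMap.det_toLin', Matrix.det_diagonal]

lemma dsq_apply (s v : Fin n → ℝ) (k : Fin n) : dsq s v k = 2 * s k * v k := by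
  unfold dsq
  rw [LinearMap.coe_toContinuousLinearMap', Matrix.toLin'_apply, Matrix.mulVec_diagonal]

lemma sqm_deriv (s : Fin n → ℝ) : HasFDerivAt sqm (dsq s) s := by
  rw [hasFDerivAt_pi']
  intro k
  have h1 : HasFDerivAt (fun s : Fin n → ℝ => s k ^ 2)
      ((2 * s k ^ (2 - 1)) • (ContinuousLinearMap.proj (R := ℝ) (φ := fun _ : Fin n => ℝ) k)) s := by
    have h := (ContinuousLinearMap.proj (R := ℝ) (φ := fun _ : Fin n => ℝ) k).hasFDerivAt (x := s)
    simpa using h.pow 2
  refine h1.congr_fderiv ?_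
  ext v
  simp [dsq_apply]

lemma lint_sq (G : (Fin n → ℝ) → ℝ≥0∞) :
    ∫⁻ x in Orth n, G x = ∫⁻ s in Orth n, ENNReal.ofReal (∏ k, (2 * s k)) * G (sqm s) := by
  have h := lintegral_image_eq_lintegral_abs_det_fderiv_mul (μ := volume)
    (s := Orth n) (f := sqm) (f' := dsq) orth_open.measurableSet
    (fun s _ => (sqm_deriv s).hasFDerivWithinAt) sqm_inj G
  rw [sqm_image] at h
  rw [h]
  refine setLIntegral_congr_fun orth_open.measurableSet fun s hs => ?_
  rw [dsq_det, abs_of_nonneg]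
  exact Finset.prod_nonneg fun k _ => by have := hs k; positivity

lemma orth_ae {P : Set (Fin n → ℝ)} (hP : ∀ x ∈ P, 0 ≤ x) :
    (P ∩ Orth n : Set (Fin n → ℝ)) =ᵐ[volume] P := by
  have hnull : ∀ k : Fin n, ∀ᵐ x : Fin n → ℝ ∂volume, x k ≠ 0 := by
    intro k
    have h0 : volume {x : Fin n → ℝ | x k = 0} = 0 := by
      rw [volume_pi]
      exact Measure.pi_hyperplane _ _ _
    filter_upwards [compl_mem_ae_iff.2 h0] with x hx using hx
  filter_upwards [ae_all_iff.2 hnull] with x hx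
  refine propext ⟨fun h => h.1, fun h => ⟨h, fun k => ?_⟩⟩
  exact lt_of_le_of_ne (hP x h k) (hx k).symm

/-- the transformed function -/
noncomputable def tr (P : Set (Fin n → ℝ)) (F : (Fin n → ℝ) → ℝ) : (Fin n → ℝ) → ℝ≥0∞ :=
  (Orth n).indicator fun s => ENNReal.ofReal (∏ k, (2 * s k)) *
    P.indicator (fun x => ENNReal.ofReal (F x)) (sqm s)

lemma tr_meas {P : Set (Fin n → ℝ)} (hPm : MeasurableSet P) {F : (Fin n → ℝ) → ℝ}
    (hF : Continuous F) : Measurable (tr P F) := by
  unfold tr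
  refine Measurable.indicator ?_ orth_open.measurableSet
  refine Measurable.mul ?_ ?_
  · have h : Continuous fun s : Fin n → ℝ => ∏ k, (2 * s k) := by fun_prop
    exact h.measurable.ennreal_ofReal
  · exact (hF.measurable.ennreal_ofReal.indicator hPm).comp sqm_cont.measurable

lemma tr_int {P : Set (Fin n → ℝ)} (hP : ∀ x ∈ P, 0 ≤ x) (hPk : IsCompact P)
    {F : (Fin n → ℝ) → ℝ} (hF : Continuous F) (hF0 : ∀ x, 0 ≤ F x) :
    ∫⁻ s, tr P F s = ENNReal.ofReal (∫ x in P, F x) := by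
  unfold tr
  rw [lintegral_indicator orth_open.measurableSet, ← lint_sq (P.indicator _),
    setLIntegral_indicator hPk.measurableSet, setLIntegral_congr (orth_ae hP),
    ofReal_integral_eq_lintegral_ofReal (hF.continuousOn.integrableOn_compact hPk)
      (Filter.Eventually.of_forall hF0)]

theorem plsq {P : Set (Fin n → ℝ)} (hPc : Convex ℝ P) (hPk : IsCompact P) (hPd : Down P)
    (Φ : Fin n → ℝ → ℝ) (hΦ : ∀ k, Continuous (Φ k)) (C : Fin n → ℝ)
    (h : ∀ k x y, 0 < x → 0 < y →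
      4 * x * y * Real.exp (Φ k (x ^ 2) - Φ k (y ^ 2)) ≤ Real.exp (C k) * (x + y) ^ 2) :
    (∫ x in P, Real.exp (∑ k, Φ k (x k))) * (∫ x in P, Real.exp (-∑ k, Φ k (x k))) ≤
      Real.exp (∑ k, C k) * (volume P).toReal ^ 2 := by
  have hS : Continuous fun x : Fin n → ℝ => ∑ k, Φ k (x k) :=
    continuous_finsetSum _ fun k _ => (hΦ k).comp (continuous_apply k)
  set F₁ : (Fin n → ℝ) → ℝ := fun x => Real.exp (∑ k, Φ k (x k)) with hF₁
  set F₂ : (Fin n → ℝ) → ℝ := fun x => Real.exp (-∑ k, Φ k (x k)) with hF₂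
  set F₃ : (Fin n → ℝ) → ℝ := fun _ => Real.exp ((∑ k, C k) / 2) with hF₃
  have c1 : Continuous F₁ := hS.rexp
  have c2 : Continuous F₂ := hS.neg.rexp
  have c3 : Continuous F₃ := continuous_const
  have hpl := pl_pi (s := 1 / 2) (t := 1 / 2) (by norm_num) (by norm_num) (by norm_num) n
    (tr P F₁) (tr P F₂) (tr P F₃) (tr_meas hPk.measurableSet c1) (tr_meas hPk.measurableSet c2)
    (tr_meas hPk.measurableSet c3) (by
      intro x y
      by_cases hx : x ∈ Orth n
      swap
      · simp [tr, hx]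
      by_cases hy : y ∈ Orth n
      swap
      · simp [tr, hy]
      by_cases hx2 : sqm x ∈ P
      swap
      · simp [tr, hx, hx2]
      by_cases hy2 : sqm y ∈ P
      swap
      · simp [tr, hy, hy2]
      set z : Fin n → ℝ := (1 / 2 : ℝ) • x + (1 / 2 : ℝ) • y with hz
      have hzk : ∀ k, z k = (x k + y k) / 2 := by
        intro k
        simp only [hz, Pi.add_apply, Pi.smul_apply, smul_eq_mul]
        ring
      have hzO : z ∈ Orth n := by
        intro k
        have h1 := hx k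
        have h2 := hy k
        rw [hzk]
        linarith
      have hzP : sqm z ∈ P := by
        have hm := hPc hx2 hy2 (a := 1 / 2) (b := 1 / 2) (by norm_num) (by norm_num) (by norm_num)
        refine hPd.2 _ hm _ (fun k => ?_) (fun k => ?_)
        · simp only [sqm, Pi.zero_apply]
          positivity
        · simp only [sqm, Pi.add_apply, Pi.smul_apply, smul_eq_mul, hzk]
          nlinarith [sq_nonneg (x k - y k)]
      have hpx : 0 ≤ ∏ k, (2 * x k) := Finset.prod_nonneg fun k _ => by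
        have := hx k; positivity
      have hpy : 0 ≤ ∏ k, (2 * y k) := Finset.prod_nonneg fun k _ => by
        have := hy k; positivity
      have hpz : 0 ≤ ∏ k, (2 * z k) := Finset.prod_nonneg fun k _ => by
        have := hzO k; positivity
      simp only [tr, indicator_of_mem hx, indicator_of_mem hy, indicator_of_mem hzO,
        indicator_of_mem hx2, indicator_of_mem hy2, indicator_of_mem hzP]
      rw [← ENNReal.ofReal_mul hpx, ← ENNReal.ofReal_mul hpy, ← ENNReal.ofReal_mul hpz,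
        ENNReal.ofReal_rpow_of_nonneg (by positivity) (by norm_num),
        ENNReal.ofReal_rpow_of_nonneg (by positivity) (by norm_num),
        ← ENNReal.ofReal_mul (by positivity)]
      apply ENNReal.ofReal_le_ofReal
      rw [← Real.mul_rpow (by positivity) (by positivity), ← Real.sqrt_eq_rpow]
      apply Real.sqrt_le_iff.2
      refine ⟨by positivity, ?_⟩
      have key : ∏ k, (4 * x k * y k * Real.exp (Φ k (x k ^ 2) - Φ k (y k ^ 2))) ≤
          ∏ k, (Real.exp (C k) * (x k + y k) ^ 2) := by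
        refine Finset.prod_le_prod (fun k _ => ?_) (fun k _ => h k _ _ (hx k) (hy k))
        have h1 := hx k
        have h2 := hy k
        positivity
      calc (∏ k, (2 * x k)) * F₁ (sqm x) * ((∏ k, (2 * y k)) * F₂ (sqm y))
          = ∏ k, (4 * x k * y k * Real.exp (Φ k (x k ^ 2) - Φ k (y k ^ 2))) := by
            simp only [hF₁, hF₂, sqm, ← Finset.sum_neg_distrib, Real.exp_sum,
              ← Finset.prod_mul_distrib]
            refine Finset.prod_congr rfl fun k _ => ?_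
            rw [sub_eq_add_neg, Real.exp_add]
            ring
        _ ≤ _ := key
        _ = _ := by
          simp only [hF₃, hzk]
          rw [mul_pow, ← Real.exp_nat_mul]
          have e : ((2 : ℕ) : ℝ) * ((∑ k, C k) / 2) = ∑ k, C k := by push_cast; ring
          rw [e, Real.exp_sum, ← Finset.prod_pow, ← Finset.prod_mul_distrib]
          refine Finset.prod_congr rfl fun k _ => ?_
          ring)
  rw [tr_int hPd.1 hPk c1 (fun x => (Real.exp_pos _).le),
    tr_int hPd.1 hPk c2 (fun x => (Real.exp_pos _).le),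
    tr_int hPd.1 hPk c3 (fun x => (Real.exp_pos _).le)] at hpl
  have hI1 : 0 ≤ ∫ x in P, F₁ x := integral_nonneg fun x => (Real.exp_pos _).le
  have hI2 : 0 ≤ ∫ x in P, F₂ x := integral_nonneg fun x => (Real.exp_pos _).le
  have hI3 : 0 ≤ ∫ x in P, F₃ x := integral_nonneg fun x => (Real.exp_pos _).le
  rw [ENNReal.ofReal_rpow_of_nonneg hI1 (by norm_num),
    ENNReal.ofReal_rpow_of_nonneg hI2 (by norm_num), ← ENNReal.ofReal_mul (by positivity),
    ENNReal.ofReal_le_ofReal_iff hI3, ← Real.mul_rpow hI1 hI2, ← Real.sqrt_eq_rpow] at hpl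
  have h4 := (Real.sqrt_le_iff.1 hpl).2
  refine h4.trans (le_of_eq ?_)
  simp only [hF₃]
  rw [setIntegral_const, smul_eq_mul, mul_pow, ← Real.exp_nat_mul, Measure.real]
  have e : ((2 : ℕ) : ℝ) * ((∑ k, C k) / 2) = ∑ k, C k := by push_cast; ring
  rw [e, mul_comm]

end Vale.Agent.P254.EX
end

section

/-!
P254, bodies near unconditional bodies: comparison of truncated second moments.
-/

open MeasureTheory Set

namespace Vale.Agent.P254.EX

open Unc Unc.FB

variable {n : ℕ}

/-- Jensen's inequality for the exponential function -/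
lemma jensen {K : Set (Fin n → ℝ)} (hK : IsCompact K) (hV : 0 < (volume K).toReal)
    {f : (Fin n → ℝ) → ℝ} (hf : Continuous f) :
    (volume K).toReal * Real.exp ((volume K).toReal⁻¹ * ∫ x in K, f x) ≤
      ∫ x in K, Real.exp (f x) := by
  set V := (volume K).toReal with hVd
  set m := V⁻¹ * ∫ x in K, f x with hm
  have hfi : IntegrableOn f K := hf.continuousOn.integrableOn_compact hK
  have hei : IntegrableOn (fun x => Real.exp (f x)) K :=
    hf.rexp.continuousOn.integrableOn_compact hK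
  have hfin : volume K ≠ ⊤ := hK.measure_lt_top.ne
  have h1 : ∫ x in K, (Real.exp m * (1 + f x - m)) ≤ ∫ x in K, Real.exp (f x) := by
    refine setIntegral_mono ?_ hei fun x => ?_
    · exact (((integrableOn_const hfin).add hfi).sub (integrableOn_const hfin)).const_mul _
    · have h2 := Real.add_one_le_exp (f x - m)
      have h3 : Real.exp (f x) = Real.exp m * Real.exp (f x - m) := by
        rw [← Real.exp_add]; congr 1; ring
      rw [h3]
      apply mul_le_mul_of_nonneg_left _ (Real.exp_pos m).le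
      linarith
  have h2 : ∫ x in K, (Real.exp m * (1 + f x - m)) = V * Real.exp m := by
    have e : ∀ x, 1 + f x - m = (1 - m) + f x := fun x => by ring
    simp_rw [e]
    have hci : Integrable (fun _ : Fin n → ℝ => 1 - m) (volume.restrict K) :=
      integrableOn_const hfin
    rw [integral_const_mul, integral_add hci hfi, setIntegral_const,
      smul_eq_mul, Measure.real, ← hVd]
    have h3 : ∫ x in K, f x = V * m := by rw [hm]; field_simp
    rw [h3]
    ring
  rw [h2] at h1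
  exact h1

/-- the truncated square -/
noncomputable def psi (ρ t : ℝ) : ℝ := Real.log (1 + t ^ 2 / ρ)

lemma psi_cont {ρ : ℝ} (hρ : 0 < ρ) : Continuous (psi ρ) := by
  unfold psi
  refine Continuous.log (by fun_prop) fun t => ?_
  have : 0 < 1 + t ^ 2 / ρ := by positivity
  exact this.ne'

lemma psi_nonneg {ρ : ℝ} (hρ : 0 < ρ) (t : ℝ) : 0 ≤ psi ρ t := by
  unfold psi
  apply Real.log_nonneg
  have : 0 ≤ t ^ 2 / ρ := by positivity
  linarith

lemma psi_le {ρ : ℝ} (hρ : 0 < ρ) (t : ℝ) : psi ρ t ≤ t ^ 2 / ρ := by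
  unfold psi
  have : 0 ≤ t ^ 2 / ρ := by positivity
  have h := Real.log_le_sub_one_of_pos (x := 1 + t ^ 2 / ρ) (by linarith)
  linarith

theorem jen {U K : Set (Fin n → ℝ)} (hU : IsConvexBody U) (hu : Uncond U) (hK : IsCompact K)
    (hVK : 0 < (volume K).toReal) (hVU : 0 < (volume U).toReal)
    (hKU : K ⊆ U) {a : ℝ} (ha : 0 ≤ a) (ha' : a ≤ 1 / 8) (ρ : Fin n → ℝ) (hρ : ∀ k, 0 < ρ k)
    (S : Finset (Fin n)) :
    a * (∑ k ∈ S, (volume K).toReal⁻¹ * ∫ x in K, psi (ρ k) (x k)) ≤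
      a * (∑ k ∈ S, (volume U).toReal⁻¹ * ∫ x in U, psi (ρ k) (x k)) + 32 * a ^ 2 * S.card +
        Real.log ((volume U).toReal / (volume K).toReal) := by
  classical
  set Φ : Fin n → ℝ → ℝ := fun k t => if k ∈ S then a * psi (ρ k) t else 0 with hΦ
  set C : Fin n → ℝ := fun k => if k ∈ S then 32 * a ^ 2 else 0 with hC
  have hΦc : ∀ k, Continuous (Φ k) := by
    intro k
    by_cases hk : k ∈ S
    · simp only [hΦ, hk, if_true]
      exact continuous_const.mul (psi_cont (hρ k))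
    · simp only [hΦ, hk, if_false]
      exact continuous_const
  have hcost : ∀ k x y, 0 < x → 0 < y →
      4 * x * y * Real.exp (Φ k (x ^ 2) - Φ k (y ^ 2)) ≤ Real.exp (C k) * (x + y) ^ 2 := by
    intro k x y hx hy
    by_cases hk : k ∈ S
    · simp only [hΦ, hC, hk, if_true, psi]
      exact cost ha ha' (hρ k) hx hy
    · simp only [hΦ, hC, hk, if_false, sub_self, Real.exp_zero]
      nlinarith [sq_nonneg (x - y)]
  set P : Set (Fin n → ℝ) := U ∩ {x | ∀ i, 0 ≤ x i} with hP
  have hPk : IsCompact P := hU.2.1.inter_right orth_closed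
  have hpl := plsq (hU.1.inter orth_convex) hPk (down hU.1 hu) Φ hΦc C hcost
  set F : (Fin n → ℝ) → ℝ := fun x => ∑ k, Φ k (x k) with hF
  have hFc : Continuous F := continuous_finsetSum _ fun k _ => (hΦc k).comp (continuous_apply k)
  have hFs : ∀ j x, F (refl j x) = F x := by
    intro j x
    simp only [hF]
    refine Finset.sum_congr rfl fun k _ => ?_
    simp only [hΦ, psi]
    rw [← sq_abs (refl j x k), refl_abs, sq_abs]
  have hfin : volume U ≠ ⊤ := hU.2.1.measure_lt_top.ne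
  have hVP : (volume U).toReal = 2 ^ n * (volume P).toReal := by
    have h := reduct_univ hu (f := fun _ => (1 : ℝ)) (integrableOn_const hfin) (fun _ _ => rfl)
    rw [setIntegral_const, setIntegral_const] at h
    simpa [Measure.real] using h
  have e1 : ∫ x in U, Real.exp (F x) = 2 ^ n * ∫ x in P, Real.exp (F x) :=
    reduct_univ hu (hFc.rexp.continuousOn.integrableOn_compact hU.2.1)
      (fun j x => by rw [hFs])
  have e2 : ∫ x in U, Real.exp (-F x) = 2 ^ n * ∫ x in P, Real.exp (-F x) :=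
    reduct_univ hu (hFc.neg.rexp.continuousOn.integrableOn_compact hU.2.1)
      (fun j x => by rw [hFs])
  have hpl2 : (∫ x in U, Real.exp (F x)) * (∫ x in U, Real.exp (-F x)) ≤
      Real.exp (∑ k, C k) * (volume U).toReal ^ 2 := by
    rw [e1, e2, hVP]
    have : (0 : ℝ) < 2 ^ n * 2 ^ n := by positivity
    have h := mul_le_mul_of_nonneg_left hpl this.le
    calc _ = 2 ^ n * 2 ^ n * ((∫ x in P, Real.exp (F x)) * (∫ x in P, Real.exp (-F x))) := by ring
      _ ≤ _ := h
      _ = _ := by ring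
  set VK := (volume K).toReal with hVKd
  set VU := (volume U).toReal with hVUd
  have hsum : ∀ (L : Set (Fin n → ℝ)), IsCompact L → ∀ c : ℝ,
      c * ∫ x in L, F x = a * ∑ k ∈ S, c * ∫ x in L, psi (ρ k) (x k) := by
    intro L hL c
    have e : ∀ x, F x = ∑ k ∈ S, a * psi (ρ k) (x k) := by
      intro x
      simp only [hF, hΦ]
      rw [← Finset.sum_filter]
      congr 1
      ext k
      simp
    simp_rw [e]
    rw [integral_finsetSum _ (fun k _ => ?_), Finset.mul_sum, Finset.mul_sum]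
    · refine Finset.sum_congr rfl fun k _ => ?_
      rw [integral_const_mul]
      ring
    · exact (continuous_const.mul ((psi_cont (hρ k)).comp
        (continuous_apply k))).continuousOn.integrableOn_compact hL
  have hCs : ∑ k, C k = 32 * a ^ 2 * S.card := by
    simp only [hC]
    rw [← Finset.sum_filter, Finset.sum_const, nsmul_eq_mul]
    have : Finset.filter (fun k => k ∈ S) Finset.univ = S := by ext k; simp
    rw [this]
    ring
  have j1 := jensen hK hVK hFc
  have j2 : VU * Real.exp (VU⁻¹ * ∫ x in U, -F x) ≤ ∫ x in U, Real.exp (-F x) :=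
    jensen hU.2.1 hVU hFc.neg
  have j3 : ∫ x in K, Real.exp (F x) ≤ ∫ x in U, Real.exp (F x) :=
    setIntegral_mono_set (hFc.rexp.continuousOn.integrableOn_compact hU.2.1)
      (Filter.Eventually.of_forall fun x => (Real.exp_pos _).le)
      (Filter.Eventually.of_forall hKU)
  rw [← hVKd, hsum K hK] at j1
  rw [integral_neg, mul_neg, hsum U hU.2.1] at j2
  set mK := a * ∑ k ∈ S, VK⁻¹ * ∫ x in K, psi (ρ k) (x k) with hmK
  set mU := a * ∑ k ∈ S, VU⁻¹ * ∫ x in U, psi (ρ k) (x k) with hmU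
  have h1 : VK * Real.exp mK * (VU * Real.exp (-mU)) ≤
      Real.exp (∑ k, C k) * VU ^ 2 := by
    refine le_trans ?_ hpl2
    exact mul_le_mul (j1.trans j3) j2 (by positivity)
      (integral_nonneg fun x => (Real.exp_pos _).le)
  have h2 : Real.exp (mK - mU) ≤ Real.exp (∑ k, C k + Real.log (VU / VK)) := by
    rw [Real.exp_add, Real.exp_log (div_pos hVU hVK), sub_eq_add_neg, Real.exp_add,
      ← mul_div_assoc, le_div_iff₀ hVK]
    have h3 : (Real.exp mK * Real.exp (-mU) * VK) * VU ≤ (Real.exp (∑ k, C k) * VU) * VU := by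
      calc _ = VK * Real.exp mK * (VU * Real.exp (-mU)) := by ring
        _ ≤ _ := h1
        _ = _ := by ring
    exact le_of_mul_le_mul_right h3 hVU
  have h3 := Real.exp_le_exp.1 h2
  rw [hCs] at h3
  linarith

end Vale.Agent.P254.EX
end
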