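import Mathlib
import Vale.Agent.P254.Bdl.B6
import Vale.Agent.P254.Bdl.B1

set_option linter.all false

section

/-! # P227/M, block LK: small relative entropy implies closeness in total variation -/

open MeasureTheory Set Filter Topology

namespace Vale.Agent.P227.M.LK

/-- if `∫ (W - V) e^{-V} ≤ η²` for two probability densities `e^{-V}`, `e^{-W}`, then
`|∫ F e^{-W} - ∫ F e^{-V}| ≤ 2 M η` for `|F| ≤ M` -/
theorem abs_sub_le_of_KL {α : Type*} [MeasurableSpace α] {μ : Measure α} {V W F : α → ℝ} {M η : ℝ}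
    (hη : 0 < η) (hV : Integrable (fun x => Real.exp (-V x)) μ) (hW : Integrable (fun x => Real.exp (-W x)) μ)
    (hV1 : ∫ x, Real.exp (-V x) ∂μ = 1) (hW1 : ∫ x, Real.exp (-W x) ∂μ = 1)
    (hKi : Integrable (fun x => (W x - V x) * Real.exp (-V x)) μ)
    (hK : ∫ x, (W x - V x) * Real.exp (-V x) ∂μ ≤ η ^ 2)
    (hF : AEStronglyMeasurable F μ) (hM : 0 ≤ M) (hFM : ∀ x, |F x| ≤ M) :
    |(∫ x, F x * Real.exp (-W x) ∂μ) - ∫ x, F x * Real.exp (-V x) ∂μ| ≤ 2 * M * η := by
  have hFW : Integrable (fun x => F x * Real.exp (-W x)) μ := by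
    refine (hW.const_mul M).mono' (hF.mul hW.aestronglyMeasurable) (Eventually.of_forall fun x => ?_)
    rw [Real.norm_eq_abs, abs_mul, abs_of_pos (Real.exp_pos _)]
    exact mul_le_mul_of_nonneg_right (hFM x) (Real.exp_pos _).le
  have hFV : Integrable (fun x => F x * Real.exp (-V x)) μ := by
    refine (hV.const_mul M).mono' (hF.mul hV.aestronglyMeasurable) (Eventually.of_forall fun x => ?_)
    rw [Real.norm_eq_abs, abs_mul, abs_of_pos (Real.exp_pos _)]
    exact mul_le_mul_of_nonneg_right (hFM x) (Real.exp_pos _).le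
  rw [← integral_sub hFW hFV, ← Real.norm_eq_abs]
  -- the dominating function
  have i1 : Integrable (fun x => Real.exp (-W x) - Real.exp (-V x)) μ := hW.sub hV
  have i2 : Integrable (fun x => Real.exp (-W x) - Real.exp (-V x) + (W x - V x) * Real.exp (-V x)) μ := i1.add hKi
  have i3 : Integrable (fun x => Real.exp (-W x) + Real.exp (-V x)) μ := hW.add hV
  have i4 : Integrable (fun x => (1 / η) * (Real.exp (-W x) - Real.exp (-V x) + (W x - V x) * Real.exp (-V x))
      + (η / 2) * (Real.exp (-W x) + Real.exp (-V x))) μ := (i2.const_mul _).add (i3.const_mul _)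
  have hpt : ∀ x, ‖F x * Real.exp (-W x) - F x * Real.exp (-V x)‖ ≤ M * ((1 / η) * (Real.exp (-W x) - Real.exp (-V x)
      + (W x - V x) * Real.exp (-V x)) + (η / 2) * (Real.exp (-W x) + Real.exp (-V x))) := by
    intro x
    rw [Real.norm_eq_abs, ← mul_sub, abs_mul]
    have h0 : 0 < Real.exp (-V x) := Real.exp_pos _
    set p := Real.exp (-(W x - V x) / 2) with hp
    have hp0 : 0 < p := Real.exp_pos _
    have h1 : Real.exp (-W x) = p ^ 2 * Real.exp (-V x) := by
      rw [hp, ← Real.exp_nat_mul, ← Real.exp_add]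
      congr 1
      push_cast
      ring
    have h2 : 1 - (W x - V x) / 2 ≤ p := by
      have := Real.add_one_le_exp (-(W x - V x) / 2)
      linarith
    have h3 : (p - 1) ^ 2 ≤ p ^ 2 - 1 + (W x - V x) := by nlinarith
    have h4 : |Real.exp (-W x) - Real.exp (-V x)| = |p - 1| * (p + 1) * Real.exp (-V x) := by
      rw [h1, show p ^ 2 * Real.exp (-V x) - Real.exp (-V x) = (p - 1) * (p + 1) * Real.exp (-V x) by ring,
        abs_mul, abs_mul, abs_of_pos h0, abs_of_pos (by linarith : 0 < p + 1)]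
    have h5 : |p - 1| * (p + 1) ≤ (1 / η) * (p - 1) ^ 2 + (η / 4) * (p + 1) ^ 2 := by
      have h6 : 0 ≤ (|p - 1| / η - (p + 1) / 2) ^ 2 := sq_nonneg _
      have h7 : (|p - 1| / η - (p + 1) / 2) ^ 2 * η = (1 / η) * (p - 1) ^ 2 + (η / 4) * (p + 1) ^ 2 - |p - 1| * (p + 1) := by
        have : |p - 1| ^ 2 = (p - 1) ^ 2 := sq_abs _
        field_simp
        rw [← this]
        ring
      have h8 := mul_nonneg h6 hη.le
      linarith
    have h9 : (p + 1) ^ 2 ≤ 2 * (p ^ 2 + 1) := by nlinarith [sq_nonneg (p - 1)]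
    have h10 : |p - 1| * (p + 1) ≤ (1 / η) * (p ^ 2 - 1 + (W x - V x)) + (η / 2) * (p ^ 2 + 1) := by
      have e1 : (1 / η) * (p - 1) ^ 2 ≤ (1 / η) * (p ^ 2 - 1 + (W x - V x)) :=
        mul_le_mul_of_nonneg_left h3 (by positivity)
      have e2 : (η / 4) * (p + 1) ^ 2 ≤ (η / 4) * (2 * (p ^ 2 + 1)) := mul_le_mul_of_nonneg_left h9 (by positivity)
      linarith
    have h11 : |Real.exp (-W x) - Real.exp (-V x)| ≤ (1 / η) * (Real.exp (-W x) - Real.exp (-V x)
        + (W x - V x) * Real.exp (-V x)) + (η / 2) * (Real.exp (-W x) + Real.exp (-V x)) := by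
      rw [h4, h1]
      calc |p - 1| * (p + 1) * Real.exp (-V x)
          ≤ ((1 / η) * (p ^ 2 - 1 + (W x - V x)) + (η / 2) * (p ^ 2 + 1)) * Real.exp (-V x) :=
            mul_le_mul_of_nonneg_right h10 h0.le
        _ = _ := by ring
    exact mul_le_mul (hFM x) h11 (abs_nonneg _) hM
  have h1 := norm_integral_le_of_norm_le (i4.const_mul M) (Eventually.of_forall hpt)
  refine h1.trans ?_
  have h2 : ∫ x, M * ((1 / η) * (Real.exp (-W x) - Real.exp (-V x)
      + (W x - V x) * Real.exp (-V x)) + (η / 2) * (Real.exp (-W x) + Real.exp (-V x))) ∂μ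
      = M * ((1 / η) * (1 - 1 + ∫ x, (W x - V x) * Real.exp (-V x) ∂μ) + (η / 2) * (1 + 1)) := by
    rw [integral_const_mul, integral_add (i2.const_mul _) (i3.const_mul _), integral_const_mul, integral_const_mul,
      integral_add i1 hKi, integral_sub hW hV, integral_add hW hV, hV1, hW1]
  rw [h2]
  have h3 : (1 / η) * ∫ x, (W x - V x) * Real.exp (-V x) ∂μ ≤ η := by
    calc (1 / η) * ∫ x, (W x - V x) * Real.exp (-V x) ∂μ ≤ (1 / η) * η ^ 2 :=
          mul_le_mul_of_nonneg_left hK (by positivity)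
      _ = η := by field_simp
  have h4 : (1 / η) * (1 - 1 + ∫ x, (W x - V x) * Real.exp (-V x) ∂μ) + (η / 2) * (1 + 1) ≤ 2 * η := by
    rw [sub_self, zero_add]
    linarith
  calc M * ((1 / η) * (1 - 1 + ∫ x, (W x - V x) * Real.exp (-V x) ∂μ) + (η / 2) * (1 + 1)) ≤ M * (2 * η) :=
        mul_le_mul_of_nonneg_left h4 hM
    _ = 2 * M * η := by ring

end Vale.Agent.P227.M.LK
end

section

/-! # P227/M, block LK: at level `k`, `x` is close to `g y` (a semiconcavity gradient of `phi`), and the push-forward error -/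

open MeasureTheory Set Filter Topology

namespace Vale.Agent.P227.M.LK.Dsc

set_option linter.unusedSectionVars false

theorem two_add_sq_le (u : ℝ) : 2 + u ^ 2 ≤ Real.exp u + Real.exp (-u) := by
  have h1 : Real.exp u + Real.exp (-u) = 2 * Real.cosh u := by
    rw [Real.cosh_eq]
    ring
  have h2 : Real.cosh u = 1 + 2 * Real.sinh (u / 2) ^ 2 := by
    have := Real.cosh_two_mul (u / 2)
    rw [show 2 * (u / 2) = u by ring, Real.cosh_sq] at this
    rw [this]
    ring
  have h3 : (u / 2) ^ 2 ≤ Real.sinh (u / 2) ^ 2 := by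
    rcases le_total 0 (u / 2) with h | h
    · exact pow_le_pow_left₀ h (Real.self_le_sinh_iff.2 h) 2
    · have h4 := Real.self_le_sinh_iff.2 (neg_nonneg.2 h)
      rw [Real.sinh_neg] at h4
      have h5 := pow_le_pow_left₀ (neg_nonneg.2 h) h4 2
      nlinarith
  rw [h1, h2]
  nlinarith

variable {E : Type*} [NormedAddCommGroup E] [InnerProductSpace ℝ E] [FiniteDimensional ℝ E]
  [MeasurableSpace E] [BorelSpace E]

variable {V : E → ℝ} {k a b A : ℝ} {c : E → ℝ}

/-- the conditional density of `x` given `y` -/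
noncomputable def cd (k : ℝ) (c : E → ℝ) (y x : E) : ℝ := Real.exp (k * inner ℝ x y - k * c x - k * phi k c y)

theorem cd_pos (y x : E) : 0 < cd k c y x := Real.exp_pos _

theorem integrable_cd_tilt (hk : 0 < k) (ha : 0 < a) (h : Qg a b c) (y z : E) (s : ℝ) :
    Integrable fun x : E => Real.exp (k * (inner ℝ x z - s)) * cd k c y x := by
  have h1 := (h.int1 hk ha (y + z)).mul_const (Real.exp (-(k * s) - k * phi k c y))
  refine h1.congr (Eventually.of_forall fun x => ?_)
  simp only [cd]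
  rw [← Real.exp_add, ← Real.exp_add, inner_add_right]
  congr 1
  ring

theorem integral_cd_tilt (hk : 0 < k) (ha : 0 < a) (h : Qg a b c) (y z : E) (s : ℝ) :
    ∫ x : E, Real.exp (k * (inner ℝ x z - s)) * cd k c y x = Real.exp (k * (phi k c (y + z) - phi k c y - s)) := by
  have h1 : (fun x : E => Real.exp (k * (inner ℝ x z - s)) * cd k c y x)
      = fun x => Real.exp (k * inner ℝ x (y + z) - k * c x) * Real.exp (-(k * s) - k * phi k c y) := by
    ext x
    simp only [cd]
    rw [← Real.exp_add, ← Real.exp_add, inner_add_right]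
    congr 1
    ring
  rw [h1, integral_mul_const, ← exp_phi hk (h.int1 hk ha (y + z)), ← Real.exp_add]
  congr 1
  ring

theorem integrable_cd (hk : 0 < k) (ha : 0 < a) (h : Qg a b c) (y : E) : Integrable (cd k c y) := by
  refine (integrable_cd_tilt hk ha h y 0 0).congr (Eventually.of_forall fun x => ?_)
  simp

theorem integral_cd (hk : 0 < k) (ha : 0 < a) (h : Qg a b c) (y : E) : ∫ x : E, cd k c y x = 1 := by
  have := integral_cd_tilt hk ha h y 0 0
  simpa using this

theorem measurable_cd (hc : Measurable c) (y : E) : Measurable (cd k c y) := by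
  unfold cd
  have : Measurable fun x : E => (inner ℝ x y : ℝ) := (continuous_id.inner continuous_const).measurable
  exact Real.measurable_exp.comp (((this.const_mul k).sub (hc.const_mul k)).sub_const _)

/-- second moments in a direction -/
theorem second_moment (hk : 0 < k) (ha : 0 < a) (h : Qg a b c) (hA : 0 ≤ A) {y w : E}
    (hsc : ∀ z, phi k c (y + z) ≤ phi k c y + inner ℝ w z + A / 2 * ‖z‖ ^ 2) {e : E} (he : ‖e‖ = 1) :
    Integrable (fun x : E => (inner ℝ (x - w) e) ^ 2 * cd k c y x) ∧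
      ∫ x : E, (inner ℝ (x - w) e) ^ 2 * cd k c y x ≤ A / k := by
  have hm : Measurable fun x : E => (inner ℝ (x - w) e : ℝ) := ((continuous_id.sub continuous_const).inner continuous_const).measurable
  -- for every r > 0
  have key : ∀ r : ℝ, 0 < r → Integrable (fun x : E => (2 + (k * (r * inner ℝ (x - w) e)) ^ 2) * cd k c y x) ∧
      ∫ x : E, (2 + (k * (r * inner ℝ (x - w) e)) ^ 2) * cd k c y x ≤ 2 * Real.exp (k * (A / 2 * r ^ 2)) := by
    intro r hr
    have i1 := integrable_cd_tilt hk ha h y (r • e) (inner ℝ w (r • e))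
    have i2 := integrable_cd_tilt hk ha h y (-(r • e)) (inner ℝ w (-(r • e)))
    have hpt : ∀ x : E, (2 + (k * (r * inner ℝ (x - w) e)) ^ 2) * cd k c y x ≤
        Real.exp (k * (inner ℝ x (r • e) - inner ℝ w (r • e))) * cd k c y x
        + Real.exp (k * (inner ℝ x (-(r • e)) - inner ℝ w (-(r • e)))) * cd k c y x := by
      intro x
      rw [← add_mul]
      refine mul_le_mul_of_nonneg_right ?_ (cd_pos y x).le
      have h1 : k * (inner ℝ x (r • e) - inner ℝ w (r • e)) = k * (r * inner ℝ (x - w) e) := by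
        rw [inner_smul_right, inner_smul_right, inner_sub_left]
        ring
      have h2 : k * (inner ℝ x (-(r • e)) - inner ℝ w (-(r • e))) = -(k * (r * inner ℝ (x - w) e)) := by
        rw [inner_neg_right, inner_neg_right, inner_smul_right, inner_smul_right, inner_sub_left]
        ring
      rw [h1, h2]
      exact two_add_sq_le _
    have hi : Integrable (fun x : E => (2 + (k * (r * inner ℝ (x - w) e)) ^ 2) * cd k c y x) := by
      refine (i1.add i2).mono' ?_ (Eventually.of_forall fun x => ?_)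
      · exact (((((hm.const_mul r).const_mul k).pow_const 2).const_add 2).mul (measurable_cd h.meas y)).aestronglyMeasurable
      · rw [Real.norm_eq_abs, abs_of_nonneg (mul_nonneg (by positivity) (cd_pos y x).le)]
        exact hpt x
    refine ⟨hi, ?_⟩
    have h3 := integral_mono hi (i1.add i2) hpt
    have h4 : ∫ x : E, ((fun x => Real.exp (k * (inner ℝ x (r • e) - inner ℝ w (r • e))) * cd k c y x)
        + (fun x => Real.exp (k * (inner ℝ x (-(r • e)) - inner ℝ w (-(r • e)))) * cd k c y x)) x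
        = Real.exp (k * (phi k c (y + r • e) - phi k c y - inner ℝ w (r • e)))
          + Real.exp (k * (phi k c (y + -(r • e)) - phi k c y - inner ℝ w (-(r • e)))) := by
      rw [integral_add' i1 i2, integral_cd_tilt hk ha h, integral_cd_tilt hk ha h]
    rw [h4] at h3
    have hn : ‖r • e‖ ^ 2 = r ^ 2 := by rw [norm_smul, he, mul_one, Real.norm_eq_abs, sq_abs]
    have h5 : Real.exp (k * (phi k c (y + r • e) - phi k c y - inner ℝ w (r • e))) ≤ Real.exp (k * (A / 2 * r ^ 2)) := by
      refine Real.exp_le_exp.2 (mul_le_mul_of_nonneg_left ?_ hk.le)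
      have := hsc (r • e)
      rw [hn] at this
      linarith
    have h6 : Real.exp (k * (phi k c (y + -(r • e)) - phi k c y - inner ℝ w (-(r • e)))) ≤ Real.exp (k * (A / 2 * r ^ 2)) := by
      refine Real.exp_le_exp.2 (mul_le_mul_of_nonneg_left ?_ hk.le)
      have := hsc (-(r • e))
      rw [norm_neg, hn] at this
      linarith
    linarith
  have hcd := integrable_cd hk ha h y
  have h1 : Integrable (fun x : E => (inner ℝ (x - w) e) ^ 2 * cd k c y x) := by
    have := ((key 1 one_pos).1.sub (hcd.const_mul 2)).const_mul (1 / k ^ 2)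
    refine this.congr (Eventually.of_forall fun x => ?_)
    simp only [Pi.sub_apply]
    field_simp
    ring
  refine ⟨h1, ?_⟩
  set m := ∫ x : E, (inner ℝ (x - w) e) ^ 2 * cd k c y x with hm'
  have h2 : ∀ r : ℝ, 0 < r → 2 + k ^ 2 * r ^ 2 * m ≤ 2 * Real.exp (k * (A / 2 * r ^ 2)) := by
    intro r hr
    refine le_trans (le_of_eq ?_) (key r hr).2
    have h3 : (fun x : E => (2 + (k * (r * inner ℝ (x - w) e)) ^ 2) * cd k c y x)
        = fun x => 2 * cd k c y x + (k ^ 2 * r ^ 2) * ((inner ℝ (x - w) e) ^ 2 * cd k c y x) := by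
      ext x
      ring
    rw [h3, integral_add (hcd.const_mul 2) (h1.const_mul _), integral_const_mul, integral_const_mul, integral_cd hk ha h]
    ring
  refine le_of_forall_pos_le_add fun δ hδ => ?_
  -- choose r small
  have hA1 : 0 < k * A / 2 + 1 := by positivity
  obtain ⟨r, hr0, hr1, hr2⟩ : ∃ r : ℝ, 0 < r ∧ k * (A / 2 * r ^ 2) ≤ 1 ∧ A ^ 2 / 2 * r ^ 2 ≤ δ := by
    have ht : Tendsto (fun r : ℝ => k * (A / 2 * r ^ 2)) (𝓝[>] 0) (𝓝 (k * (A / 2 * 0 ^ 2))) :=
      (Continuous.tendsto (by fun_prop) 0).mono_left nhdsWithin_le_nhds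
    have ht2 : Tendsto (fun r : ℝ => A ^ 2 / 2 * r ^ 2) (𝓝[>] 0) (𝓝 (A ^ 2 / 2 * 0 ^ 2)) :=
      (Continuous.tendsto (by fun_prop) 0).mono_left nhdsWithin_le_nhds
    have e1 := ht.eventually (ge_mem_nhds (by norm_num : k * (A / 2 * 0 ^ 2) < 1))
    have e2 := ht2.eventually (ge_mem_nhds (by simpa using hδ : A ^ 2 / 2 * 0 ^ 2 < δ))
    have e3 : ∀ᶠ r : ℝ in 𝓝[>] 0, 0 < r := self_mem_nhdsWithin
    obtain ⟨r, h1, h2, h3⟩ := (e1.and (e2.and e3)).exists
    exact ⟨r, h3, h1, h2⟩
  have h3 := h2 r hr0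
  set u := k * (A / 2 * r ^ 2) with hu
  have hu0 : 0 ≤ u := by positivity
  have h4 := Real.abs_exp_sub_one_sub_id_le (x := u) (by rw [abs_of_nonneg hu0]; exact hr1)
  have h5 := (abs_le.1 h4).2
  have h6 : k ^ 2 * r ^ 2 * m ≤ 2 * (u + u ^ 2) := by linarith
  have h7 : 2 * (u + u ^ 2) = k ^ 2 * r ^ 2 * (A / k + A ^ 2 / 2 * r ^ 2) := by
    rw [hu]
    field_simp
  rw [h7] at h6
  have h8 := le_of_mul_le_mul_left h6 (by positivity)
  linarith

/-- first moment of `‖x - w‖` -/
theorem first_moment (hk : 0 < k) (ha : 0 < a) (h : Qg a b c) (hA : 0 ≤ A) {y w : E}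
    (hsc : ∀ z, phi k c (y + z) ≤ phi k c y + inner ℝ w z + A / 2 * ‖z‖ ^ 2) {σ : ℝ} (hσ : 0 < σ)
    (hAσ : Module.finrank ℝ E * (A / k) ≤ σ ^ 2) :
    Integrable (fun x : E => ‖x - w‖ * cd k c y x) ∧ ∫ x : E, ‖x - w‖ * cd k c y x ≤ σ := by
  let B := stdOrthonormalBasis ℝ E
  have h1 : ∀ i, Integrable (fun x : E => (inner ℝ (x - w) (B i)) ^ 2 * cd k c y x) ∧
      ∫ x : E, (inner ℝ (x - w) (B i)) ^ 2 * cd k c y x ≤ A / k := fun i =>
    second_moment hk ha h hA hsc (B.orthonormal.1 i)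
  have hsum : ∀ x : E, ‖x - w‖ ^ 2 * cd k c y x = ∑ i, (inner ℝ (x - w) (B i)) ^ 2 * cd k c y x := by
    intro x
    rw [← Finset.sum_mul, B.sum_sq_inner_left]
  have i2 : Integrable (fun x : E => ‖x - w‖ ^ 2 * cd k c y x) := by
    have := integrable_finsetSum Finset.univ fun i _ => (h1 i).1
    refine this.congr (Eventually.of_forall fun x => ?_)
    simp only
    rw [hsum]
  have h2 : ∫ x : E, ‖x - w‖ ^ 2 * cd k c y x ≤ σ ^ 2 := by
    have : ∫ x : E, ‖x - w‖ ^ 2 * cd k c y x = ∑ i, ∫ x : E, (inner ℝ (x - w) (B i)) ^ 2 * cd k c y x := by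
      rw [← integral_finsetSum _ fun i _ => (h1 i).1]
      congr 1
      ext x
      exact hsum x
    rw [this]
    calc ∑ i, ∫ x : E, (inner ℝ (x - w) (B i)) ^ 2 * cd k c y x ≤ ∑ _i : Fin (Module.finrank ℝ E), A / k :=
          Finset.sum_le_sum fun i _ => (h1 i).2
      _ = Module.finrank ℝ E * (A / k) := by simp
      _ ≤ σ ^ 2 := hAσ
  have hcd := integrable_cd hk ha h y
  have i3 : Integrable (fun x : E => σ / 2 * cd k c y x + 1 / (2 * σ) * (‖x - w‖ ^ 2 * cd k c y x)) :=
    (hcd.const_mul _).add (i2.const_mul _)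
  have hpt : ∀ x : E, ‖x - w‖ * cd k c y x ≤ σ / 2 * cd k c y x + 1 / (2 * σ) * (‖x - w‖ ^ 2 * cd k c y x) := by
    intro x
    have h3 : ‖x - w‖ ≤ σ / 2 + 1 / (2 * σ) * ‖x - w‖ ^ 2 := by
      have h4 : 0 ≤ (‖x - w‖ - σ) ^ 2 / (2 * σ) := by positivity
      have h5 : (‖x - w‖ - σ) ^ 2 / (2 * σ) = σ / 2 + 1 / (2 * σ) * ‖x - w‖ ^ 2 - ‖x - w‖ := by
        field_simp
        ring
      linarith
    have := mul_le_mul_of_nonneg_right h3 (cd_pos (k := k) (c := c) y x).le
    linarith
  have i4 : Integrable (fun x : E => ‖x - w‖ * cd k c y x) := by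
    refine i3.mono' ((measurable_norm.comp (measurable_id.sub_const w)).mul (measurable_cd h.meas y)).aestronglyMeasurable
      (Eventually.of_forall fun x => ?_)
    rw [Real.norm_eq_abs, abs_of_nonneg (mul_nonneg (norm_nonneg _) (cd_pos y x).le)]
    exact hpt x
  refine ⟨i4, (integral_mono i4 i3 hpt).trans ?_⟩
  rw [integral_add (hcd.const_mul _) (i2.const_mul _), integral_const_mul, integral_const_mul, integral_cd hk ha h]
  have : 1 / (2 * σ) * ∫ x : E, ‖x - w‖ ^ 2 * cd k c y x ≤ 1 / (2 * σ) * σ ^ 2 :=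
    mul_le_mul_of_nonneg_left h2 (by positivity)
  have h3 : 1 / (2 * σ) * σ ^ 2 = σ / 2 := by field_simp
  linarith

/-- **the law at level `k`**: `∫ F (g y) e^{-phi y} dy` against the `x`-marginal -/
theorem law_error (hk : 0 < k) (ha : 0 < a) (hb : 0 < b) (h : Qg a b c) (hA : 0 ≤ A) {g : E → E} (hg : Measurable g)
    (hsc : ∀ y z, phi k c (y + z) ≤ phi k c y + inner ℝ (g y) z + A / 2 * ‖z‖ ^ 2) {σ : ℝ} (hσ : 0 < σ)
    (hAσ : Module.finrank ℝ E * (A / k) ≤ σ ^ 2) {F : E → ℝ} {L M : ℝ}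
    (hF : Continuous F) (hL0 : 0 ≤ L) (hL : ∀ x y, |F x - F y| ≤ L * ‖x - y‖) (hM : ∀ x, |F x| ≤ M) :
    |(∫ y, F (g y) * Real.exp (-phi k c y)) / Z k c - ∫ x, F x * Real.exp (-W k c x)| ≤ L * σ := by
  have hZ := h.Z_pos hk ha hb
  have hphi := h.int3 hk ha hb
  have hM0 : 0 ≤ M := (abs_nonneg _).trans (hM 0)
  -- joint density
  set j : E → E → ℝ := fun x y => Real.exp (k * inner ℝ x y - k * c x - (k + 1) * phi k c y) with hj
  have hjc : ∀ x y, j x y = cd k c y x * Real.exp (-phi k c y) := by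
    intro x y
    rw [hj]
    simp only [cd]
    rw [← Real.exp_add]
    congr 1
    ring
  have hji : Integrable (fun p : E × E => j p.1 p.2) ((volume : Measure E).prod volume) := h.int_joint hk ha hb
  have hFj : Integrable (fun p : E × E => F p.1 * j p.1 p.2) ((volume : Measure E).prod volume) := by
    refine (hji.const_mul M).mono' ((hF.comp continuous_fst).aestronglyMeasurable.mul hji.aestronglyMeasurable)
      (Eventually.of_forall fun p => ?_)
    rw [Real.norm_eq_abs, abs_mul, abs_of_pos (Real.exp_pos _)]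
    exact mul_le_mul_of_nonneg_right (hM _) (Real.exp_pos _).le
  have hswap := integral_integral_swap (f := fun x y => F x * j x y) hFj
  have hx : ∀ x : E, ∫ y : E, F x * j x y = F x * Real.exp (-(k * c x - Q k c x)) := by
    intro x
    rw [integral_const_mul, hj, h.marg_x hk ha hb]
  simp only [hx] at hswap
  have hxm : (∫ x, F x * Real.exp (-W k c x)) = (∫ x, F x * Real.exp (-(k * c x - Q k c x))) / Z k c := by
    rw [← integral_div]
    congr 1
    ext x
    have : Real.exp (-W k c x) = Real.exp (-(k * c x - Q k c x)) / Z k c := by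
      unfold W
      rw [neg_add, Real.exp_add, Real.exp_neg (Real.log _), Real.exp_log hZ, div_eq_mul_inv]
    rw [this]
    ring
  rw [hxm, hswap, ← sub_div, abs_div, abs_of_pos hZ, div_le_iff₀ hZ]
  have hFg : Integrable fun y => F (g y) * Real.exp (-phi k c y) := by
    refine (hphi.const_mul M).mono' ((hF.measurable.comp hg).aestronglyMeasurable.mul hphi.aestronglyMeasurable)
      (Eventually.of_forall fun p => ?_)
    rw [Real.norm_eq_abs, abs_mul, abs_of_pos (Real.exp_pos _)]
    exact mul_le_mul_of_nonneg_right (hM _) (Real.exp_pos _).le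
  have hyi : Integrable fun y => ∫ x, F x * j x y := hFj.integral_prod_right
  rw [← integral_sub hFg hyi, ← Real.norm_eq_abs]
  have hpt : ∀ y : E, ‖F (g y) * Real.exp (-phi k c y) - ∫ x, F x * j x y‖ ≤ L * σ * Real.exp (-phi k c y) := by
    intro y
    have hcd := integrable_cd hk ha h y
    have hcd1 := integral_cd hk ha h y
    have h1 : ∫ x, F x * j x y = (∫ x, F x * cd k c y x) * Real.exp (-phi k c y) := by
      rw [← integral_mul_const]
      congr 1
      ext x
      rw [hjc]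
      ring
    have hFi : Integrable fun x => F x * cd k c y x := by
      refine (hcd.const_mul M).mono' (hF.aestronglyMeasurable.mul hcd.aestronglyMeasurable)
        (Eventually.of_forall fun p => ?_)
      rw [Real.norm_eq_abs, abs_mul, abs_of_pos (cd_pos _ _)]
      exact mul_le_mul_of_nonneg_right (hM _) (cd_pos _ _).le
    have h2 : F (g y) * Real.exp (-phi k c y) - ∫ x, F x * j x y
        = (∫ x, (F (g y) - F x) * cd k c y x) * Real.exp (-phi k c y) := by
      have h3 : (fun x => (F (g y) - F x) * cd k c y x) = fun x => F (g y) * cd k c y x - F x * cd k c y x := by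
        ext x
        ring
      rw [h1, h3, integral_sub (hcd.const_mul _) hFi, integral_const_mul, hcd1]
      ring
    rw [h2, norm_mul, Real.norm_eq_abs (Real.exp _), abs_of_pos (Real.exp_pos _)]
    refine mul_le_mul_of_nonneg_right ?_ (Real.exp_pos _).le
    obtain ⟨f1, f2⟩ := first_moment hk ha h hA (hsc y) hσ hAσ
    have h4 := norm_integral_le_of_norm_le (f1.const_mul L) (f := fun x => (F (g y) - F x) * cd k c y x)
      (Eventually.of_forall fun x => by
        rw [norm_mul, Real.norm_eq_abs, Real.norm_eq_abs, abs_of_pos (cd_pos _ _), ← mul_assoc]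
        refine mul_le_mul_of_nonneg_right ?_ (cd_pos _ _).le
        rw [abs_sub_comm]
        exact hL x (g y))
    refine h4.trans ?_
    rw [integral_const_mul]
    exact mul_le_mul_of_nonneg_left f2 hL0
  have h7 := norm_integral_le_of_norm_le (hphi.const_mul (L * σ)) (Eventually.of_forall hpt)
  refine h7.trans (le_of_eq ?_)
  rw [integral_const_mul]
  rfl

theorem Qg.integrable_exp_neg_W' (hk : 0 < k) (ha : 0 < a) (hb : 0 < b) (h : Qg a b c) :
    Integrable fun x : E => Real.exp (-W k c x) := by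
  by_contra hcon
  have := h.integral_W hk ha hb
  rw [integral_undef hcon] at this
  norm_num at this

/-- **push-forward error at level `k`** -/
theorem push_error (hk : 0 < k) (ha : 0 < a) (hb : 0 < b) (hV : Pot V) (h : Qg a b c) (hT : Qg a b (T k V c))
    (hA : 0 ≤ A) {g : E → E} (hg : Measurable g)
    (hsc : ∀ y z, phi k c (y + z) ≤ phi k c y + inner ℝ (g y) z + A / 2 * ‖z‖ ^ 2) {σ η : ℝ} (hσ : 0 < σ)
    (hAσ : Module.finrank ℝ E * (A / k) ≤ σ ^ 2) (hη : 0 < η) (hKL : KL k V c ≤ η ^ 2) {F : E → ℝ} {L M : ℝ}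
    (hF : Continuous F) (hL0 : 0 ≤ L) (hL : ∀ x y, |F x - F y| ≤ L * ‖x - y‖) (hM : ∀ x, |F x| ≤ M) :
    |(∫ y, F (g y) * Real.exp (-phi k c y)) / Z k c - ∫ x, F x * Real.exp (-V x)| ≤ L * σ + 2 * M * η := by
  have h1 := law_error hk ha hb h hA hg hsc hσ hAσ hF hL0 hL hM
  have hM0 : 0 ≤ M := (abs_nonneg _).trans (hM 0)
  -- integrability of `(W - V) e^{-V}`
  have hci := h.integrable ha hb hV
  have hTi := hT.integrable ha hb hV
  have hQi : Integrable fun x : E => Q k c x * Real.exp (-V x) := by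
    have h2 := ((hTi.const_mul k).add (hV.int0.const_mul (V 0 + Q k c 0))).sub hV.intV
    refine h2.congr (Eventually.of_forall fun x => ?_)
    simp only [Pi.sub_apply, Pi.add_apply]
    unfold T
    field_simp
    ring
  have hKi : Integrable fun x : E => (W k c x - V x) * Real.exp (-V x) := by
    have h2 := (((hci.const_mul k).sub hQi).add (hV.int0.const_mul (Real.log (Z k c)))).sub hV.intV
    refine h2.congr (Eventually.of_forall fun x => ?_)
    simp only [Pi.sub_apply, Pi.add_apply]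
    unfold W
    ring
  have h2 := abs_sub_le_of_KL hη hV.int0 (h.integrable_exp_neg_W' hk ha hb) hV.one (h.integral_W hk ha hb) hKi hKL
    hF.aestronglyMeasurable hM0 hM
  calc |(∫ y, F (g y) * Real.exp (-phi k c y)) / Z k c - ∫ x, F x * Real.exp (-V x)|
      = |((∫ y, F (g y) * Real.exp (-phi k c y)) / Z k c - ∫ x, F x * Real.exp (-W k c x))
        + ((∫ x, F x * Real.exp (-W k c x)) - ∫ x, F x * Real.exp (-V x))| := by ring_nf
    _ ≤ _ := abs_add_le _ _
    _ ≤ L * σ + 2 * M * η := add_le_add h1 h2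

end Vale.Agent.P227.M.LK.Dsc
end

section

/-! # P254/MC: the level-`k` descent modulo affine functions (copy of `P227/M/LK/DescK`, helper724) -/

open MeasureTheory Set Filter Topology

namespace Vale.Agent.P254.MC.DscC

open Vale.Agent.P227.M.LK.Dsc Vale.Agent.P227.M.LK

set_option linter.unusedSectionVars false

variable {E : Type*} [NormedAddCommGroup E] [InnerProductSpace ℝ E] [FiniteDimensional ℝ E]
  [MeasurableSpace E] [BorelSpace E]

variable {V : E → ℝ} {k a b : ℝ} {c f : E → ℝ}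

/-- `f` is in the class `Qg` up to a linear function -/
def Tl (a b : ℝ) (f : E → ℝ) : Prop := ∃ (g : E) (f' : E → ℝ), Qg a b f' ∧ ∀ x, f x = f' x + inner ℝ x g

theorem inner_meas (g : E) : Measurable fun x : E => (inner ℝ x g : ℝ) :=
  (continuous_id.inner continuous_const).measurable

theorem phi_tilt (k : ℝ) (c : E → ℝ) (g y : E) : phi k (fun x => c x + inner ℝ x g) y = phi k c (y - g) := by
  rw [phi_eq, phi_eq]
  congr 2
  refine integral_congr_ae (Eventually.of_forall fun x => ?_)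
  simp only [inner_sub_right]
  congr 1
  ring

theorem Z_tilt (k : ℝ) (c : E → ℝ) (g : E) : Z k (fun x => c x + inner ℝ x g) = Z k c := by
  unfold Z
  simp only [phi_tilt]
  exact integral_sub_right_eq_self (fun y : E => Real.exp (-phi k c y)) g

theorem Tl.of_qg (h : Qg a b f) : Tl a b f := ⟨0, f, h, fun x => by simp⟩

theorem Tl.eq (h : Tl a b f) : ∃ (g : E) (f' : E → ℝ), Qg a b f' ∧ f = fun x => f' x + inner ℝ x g := by
  obtain ⟨g, f', h1, h2⟩ := h
  exact ⟨g, f', h1, funext h2⟩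

theorem Tl.meas (h : Tl a b f) : Measurable f := by
  obtain ⟨g, f', h1, rfl⟩ := h.eq
  exact h1.meas.add (inner_meas g)

theorem Tl.int1 (hk : 0 < k) (ha : 0 < a) (h : Tl a b f) (y : E) :
    Integrable fun x : E => Real.exp (k * inner ℝ x y - k * f x) := by
  obtain ⟨g, f', h1, rfl⟩ := h.eq
  refine (h1.int1 hk ha (y - g)).congr (Eventually.of_forall fun x => ?_)
  simp only [inner_sub_right]
  congr 1
  ring

theorem Tl.int3 (hk : 0 < k) (ha : 0 < a) (hb : 0 < b) (h : Tl a b f) : Integrable fun y : E => Real.exp (-phi k f y) := by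
  obtain ⟨g, f', h1, rfl⟩ := h.eq
  simp only [phi_tilt]
  exact (h1.int3 hk ha hb).comp_sub_right g

theorem Tl.Z_pos (hk : 0 < k) (ha : 0 < a) (hb : 0 < b) (h : Tl a b f) : 0 < Z k f := integral_exp_pos (h.int3 hk ha hb)

theorem Tl.integrable (ha : 0 < a) (hb : 0 < b) (h : Tl a b f) (hV : Pot V) : Integrable fun x : E => f x * Real.exp (-V x) := by
  obtain ⟨g, f', h1, rfl⟩ := h.eq
  have h2 := h1.integrable ha hb hV
  have h3 : Integrable fun x : E => (inner ℝ x g : ℝ) * Real.exp (-V x) := by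
    have h4 : Integrable fun x : E => ‖g‖ * Real.exp (-V x) + ‖g‖ * (‖x‖ ^ 2 * Real.exp (-V x)) :=
      (hV.int0.const_mul _).add (hV.int2.const_mul _)
    refine h4.mono' ((inner_meas g).mul (Real.measurable_exp.comp hV.meas.neg)).aestronglyMeasurable
      (Eventually.of_forall fun x => ?_)
    rw [Real.norm_eq_abs, abs_mul, abs_of_pos (Real.exp_pos _)]
    have h5 := abs_real_inner_le_norm x g
    have h6 : ‖x‖ ≤ 1 + ‖x‖ ^ 2 := by nlinarith [sq_nonneg (‖x‖ - 1), norm_nonneg x]
    have h7 : |(inner ℝ x g : ℝ)| ≤ ‖g‖ * (1 + ‖x‖ ^ 2) := by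
      refine h5.trans ?_
      rw [mul_comm]
      exact mul_le_mul_of_nonneg_left h6 (norm_nonneg _)
    calc |(inner ℝ x g : ℝ)| * Real.exp (-V x) ≤ ‖g‖ * (1 + ‖x‖ ^ 2) * Real.exp (-V x) :=
          mul_le_mul_of_nonneg_right h7 (Real.exp_pos _).le
      _ = _ := by ring
  refine (h2.add h3).congr (Eventually.of_forall fun x => ?_)
  simp only [Pi.add_apply]
  ring

/-- integrability of linear functions -/
theorem int_inner (hV : Pot V) (g : E) : Integrable fun x : E => (inner ℝ x g : ℝ) * Real.exp (-V x) := by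
  have h4 : Integrable fun x : E => ‖g‖ * Real.exp (-V x) + ‖g‖ * (‖x‖ ^ 2 * Real.exp (-V x)) :=
    (hV.int0.const_mul _).add (hV.int2.const_mul _)
  refine h4.mono' ((inner_meas g).mul (Real.measurable_exp.comp hV.meas.neg)).aestronglyMeasurable
    (Eventually.of_forall fun x => ?_)
  rw [Real.norm_eq_abs, abs_mul, abs_of_pos (Real.exp_pos _)]
  have h5 := abs_real_inner_le_norm x g
  have h6 : ‖x‖ ≤ 1 + ‖x‖ ^ 2 := by nlinarith [sq_nonneg (‖x‖ - 1), norm_nonneg x]
  have h7 : |(inner ℝ x g : ℝ)| ≤ ‖g‖ * (1 + ‖x‖ ^ 2) := by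
    refine h5.trans ?_
    rw [mul_comm]
    exact mul_le_mul_of_nonneg_left h6 (norm_nonneg _)
  calc |(inner ℝ x g : ℝ)| * Real.exp (-V x) ≤ ‖g‖ * (1 + ‖x‖ ^ 2) * Real.exp (-V x) :=
        mul_le_mul_of_nonneg_right h7 (Real.exp_pos _).le
    _ = _ := by ring

theorem J_tilt (hV : Pot V) (hc : ∀ g : E, ∫ x, (inner ℝ x g : ℝ) * Real.exp (-V x) = 0)
    (hci : Integrable fun x : E => c x * Real.exp (-V x)) (g : E) :
    J k V (fun x => c x + inner ℝ x g) = J k V c := by
  unfold J
  rw [Z_tilt]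
  have h1 : (fun x : E => (c x + inner ℝ x g) * Real.exp (-V x))
      = fun x => c x * Real.exp (-V x) + inner ℝ x g * Real.exp (-V x) := by
    ext x
    ring
  rw [h1, integral_add hci (int_inner hV g), hc g, add_zero]

/-- the key descent inequality for the mass -/
theorem mass_le (hk : 0 < k) (ha : 0 < a) (hb : 0 < b) (h : Qg a b c) (hT : Tl a b (T0 k V c))
    (hVi : Integrable fun x : E => Real.exp (-V x)) (hV1 : ∫ x : E, Real.exp (-V x) = 1) :
    (1 + 1 / k) * Real.log (Z k c) ≤ Real.log (Z k (T0 k V c)) := by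
  have hZ := h.Z_pos hk ha hb
  have hZ' := hT.Z_pos hk ha hb
  -- the function `t`
  have hkT : ∀ x, k * T0 k V c x = V x + Q k c x := fun x => by
    unfold T0
    field_simp
  have hFm : Measurable fun p : E × E => Real.exp (k * inner ℝ p.1 p.2 - k * T0 k V c p.1 - (k + 1) * phi k c p.2) := by
    have : Measurable fun p : E × E => (inner ℝ p.1 p.2 : ℝ) := (continuous_fst.inner continuous_snd).measurable
    exact Real.measurable_exp.comp (((this.const_mul k).sub ((hT.meas.comp measurable_fst).const_mul k)).sub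
      (((measurable_phi h.meas).comp measurable_snd).const_mul (k + 1)))
  have hinner : ∀ x : E, ∫ y : E, Real.exp (k * inner ℝ x y - k * T0 k V c x - (k + 1) * phi k c y) = Real.exp (-V x) := by
    intro x
    have h1 : (fun y : E => Real.exp (k * inner ℝ x y - k * T0 k V c x - (k + 1) * phi k c y))
        = fun y : E => Real.exp (k * inner ℝ x y - (k + 1) * phi k c y) * Real.exp (-(k * T0 k V c x)) := by
      ext y
      rw [← Real.exp_add]
      congr 1
      ring
    rw [h1, integral_mul_const, ← exp_Q (h.int2 hk ha hb x), ← Real.exp_add, hkT]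
    congr 1
    ring
  have hFi : Integrable (fun p : E × E => Real.exp (k * inner ℝ p.1 p.2 - k * T0 k V c p.1 - (k + 1) * phi k c p.2))
      ((volume : Measure E).prod volume) := by
    rw [integrable_prod_iff hFm.aestronglyMeasurable]
    refine ⟨Eventually.of_forall fun x => ?_, ?_⟩
    · have := (h.int2 hk ha hb x).mul_const (Real.exp (-(k * T0 k V c x)))
      refine this.congr (Eventually.of_forall fun y => ?_)
      simp only
      rw [← Real.exp_add]
      congr 1
      ring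
    · refine hVi.congr (Eventually.of_forall fun x => ?_)
      simp only [Real.norm_eq_abs, abs_of_pos (Real.exp_pos _)]
      exact (hinner x).symm
  have hswap := integral_integral_swap
    (f := fun (x y : E) => Real.exp (k * inner ℝ x y - k * T0 k V c x - (k + 1) * phi k c y)) hFi
  simp only [hinner] at hswap
  rw [hV1] at hswap
  have hy : ∀ y : E, ∫ x : E, Real.exp (k * inner ℝ x y - k * T0 k V c x - (k + 1) * phi k c y)
      = Real.exp (-phi k c y) * Real.exp (k * (phi k (T0 k V c) y - phi k c y)) := by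
    intro y
    have h1 : (fun x : E => Real.exp (k * inner ℝ x y - k * T0 k V c x - (k + 1) * phi k c y))
        = fun x : E => Real.exp (k * inner ℝ x y - k * T0 k V c x) * Real.exp (-((k + 1) * phi k c y)) := by
      ext x
      rw [← Real.exp_add]
      congr 1
    rw [h1, integral_mul_const, ← exp_phi hk (hT.int1 hk ha y), ← Real.exp_add, ← Real.exp_add]
    congr 1
    ring
  have hti : Integrable fun y : E => Real.exp (-phi k c y) * Real.exp (k * (phi k (T0 k V c) y - phi k c y)) := by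
    refine hFi.integral_prod_right.congr (Eventually.of_forall fun y => ?_)
    exact hy y
  have ht1 : ∫ y : E, Real.exp (-phi k c y) * Real.exp (k * (phi k (T0 k V c) y - phi k c y)) = 1 := by
    rw [hswap]
    congr 1
    ext y
    exact (hy y).symm
  -- pointwise inequality
  have hpt : ∀ y : E, Real.exp ((1 / k) * Real.log (Z k c)) * ((1 + 1 / k) * Real.exp (-phi k c y)
      - (Z k c / k) * (Real.exp (-phi k c y) * Real.exp (k * (phi k (T0 k V c) y - phi k c y))))
      ≤ Real.exp (-phi k (T0 k V c) y) := by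
    intro y
    set t := Real.exp (k * (phi k (T0 k V c) y - phi k c y)) with ht
    have htp : 0 < t := Real.exp_pos _
    have h1 : Real.exp (-phi k (T0 k V c) y) = Real.exp ((1 / k) * Real.log (Z k c)) * (Real.exp (-phi k c y)
        * Real.exp (-(1 / k) * Real.log (t * Z k c))) := by
      rw [Real.log_mul htp.ne' hZ.ne', ht, Real.log_exp, ← Real.exp_add, ← Real.exp_add]
      congr 1
      field_simp
      ring
    rw [h1]
    refine mul_le_mul_of_nonneg_left ?_ (Real.exp_pos _).le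
    have h2 : 1 - (1 / k) * (t * Z k c - 1) ≤ Real.exp (-(1 / k) * Real.log (t * Z k c)) := by
      have h3 := Real.add_one_le_exp (-(1 / k) * Real.log (t * Z k c))
      have h4 := Real.log_le_sub_one_of_pos (mul_pos htp hZ)
      have h5 := mul_le_mul_of_nonneg_left h4 (by positivity : 0 ≤ 1 / k)
      linarith
    calc (1 + 1 / k) * Real.exp (-phi k c y) - Z k c / k * (Real.exp (-phi k c y) * t)
        = Real.exp (-phi k c y) * (1 - (1 / k) * (t * Z k c - 1)) := by ring
      _ ≤ _ := mul_le_mul_of_nonneg_left h2 (Real.exp_pos _).le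
  have hint := integral_mono ((((h.int3 hk ha hb).const_mul (1 + 1 / k)).sub (hti.const_mul (Z k c / k))).const_mul
    (Real.exp ((1 / k) * Real.log (Z k c)))) (hT.int3 hk ha hb) hpt
  have hlhs : ∫ y : E, Real.exp ((1 / k) * Real.log (Z k c)) * ((1 + 1 / k) * Real.exp (-phi k c y)
      - (Z k c / k) * (Real.exp (-phi k c y) * Real.exp (k * (phi k (T0 k V c) y - phi k c y))))
      = Real.exp ((1 / k) * Real.log (Z k c)) * Z k c := by
    rw [integral_const_mul, integral_sub ((h.int3 hk ha hb).const_mul _) (hti.const_mul _), integral_const_mul,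
      integral_const_mul, ht1]
    unfold Z
    ring
  have hfin : Real.exp ((1 / k) * Real.log (Z k c)) * Z k c ≤ Z k (T0 k V c) := by
    rw [← hlhs]
    exact hint
  have := Real.log_le_log (by positivity) hfin
  rw [Real.log_mul (Real.exp_pos _).ne' hZ.ne', Real.log_exp] at this
  linarith

/-- **descent** -/
theorem descent (hk : 0 < k) (ha : 0 < a) (hb : 0 < b) (hV : Pot V) (h : Qg a b c) (hT : Tl a b (T0 k V c)) :
    J k V (T0 k V c) ≤ J k V c - KL k V c / k := by
  have hVi := hV.int0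
  have hV1 := hV.one
  have hVV := hV.intV
  have hkT : ∀ x, k * T0 k V c x = V x + Q k c x := fun x => by
    unfold T0
    field_simp
  have hci := h.integrable ha hb hV
  have hTi := hT.integrable ha hb hV
  have hQi : Integrable fun x : E => Q k c x * Real.exp (-V x) := by
    refine ((hTi.const_mul k).sub hVV).congr (Eventually.of_forall fun x => ?_)
    simp only [Pi.sub_apply]
    rw [← mul_assoc, hkT]
    ring
  have e1 : ∫ x : E, T0 k V c x * Real.exp (-V x)
      = (1 / k) * ((∫ x : E, V x * Real.exp (-V x)) + ∫ x : E, Q k c x * Real.exp (-V x)) := by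
    rw [← integral_add hVV hQi, ← integral_const_mul]
    congr 1
    ext x
    unfold T0
    field_simp
  have e2 : KL k V c = k * (∫ x : E, c x * Real.exp (-V x)) - (∫ x : E, Q k c x * Real.exp (-V x))
      + Real.log (Z k c) - ∫ x : E, V x * Real.exp (-V x) := by
    unfold KL
    have h1 : (fun x : E => (W k c x - V x) * Real.exp (-V x)) = fun x => ((k * (c x * Real.exp (-V x))
        - Q k c x * Real.exp (-V x)) + Real.log (Z k c) * Real.exp (-V x)) - V x * Real.exp (-V x) := by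
      ext x
      unfold W
      ring
    have i1 : Integrable fun x : E => k * (c x * Real.exp (-V x)) := hci.const_mul k
    have i2 : Integrable fun x : E => k * (c x * Real.exp (-V x)) - Q k c x * Real.exp (-V x) := i1.sub hQi
    have i3 : Integrable fun x : E => Real.log (Z k c) * Real.exp (-V x) := hVi.const_mul _
    have i4 : Integrable fun x : E => k * (c x * Real.exp (-V x)) - Q k c x * Real.exp (-V x)
      + Real.log (Z k c) * Real.exp (-V x) := i2.add i3
    rw [h1, integral_sub i4 hVV, integral_add i2 i3, integral_sub i1 hQi,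
      integral_const_mul, integral_const_mul, hV1, mul_one]
  have h3 := mass_le hk ha hb h hT hVi hV1
  unfold J
  rw [e1, e2]
  have e3 : (k * (∫ x : E, c x * Real.exp (-V x)) - (∫ x : E, Q k c x * Real.exp (-V x))
      + Real.log (Z k c) - ∫ x : E, V x * Real.exp (-V x)) / k = (∫ x : E, c x * Real.exp (-V x))
      - (1 / k) * (∫ x : E, Q k c x * Real.exp (-V x)) + (1 / k) * Real.log (Z k c)
      - (1 / k) * ∫ x : E, V x * Real.exp (-V x) := by
    field_simp
  rw [e3]
  nlinarith [h3]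

/-- descent for a map which differs from `T0` by an affine function -/
theorem descentN (hk : 0 < k) (ha : 0 < a) (hb : 0 < b) (hV : Pot V)
    (hc : ∀ g : E, ∫ x, (inner ℝ x g : ℝ) * Real.exp (-V x) = 0) (h : Qg a b c) {f : E → ℝ} (hf : Qg a b f)
    {g : E} {s : ℝ} (hT : ∀ x, T0 k V c x = f x + s + inner ℝ x g) :
    J k V f ≤ J k V c - KL k V c / k := by
  have h1 : T0 k V c = fun x => (f x + s) + inner ℝ x g := funext hT
  have h2 : Tl a b (T0 k V c) := ⟨g, fun x => f x + s, hf.add_const s, hT⟩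
  have h3 := descent hk ha hb hV h h2
  have h4 : J k V (T0 k V c) = J k V f := by
    rw [h1, J_tilt hV hc ((hf.add_const s).integrable ha hb hV)]
    exact J_add_const hk _ hf ha hb hV.int0 hV.one (hf.integrable ha hb hV)
  rwa [h4] at h3

/-- **small relative entropy along the iteration**, for any invariant class `P` -/
theorem exists_KL_le (hk : 0 < k) (ha : 0 < a) (hb : 0 < b) (hV : Pot V)
    (hc : ∀ g : E, ∫ x, (inner ℝ x g : ℝ) * Real.exp (-V x) = 0)
    (S : (E → ℝ) → (E → ℝ)) (P : (E → ℝ) → Prop) (c₀ : E → ℝ) (h0 : P c₀)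
    (hPT : ∀ c, P c → P (S c)) (hPG : ∀ c, P c → Qg a b c)
    (hS : ∀ c, P c → ∃ (g : E) (s : ℝ), ∀ x, T0 k V c x = S c x + s + inner ℝ x g) {ε : ℝ} (hε : 0 < ε) :
    ∃ c, P c ∧ KL k V c ≤ ε := by
  by_contra hcon
  simp only [not_exists, not_and, not_le] at hcon
  have hPi : ∀ i : ℕ, P (S^[i] c₀) := by
    intro i
    induction i with
    | zero => exact h0
    | succ i ih =>
      rw [Function.iterate_succ_apply']
      exact hPT _ ih
  have hJi : ∀ i : ℕ, J k V (S^[i] c₀) ≤ J k V c₀ - i * (ε / k) := by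
    intro i
    induction i with
    | zero => simp
    | succ i ih =>
      rw [Function.iterate_succ_apply']
      obtain ⟨g, s, hgs⟩ := hS _ (hPi i)
      have h1 := descentN hk ha hb hV hc (hPG _ (hPi i)) (hPG _ (hPT _ (hPi i))) hgs
      have h2 := (hcon _ (hPi i)).le
      have h3 : ε / k ≤ KL k V (S^[i] c₀) / k := by gcongr
      push_cast
      linarith
  set m := gc E k b - Real.log (∫ y : E, Real.exp (-(1 * (1 / b / 2 * ‖y‖ ^ 2)))) with hm
  obtain ⟨i, hi⟩ := exists_nat_gt ((J k V c₀ - m) / (ε / k))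
  have h1 := (hPG _ (hPi i)).J_ge hk ha hb hV.int0 hV.one ((hPG _ (hPi i)).integrable ha hb hV)
  rw [← hm] at h1
  have h2 := hJi i
  rw [div_lt_iff₀ (by positivity)] at hi
  linarith

/-- **push-forward error at level `k`** -/
theorem push_error {A : ℝ} (hk : 0 < k) (ha : 0 < a) (hb : 0 < b) (hV : Pot V) (h : Qg a b c) (hT : Tl a b (T0 k V c))
    (hA : 0 ≤ A) {g : E → E} (hg : Measurable g)
    (hsc : ∀ y z, phi k c (y + z) ≤ phi k c y + inner ℝ (g y) z + A / 2 * ‖z‖ ^ 2) {σ η : ℝ} (hσ : 0 < σ)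
    (hAσ : Module.finrank ℝ E * (A / k) ≤ σ ^ 2) (hη : 0 < η) (hKL : KL k V c ≤ η ^ 2) {F : E → ℝ} {L M : ℝ}
    (hF : Continuous F) (hL0 : 0 ≤ L) (hL : ∀ x y, |F x - F y| ≤ L * ‖x - y‖) (hM : ∀ x, |F x| ≤ M) :
    |(∫ y, F (g y) * Real.exp (-phi k c y)) / Z k c - ∫ x, F x * Real.exp (-V x)| ≤ L * σ + 2 * M * η := by
  have h1 := law_error hk ha hb h hA hg hsc hσ hAσ hF hL0 hL hM
  have hM0 : 0 ≤ M := (abs_nonneg _).trans (hM 0)
  -- integrability of `(W - V) e^{-V}`
  have hci := h.integrable ha hb hV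
  have hTi := hT.integrable ha hb hV
  have hkT : ∀ x, k * T0 k V c x = V x + Q k c x := fun x => by
    unfold T0
    field_simp
  have hQi : Integrable fun x : E => Q k c x * Real.exp (-V x) := by
    refine ((hTi.const_mul k).sub hV.intV).congr (Eventually.of_forall fun x => ?_)
    simp only [Pi.sub_apply]
    rw [← mul_assoc, hkT]
    ring
  have hKi : Integrable fun x : E => (W k c x - V x) * Real.exp (-V x) := by
    have h2 := (((hci.const_mul k).sub hQi).add (hV.int0.const_mul (Real.log (Z k c)))).sub hV.intV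
    refine h2.congr (Eventually.of_forall fun x => ?_)
    simp only [Pi.sub_apply, Pi.add_apply]
    unfold W
    ring
  have h2 := abs_sub_le_of_KL hη hV.int0 (h.integrable_exp_neg_W' hk ha hb) hV.one (h.integral_W hk ha hb) hKi hKL
    hF.aestronglyMeasurable hM0 hM
  calc |(∫ y, F (g y) * Real.exp (-phi k c y)) / Z k c - ∫ x, F x * Real.exp (-V x)|
      = |((∫ y, F (g y) * Real.exp (-phi k c y)) / Z k c - ∫ x, F x * Real.exp (-W k c x))
        + ((∫ x, F x * Real.exp (-W k c x)) - ∫ x, F x * Real.exp (-V x))| := by ring_nf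
    _ ≤ _ := abs_add_le _ _
    _ ≤ L * σ + 2 * M * η := add_le_add h1 h2

end Vale.Agent.P254.MC.DscC
end

section

/-! P227, block LL: Hessian, lines, Taylor bounds. -/

set_option autoImplicit false

open MeasureTheory Filter Topology

namespace Vale.Agent.P227.M.LL

variable {n : ℕ}

theorem sum_ei (z : E n) : ∑ i, z i • ei i = z := by
  have h := (EuclideanSpace.basisFun (Fin n) ℝ).sum_repr z
  simpa [ei, EuclideanSpace.basisFun_apply, EuclideanSpace.basisFun_repr] using h

theorem pd_pd {f : E n → ℝ} (hf : ContDiff ℝ 2 f) (i j : Fin n) (p : E n) :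
    pd i (pd j f) p = fderiv ℝ (fderiv ℝ f) p (ei i) (ei j) := by
  have h1 : Differentiable ℝ (fderiv ℝ f) :=
    (hf.fderiv_right (m := 1) (by norm_num)).differentiable (by norm_num)
  have h2 : HasFDerivAt (pd j f)
      ((ContinuousLinearMap.apply ℝ ℝ (ei j : E n)).comp (fderiv ℝ (fderiv ℝ f) p)) p := by
    exact (ContinuousLinearMap.apply ℝ ℝ (ei j : E n)).hasFDerivAt.comp p (h1 p).hasFDerivAt
  change fderiv ℝ (pd j f) p (ei i) = _
  rw [h2.fderiv]
  rfl

theorem qf_hess {f : E n → ℝ} (hf : ContDiff ℝ 2 f) (p v : E n) :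
    qf (hess f p) v = fderiv ℝ (fderiv ℝ f) p v v := by
  set D := fderiv ℝ (fderiv ℝ f) p with hD
  have h0 : ∀ u : E n, D v u = ∑ i, v i * D (ei i) u := by
    intro u
    conv_lhs => rw [← sum_ei v, map_sum]
    rw [ContinuousLinearMap.sum_apply]
    exact Finset.sum_congr rfl fun i _ => by rw [map_smul]; rfl
  have h1 : ∀ i, D (ei i) v = ∑ j, v j * D (ei i) (ei j) := by
    intro i
    conv_lhs => rw [← sum_ei v, map_sum]
    exact Finset.sum_congr rfl fun j _ => by rw [map_smul]; rfl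
  rw [h0]
  unfold qf hess
  refine Finset.sum_congr rfl fun i _ => ?_
  rw [h1, Finset.mul_sum]
  refine Finset.sum_congr rfl fun j _ => ?_
  rw [pd_pd hf]
  ring

theorem line_one {f : E n → ℝ} (hf : ContDiff ℝ 2 f) (x v : E n) (t : ℝ) :
    HasDerivAt (fun t : ℝ => f (x + t • v)) (fderiv ℝ f (x + t • v) v) t := by
  have h1 : HasDerivAt (fun t : ℝ => x + t • v) v t := by
    simpa using ((hasDerivAt_id t).smul_const v).const_add x
  have h2 : Differentiable ℝ f := hf.differentiable (by norm_num)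
  exact (h2 (x + t • v)).hasFDerivAt.comp_hasDerivAt t h1

theorem line_two {f : E n → ℝ} (hf : ContDiff ℝ 2 f) (x v : E n) (t : ℝ) :
    HasDerivAt (fun t : ℝ => fderiv ℝ f (x + t • v) v) (qf (hess f (x + t • v)) v) t := by
  have h1 : HasDerivAt (fun t : ℝ => x + t • v) v t := by
    simpa using ((hasDerivAt_id t).smul_const v).const_add x
  have h2 : Differentiable ℝ (fderiv ℝ f) :=
    (hf.fderiv_right (m := 1) (by norm_num)).differentiable (by norm_num)
  have h3 := (h2 (x + t • v)).hasFDerivAt.comp_hasDerivAt t h1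
  have h4 := (ContinuousLinearMap.apply ℝ ℝ v).hasFDerivAt.comp_hasDerivAt t h3
  rw [qf_hess hf]
  exact h4

/-- one-dimensional Taylor lower bound -/
theorem taylor_real {f f1 f2 : ℝ → ℝ} (h1 : ∀ t, HasDerivAt f (f1 t) t)
    (h2 : ∀ t, HasDerivAt f1 (f2 t) t) {a : ℝ} (ha : ∀ t, a ≤ f2 t) :
    f 0 + f1 0 + a / 2 ≤ f 1 := by
  have hm : Monotone fun t => f1 t - a * t := by
    have hd : ∀ t, HasDerivAt (fun t => f1 t - a * t) (f2 t - a) t := by
      intro t
      have h3 := (h2 t).sub ((hasDerivAt_id t).const_mul a)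
      rw [mul_one] at h3
      exact h3
    refine monotone_of_deriv_nonneg (fun t => (hd t).differentiableAt) fun t => ?_
    rw [(hd t).deriv]
    linarith [ha t]
  have hd2 : ∀ t, HasDerivAt (fun t => f t - f1 0 * t - a / 2 * t ^ 2) (f1 t - f1 0 - a * t) t := by
    intro t
    have h3 := ((h1 t).sub ((hasDerivAt_id t).const_mul (f1 0))).sub
      ((hasDerivAt_pow 2 t).const_mul (a / 2))
    refine HasDerivAt.congr_deriv h3 ?_
    simp
    ring
  have hm2 : MonotoneOn (fun t => f t - f1 0 * t - a / 2 * t ^ 2) (Set.Ici (0 : ℝ)) := by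
    refine monotoneOn_of_deriv_nonneg (convex_Ici 0)
      (fun t _ => (hd2 t).continuousAt.continuousWithinAt)
      (fun t _ => (hd2 t).differentiableAt.differentiableWithinAt) fun t ht => ?_
    rw [(hd2 t).deriv]
    rw [interior_Ici] at ht
    have := hm (le_of_lt ht)
    simp only [mul_zero, sub_zero] at this
    linarith
  have := hm2 (Set.mem_Ici.2 le_rfl) (Set.mem_Ici.2 zero_le_one) zero_le_one
  simp only [mul_zero, sub_zero, mul_one, one_pow] at this
  norm_num at this
  linarith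

theorem reg_two {W : E n → ℝ} {c C : ℝ} (h : Reg W c C) : ContDiff ℝ 2 W := by
  exact_mod_cast (contDiff_infty.1 h.smooth 2)

theorem taylor_lower {W : E n → ℝ} {c C : ℝ} (h : Reg W c C) (x z : E n) :
    W x + fderiv ℝ W x z + c / 2 * ‖z‖ ^ 2 ≤ W (x + z) := by
  have hs : ContDiff ℝ 2 W := reg_two h
  have := taylor_real (f := fun t : ℝ => W (x + t • z)) (line_one hs x z) (line_two hs x z)
    (a := c * ‖z‖ ^ 2) fun t => h.lower _ _
  simp only [zero_smul, add_zero, one_smul] at this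
  linarith

theorem taylor_upper {W : E n → ℝ} {c C : ℝ} (h : Reg W c C) (x z : E n) :
    W (x + z) ≤ W x + fderiv ℝ W x z + C / 2 * ‖z‖ ^ 2 := by
  have hs : ContDiff ℝ 2 W := reg_two h
  have := taylor_real (f := fun t : ℝ => -W (x + t • z)) (fun t => (line_one hs x z t).neg)
    (fun t => (line_two hs x z t).neg) (a := -(C * ‖z‖ ^ 2)) fun t => neg_le_neg (h.upper _ _)
  simp only [zero_smul, add_zero, one_smul] at this
  linarith

/-- supporting hyperplanes give convexity -/
theorem convex_of_support {F : Type*} [AddCommGroup F] [Module ℝ F] {u : F → ℝ}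
    (l : F → F →ₗ[ℝ] ℝ) (h : ∀ x y, u x + l x (y - x) ≤ u y) : ConvexOn ℝ Set.univ u := by
  refine ⟨convex_univ, fun x _ y _ s t hs ht hst => ?_⟩
  set p := s • x + t • y with hp
  have h1 := mul_le_mul_of_nonneg_left (h p x) hs
  have h2 := mul_le_mul_of_nonneg_left (h p y) ht
  have h3 : s * l p (x - p) + t * l p (y - p) = 0 := by
    have : s • (x - p) + t • (y - p) = 0 := by
      rw [smul_sub, smul_sub, sub_add_sub_comm, ← add_smul, hst, one_smul, ← hp, sub_self]
    rw [← smul_eq_mul, ← smul_eq_mul, ← map_smul, ← map_smul, ← map_add, this, map_zero]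
  have h4 : u p = s * u p + t * u p := by rw [← add_mul, hst, one_mul]
  simp only [smul_eq_mul]
  rw [h4]
  nlinarith [h1, h2, h3]

theorem convex_lower {W : E n → ℝ} {c C : ℝ} (h : Reg W c C) :
    ConvexOn ℝ Set.univ fun x => W x - c / 2 * ‖x‖ ^ 2 := by
  refine convex_of_support (fun x => ((fderiv ℝ W x - c • innerSL ℝ x : E n →L[ℝ] ℝ) : E n →ₗ[ℝ] ℝ))
    fun x y => ?_
  have h1 := taylor_lower h x (y - x)
  have h2 : ‖y‖ ^ 2 = ‖x‖ ^ 2 + 2 * inner ℝ x (y - x) + ‖y - x‖ ^ 2 := by
    have := norm_add_sq_real x (y - x)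
    rwa [add_sub_cancel] at this
  rw [add_sub_cancel] at h1
  have h3 : (((fderiv ℝ W x - c • innerSL ℝ x : E n →L[ℝ] ℝ) : E n →ₗ[ℝ] ℝ)) (y - x) =
      fderiv ℝ W x (y - x) - c * inner ℝ x (y - x) := by
    simp
  rw [h3, h2]
  nlinarith [h1]

theorem convex_upper {W : E n → ℝ} {c C : ℝ} (h : Reg W c C) :
    ConvexOn ℝ Set.univ fun x => C / 2 * ‖x‖ ^ 2 - W x := by
  refine convex_of_support (fun x => ((C • innerSL ℝ x - fderiv ℝ W x : E n →L[ℝ] ℝ) : E n →ₗ[ℝ] ℝ))
    fun x y => ?_
  have h1 := taylor_upper h x (y - x)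
  have h2 : ‖y‖ ^ 2 = ‖x‖ ^ 2 + 2 * inner ℝ x (y - x) + ‖y - x‖ ^ 2 := by
    have := norm_add_sq_real x (y - x)
    rwa [add_sub_cancel] at this
  rw [add_sub_cancel] at h1
  have h3 : (((C • innerSL ℝ x - fderiv ℝ W x : E n →L[ℝ] ℝ) : E n →ₗ[ℝ] ℝ)) (y - x) =
      C * inner ℝ x (y - x) - fderiv ℝ W x (y - x) := by
    simp
  rw [h3, h2]
  nlinarith [h1]

/-- a convex `C²` function has nonnegative second derivatives -/
theorem qf_nonneg_of_convex {f : E n → ℝ} (hf : ContDiff ℝ 2 f) (hc : ConvexOn ℝ Set.univ f)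
    (x v : E n) : 0 ≤ qf (hess f x) v := by
  have hg : ConvexOn ℝ Set.univ fun t : ℝ => f (x + t • v) := by
    have h1 : ConvexOn ℝ Set.univ fun z : E n => f (x + z) := by
      have := hc.translate_right x
      simpa [Function.comp_def] using this
    exact h1.comp_linearMap (LinearMap.toSpanSingleton ℝ (E n) v)
  have hd := fun t => line_one hf x v t
  have hm : Monotone (fun t : ℝ => fderiv ℝ f (x + t • v) v) := by
    have h1 := hg.monotoneOn_deriv fun t _ => (hd t).differentiableAt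
    have h2 : deriv (fun t : ℝ => f (x + t • v)) = fun t : ℝ => fderiv ℝ f (x + t • v) v :=
      funext fun t => (hd t).deriv
    rw [h2] at h1
    exact fun a b hab => h1 (Set.mem_univ a) (Set.mem_univ b) hab
  have h3 := hm.deriv_nonneg (x := (0 : ℝ))
  rw [(line_two hf x v 0).deriv] at h3
  simpa using h3

end Vale.Agent.P227.M.LL
end

section

/-! # P227/M/Mom/Bridge : from `pd`, `hess`, `qf` to gradients and Hessians as linear maps, and back -/

open MeasureTheory
open scoped Topology InnerProductSpace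

namespace Vale.Agent.P227.M

variable {n : ℕ}

lemma inner_ei (v : E n) (i : Fin n) : inner ℝ v (ei i) = v i := by
  rw [ei, EuclideanSpace.inner_single_right]; simp

lemma inner_ei' (v : E n) (i : Fin n) : inner ℝ (ei i) v = v i := by
  rw [real_inner_comm, inner_ei]

lemma pd_of_hasGradientAt {f : E n → ℝ} {g : E n} {x : E n} (h : HasGradientAt f g x) (i : Fin n) :
    pd i f x = g i := by
  have h1 : fderiv ℝ f x = (InnerProductSpace.toDual ℝ (E n)) g := h.hasFDerivAt.fderiv
  rw [pd, h1, InnerProductSpace.toDual_apply_apply, inner_ei]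

lemma hess_of {f : E n → ℝ} {g : E n → E n} {T : E n → (E n →L[ℝ] E n)}
    (hg : ∀ x, HasGradientAt f (g x) x) (hT : ∀ x, HasFDerivAt g (T x) x) (x : E n) (i j : Fin n) :
    hess f x i j = (T x (ei i)) j := by
  have h0 : pd j f = fun y => (g y) j := by
    funext y; exact pd_of_hasGradientAt (hg y) j
  have h1 : HasFDerivAt (fun y => (g y) j) ((EuclideanSpace.proj j : E n →L[ℝ] ℝ).comp (T x)) x :=
    (EuclideanSpace.proj j : E n →L[ℝ] ℝ).hasFDerivAt.comp x (hT x)
  rw [hess, h0, pd, h1.fderiv]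
  simp

lemma br_sum_smul_ei (v : E n) : ∑ i, v i • (ei i : E n) = v := by
  ext j
  simp [ei, Finset.sum_apply, Pi.single_apply]

lemma qf_of {f : E n → ℝ} {g : E n → E n} {T : E n → (E n →L[ℝ] E n)}
    (hg : ∀ x, HasGradientAt f (g x) x) (hT : ∀ x, HasFDerivAt g (T x) x) (x v : E n) :
    qf (hess f x) v = inner ℝ (T x v) v := by
  have h1 : T x v = ∑ i, v i • T x (ei i) := by
    conv_lhs => rw [← br_sum_smul_ei v]
    rw [map_sum]; simp
  rw [h1, sum_inner, qf]
  refine Finset.sum_congr rfl fun i _ => ?_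
  rw [real_inner_smul_left]
  have h2 : inner ℝ (T x (ei i)) v = ∑ j, (T x (ei i)) j * v j := by
    rw [PiLp.inner_apply]; simp [mul_comm]
  rw [h2, Finset.mul_sum]
  refine Finset.sum_congr rfl fun j _ => ?_
  rw [hess_of hg hT]; ring

lemma det_of {f : E n → ℝ} {g : E n → E n} {T : E n → (E n →L[ℝ] E n)}
    (hg : ∀ x, HasGradientAt f (g x) x) (hT : ∀ x, HasFDerivAt g (T x) x) (x : E n) :
    (hess f x).det = (T x).det := by
  have h1 : LinearMap.toMatrix (EuclideanSpace.basisFun (Fin n) ℝ).toBasis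
      (EuclideanSpace.basisFun (Fin n) ℝ).toBasis (T x : E n →ₗ[ℝ] E n) = (hess f x).transpose := by
    ext i j
    rw [LinearMap.toMatrix_apply, Matrix.transpose_apply, hess_of hg hT]
    simp [ei]
  rw [ContinuousLinearMap.det, ← LinearMap.det_toMatrix (EuclideanSpace.basisFun (Fin n) ℝ).toBasis, h1,
    Matrix.det_transpose]

/-- gradient of a smooth function -/
lemma hasGradientAt_of_contDiff {f : E n → ℝ} {k : WithTop ℕ∞} (hk : k ≠ 0) (hf : ContDiff ℝ k f) (x : E n) :
    HasGradientAt f (gradient f x) x :=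
  ((hf.differentiable hk) x).hasGradientAt

lemma contDiff_gradient {f : E n → ℝ} {m k : WithTop ℕ∞} (hmk : m + 1 ≤ k) (hf : ContDiff ℝ k f) :
    ContDiff ℝ m (gradient f) := by
  have h1 : ContDiff ℝ m (fderiv ℝ f) := hf.fderiv_right hmk
  have h2 : gradient f = fun x => (InnerProductSpace.toDual ℝ (E n)).symm (fderiv ℝ f x) := rfl
  rw [h2]
  exact (InnerProductSpace.toDual ℝ (E n)).symm.toContinuousLinearEquiv.contDiff.comp h1

lemma contDiff_fderiv_gradient {f : E n → ℝ} {m k : WithTop ℕ∞} (hmk : m + 2 ≤ k) (hf : ContDiff ℝ k f) :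
    ContDiff ℝ m (fderiv ℝ (gradient f)) := by
  have h1 : ContDiff ℝ (m + 1) (gradient f) :=
    contDiff_gradient (by rw [add_assoc, one_add_one_eq_two]; exact hmk) hf
  exact h1.fderiv_right le_rfl

lemma hasFDerivAt_gradient {f : E n → ℝ} (hf : ContDiff ℝ 2 f) (x : E n) :
    HasFDerivAt (gradient f) (fderiv ℝ (gradient f) x) x := by
  have h1 : ContDiff ℝ 1 (gradient f) := contDiff_gradient (by norm_num) hf
  exact ((h1.differentiable (by norm_num)) x).hasFDerivAt

/-- the Hessian as a linear map -/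
noncomputable def hT (f : E n → ℝ) (x : E n) : E n →L[ℝ] E n := fderiv ℝ (gradient f) x

lemma hess_hT {f : E n → ℝ} (hf : ContDiff ℝ 2 f) (x : E n) (i j : Fin n) :
    hess f x i j = (hT f x (ei i)) j :=
  hess_of (fun x => hasGradientAt_of_contDiff (by norm_num) hf x) (fun x => hasFDerivAt_gradient hf x) x i j

lemma qf_hT {f : E n → ℝ} (hf : ContDiff ℝ 2 f) (x v : E n) :
    qf (hess f x) v = inner ℝ (hT f x v) v :=
  qf_of (fun x => hasGradientAt_of_contDiff (by norm_num) hf x) (fun x => hasFDerivAt_gradient hf x) x v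

lemma det_hT {f : E n → ℝ} (hf : ContDiff ℝ 2 f) (x : E n) :
    (hess f x).det = (hT f x).det :=
  det_of (fun x => hasGradientAt_of_contDiff (by norm_num) hf x) (fun x => hasFDerivAt_gradient hf x) x

lemma inner_gradient {f : E n → ℝ} (x v : E n) : inner ℝ (gradient f x) v = fderiv ℝ f x v := by
  have : gradient f x = (InnerProductSpace.toDual ℝ (E n)).symm (fderiv ℝ f x) := rfl
  rw [this, InnerProductSpace.toDual_symm_apply]

/-- symmetry of the Hessian -/
lemma hT_symm {f : E n → ℝ} (hf : ContDiff ℝ 2 f) (x v w : E n) :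
    inner ℝ (hT f x v) w = inner ℝ (hT f x w) v := by
  have key : ∀ v w : E n, inner ℝ (hT f x v) w = fderiv ℝ (fderiv ℝ f) x v w := by
    intro v w
    have h1 : HasFDerivAt (fun y => inner ℝ (gradient f y) w)
        (((innerSL ℝ).flip w).comp (hT f x)) x :=
      ((innerSL ℝ).flip w).hasFDerivAt.comp x (hasFDerivAt_gradient hf x)
    have h2 : (fun y => inner ℝ (gradient f y) w) = fun y => fderiv ℝ f y w := by
      funext y; exact inner_gradient y w
    have h3 : HasFDerivAt (fderiv ℝ f) (fderiv ℝ (fderiv ℝ f) x) x :=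
      (((hf.fderiv_right (m := 1) (by norm_num)).differentiable (by norm_num)) x).hasFDerivAt
    have h4 : HasFDerivAt (fun y => fderiv ℝ f y w)
        ((ContinuousLinearMap.apply ℝ ℝ w).comp (fderiv ℝ (fderiv ℝ f) x)) x :=
      (ContinuousLinearMap.apply ℝ ℝ w).hasFDerivAt.comp x h3
    rw [h2] at h1
    have h5 := h1.unique h4
    exact DFunLike.congr_fun h5 v
  rw [key, key]
  have hs : IsSymmSndFDerivAt ℝ f x := hf.contDiffAt.isSymmSndFDerivAt (by simp)
  exact hs v w

/-- derivative along a line -/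
lemma line_deriv1 {f : E n → ℝ} (hf : ContDiff ℝ 2 f) (x v : E n) (t : ℝ) :
    HasDerivAt (fun t : ℝ => f (x + t • v)) (inner ℝ (gradient f (x + t • v)) v) t := by
  have h0 : HasDerivAt (fun t : ℝ => x + t • v) v t := by
    simpa using ((hasDerivAt_id t).smul_const v).const_add x
  exact (hasGradientAt_of_contDiff (by norm_num) hf (x + t • v)).hasFDerivAt.comp_hasDerivAt t h0

lemma line_deriv2 {f : E n → ℝ} (hf : ContDiff ℝ 2 f) (x v w : E n) (t : ℝ) :
    HasDerivAt (fun t : ℝ => inner ℝ (gradient f (x + t • v)) w) (inner ℝ (hT f (x + t • v) v) w) t := by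
  have h0 : HasDerivAt (fun t : ℝ => x + t • v) v t := by
    simpa using ((hasDerivAt_id t).smul_const v).const_add x
  have h1 : HasDerivAt (fun t : ℝ => gradient f (x + t • v)) (hT f (x + t • v) v) t := by
    have := (hasFDerivAt_gradient hf (x + t • v)).comp_hasDerivAt t h0
    exact this
  simpa using h1.inner ℝ (hasDerivAt_const t w)

lemma line_deriv3 {f : E n → ℝ} (hf : ContDiff ℝ 3 f) (x v w z : E n) (t : ℝ) :
    HasDerivAt (fun t : ℝ => inner ℝ (hT f (x + t • v) w) z)
      (inner ℝ (fderiv ℝ (hT f) (x + t • v) v w) z) t := by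
  have h0 : HasDerivAt (fun t : ℝ => x + t • v) v t := by
    simpa using ((hasDerivAt_id t).smul_const v).const_add x
  have h2 : ContDiff ℝ 1 (hT f) := contDiff_fderiv_gradient (by norm_num) hf
  have h1 : HasDerivAt (fun t : ℝ => hT f (x + t • v)) (fderiv ℝ (hT f) (x + t • v) v) t := by
    have := ((h2.differentiable (by norm_num)) (x + t • v)).hasFDerivAt.comp_hasDerivAt t h0
    exact this
  have h3 : HasDerivAt (fun t : ℝ => hT f (x + t • v) w) (fderiv ℝ (hT f) (x + t • v) v w) t := by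
    simpa using h1.clm_apply (hasDerivAt_const t w)
  simpa using h3.inner ℝ (hasDerivAt_const t z)

lemma iter2_line {f : E n → ℝ} (hf : ContDiff ℝ 2 f) (x v : E n) :
    iteratedDeriv 2 (fun t : ℝ => f (x + t • v)) = fun t => inner ℝ (hT f (x + t • v) v) v := by
  have h1 : deriv (fun t : ℝ => f (x + t • v)) = fun t => inner ℝ (gradient f (x + t • v)) v := by
    funext t; exact (line_deriv1 hf x v t).deriv
  rw [iteratedDeriv_succ, iteratedDeriv_one, h1]
  funext t; exact (line_deriv2 hf x v v t).deriv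

lemma iter3_line {f : E n → ℝ} (hf : ContDiff ℝ 3 f) (x v : E n) :
    iteratedDeriv 3 (fun t : ℝ => f (x + t • v)) =
      fun t => inner ℝ (fderiv ℝ (hT f) (x + t • v) v v) v := by
  rw [iteratedDeriv_succ, iter2_line (hf.of_le (by norm_num))]
  funext t; exact (line_deriv3 hf x v v v t).deriv

lemma selfConc_iff {f : E n → ℝ} (hf : ContDiff ℝ 3 f) (κ : ℝ) :
    SelfConc κ f ↔ ∀ x v : E n, |inner ℝ (fderiv ℝ (hT f) x v v) v| ≤
      2 * κ * (inner ℝ (hT f x v) v) ^ ((3 : ℝ) / 2) := by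
  unfold SelfConc
  refine forall_congr' fun x => forall_congr' fun v => ?_
  rw [iter3_line hf, iter2_line (hf.of_le (by norm_num))]
  simp

/-- symmetry in the last two slots, third derivative -/
lemma d3_symm_last {f : E n → ℝ} (hf : ContDiff ℝ 3 f) (x u v w : E n) :
    inner ℝ (fderiv ℝ (hT f) x u v) w = inner ℝ (fderiv ℝ (hT f) x u w) v := by
  have h1 := (line_deriv3 hf x u v w 0)
  have h2 := (line_deriv3 hf x u w v 0)
  have h3 : (fun t : ℝ => inner ℝ (hT f (x + t • u) v) w) = fun t : ℝ => inner ℝ (hT f (x + t • u) w) v := by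
    funext t; exact hT_symm (hf.of_le (by norm_num)) _ _ _
  rw [h3] at h1
  simpa using h1.unique h2

/-- symmetry in the first two slots, third derivative -/
lemma d3_symm_first {f : E n → ℝ} (hf : ContDiff ℝ 3 f) (x u v : E n) :
    fderiv ℝ (hT f) x u v = fderiv ℝ (hT f) x v u := by
  have h1 : ContDiff ℝ 2 (gradient f) := contDiff_gradient (by norm_num) hf
  have hs : IsSymmSndFDerivAt ℝ (gradient f) x := h1.contDiffAt.isSymmSndFDerivAt (by simp)
  exact hs u v

end Vale.Agent.P227.M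
end

section

/-! # P254/MC: the descent `StmtDescc` (port of `P227/M/MM/Desc447`, helper724) -/

open MeasureTheory Filter Set
open scoped Topology

namespace Vale.Agent.P254.MC

open Vale.Agent.P227.M Vale.Agent.P227.M.MM

variable {n : ℕ}

theorem Clsc.qg {k c₀ C₀ m : ℝ} {c : E n → ℝ} (h : Clsc k c₀ C₀ m c) :
    LK.Dsc.Qg (c₀ * (k + 1) / k) (C₀ * (k + 1) / k) c where
  meas := h.reg.smooth.continuous.measurable
  lo := fun x => by
    have h1 := LL.taylor_lower h.reg 0 x
    rw [h.grad] at h1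
    simpa using h1
  hi := fun x => by
    have h1 := LL.taylor_upper h.reg 0 x
    rw [h.grad] at h1
    simpa using h1

theorem reg_pot {V : E n → ℝ} {a b : ℝ} (h : Reg V a b) :
    LK.Dsc.Pot (fun x => V x + Real.log (∫ x, Real.exp (-V x))) := by
  have hi : ∀ {f : E n → ℝ}, Gr f → Integrable fun x : E n => f x * Real.exp (-V x) := fun hf => h.integrable_gr hf
  have hZ := h.Z_pos
  set ZV := ∫ x, Real.exp (-V x) with hZV
  have he : ∀ x, Real.exp (-(V x + Real.log ZV)) = Real.exp (-V x) * ZV⁻¹ := fun x => by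
    rw [neg_add, Real.exp_add, Real.exp_neg (Real.log _), Real.exp_log hZ]
  have hfi : ∀ {f : E n → ℝ}, Gr f → Integrable fun x : E n => f x * Real.exp (-(V x + Real.log ZV)) := fun {f} hf => by
    refine ((hi hf).mul_const ZV⁻¹).congr (ae_of_all _ fun x => ?_)
    simp only [he]
    ring
  refine ⟨(h.smooth.continuous.add continuous_const).measurable, ?_, ?_, ?_, ?_⟩
  · refine (hfi (Gr.const 1)).congr (ae_of_all _ fun x => ?_)
    simp
  · simp only [he]
    rw [integral_mul_const, ← hZV, mul_inv_cancel₀ hZ.ne']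
  · exact hfi (h.gr.add (Gr.const _))
  · exact hfi (Gr.norm.pow 2)

theorem centred_inner {V : E n → ℝ} {a b : ℝ} (h : Reg V a b) (hc : Centred V) (g : E n) :
    ∫ x, (inner ℝ x g : ℝ) * Real.exp (-(V x + Real.log (∫ x, Real.exp (-V x)))) = 0 := by
  have hZ := h.Z_pos
  set ZV := ∫ x, Real.exp (-V x) with hZV
  have he : ∀ x, Real.exp (-(V x + Real.log ZV)) = Real.exp (-V x) * ZV⁻¹ := fun x => by
    rw [neg_add, Real.exp_add, Real.exp_neg (Real.log _), Real.exp_log hZ]
  have h1 : (fun x : E n => (inner ℝ x g : ℝ) * Real.exp (-(V x + Real.log ZV)))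
      = fun x => ∑ i, (g i * ZV⁻¹) * (x i * Real.exp (-V x)) := by
    funext x
    rw [he, PiLp.inner_apply, Finset.sum_mul]
    refine Finset.sum_congr rfl fun i _ => ?_
    simp only [RCLike.inner_apply, conj_trivial]
    ring
  rw [h1, integral_finsetSum _ fun i _ => (h.integrable_gr (Gr.coord i)).const_mul _]
  refine Finset.sum_eq_zero fun i _ => ?_
  rw [integral_const_mul, hc i, mul_zero]

theorem stmtDescc : StmtDescc := by
  intro n hn V c₀ C₀ m k hV hcen _ hk hcls hphi ε hε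
  have hc₀ : 0 < c₀ := hV.c_pos
  have hC₀ : 0 < C₀ := hc₀.trans_le (nice_le hn hV)
  have hk0 : 0 < k := by linarith
  have hn' : (0 : ℝ) < n := by exact_mod_cast hn
  have hpot := reg_pot hV
  have hcen' := fun g : E n => centred_inner hV hcen g
  have hZ := hV.Z_pos
  set ZV := ∫ x, Real.exp (-V x) with hZV
  set V' : E n → ℝ := fun x => V x + Real.log ZV with hV'
  have hT : ∀ c : E n → ℝ, ∀ x, LK.Dsc.T0 k V' c x =
      TKc k V c x + (Real.log ZV / k + (V 0 + QK k c 0) / k) + inner ℝ x (gradient (TK k V c) 0) := by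
    intro c x
    rw [real_inner_comm, inner_gradient]
    change (V x + Real.log ZV + QK k c x) / k = (V x + QK k c x) / k - (V 0 + QK k c 0) / k
      - fderiv ℝ (TK k V c) 0 x + (Real.log ZV / k + (V 0 + QK k c 0) / k) + fderiv ℝ (TK k V c) 0 x
    ring
  obtain ⟨c, ⟨i, rfl⟩, hKL⟩ := DscC.exists_KL_le (k := k) (a := c₀ * (k + 1) / k) (b := C₀ * (k + 1) / k) hk0
    (by positivity) (by positivity) hpot hcen' (TKc k V) (fun c => ∃ i, c = itKc k c₀ V i) (itKc k c₀ V 0) ⟨0, rfl⟩
    (by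
      rintro _ ⟨i, rfl⟩
      exact ⟨i + 1, rfl⟩)
    (by
      rintro _ ⟨i, rfl⟩
      exact (hcls i).qg)
    (fun c _ => ⟨_, _, hT c⟩) (ε := (ε / 2) ^ 2) (by positivity)
  refine ⟨i, fun F hF hF1 => ?_⟩
  set c := itKc k c₀ V i with hc
  have hφ : LK.Dsc.phi k c = phiK k c := rfl
  have hN := hphi i
  rw [← hc] at hN
  have hA : 0 ≤ k / ((k + 1) * c₀) := by positivity
  have hg : Measurable (gradient (phiK k c)) :=
    (contDiff_gradient (m := 0) (k := 1) (by norm_num) ((LL.reg_two hN).of_le (by norm_num))).continuous.measurable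
  have hsc : ∀ y z, LK.Dsc.phi k c (y + z) ≤ LK.Dsc.phi k c y + inner ℝ (gradient (phiK k c) y) z
      + k / ((k + 1) * c₀) / 2 * ‖z‖ ^ 2 := by
    intro y z
    rw [hφ, inner_gradient]
    exact LL.taylor_upper hN y z
  have hTc : DscC.Tl (c₀ * (k + 1) / k) (C₀ * (k + 1) / k) (LK.Dsc.T0 k V' c) :=
    ⟨_, _, LK.Dsc.Qg.add_const _ (hcls (i + 1)).qg, hT c⟩
  have hσ : 0 < Real.sqrt (n / (c₀ * k)) := Real.sqrt_pos.2 (by positivity)
  have hAσ : (Module.finrank ℝ (E n) : ℝ) * (k / ((k + 1) * c₀) / k) ≤ Real.sqrt (n / (c₀ * k)) ^ 2 := by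
    rw [Real.sq_sqrt (by positivity), finrank_euclideanSpace_fin]
    have h1 : k / ((k + 1) * c₀) / k = 1 / ((k + 1) * c₀) := by field_simp
    rw [h1, mul_one_div, div_le_div_iff_of_pos_left hn' (by positivity) (by positivity)]
    nlinarith
  have key := DscC.push_error (V := V') hk0 (by positivity) (by positivity) hpot (hcls i).qg hTc hA hg hsc hσ hAσ
    (η := ε / 2) (by positivity) hKL (F := F) (L := 1) (M := 1) hF.continuous zero_le_one
    (fun x y => by
      have := hF.dist_le_mul x y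
      rw [Real.dist_eq, dist_eq_norm] at this
      simpa using this) hF1
  have e1 : ∫ x, F x * Real.exp (-V' x) = (∫ x, F x * Real.exp (-V x)) / ZV := by
    rw [← integral_div]
    congr 1
    ext x
    have he : Real.exp (-V' x) = Real.exp (-V x) * ZV⁻¹ := by
      rw [hV']
      simp only
      rw [neg_add, Real.exp_add, Real.exp_neg (Real.log _), Real.exp_log hZ]
    rw [he, div_eq_mul_inv]
    ring
  rw [e1] at key
  have e2 : 1 * Real.sqrt (n / (c₀ * k)) + 2 * 1 * (ε / 2) = Real.sqrt (n / (c₀ * k)) + ε := by ring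
  rw [e2] at key
  exact key

end Vale.Agent.P254.MC
end

section

/-! # P227/M, block MM: a nice self-concordant function is `C21` -/

open MeasureTheory Filter
open scoped Topology

namespace Vale.Agent.P227.M.MM.ToC21

open Lim

/-- the Riesz map `ℓ ↦ ∑ i, ℓ (e i) • e i` as a real continuous linear map -/
noncomputable def rz (n : ℕ) : (E n →L[ℝ] ℝ) →L[ℝ] E n :=
  ∑ i : Fin n, (ContinuousLinearMap.apply ℝ ℝ (ei i : E n)).smulRight (ei i : E n)

theorem rz_apply {n : ℕ} (l : E n →L[ℝ] ℝ) : rz n l = ∑ i, l (ei i) • (ei i : E n) := by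
  simp [rz]

theorem sum_ei {n : ℕ} (v : E n) : ∑ i, v i • (ei i : E n) = v := by
  ext j
  simp only [ei, WithLp.ofLp_sum, WithLp.ofLp_smul, Finset.sum_apply, Pi.smul_apply, smul_eq_mul,
    PiLp.single_apply]
  simp

theorem inner_ei {n : ℕ} (i : Fin n) (w : E n) : inner ℝ (ei i : E n) w = w i := by
  simp [ei, EuclideanSpace.inner_single_left]

theorem inner_rz {n : ℕ} (l : E n →L[ℝ] ℝ) (w : E n) : inner ℝ (rz n l) w = l w := by
  rw [rz_apply, sum_inner]
  conv_rhs => rw [← sum_ei w, map_sum]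
  refine Finset.sum_congr rfl fun i _ => ?_
  rw [inner_smul_left, inner_ei, map_smul, smul_eq_mul, mul_comm]
  simp

theorem norm_rz_le {n : ℕ} (l : E n →L[ℝ] ℝ) : ‖rz n l‖ ≤ ‖l‖ := by
  have h1 : ‖rz n l‖ * ‖rz n l‖ = l (rz n l) := by
    rw [← real_inner_self_eq_norm_mul_norm, inner_rz]
  have h2 : l (rz n l) ≤ ‖l‖ * ‖rz n l‖ := (le_abs_self _).trans (l.le_opNorm _)
  rcases eq_or_lt_of_le (norm_nonneg (rz n l)) with h | h
  · rw [← h]; exact norm_nonneg _
  · rw [← h1] at h2
    exact le_of_mul_le_mul_right h2 h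

theorem gradient_eq {n : ℕ} (φ : E n → ℝ) (y : E n) : gradient φ y = rz n (fderiv ℝ φ y) := by
  refine ext_inner_right ℝ fun w => ?_
  rw [inner_rz, gradient, InnerProductSpace.toDual_symm_apply]

theorem qf_hess {n : ℕ} {φ : E n → ℝ} (hφ : ContDiff ℝ 3 φ) (y v : E n) :
    qf (hess φ y) v = fderiv ℝ (fderiv ℝ φ) y v v := by
  have hd : DifferentiableAt ℝ (fderiv ℝ φ) y :=
    (SC.Pol.cd2 hφ).differentiable (by norm_num) y
  have h1 : ∀ i j, hess φ y i j = fderiv ℝ (fderiv ℝ φ) y (ei i) (ei j) := by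
    intro i j
    have h2 := SC.Pol.evalF1 hd.hasFDerivAt (ei j : E n)
    have h3 : fderiv ℝ (pd j φ) y = (fderiv ℝ (fderiv ℝ φ) y).flip (ei j) := h2.fderiv
    change fderiv ℝ (pd j φ) y (ei i) = _
    rw [h3]
    rfl
  simp only [qf, h1]
  conv_rhs => rw [← sum_ei v]
  simp only [map_sum, map_smul, _root_.sum_apply, _root_.smul_apply, smul_eq_mul]
  rw [Finset.sum_comm]
  refine Finset.sum_congr rfl fun j _ => ?_
  rw [Finset.mul_sum]
  refine Finset.sum_congr rfl fun i _ => ?_
  ring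

theorem stmtToC21 : StmtToC21 := by
  intro n hn φ a b m hN hm hsc
  have hφ : ContDiff ℝ 3 φ := by exact_mod_cast contDiff_infty.1 hN.smooth 3
  have hab : a ≤ b := nice_le hn hN.toReg
  have ha : 0 < a := hN.c_pos
  have hb : 0 < b := ha.trans_le hab
  have h2 : ∀ x v, iteratedDeriv 2 (fun t : ℝ => φ (x + t • v)) 0 = qf (hess φ x) v := by
    intro x v
    rw [SC.Pol.iter2 hφ, qf_hess hφ]
    simp
  have hlb : ∀ x v, 0 ≤ iteratedDeriv 2 (fun t : ℝ => φ (x + t • v)) 0 := by
    intro x v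
    rw [h2]
    exact le_trans (by positivity) (hN.lower x v)
  have hlip := SC.Pol.hess_lipschitz_of_sc hφ hm hb.le (fun x v => by rw [h2]; exact hN.upper x v) hlb
    (fun x v => by
      have h3 := hsc x v
      have h4 := hlb x v
      set d := iteratedDeriv 2 (fun t : ℝ => φ (x + t • v)) 0
      have h5 : (iteratedDeriv 3 (fun t : ℝ => φ (x + t • v)) 0) ^ 2 ≤ (2 * m * d ^ ((3 : ℝ) / 2)) ^ 2 := by
        rw [← sq_abs]
        exact pow_le_pow_left₀ (abs_nonneg _) h3 2
      refine h5.trans (le_of_eq ?_)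
      have h6 : (d ^ ((3 : ℝ) / 2)) ^ 2 = d ^ 3 := by
        rw [← Real.rpow_natCast, ← Real.rpow_mul h4]
        norm_num
      rw [mul_pow, h6]
      ring)
  have hd : ∀ y, HasFDerivAt (fderiv ℝ φ) (fderiv ℝ (fderiv ℝ φ) y) y := fun y =>
    ((SC.Pol.cd2 hφ).differentiable (by norm_num) y).hasFDerivAt
  refine ⟨fun y => (rz n).comp (fderiv ℝ (fderiv ℝ φ) y), ?_, ?_, ?_, ?_, ?_, hN.even⟩
  · intro y
    exact (hφ.differentiable (by norm_num) y).hasGradientAt
  · intro y
    have h3 : (gradient φ) = fun z => rz n (fderiv ℝ φ z) := funext fun z => gradient_eq φ z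
    rw [h3]
    exact (rz n).hasFDerivAt.comp y (hd y)
  · intro y v
    rw [ContinuousLinearMap.comp_apply, inner_rz, ← qf_hess hφ]
    exact hN.lower y v
  · intro y v
    rw [ContinuousLinearMap.comp_apply, inner_rz, ← qf_hess hφ]
    exact hN.upper y v
  · intro y y'
    rw [← ContinuousLinearMap.comp_sub]
    have hsq : b * Real.sqrt b = b ^ ((3 : ℝ) / 2) := by
      rw [Real.sqrt_eq_rpow, show ((3 : ℝ) / 2) = 1 + 1 / 2 by norm_num, Real.rpow_add hb, Real.rpow_one]
    have h3 := hlip.dist_le_mul y y'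
    rw [dist_eq_norm, dist_eq_norm, Real.coe_toNNReal _ (by positivity)] at h3
    refine ContinuousLinearMap.opNorm_le_bound _ (by positivity) fun v => ?_
    rw [ContinuousLinearMap.comp_apply]
    refine (norm_rz_le _).trans ?_
    refine ((fderiv ℝ (fderiv ℝ φ) y - fderiv ℝ (fderiv ℝ φ) y').le_opNorm v).trans ?_
    refine mul_le_mul_of_nonneg_right (h3.trans ?_) (norm_nonneg _)
    rw [hsq]
    have h4 : 0 ≤ m * b ^ ((3 : ℝ) / 2) * ‖y - y'‖ := by positivity
    nlinarith

end Vale.Agent.P227.M.MM.ToC21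

namespace Vale.Agent.P227.M.MM

theorem stmtToC21 : StmtToC21 := ToC21.stmtToC21

end Vale.Agent.P227.M.MM
end

section

/-! # P254/MC: `StmtInvc → StmtStartc → StmtDescc → StmtLKc` (helper724) -/

open MeasureTheory Filter
open scoped Topology

namespace Vale.Agent.P254.MC

open Vale.Agent.P227.M Vale.Agent.P227.M.MM

variable {n : ℕ}

/-- a regular self-concordant function has an explicit gradient and Hessian (`MM.ToC21` without evenness) -/
theorem toC21_fields (hn : 0 < n) (φ : E n → ℝ) (a b m : ℝ) (hN : Reg φ a b) (hm : 0 ≤ m) (hsc : SelfConc m φ) :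
    ∃ H : E n → E n →L[ℝ] E n, (∀ y, HasGradientAt φ (gradient φ y) y) ∧ (∀ y, HasFDerivAt (gradient φ) (H y) y) ∧
      (∀ y v, a * ‖v‖ ^ 2 ≤ inner ℝ (H y v) v) ∧ (∀ y v, inner ℝ (H y v) v ≤ b * ‖v‖ ^ 2) ∧
      (∀ y y', ‖H y - H y'‖ ≤ 18 * m * b ^ ((3 : ℝ) / 2) * ‖y - y'‖) := by
  have hφ : ContDiff ℝ 3 φ := by exact_mod_cast contDiff_infty.1 hN.smooth 3
  have hab : a ≤ b := nice_le hn hN
  have ha : 0 < a := hN.c_pos
  have hb : 0 < b := ha.trans_le hab
  have h2 : ∀ x v, iteratedDeriv 2 (fun t : ℝ => φ (x + t • v)) 0 = qf (hess φ x) v := by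
    intro x v
    rw [SC.Pol.iter2 hφ, ToC21.qf_hess hφ]
    simp
  have hlb : ∀ x v, 0 ≤ iteratedDeriv 2 (fun t : ℝ => φ (x + t • v)) 0 := by
    intro x v
    rw [h2]
    exact le_trans (by positivity) (hN.lower x v)
  have hlip := SC.Pol.hess_lipschitz_of_sc hφ hm hb.le (fun x v => by rw [h2]; exact hN.upper x v) hlb
    (fun x v => by
      have h3 := hsc x v
      have h4 := hlb x v
      set d := iteratedDeriv 2 (fun t : ℝ => φ (x + t • v)) 0
      have h5 : (iteratedDeriv 3 (fun t : ℝ => φ (x + t • v)) 0) ^ 2 ≤ (2 * m * d ^ ((3 : ℝ) / 2)) ^ 2 := by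
        rw [← sq_abs]
        exact pow_le_pow_left₀ (abs_nonneg _) h3 2
      refine h5.trans (le_of_eq ?_)
      have h6 : (d ^ ((3 : ℝ) / 2)) ^ 2 = d ^ 3 := by
        rw [← Real.rpow_natCast, ← Real.rpow_mul h4]
        norm_num
      rw [mul_pow, h6]
      ring)
  have hd : ∀ y, HasFDerivAt (fderiv ℝ φ) (fderiv ℝ (fderiv ℝ φ) y) y := fun y =>
    ((SC.Pol.cd2 hφ).differentiable (by norm_num) y).hasFDerivAt
  refine ⟨fun y => (ToC21.rz n).comp (fderiv ℝ (fderiv ℝ φ) y), ?_, ?_, ?_, ?_, ?_⟩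
  · intro y
    exact (hφ.differentiable (by norm_num) y).hasGradientAt
  · intro y
    have h3 : (gradient φ) = fun z => ToC21.rz n (fderiv ℝ φ z) := funext fun z => ToC21.gradient_eq φ z
    rw [h3]
    exact (ToC21.rz n).hasFDerivAt.comp y (hd y)
  · intro y v
    rw [ContinuousLinearMap.comp_apply, ToC21.inner_rz, ← ToC21.qf_hess hφ]
    exact hN.lower y v
  · intro y v
    rw [ContinuousLinearMap.comp_apply, ToC21.inner_rz, ← ToC21.qf_hess hφ]
    exact hN.upper y v
  · intro y y'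
    rw [← ContinuousLinearMap.comp_sub]
    have hsq : b * Real.sqrt b = b ^ ((3 : ℝ) / 2) := by
      rw [Real.sqrt_eq_rpow, show ((3 : ℝ) / 2) = 1 + 1 / 2 by norm_num, Real.rpow_add hb, Real.rpow_one]
    have h3 := hlip.dist_le_mul y y'
    rw [dist_eq_norm, dist_eq_norm, Real.coe_toNNReal _ (by positivity)] at h3
    refine ContinuousLinearMap.opNorm_le_bound _ (by positivity) fun v => ?_
    rw [ContinuousLinearMap.comp_apply]
    refine (ToC21.norm_rz_le _).trans ?_
    refine ((fderiv ℝ (fderiv ℝ φ) y - fderiv ℝ (fderiv ℝ φ) y').le_opNorm v).trans ?_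
    refine mul_le_mul_of_nonneg_right (h3.trans ?_) (norm_nonneg _)
    rw [hsq]
    have h4 : 0 ≤ m * b ^ ((3 : ℝ) / 2) * ‖y - y'‖ := by positivity
    nlinarith

/-- a regular function has a critical point -/
theorem exists_crit {φ : E n → ℝ} {a b : ℝ} (h : Reg φ a b) : ∃ y₀, gradient φ y₀ = 0 := by
  have ha := h.c_pos
  have hcont : Continuous φ := h.smooth.continuous
  have hlow : ∀ y : E n, φ 0 - ‖fderiv ℝ φ 0‖ ^ 2 / a + a / 4 * ‖y‖ ^ 2 ≤ φ y := by
    intro y
    have h1 := LL.taylor_lower h 0 y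
    rw [zero_add] at h1
    have h2 := (fderiv ℝ φ 0).le_opNorm y
    rw [Real.norm_eq_abs] at h2
    have h3 := (abs_le.1 h2).1
    have h4 : ‖fderiv ℝ φ 0‖ * ‖y‖ ≤ ‖fderiv ℝ φ 0‖ ^ 2 / a + a / 4 * ‖y‖ ^ 2 := by
      have : 0 ≤ (‖fderiv ℝ φ 0‖ - a / 2 * ‖y‖) ^ 2 / a := by positivity
      have h5 : (‖fderiv ℝ φ 0‖ - a / 2 * ‖y‖) ^ 2 / a
          = ‖fderiv ℝ φ 0‖ ^ 2 / a - ‖fderiv ℝ φ 0‖ * ‖y‖ + a / 4 * ‖y‖ ^ 2 := by
        field_simp
        ring
      linarith
    linarith
  have hlim : Tendsto φ (cocompact (E n)) atTop := by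
    refine tendsto_atTop_mono hlow ?_
    have h6 : Tendsto (fun y : E n => ‖y‖) (cocompact (E n)) atTop := tendsto_norm_cocompact_atTop
    have h7 : Tendsto (fun y : E n => a / 4 * ‖y‖ ^ 2) (cocompact (E n)) atTop :=
      ((tendsto_pow_atTop two_ne_zero).comp h6).const_mul_atTop (by positivity)
    exact tendsto_atTop_add_const_left _ _ h7
  obtain ⟨y, hy⟩ := hcont.exists_forall_le hlim
  refine ⟨y, ?_⟩
  have hmin : IsLocalMin φ y := Filter.Eventually.of_forall hy
  rw [ToC21.gradient_eq, hmin.fderiv_eq_zero, map_zero]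

theorem itKc_mem724 {k c₀ C₀ m : ℝ} {V : E n → ℝ} (h0 : Clsc k c₀ C₀ m (fun x : E n => c₀ * (k + 1) / k / 2 * ‖x‖ ^ 2))
    (hT : ∀ c : E n → ℝ, Clsc k c₀ C₀ m c → Clsc k c₀ C₀ m (TKc k V c)) : ∀ i, Clsc k c₀ C₀ m (itKc k c₀ V i)
  | 0 => h0
  | i + 1 => hT _ (itKc_mem724 h0 hT i)

theorem stmtLKc_of (h1 : StmtInvc) (h2 : StmtStartc) (h3 : StmtDescc) : StmtLKc := by
  intro n hn V c₀ C₀ hV hcen
  have hc : 0 < c₀ := hV.c_pos
  have hcC : c₀ ≤ C₀ := nice_le hn hV
  have hC : 0 < C₀ := hc.trans_le hcC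
  obtain ⟨m, K₀, hm, hK₀, hinv⟩ := h1 n hn V c₀ C₀ hV
  refine ⟨18 * m * (c₀⁻¹) ^ ((3 : ℝ) / 2), fun ε hε hε1 => ?_⟩
  have hVi := hV.integrable_exp
  have hZ : 0 < ∫ x, Real.exp (-V x) := hV.Z_pos
  set Z := ∫ x, Real.exp (-V x) with hZdef
  -- choice of `k`
  set δ := ε / (2 * Z) with hδ
  have hδ0 : 0 < δ := by positivity
  obtain ⟨k, hk⟩ : ∃ k : ℝ, K₀ ≤ k ∧ 1 / ε ≤ k ∧ (n : ℝ) / (c₀ * δ ^ 2) ≤ k :=
    ⟨max K₀ (max (1 / ε) ((n : ℝ) / (c₀ * δ ^ 2))), le_max_left _ _, (le_max_left _ _).trans (le_max_right _ _),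
      (le_max_right _ _).trans (le_max_right _ _)⟩
  obtain ⟨hk1, hk2, hk3⟩ := hk
  have hk0 : 1 ≤ k := hK₀.trans hk1
  have hkpos : 0 < k := by linarith
  obtain ⟨hT, hphi⟩ := hinv k hk1
  have hcls : ∀ i, Clsc k c₀ C₀ m (itKc k c₀ V i) := itKc_mem724 (h2 n hn k c₀ C₀ m hkpos hc hcC hm) hT
  obtain ⟨i, hi⟩ := h3 n hn V c₀ C₀ m k hV hcen hm hk0 hcls (fun i => (hphi _ (hcls i)).1) δ hδ0
  obtain ⟨hN, hS⟩ := hphi _ (hcls i)
  set φ₀ := phiK k (itKc k c₀ V i) with hφ₀
  obtain ⟨H, hg1, hg2, hg3, hg4, hg5⟩ := toC21_fields hn φ₀ _ _ m hN hm hS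
  obtain ⟨y₀, hy₀⟩ := exists_crit hN
  -- bounds
  have hkk : 1 - ε ≤ k / (k + 1) := by
    rw [le_div_iff₀ (by linarith)]
    have : 1 ≤ ε * k := by
      rw [div_le_iff₀ hε] at hk2
      linarith
    nlinarith
  have hkk1 : k / (k + 1) ≤ 1 := by
    rw [div_le_one (by linarith)]
    linarith
  have e1 : k / ((k + 1) * C₀) = k / (k + 1) * C₀⁻¹ := by
    field_simp
  have e2 : k / ((k + 1) * c₀) = k / (k + 1) * c₀⁻¹ := by
    field_simp
  have hb1 : (1 - ε) * C₀⁻¹ ≤ k / ((k + 1) * C₀) := by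
    rw [e1]
    exact mul_le_mul_of_nonneg_right hkk (by positivity)
  have hb2 : k / ((k + 1) * c₀) ≤ c₀⁻¹ := by
    rw [e2]
    exact mul_le_of_le_one_left (by positivity) hkk1
  have hb20 : 0 ≤ k / ((k + 1) * c₀) := by positivity
  have hM : 18 * m * (k / ((k + 1) * c₀)) ^ ((3 : ℝ) / 2) ≤ 18 * m * (c₀⁻¹) ^ ((3 : ℝ) / 2) :=
    mul_le_mul_of_nonneg_left (Real.rpow_le_rpow hb20 hb2 (by norm_num)) (by positivity)
  have hφi : Integrable (fun x => Real.exp (-φ₀ x)) := hN.integrable_exp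
  have hZ0 : 0 < ∫ x, Real.exp (-φ₀ x) := hN.Z_pos
  set Z₀ := ∫ x, Real.exp (-φ₀ x) with hZ0def
  have hexp : ∀ y, Real.exp (-(φ₀ (y + y₀) + Real.log (Z₀ / Z))) = (Z / Z₀) * Real.exp (-φ₀ (y + y₀)) := by
    intro y
    rw [neg_add, Real.exp_add, ← Real.log_inv, Real.exp_log (by positivity), inv_div, mul_comm]
  refine ⟨fun y => φ₀ (y + y₀) + Real.log (Z₀ / Z), fun y => gradient φ₀ (y + y₀), fun y => H (y + y₀),
    ⟨fun y => ?_, fun y => ?_, fun y v => ?_, fun y v => ?_, fun y y' => ?_, ?_⟩, ?_, ?_⟩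
  · have h6 : HasFDerivAt (fun z : E n => z + y₀) (ContinuousLinearMap.id ℝ (E n)) y := (hasFDerivAt_id y).add_const y₀
    have h7 := ((hg1 (y + y₀)).hasFDerivAt.comp y h6).add_const (Real.log (Z₀ / Z))
    rw [hasGradientAt_iff_hasFDerivAt]
    refine h7.congr_fderiv ?_
    ext v
    simp
  · have h6 : HasFDerivAt (fun z : E n => z + y₀) (ContinuousLinearMap.id ℝ (E n)) y := (hasFDerivAt_id y).add_const y₀
    have h7 : HasFDerivAt (fun z : E n => gradient φ₀ (z + y₀)) ((H (y + y₀)).comp (ContinuousLinearMap.id ℝ (E n))) y :=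
      HasFDerivAt.comp (f := fun z : E n => z + y₀) (g := gradient φ₀) y (hg2 (y + y₀)) h6
    rwa [ContinuousLinearMap.comp_id] at h7
  · exact (mul_le_mul_of_nonneg_right hb1 (sq_nonneg _)).trans (hg3 (y + y₀) v)
  · exact (hg4 (y + y₀) v).trans (mul_le_mul_of_nonneg_right hb2 (sq_nonneg _))
  · have h6 := hg5 (y + y₀) (y' + y₀)
    rw [add_sub_add_right_eq_sub] at h6
    exact h6.trans (mul_le_mul_of_nonneg_right hM (norm_nonneg _))
  · simp only [zero_add]
    exact hy₀
  · simp only [hexp]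
    rw [integral_const_mul, integral_add_right_eq_self (fun y => Real.exp (-φ₀ y)) y₀, ← hZ0def]
    field_simp
  · intro F hF hF1
    have h6 := hi F hF hF1
    simp only [hexp]
    have e3 : ∀ y, F (gradient φ₀ (y + y₀)) * (Z / Z₀ * Real.exp (-φ₀ (y + y₀))) =
        Z / Z₀ * (F (gradient φ₀ (y + y₀)) * Real.exp (-φ₀ (y + y₀))) := fun y => by ring
    simp only [e3]
    rw [integral_const_mul, integral_add_right_eq_self (fun y => F (gradient φ₀ y) * Real.exp (-φ₀ y)) y₀]
    set A := ∫ y, F (gradient φ₀ y) * Real.exp (-φ₀ y) with hA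
    set B := ∫ x, F x * Real.exp (-V x) with hB
    have e4 : Z / Z₀ * A - B = Z * (A / Z₀ - B / Z) := by
      field_simp
    rw [e4, abs_mul, abs_of_pos hZ]
    have hs : Real.sqrt ((n : ℝ) / (c₀ * k)) ≤ δ := by
      apply Real.sqrt_le_iff.2
      refine ⟨hδ0.le, ?_⟩
      rw [div_le_iff₀ (by positivity)]
      rw [div_le_iff₀ (by positivity)] at hk3
      nlinarith
    have h7 : |A / Z₀ - B / Z| ≤ 2 * δ := by linarith
    calc Z * |A / Z₀ - B / Z| ≤ Z * (2 * δ) := mul_le_mul_of_nonneg_left h7 hZ.le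
      _ = ε := by rw [hδ]; field_simp

end Vale.Agent.P254.MC
end
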