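import Mathlib
import Vale.Agent.P254.Bdl.B1
import Vale.Agent.P254.Bdl.B2
import Vale.Agent.P254.Bdl.B6
import Vale.Agent.P347.MathlibUsed
import Vale.Agent.P254.Bdl.B7

set_option linter.all false

section

/-! # P254 stage 3, block S2: interface (helper93).

`StmtStatic` (the static inequality) follows from `StmtMMc` (block S1), `StmtBL`, `StmtN1`, `StmtBes`
(file `S2/Asm.lean`). -/

open MeasureTheory
open Vale.Agent.P227.M

namespace Vale.Agent.P254.S2

/-- `y(b) = (√(1+8b) - 1)/(2b)` -/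
noncomputable def yb (b : ℝ) : ℝ := (Real.sqrt (1 + 8 * b) - 1) / (2 * b)

/-- the energy density `⟨τ ∇f, ∇f⟩` -/
noncomputable def gam {n : ℕ} (ψ f : E n → ℝ) (x : E n) : ℝ :=
  ∑ k, ∑ l, tau ψ x k l * pd k f x * pd l f x

/-- block BL (283, 700; hedge 93 by ESA): Brascamp-Lieb for the entries of `τ` -/
def StmtBL : Prop := ∀ (n : ℕ) (ψ V : E n → ℝ) (c C M c1 C1 : ℝ), Reg V c1 C1 →
  MC.MMc ψ V c C M → ∀ i j : Fin n,
    Ex V (fun x => (tau ψ x i j) ^ 2) - (Ex V (fun x => tau ψ x i j)) ^ 2 ≤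
      Ex V (gam ψ (fun x => tau ψ x i j))

/-- block N1 (232 identity, 711 algebra, 652 hedge) -/
def StmtN1 : Prop := ∀ (n : ℕ) (ψ V : E n → ℝ) (c C M c1 C1 : ℝ), Reg V c1 C1 →
  MC.MMc ψ V c C M → ∀ w : Fin n → ℝ, (∀ i, 0 ≤ w i) →
    2 * ∑ i, ∑ j, w i * w j * Ex V (gam ψ (fun x => tau ψ x i j)) ≤
      Ex V (fun x => (Matrix.diagonal w * tau ψ x * Matrix.diagonal w * tau ψ x).trace)
        - Ex V (fun x => (hess V x * tau ψ x * Matrix.diagonal w * tau ψ x * Matrix.diagonal w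
            * tau ψ x).trace)

/-- block Bes (300, 121): Stein + Bessel; `Cov = 1` -/
def StmtBes : Prop := ∀ (n : ℕ) (ψ V : E n → ℝ) (c C M c1 C1 : ℝ), Reg V c1 C1 →
  MC.MMc ψ V c C M → (∀ i : Fin n, Ex V (fun x => x i) = 0) →
  (∀ i j : Fin n, Ex V (fun x => x i * x j) = if i = j then 1 else 0) →
    (∀ i j : Fin n, Ex V (fun x => tau ψ x i j) = if i = j then 1 else 0) ∧
    ∀ i j : Fin n, ∑ k, (Ex V (fun x => x i * x j * x k)) ^ 2 ≤
      4 * (Ex V (fun x => (tau ψ x i j) ^ 2) - (Ex V (fun x => tau ψ x i j)) ^ 2)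

/-- the static inequality -/
def StmtStatic : Prop := ∀ (n : ℕ) (V : E n → ℝ) (c C : ℝ), Reg V c C →
  (∀ i : Fin n, Ex V (fun x => x i) = 0) →
  (∀ i j : Fin n, Ex V (fun x => x i * x j) = if i = j then 1 else 0) →
  ∀ b : Fin n → ℝ, (∀ i, 0 < b i) → (∀ i, b i ≤ 1) →
  (∀ (x v : E n), ∑ i, b i * v i ^ 2 ≤ qf (hess V x) v) →
  ∀ cc : Fin n → ℝ, (∀ i, 0 ≤ cc i) →
    ∑ i, ∑ j, Real.sqrt (cc i * cc j) * ∑ k, (Ex V (fun x => x i * x j * x k)) ^ 2 ≤
      ∑ i, cc i * (4 * (yb (b i) - 1))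

end Vale.Agent.P254.S2
end

section

/-! # P227/M/Loc/TauB: linear algebra and `τ = (D²ψ)⁻¹`: symmetry, positivity, bounds, Lipschitz -/

open MeasureTheory Matrix

namespace Vale.Agent.P227.M.Loc

variable {n : ℕ}

/-- trace of a product of two positive semidefinite real matrices -/
theorem trace_mul_psd {H K : Matrix (Fin n) (Fin n) ℝ} (hH : H.PosSemidef) (hK : K.PosSemidef) :
    0 ≤ (H * K).trace := by
  obtain ⟨m, a, ha⟩ := Matrix.posSemidef_iff_eq_sum_vecMulVec.1 hH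
  rw [ha, Finset.sum_mul, Matrix.trace_sum]
  refine Finset.sum_nonneg fun i _ => ?_
  rw [Matrix.vecMulVec_mul, Matrix.trace_vecMulVec]
  have h := hK.dotProduct_mulVec_nonneg (a i)
  rw [Matrix.dotProduct_mulVec, dotProduct_comm] at h
  exact h

/-- `0 ≤ ρ² tr (Hτ) - 2ρ tr (HτNτ) + tr (HτNτNτ)` -/
theorem trace_square_nonneg {H T N : Matrix (Fin n) (Fin n) ℝ} (hH : H.PosSemidef)
    (hT : T.PosSemidef) (hN : N.IsHermitian) (ρ : ℝ) :
    0 ≤ ρ ^ 2 * (H * T).trace - 2 * ρ * (H * T * N * T).trace + (H * T * N * T * N * T).trace := by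
  have h := trace_mul_psd hH (hT.mul_mul_conjTranspose_same (ρ • (1 : Matrix (Fin n) (Fin n) ℝ) - T * N))
  have e : H * ((ρ • (1 : Matrix (Fin n) (Fin n) ℝ) - T * N) * T *
      (ρ • (1 : Matrix (Fin n) (Fin n) ℝ) - T * N)ᴴ)
      = ρ ^ 2 • (H * T) - (2 * ρ) • (H * T * N * T) + H * T * N * T * N * T := by
    rw [Matrix.conjTranspose_sub, Matrix.conjTranspose_mul, hN.eq, hT.1.eq, Matrix.conjTranspose_smul,
      Matrix.conjTranspose_one]
    simp only [Matrix.sub_mul, Matrix.mul_sub, Matrix.smul_mul, Matrix.mul_smul, Matrix.one_mul,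
      Matrix.mul_one, Matrix.mul_assoc, star_trivial, smul_sub, smul_smul]
    rw [two_mul, add_smul, pow_two]
    abel
  rw [e, Matrix.trace_add, Matrix.trace_sub, Matrix.trace_smul, Matrix.trace_smul] at h
  simpa [smul_eq_mul] using h

theorem qf_eq (A : Matrix (Fin n) (Fin n) ℝ) (v : E n) : qf A v = (v.ofLp) ⬝ᵥ (A *ᵥ v.ofLp) := by
  simp only [qf, dotProduct, Matrix.mulVec, Finset.mul_sum]
  refine Finset.sum_congr rfl fun i _ => Finset.sum_congr rfl fun j _ => ?_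
  ring

theorem posSemidef_of_qf {A : Matrix (Fin n) (Fin n) ℝ} (hs : ∀ i j, A i j = A j i)
    (h : ∀ v : E n, 0 ≤ qf A v) : A.PosSemidef := by
  refine Matrix.PosSemidef.of_dotProduct_mulVec_nonneg ?_ fun v => ?_
  · ext i j
    simp [hs i j]
  · have := h (WithLp.toLp 2 v)
    rw [qf_eq] at this
    simpa using this

theorem posDef_of_qf {A : Matrix (Fin n) (Fin n) ℝ} (hs : ∀ i j, A i j = A j i) {c : ℝ} (hc : 0 < c)
    (h : ∀ v : E n, c * ‖v‖ ^ 2 ≤ qf A v) : A.PosDef := by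
  refine Matrix.PosDef.of_dotProduct_mulVec_pos ?_ fun v hv => ?_
  · ext i j
    simp [hs i j]
  · have := h (WithLp.toLp 2 v)
    rw [qf_eq] at this
    have h2 : 0 < ‖WithLp.toLp 2 v‖ := by
      rw [norm_pos_iff]
      intro h0
      apply hv
      simpa using h0
    have h3 : 0 < c * ‖WithLp.toLp 2 v‖ ^ 2 := by positivity
    simpa using lt_of_lt_of_le h3 this

/-- second derivatives of a `C²` function -/
theorem hess_eq {f : E n → ℝ} (hf : ContDiff ℝ 2 f) (x : E n) (i j : Fin n) :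
    hess f x i j = fderiv ℝ (fderiv ℝ f) x (ei i) (ei j) := by
  have hd : DifferentiableAt ℝ (fderiv ℝ f) x :=
    ((hf.fderiv_right (m := 1) (by norm_num)).differentiable (by norm_num)) x
  have h : HasFDerivAt (fun y => fderiv ℝ f y (ei j))
      ((ContinuousLinearMap.apply ℝ ℝ (ei j)).comp (fderiv ℝ (fderiv ℝ f) x)) x :=
    (ContinuousLinearMap.apply ℝ ℝ (ei j : E n)).hasFDerivAt.comp x hd.hasFDerivAt
  show fderiv ℝ (fun y => fderiv ℝ f y (ei j)) x (ei i) = _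
  rw [h.fderiv]
  rfl

theorem hess_symm {f : E n → ℝ} (hf : ContDiff ℝ 2 f) (x : E n) (i j : Fin n) :
    hess f x i j = hess f x j i := by
  rw [hess_eq hf, hess_eq hf]
  have h : IsSymmSndFDerivAt ℝ f x := hf.contDiffAt.isSymmSndFDerivAt (by simp)
  exact h _ _

theorem sum_ei (v : E n) : v = ∑ i, v i • (ei i : E n) := by
  ext k
  simp [ei, Pi.single_apply]

theorem qf_hess {f : E n → ℝ} (hf : ContDiff ℝ 2 f) (x v : E n) :
    qf (hess f x) v = fderiv ℝ (fderiv ℝ f) x v v := by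
  have h : ∀ B : E n →L[ℝ] E n →L[ℝ] ℝ, B v v = ∑ i, ∑ j, B (ei i) (ei j) * v i * v j := fun B => by
    conv_lhs => rw [sum_ei v]
    simp only [map_sum, map_smul, smul_eq_mul, FunLike.coe_sum, Finset.sum_apply,
      FunLike.coe_smul, Pi.smul_apply]
    rw [Finset.sum_comm]
    refine Finset.sum_congr rfl fun i _ => ?_
    simp only [Finset.mul_sum]
    refine Finset.sum_congr rfl fun j _ => ?_
    ring
  rw [h, qf]
  simp only [hess_eq hf]

/-! ### bounds for the inverse matrix -/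

theorem abs_inv_le {A : Matrix (Fin n) (Fin n) ℝ} (hA : A.PosDef) {c : ℝ} (hc : 0 < c)
    (h : ∀ v : E n, c * ‖v‖ ^ 2 ≤ qf A v) (i j : Fin n) : |A⁻¹ i j| ≤ 1 / c := by
  set w : E n := WithLp.toLp 2 (A⁻¹ *ᵥ (Pi.single j 1)) with hw
  have hwi : ∀ i, w i = A⁻¹ i j := fun i => by simp [hw]
  have hdet : IsUnit A.det := (Matrix.isUnit_iff_isUnit_det A).1 hA.isUnit
  have h1 := h w
  rw [qf_eq] at h1
  have h2 : A *ᵥ w.ofLp = Pi.single j 1 := by
    rw [hw]
    simp only [Matrix.mulVec_mulVec]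
    rw [Matrix.mul_nonsing_inv _ hdet, Matrix.one_mulVec]
  rw [h2] at h1
  simp only [dotProduct_single, mul_one] at h1
  have h3 : ∀ i, |w i| ≤ ‖w‖ := fun i => by
    have := PiLp.norm_apply_le w i
    simpa using this
  have h4 : c * ‖w‖ ^ 2 ≤ ‖w‖ := h1.trans ((le_abs_self _).trans (h3 j))
  have h5 : ‖w‖ ≤ 1 / c := by
    rw [le_div_iff₀ hc]
    by_contra hcon
    push Not at hcon
    have h0 : 0 < ‖w‖ := by
      by_contra h0
      have : ‖w‖ = 0 := le_antisymm (not_lt.1 h0) (norm_nonneg _)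
      rw [this] at hcon
      linarith
    nlinarith
  rw [← hwi i]
  exact (h3 i).trans h5

theorem inv_sub_inv {A B : Matrix (Fin n) (Fin n) ℝ} (hA : A.PosDef) (hB : B.PosDef) :
    A⁻¹ - B⁻¹ = A⁻¹ * (B - A) * B⁻¹ := by
  have hdA : IsUnit A.det := (Matrix.isUnit_iff_isUnit_det A).1 hA.isUnit
  have hdB : IsUnit B.det := (Matrix.isUnit_iff_isUnit_det B).1 hB.isUnit
  rw [Matrix.mul_sub, Matrix.sub_mul, Matrix.nonsing_inv_mul _ hdA, Matrix.mul_assoc,
    Matrix.mul_nonsing_inv _ hdB]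
  simp

theorem abs_inv_sub_le {A B : Matrix (Fin n) (Fin n) ℝ} (hA : A.PosDef) (hB : B.PosDef) {c : ℝ}
    (hc : 0 < c) (h : ∀ v : E n, c * ‖v‖ ^ 2 ≤ qf A v) (h' : ∀ v : E n, c * ‖v‖ ^ 2 ≤ qf B v)
    {d : ℝ} (hd : ∀ i j, |A i j - B i j| ≤ d) (i j : Fin n) :
    |A⁻¹ i j - B⁻¹ i j| ≤ (n : ℝ) ^ 2 * (1 / c) ^ 2 * d := by
  have e : A⁻¹ i j - B⁻¹ i j = ∑ b, ∑ a, A⁻¹ i a * (B a b - A a b) * B⁻¹ b j := by
    have := congrFun (congrFun (inv_sub_inv hA hB) i) j
    rw [Matrix.sub_apply] at this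
    rw [this, Matrix.mul_apply]
    refine Finset.sum_congr rfl fun b _ => ?_
    rw [Matrix.mul_apply, Finset.sum_mul]
    rfl
  rw [e]
  have h0 : (0 : ℝ) < 1 / c := by positivity
  calc |∑ b, ∑ a, A⁻¹ i a * (B a b - A a b) * B⁻¹ b j|
      ≤ ∑ b, ∑ a, |A⁻¹ i a * (B a b - A a b) * B⁻¹ b j| :=
        (Finset.abs_sum_le_sum_abs _ _).trans
          (Finset.sum_le_sum fun b _ => Finset.abs_sum_le_sum_abs _ _)
    _ ≤ ∑ _b : Fin n, ∑ _a : Fin n, (1 / c) * d * (1 / c) := by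
        refine Finset.sum_le_sum fun b _ => Finset.sum_le_sum fun a _ => ?_
        rw [abs_mul, abs_mul]
        have h1 := abs_inv_le hA hc h i a
        have h2 := abs_inv_le hB hc h' b j
        have h3 : |B a b - A a b| ≤ d := by rw [abs_sub_comm]; exact hd a b
        exact mul_le_mul (mul_le_mul h1 h3 (abs_nonneg _) h0.le) h2 (abs_nonneg _)
          (mul_nonneg h0.le ((abs_nonneg _).trans h3))
    _ = (n : ℝ) ^ 2 * (1 / c) ^ 2 * d := by
        simp only [Finset.sum_const, Finset.card_univ, Fintype.card_fin, nsmul_eq_mul]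
        ring

/-! ### `τ` -/

variable {ψ V : E n → ℝ} {c C M : ℝ}

theorem hess_psi_posDef (h : MM ψ V c C M) (x : E n) : (hess ψ x).PosDef :=
  posDef_of_qf (hess_symm h.C2 x) h.c_pos (h.lower x)

theorem tau_posDef (h : MM ψ V c C M) (x : E n) : (tau ψ x).PosDef := (hess_psi_posDef h x).inv

theorem tau_symm (h : MM ψ V c C M) (x : E n) (i j : Fin n) : tau ψ x i j = tau ψ x j i := by
  have := (tau_posDef h x).isHermitian
  have h2 := congrFun (congrFun this j) i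
  simpa using h2

theorem tau_bdd (h : MM ψ V c C M) (x : E n) (i j : Fin n) : |tau ψ x i j| ≤ 1 / c :=
  abs_inv_le (hess_psi_posDef h x) h.c_pos (h.lower x) i j

theorem tau_lip (h : MM ψ V c C M) (x y : E n) (i j : Fin n) :
    |tau ψ x i j - tau ψ y i j| ≤ (n : ℝ) ^ 2 * (1 / c) ^ 2 * M * ‖x - y‖ := by
  have := abs_inv_sub_le (hess_psi_posDef h x) (hess_psi_posDef h y) h.c_pos (h.lower x) (h.lower y)
    (fun i j => h.lip i j x y) i j
  rw [mul_assoc]
  exact this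

theorem tau_continuous (h : MM ψ V c C M) (i j : Fin n) : Continuous (fun x => tau ψ x i j) := by
  have : LipschitzWith (Real.toNNReal ((n : ℝ) ^ 2 * (1 / c) ^ 2 * M)) (fun x => tau ψ x i j) := by
    refine LipschitzWith.of_dist_le' fun x y => ?_
    rw [Real.dist_eq, dist_eq_norm]
    exact tau_lip h x y i j
  exact this.continuous

end Vale.Agent.P227.M.Loc
end

section

/-! # P227/M: from the `y`-space moment potential to the structure `MM` -/

open MeasureTheory Set Metric Filter Topology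

namespace Vale.Agent.P227.M.DUAL

variable {n : ℕ}

theorem dual_inner_ei (v : E n) (i : Fin n) : (inner ℝ v (ei i) : ℝ) = v i := by
  simp [ei, EuclideanSpace.inner_single_right]

theorem dual_sum_ei (v : E n) : ∑ i, v i • (ei i : E n) = v := by
  ext j
  simp [ei, Finset.sum_apply, Pi.single_apply]

theorem dual_pd {ψ : E n → ℝ} {h : E n → E n} (h1 : ∀ x, HasGradientAt ψ (h x) x) (i : Fin n) (x : E n) :
    pd i ψ x = h x i := by
  unfold pd
  rw [(h1 x).hasFDerivAt.fderiv, InnerProductSpace.toDual_apply_apply]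
  exact dual_inner_ei _ _

theorem dual_hess {ψ : E n → ℝ} {h : E n → E n} {S : E n → E n →L[ℝ] E n} (h1 : ∀ x, HasGradientAt ψ (h x) x)
    (h2 : ∀ x, HasFDerivAt h (S x) x) (x : E n) (i j : Fin n) : hess ψ x i j = inner ℝ (S x (ei i)) (ei j) := by
  have h3 : pd j ψ = fun x => (inner ℝ (h x) (ei j) : ℝ) := by
    funext z
    rw [dual_pd h1, dual_inner_ei]
  have h4 : HasFDerivAt (fun x => (inner ℝ (h x) (ei j) : ℝ))
      ((fderivInnerCLM ℝ (h x, ei j)).comp ((S x).prod (0 : E n →L[ℝ] E n))) x :=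
    (h2 x).inner ℝ (hasFDerivAt_const (ei j) x)
  unfold hess
  rw [h3]
  unfold pd
  rw [h4.fderiv]
  simp [fderivInnerCLM_apply]

theorem dual_qf {ψ : E n → ℝ} {h : E n → E n} {S : E n → E n →L[ℝ] E n} (h1 : ∀ x, HasGradientAt ψ (h x) x)
    (h2 : ∀ x, HasFDerivAt h (S x) x) (x v : E n) : qf (hess ψ x) v = inner ℝ (S x v) v := by
  unfold qf
  have hv : (inner ℝ (S x v) v : ℝ) = inner ℝ (S x (∑ i, v i • (ei i : E n))) (∑ j, v j • (ei j : E n)) := by
    rw [dual_sum_ei]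
  rw [hv, map_sum, sum_inner]
  refine Finset.sum_congr rfl fun i _ => ?_
  rw [inner_sum]
  refine Finset.sum_congr rfl fun j _ => ?_
  rw [dual_hess h1 h2, map_smul, inner_smul_left, inner_smul_right]
  simp
  ring

theorem dual_det {ψ : E n → ℝ} {h : E n → E n} {S : E n → E n →L[ℝ] E n} (h1 : ∀ x, HasGradientAt ψ (h x) x)
    (h2 : ∀ x, HasFDerivAt h (S x) x) (x : E n) : (hess ψ x).det = (S x).det := by
  have h3 : (LinearMap.toMatrix (EuclideanSpace.basisFun (Fin n) ℝ).toBasis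
      (EuclideanSpace.basisFun (Fin n) ℝ).toBasis (S x : E n →ₗ[ℝ] E n)).transpose = hess ψ x := by
    ext i j
    rw [Matrix.transpose_apply, LinearMap.toMatrix_apply, dual_hess h1 h2, dual_inner_ei]
    simp [ei]
  rw [← h3, Matrix.det_transpose, LinearMap.det_toMatrix]

theorem dual_contDiff {ψ : E n → ℝ} {h : E n → E n} {S : E n → E n →L[ℝ] E n} (h1 : ∀ x, HasGradientAt ψ (h x) x)
    (h2 : ∀ x, HasFDerivAt h (S x) x) (h3 : Continuous S) : ContDiff ℝ 2 ψ := by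
  have h4 : ContDiff ℝ 1 h := by
    refine contDiff_one_iff_fderiv.2 ⟨fun x => (h2 x).differentiableAt, ?_⟩
    have h5 : fderiv ℝ h = S := funext fun x => (h2 x).fderiv
    rwa [h5]
  have h6 : (2 : WithTop ℕ∞) = 1 + 1 := by norm_num
  rw [h6, contDiff_succ_iff_fderiv]
  refine ⟨fun x => (h1 x).hasFDerivAt.differentiableAt, by simp, ?_⟩
  have h7 : fderiv ℝ ψ = fun x => InnerProductSpace.toDual ℝ (E n) (h x) := funext fun x => (h1 x).hasFDerivAt.fderiv
  rw [h7]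
  exact (InnerProductSpace.toDual ℝ (E n)).toContinuousLinearEquiv.contDiff.comp h4

/-- **From the moment potential `φ` to `MM`.** -/
theorem mm_of_lim {φ V : E n → ℝ} {g : E n → E n} {T : E n → E n →L[ℝ] E n} {c C M : ℝ}
    (hc : 0 < c) (hC : 0 < C) (hM : 0 ≤ M)
    (hφ : ∀ y, HasGradientAt φ (g y) y) (hg : ∀ y, HasFDerivAt g (T y) y)
    (hTa : ∀ y v, C⁻¹ * ‖v‖ ^ 2 ≤ inner ℝ (T y v) v) (hTA : ∀ y v, inner ℝ (T y v) v ≤ c⁻¹ * ‖v‖ ^ 2)
    (hTM : ∀ y z, ‖T y - T z‖ ≤ M * ‖y - z‖) (hev : ∀ y, φ (-y) = φ y)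
    (hMA : ∀ y, Real.exp (-φ y) = Real.exp (-V (g y)) * |(T y).det|) :
    ∃ (ψ : E n → ℝ) (M' : ℝ), MM ψ V c C M' ∧ (∀ y, ψ (g y) = inner ℝ (g y) y - φ y) := by
  obtain ⟨ψ, h, S, hl, hr, hψ, hh, hST, hTS, hSs, hSlow, hSn, hSlip, hhlip, hodd, hψev, hφψ⟩ :=
    exists_dual (inv_pos.2 hC) (inv_nonneg.2 hc.le) hM hφ hg hTa hTA hTM hev
  rw [inv_inv] at hSlow hSn hhlip
  have hM' : 0 ≤ M / C⁻¹ ^ 3 := by positivity
  have hSc : Continuous S := by
    have hL : LipschitzWith (Real.toNNReal (M / C⁻¹ ^ 3)) S := LipschitzWith.of_dist_le_mul fun x z => by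
      rw [dist_eq_norm, dist_eq_norm, Real.coe_toNNReal _ hM']
      exact hSlip x z
    exact hL.continuous
  refine ⟨ψ, M / C⁻¹ ^ 3, ⟨hc, dual_contDiff hψ hh hSc, hψev, fun x v => ?_, fun x v => ?_, fun i j x y => ?_,
    fun x => ?_⟩, fun y => ?_⟩
  · rw [dual_qf hψ hh]
    exact hSlow x v
  · rw [dual_qf hψ hh]
    calc (inner ℝ (S x v) v : ℝ) ≤ ‖S x v‖ * ‖v‖ := real_inner_le_norm _ _
      _ ≤ (C * ‖v‖) * ‖v‖ := by
        refine mul_le_mul_of_nonneg_right ?_ (norm_nonneg _)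
        exact (ContinuousLinearMap.le_opNorm _ _).trans (mul_le_mul_of_nonneg_right (hSn x) (norm_nonneg _))
      _ = C * ‖v‖ ^ 2 := by ring
  · rw [dual_hess hψ hh, dual_hess hψ hh, ← inner_sub_left]
    have h1 : S x (ei i) - S y (ei i) = (S x - S y) (ei i) := by rw [sub_apply]
    rw [h1]
    have hn : ∀ i : Fin n, ‖(ei i : E n)‖ = 1 := fun i => by simp [ei]
    calc |(inner ℝ ((S x - S y) (ei i)) (ei j) : ℝ)| ≤ ‖(S x - S y) (ei i)‖ * ‖(ei j : E n)‖ := abs_real_inner_le_norm _ _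
      _ ≤ (‖S x - S y‖ * ‖(ei i : E n)‖) * ‖(ei j : E n)‖ :=
        mul_le_mul_of_nonneg_right (ContinuousLinearMap.le_opNorm _ _) (norm_nonneg _)
      _ ≤ M / C⁻¹ ^ 3 * ‖x - y‖ := by
        rw [hn, hn, mul_one, mul_one]
        exact hSlip x y
  · have h1 := hMA (h x)
    rw [hr] at h1
    have h2 : (S x).det * (T (h x)).det = 1 := by
      have h3 : (S x).comp (T (h x)) = ContinuousLinearMap.id ℝ (E n) := by
        ext1 v
        exact hST x v
      have h4 : LinearMap.det ((S x : E n →ₗ[ℝ] E n) ∘ₗ (T (h x) : E n →ₗ[ℝ] E n)) = 1 := by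
        have h5 : (S x : E n →ₗ[ℝ] E n) ∘ₗ (T (h x) : E n →ₗ[ℝ] E n) = LinearMap.id := by
          ext1 v
          exact hST x v
        rw [h5, LinearMap.det_id]
      rw [LinearMap.det_comp] at h4
      exact h4
    have hS0 : (S x).det ≠ 0 := fun h0 => by
      rw [h0, zero_mul] at h2
      exact zero_ne_one h2
    have hT0 : (T (h x)).det ≠ 0 := fun h0 => by
      rw [h0, mul_zero] at h2
      exact zero_ne_one h2
    have h6 : -φ (h x) = -V x + Real.log |(T (h x)).det| := by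
      have h7 := congrArg Real.log h1
      rw [Real.log_exp, Real.log_mul (Real.exp_pos _).ne' (abs_pos.2 hT0).ne', Real.log_exp] at h7
      exact h7
    have h8 : Real.log (hess ψ x).det = -Real.log |(T (h x)).det| := by
      rw [dual_det hψ hh, Real.log_abs, ← Real.log_inv]
      congr 1
      exact eq_inv_of_mul_eq_one_left h2
    have h9 : (∑ i, x i * pd i ψ x) = inner ℝ x (h x) := by
      have h10 : (inner ℝ x (h x) : ℝ) = ∑ i, x i * h x i := by
        rw [PiLp.inner_apply]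
        exact Finset.sum_congr rfl fun i _ => by simp [mul_comm]
      rw [h10]
      exact Finset.sum_congr rfl fun i _ => by rw [dual_pd hψ]
    rw [h9, h8]
    have h11 := hφψ x
    linarith
  · have h1 := hφψ (g y)
    rw [hl] at h1
    linarith

end Vale.Agent.P227.M.DUAL
end

section
attribute [-instance] ProperSMul.toContinuousSMul IsTopologicalTorsor.toContinuousSMul IdemSemiring.toCanonicallyOrderedAdd IdemSemiring.toMulLeftMono IdemSemiring.toMulRightMono AddQuantale.instAddLeftMono AddQuantale.instAddRightMono Quantale.instMulLeftMono Quantale.instMulRightMono FiniteDimensional.rclike_to_real IsScalarTower.complexToReal FiniteDimensional.complexToReal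

/-! Auxiliary file for task B (P347): Prekopa-Leindler on `E` and the Poincare inequality for
compactly supported functions. -/

open MeasureTheory Filter Module Set Topology
open scoped ENNReal NNReal

namespace Vale.Agent.P347

variable {E : Type*} [NormedAddCommGroup E] [InnerProductSpace ℝ E] [FiniteDimensional ℝ E]
  [MeasurableSpace E] [BorelSpace E]

theorem pl_enn (f g h : E → ℝ≥0∞) (hf : Measurable f) (hg : Measurable g) (hh : Measurable h)
    (hfg : ∀ x y, f x * g y ≤ h ((2 : ℝ)⁻¹ • (x + y)) ^ 2) :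
    (∫⁻ x, f x) * (∫⁻ x, g x) ≤ (∫⁻ x, h x) ^ 2 := by
  set b := stdOrthonormalBasis ℝ E
  have hmp := b.measurePreserving_repr_symm
  rw [← hmp.lintegral_comp hf, ← hmp.lintegral_comp hg, ← hmp.lintegral_comp hh]
  refine Vale.Agent.P074.prekopa_leindler _ _ _ (hf.comp hmp.measurable) (hg.comp hmp.measurable)
    (hh.comp hmp.measurable) fun x y => ?_
  have := hfg (b.repr.symm x) (b.repr.symm y)
  simpa only [smul_add, map_add, map_smul, ge_iff_le] using this

theorem pl_exp {A B C : E → ℝ} (hA : Continuous A) (hB : Continuous B) (hC : Continuous C)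
    (iC : Integrable (fun x => Real.exp (C x)) (volume : Measure E))
    (h : ∀ x y, A x + B y ≤ 2 * C ((2 : ℝ)⁻¹ • (x + y))) :
    (∫⁻ x, ENNReal.ofReal (Real.exp (A x))) * (∫⁻ x, ENNReal.ofReal (Real.exp (B x)))
      ≤ ENNReal.ofReal ((∫ x, Real.exp (C x)) ^ 2) := by
  have h1 := pl_enn (fun x : E => ENNReal.ofReal (Real.exp (A x)))
    (fun x => ENNReal.ofReal (Real.exp (B x))) (fun x => ENNReal.ofReal (Real.exp (C x)))
    (by (clear B C hB hC iC h; fun_prop)) (by (clear A C hA hC iC h; fun_prop)) (by (clear A B hA hB iC h; fun_prop)) (fun x y => by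
      rw [← ENNReal.ofReal_mul (Real.exp_pos _).le, ← ENNReal.ofReal_pow (Real.exp_pos _).le,
        ← Real.exp_add, ← Real.exp_nat_mul]
      exact ENNReal.ofReal_le_ofReal (Real.exp_le_exp.2 (by exact_mod_cast h x y)))
  rw [← ofReal_integral_eq_lintegral_ofReal iC
    (Eventually.of_forall fun x => (Real.exp_pos _).le)] at h1
  rwa [ENNReal.ofReal_pow (integral_nonneg fun x => (Real.exp_pos _).le)]

theorem pl_exp_real {A B C : E → ℝ} (hA : Continuous A) (hB : Continuous B) (hC : Continuous C)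
    (iA : Integrable (fun x => Real.exp (A x)) (volume : Measure E))
    (iB : Integrable (fun x => Real.exp (B x)) (volume : Measure E))
    (iC : Integrable (fun x => Real.exp (C x)) (volume : Measure E))
    (h : ∀ x y, A x + B y ≤ 2 * C ((2 : ℝ)⁻¹ • (x + y))) :
    (∫ x, Real.exp (A x)) * (∫ x, Real.exp (B x)) ≤ (∫ x, Real.exp (C x)) ^ 2 := by
  have h1 := pl_exp hA hB hC iC h
  rw [← ofReal_integral_eq_lintegral_ofReal iA
    (Eventually.of_forall fun x => (Real.exp_pos _).le),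
    ← ofReal_integral_eq_lintegral_ofReal iB
    (Eventually.of_forall fun x => (Real.exp_pos _).le),
    ← ENNReal.ofReal_mul (integral_nonneg fun x => (Real.exp_pos _).le)] at h1
  exact (ENNReal.ofReal_le_ofReal_iff (by (clear A B hA hB hC iA iB iC h h1; positivity))).1 h1

omit [FiniteDimensional ℝ E] [MeasurableSpace E] [BorelSpace E] in
/-- The directional variation bound behind the Poincare inequality. -/
lemma sup_bound {m : ℝ} (hm : 0 < m) {f : E → ℝ} {g : E → E}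
    (hf : ∀ x, HasFDerivAt f (innerSL ℝ (g x)) x) {L : ℝ} (hL : ∀ x, ‖g x‖ ≤ L)
    {ε δ : ℝ} (hε : 0 < ε) (hu : ∀ x y, ‖x - y‖ ≤ δ → ‖g x - g y‖ ≤ ε)
    {t : ℝ} (ht : 0 < t) (htδ : 4 * (t * L) ≤ m * δ) (x y : E) :
    t * (f x - f y) - m / 4 * ‖x - y‖ ^ 2
      ≤ t ^ 2 * (‖g ((2 : ℝ)⁻¹ • (x + y))‖ + ε) ^ 2 / m := by
  set z := (2 : ℝ)⁻¹ • (x + y) with hz
  have hr := norm_nonneg (x - y)
  have hg0 := norm_nonneg (g z)
  have hL0 : 0 ≤ L := (norm_nonneg _).trans (hL x)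
  by_cases hxy : ‖x - y‖ ≤ δ
  · have h1 : f x - f y ≤ (‖g z‖ + ε) * ‖x - y‖ := by
      have h2 : ‖f x - f y‖ ≤ (‖g z‖ + ε) * ‖x - y‖ := by
        refine Convex.norm_image_sub_le_of_norm_hasFDerivWithin_le (𝕜 := ℝ) (s := segment ℝ y x)
          (f' := fun w => innerSL ℝ (g w)) (fun w _ => (hf w).hasFDerivWithinAt) ?_
          (convex_segment y x) (left_mem_segment ℝ y x) (right_mem_segment ℝ y x)
        intro w hw
        rw [innerSL_apply_norm]
        obtain ⟨a, b, ha, hb, hab, rfl⟩ := hw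
        have h3 : ‖(a • y + b • x) - z‖ ≤ δ := by
          have : (a • y + b • x) - z = ((b - 1 / 2 : ℝ)) • (x - y) := by
            rw [hz]
            have ha' : a = 1 - b := by linarith only [hab]
            subst ha'
            module
          rw [this, norm_smul]
          have hb1 : |b - 1 / 2| ≤ 1 := by rw [abs_le]; constructor <;> (first | linarith only [hb] | linarith only [hab, ha])
          calc ‖(b - 1 / 2 : ℝ)‖ * ‖x - y‖ ≤ 1 * ‖x - y‖ := by
                gcongr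
                exact hb1
            _ ≤ δ := by linarith only [hxy]
        calc ‖g (a • y + b • x)‖ = ‖g z + (g (a • y + b • x) - g z)‖ := by congr 1; abel
          _ ≤ ‖g z‖ + ‖g (a • y + b • x) - g z‖ := norm_add_le _ _
          _ ≤ ‖g z‖ + ε := by gcongr; exact hu _ _ h3
      exact (le_abs_self _).trans h2
    have h4 : t * (f x - f y) ≤ t * ((‖g z‖ + ε) * ‖x - y‖) := by (clear * - h1 ht; gcongr)
    have h5 : 0 ≤ (t * (‖g z‖ + ε) - m / 2 * ‖x - y‖) ^ 2 := sq_nonneg _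
    rw [le_div_iff₀ hm]
    linarith only [mul_nonneg (le_of_lt hm) (sub_nonneg.2 h4), h5]
  · push Not at hxy
    have h1 : f x - f y ≤ L * ‖x - y‖ := by
      have h2 : ‖f x - f y‖ ≤ L * ‖x - y‖ := by
        refine Convex.norm_image_sub_le_of_norm_hasFDerivWithin_le (𝕜 := ℝ) (s := univ)
          (f' := fun w => innerSL ℝ (g w)) (fun w _ => (hf w).hasFDerivWithinAt) ?_
          convex_univ (mem_univ _) (mem_univ _)
        intro w _
        rw [innerSL_apply_norm]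
        exact hL w
      exact (le_abs_self _).trans h2
    have h4 : t * (f x - f y) ≤ t * (L * ‖x - y‖) := by (clear * - h1 ht; gcongr)
    have h5 : 0 ≤ t ^ 2 * (‖g z‖ + ε) ^ 2 / m := by (clear * - ht hε hm; positivity)
    have h6 : t * L ≤ m / 4 * ‖x - y‖ := by linarith only [mul_pos hm (sub_pos.2 hxy), htδ]
    have h7 : t * (L * ‖x - y‖) ≤ m / 4 * ‖x - y‖ ^ 2 := by
      calc t * (L * ‖x - y‖) = (t * L) * ‖x - y‖ := by ring
        _ ≤ (m / 4 * ‖x - y‖) * ‖x - y‖ := by (clear * - h6; gcongr)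
        _ = m / 4 * ‖x - y‖ ^ 2 := by ring
    linarith only [h5, h4, h7]

lemma gibbs_exp {U : E → ℝ} (φ : E → ℝ) :
    ∫ x, Real.exp (φ x) ∂(gibbs U)
      = (∫ x, Real.exp (-U x))⁻¹ * ∫ x, Real.exp (φ x - U x) := by
  rw [gibbs_integral]
  simp only [smul_eq_mul]
  congr 1
  refine integral_congr_ae (Eventually.of_forall fun x => ?_)
  simp only
  rw [← Real.exp_add]
  congr 1
  ring

/-- Prekopa-Leindler for exponential moments under a Gibbs law. -/
lemma gibbs_pl {U : E → ℝ} {m : ℝ} (hU : Adm U)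
    (hc : ∀ x y, U ((2 : ℝ)⁻¹ • (x + y)) ≤ (U x + U y) / 2 - m / 8 * ‖x - y‖ ^ 2)
    {φ ψ : E → ℝ} (cφ : Continuous φ) (cψ : Continuous ψ)
    (iφ : Integrable (fun x => Real.exp (φ x - U x)) (volume : Measure E))
    (iφ' : Integrable (fun x => Real.exp (-φ x - U x)) (volume : Measure E))
    (iψ : Integrable (fun x => Real.exp (ψ x - U x)) (volume : Measure E))
    (h : ∀ x y, φ x - φ y - m / 4 * ‖x - y‖ ^ 2 ≤ 2 * ψ ((2 : ℝ)⁻¹ • (x + y))) :
    (∫ x, Real.exp (φ x) ∂(gibbs U)) * (∫ x, Real.exp (-φ x) ∂(gibbs U))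
      ≤ (∫ x, Real.exp (ψ x) ∂(gibbs U)) ^ 2 := by
  have cU := hU.cont
  have h1 := pl_exp_real (A := fun x => φ x - U x) (B := fun x => -φ x - U x)
    (C := fun x => ψ x - U x) (by fun_prop) (by fun_prop) (by fun_prop) iφ iφ' iψ
    (fun x y => by have := hc x y; have := h x y; (clear hU cφ cψ iφ iφ' iψ cU; linarith))
  rw [gibbs_exp, gibbs_exp (fun x => -φ x), gibbs_exp]
  have hZ := hU.integral_exp_pos
  have hZ' : 0 ≤ ((∫ x, Real.exp (-U x))⁻¹) ^ 2 := by (clear m hc φ ψ cφ cψ iφ iφ' iψ h cU h1; positivity)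
  calc _ = ((∫ x, Real.exp (-U x))⁻¹) ^ 2 *
        ((∫ x, Real.exp (φ x - U x)) * (∫ x, Real.exp (-φ x - U x))) := by ring
    _ ≤ ((∫ x, Real.exp (-U x))⁻¹) ^ 2 * (∫ x, Real.exp (ψ x - U x)) ^ 2 := by gcongr
    _ = _ := by ring

lemma real_lim {A B D c c' t0 : ℝ} (ht0 : 0 < t0)
    (h : ∀ t, 0 < t → t ≤ t0 → (1 + t * A + t ^ 2 * B / 2 - c * t ^ 3)
      * (1 - t * A + t ^ 2 * B / 2 - c * t ^ 3) ≤ (1 + t ^ 2 * D + c' * t ^ 4) ^ 2) :
    B - A ^ 2 ≤ 2 * D := by
  have h1 : ∀ t ∈ Ioc 0 t0, 0 ≤ 2 * D - B + A ^ 2 + 2 * c' * t ^ 2 + t ^ 2 * (D + c' * t ^ 2) ^ 2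
      + 2 * c * t - t ^ 2 * (B / 2 - c * t) ^ 2 := by
    intro t ht
    have h2 := h t ht.1 ht.2
    have h3 : 0 ≤ t ^ 2 * (2 * D - B + A ^ 2 + 2 * c' * t ^ 2 + t ^ 2 * (D + c' * t ^ 2) ^ 2
      + 2 * c * t - t ^ 2 * (B / 2 - c * t) ^ 2) := by
      linarith only [h2]
    exact nonneg_of_mul_nonneg_right h3 (by have := ht.1; positivity)
  have h4 : Tendsto (fun t : ℝ => 2 * D - B + A ^ 2 + 2 * c' * t ^ 2
      + t ^ 2 * (D + c' * t ^ 2) ^ 2 + 2 * c * t - t ^ 2 * (B / 2 - c * t) ^ 2) (𝓝[>] 0)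
      (𝓝 (2 * D - B + A ^ 2)) := by
    have h5 : Continuous (fun t : ℝ => 2 * D - B + A ^ 2 + 2 * c' * t ^ 2
      + t ^ 2 * (D + c' * t ^ 2) ^ 2 + 2 * c * t - t ^ 2 * (B / 2 - c * t) ^ 2) := by fun_prop
    have h6 := (h5.tendsto 0).mono_left (nhdsWithin_le_nhds (s := Ioi (0 : ℝ)))
    simpa only [ne_eq, OfNat.ofNat_ne_zero, not_false_eq_true, zero_pow, mul_zero, add_zero, zero_mul,     sub_zero] using h6
  have h7 : 0 ≤ 2 * D - B + A ^ 2 := by
    refine ge_of_tendsto h4 ?_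
    filter_upwards [Ioc_mem_nhdsGT ht0] with t ht using h1 t ht
  linarith only [h7]

lemma exp_lower {u : ℝ} (hu : |u| ≤ 1) : 1 + u + u ^ 2 / 2 - |u| ^ 3 ≤ Real.exp u := by
  have h := Real.exp_bound hu (n := 3) (by norm_num)
  simp only [Finset.sum_range_succ, Finset.range_one, Finset.sum_singleton, pow_zero, Nat.factorial, Nat.cast_one, ne_eq, one_ne_zero, not_false_eq_true, div_self, pow_one, Nat.succ_eq_add_one, zero_add, mul_one, div_one, Nat.reduceAdd, Nat.cast_ofNat, Nat.reduceMul] at h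
  have h2 := (abs_le.1 h).1
  have h3 : (0 : ℝ) ≤ |u| ^ 3 := by positivity
  norm_num at h2 ⊢
  linarith only [h3, h2]

lemma exp_upper {u : ℝ} (h0 : 0 ≤ u) (hu : u ≤ 1) : Real.exp u ≤ 1 + u + u ^ 2 := by
  have h := Real.abs_exp_sub_one_sub_id_le (x := u) (by rw [abs_of_nonneg h0]; exact hu)
  have h2 := (abs_le.1 h).2
  linarith only [h2]

/-- Poincare for compactly supported functions. -/
lemma poincare_cs {U : E → ℝ} {m : ℝ} (hm : 0 < m) (hU : Adm U)
    (hc : ∀ x y, U ((2 : ℝ)⁻¹ • (x + y)) ≤ (U x + U y) / 2 - m / 8 * ‖x - y‖ ^ 2)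
    {f : E → ℝ} {g : E → E} (hf : ∀ x, HasFDerivAt f (innerSL ℝ (g x)) x) (hg : Continuous g)
    (hcs : HasCompactSupport f) :
    (∫ x, f x ^ 2 ∂(gibbs U)) - (∫ x, f x ∂(gibbs U)) ^ 2
      ≤ (1 / m) * ∫ x, ‖g x‖ ^ 2 ∂(gibbs U) := by
  have := hU.isProb
  have cf : Continuous f := continuous_iff_continuousAt.2 fun x => (hf x).continuousAt
  have hgcs : HasCompactSupport g := by
    refine (hcs.fderiv ℝ).mono fun x hx => ?_
    rw [Function.mem_support] at hx ⊢
    rw [(hf x).fderiv]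
    intro h0
    apply hx
    rw [← norm_eq_zero, ← innerSL_apply_norm (𝕜 := ℝ), h0, norm_zero]
  obtain ⟨M0, hM0⟩ := cf.bounded_above_of_compact_support hcs
  obtain ⟨L0, hL0⟩ := hg.bounded_above_of_compact_support hgcs
  set M := max M0 1
  set L := max L0 1
  have hM : ∀ x, |f x| ≤ M := fun x => (hM0 x).trans (le_max_left _ _)
  have hL : ∀ x, ‖g x‖ ≤ L := fun x => (hL0 x).trans (le_max_left _ _)
  have hM1 : 1 ≤ M := le_max_right _ _
  have hL1 : 1 ≤ L := le_max_right _ _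
  have bInt : ∀ {φ : E → ℝ} (C : ℝ), Continuous φ → (∀ x, |φ x| ≤ C) →
      Integrable φ (gibbs U) := fun C cφ hφ =>
    Integrable.of_bound cφ.aestronglyMeasurable C (Eventually.of_forall hφ)
  have bIntE : ∀ {φ : E → ℝ} (C : ℝ), Continuous φ → (∀ x, φ x ≤ C) →
      Integrable (fun x => Real.exp (φ x - U x)) (volume : Measure E) := fun C cφ hφ => by
    have cU := hU.cont
    refine (hU.integrable_exp.const_mul (Real.exp C)).mono (by (clear m hm hc f g hf hg hcs cf hgcs M0 hM0 L0 hL0 M L hM hL hM1 hL1 bInt C hφ; fun_prop))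
      (Eventually.of_forall fun x => ?_)
    rw [Real.norm_of_nonneg (Real.exp_pos _).le, Real.norm_of_nonneg (by positivity),
      ← Real.exp_add]
    exact Real.exp_le_exp.2 (by have := hφ x; linarith only [this])
  -- fixed epsilon
  have key : ∀ ε : ℝ, 0 < ε → ε ≤ 1 → (∫ x, f x ^ 2 ∂(gibbs U)) - (∫ x, f x ∂(gibbs U)) ^ 2
      ≤ 2 * ∫ x, (‖g x‖ + ε) ^ 2 / (2 * m) ∂(gibbs U) := by
    intro ε hε hε1
    obtain ⟨δ, hδ, hu⟩ := Metric.uniformContinuous_iff.1
      (hgcs.uniformContinuous_of_continuous hg) ε hε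
    have hu' : ∀ x y, ‖x - y‖ ≤ δ / 2 → ‖g x - g y‖ ≤ ε := fun x y hxy => by
      have := hu (a := x) (b := y) (by rw [dist_eq_norm]; linarith only [hxy, hδ])
      rw [dist_eq_norm] at this
      exact this.le
    set Q : ℝ := (L + 1) ^ 2 / (2 * m) with hQ
    have hQ0 : 0 < Q := by (clear * - hm; positivity)
    set q : E → ℝ := fun x => (‖g x‖ + ε) ^ 2 / (2 * m) with hq
    have cq : Continuous q := by fun_prop
    have hq0 : ∀ x, 0 ≤ q x := fun x => by (clear * - hε hm; positivity)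
    have hqQ : ∀ x, q x ≤ Q := fun x => by
      have := hL x
      simp only [hq, hQ]
      (clear * - hε this hε1 hm; gcongr)
    set t0 : ℝ := min (min (1 / (4 * M)) (m * (δ / 2) / (4 * L))) (min 1 (1 / Q)) with ht0
    have ht0' : 0 < t0 := by (clear * - hm hδ; positivity)
    refine real_lim (t0 := t0) (c := M ^ 3) (c' := Q ^ 2) ht0' fun t ht htt => ?_
    have e1 : t * M ≤ 1 / 4 := by
      have : t ≤ 1 / (4 * M) := htt.trans ((min_le_left _ _).trans (min_le_left _ _))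
      rw [le_div_iff₀ (by (clear * -; positivity))] at this
      linarith only [this]
    have e2 : 4 * (t * L) ≤ m * (δ / 2) := by
      have : t ≤ m * (δ / 2) / (4 * L) := htt.trans ((min_le_left _ _).trans (min_le_right _ _))
      rw [le_div_iff₀ (by positivity)] at this
      linarith only [this]
    have e3 : t ≤ 1 := htt.trans ((min_le_right _ _).trans (min_le_left _ _))
    have e4 : t * Q ≤ 1 := by
      have : t ≤ 1 / Q := htt.trans ((min_le_right _ _).trans (min_le_right _ _))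
      rwa [le_div_iff₀ (by (clear * - hm; positivity))] at this
    have e5 : t ^ 2 * Q ≤ 1 := by (refine le_of_not_gt fun hng_ => ?_; linarith only [mul_nonneg (sub_nonneg.2 e3) (le_of_lt (sub_pos.2 hng_)), mul_pos ht (sub_pos.2 hng_), mul_nonneg (le_of_lt ht) (sub_nonneg.2 e4), mul_nonneg (le_of_lt ht) (sub_nonneg.2 e3), mul_nonneg (sub_nonneg.2 e3) (sub_nonneg.2 e3)])
    have hpl := gibbs_pl (U := U) (m := m) (φ := fun x => t * f x) (ψ := fun x => t ^ 2 * q x) hU hc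
      (by fun_prop) (by fun_prop)
      (bIntE (t * M) (by fun_prop) fun x => by
        have := (abs_le.1 (hM x)).2; (clear * - this ht; gcongr))
      (bIntE (t * M) (by fun_prop) fun x => by
        have := (abs_le.1 (hM x)).1; (refine le_of_not_gt fun hng_ => ?_; linarith only [mul_nonneg (sub_nonneg.2 e3) (le_of_lt (sub_pos.2 hng_)), mul_pos ht (sub_pos.2 hng_), mul_nonneg (le_of_lt ht) (sub_nonneg.2 this)]))
      (bIntE (t ^ 2 * Q) (by fun_prop) fun x => by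
        have := hqQ x; (clear * - this ht; gcongr))
      (fun x y => by
        have := sup_bound hm hf hL hε hu' ht e2 x y
        calc t * f x - t * f y - m / 4 * ‖x - y‖ ^ 2
            = t * (f x - f y) - m / 4 * ‖x - y‖ ^ 2 := by ring
          _ ≤ _ := this
          _ = _ := by simp only [hq]; field_simp)
    -- expansions
    have hA : |∫ x, f x ∂(gibbs U)| ≤ M := by
      have := norm_integral_le_of_norm_le_const (μ := gibbs U) (f := f) (C := M)
        (Eventually.of_forall hM)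
      simpa only [ge_iff_le, Real.norm_eq_abs, probReal_univ, mul_one] using this
    have hB0 : 0 ≤ ∫ x, f x ^ 2 ∂(gibbs U) := integral_nonneg fun x => sq_nonneg _
    have lowE : ∀ σ : ℝ, |σ| = 1 → 1 + t * (σ * ∫ x, f x ∂(gibbs U))
        + t ^ 2 * (∫ x, f x ^ 2 ∂(gibbs U)) / 2 - M ^ 3 * t ^ 3
        ≤ ∫ x, Real.exp (σ * (t * f x)) ∂(gibbs U) := by
      intro σ hσ
      have hσ2 : σ ^ 2 = 1 := by rw [← sq_abs, hσ, one_pow]
      have i1 : Integrable f (gibbs U) := bInt M cf hM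
      have i2 : Integrable (fun x => f x ^ 2) (gibbs U) := bInt (M ^ 2) (by fun_prop) fun x => by
        rw [abs_pow]; exact pow_le_pow_left₀ (abs_nonneg _) (hM x) 2
      have hpt : ∀ x, 1 + t * (σ * f x) + t ^ 2 * f x ^ 2 / 2 - M ^ 3 * t ^ 3
          ≤ Real.exp (σ * (t * f x)) := by
        intro x
        have habs : |σ * (t * f x)| = t * |f x| := by
          rw [abs_mul, abs_mul, hσ, one_mul, abs_of_pos ht]
        have h1 : |σ * (t * f x)| ≤ t * M := by rw [habs]; gcongr; exact hM x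
        have h2 := exp_lower (h1.trans (by linarith only [e1]))
        have h3 : |σ * (t * f x)| ^ 3 ≤ (t * M) ^ 3 := pow_le_pow_left₀ (abs_nonneg _) h1 3
        have h4 : (σ * (t * f x)) ^ 2 = t ^ 2 * f x ^ 2 := by
          calc _ = σ ^ 2 * (t ^ 2 * f x ^ 2) := by ring
            _ = _ := by rw [hσ2, one_mul]
        rw [h4] at h2
        linarith only [h2, h3]
      have hint := integral_mono (μ := gibbs U)
        (f := fun x => 1 + t * (σ * f x) + t ^ 2 * f x ^ 2 / 2 - M ^ 3 * t ^ 3)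
        (g := fun x => Real.exp (σ * (t * f x))) ?_ ?_ hpt
      · refine le_trans (le_of_eq ?_) hint
        rw [integral_sub, integral_add, integral_add]
        · simp only [integral_const, probReal_univ, smul_eq_mul, one_mul,
            integral_const_mul, integral_div]
        · exact integrable_const _
        · exact (i1.const_mul σ).const_mul t
        · exact (integrable_const _).add ((i1.const_mul σ).const_mul t)
        · exact (i2.const_mul _).div_const 2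
        · exact ((integrable_const _).add ((i1.const_mul σ).const_mul t)).add
            ((i2.const_mul _).div_const 2)
        · exact integrable_const _
      · exact (((integrable_const _).add ((i1.const_mul σ).const_mul t)).add
            ((i2.const_mul _).div_const 2)).sub (integrable_const _)
      · refine bInt (Real.exp (t * M)) (by fun_prop) fun x => ?_
        rw [abs_of_pos (Real.exp_pos _)]
        refine Real.exp_le_exp.2 ((le_abs_self _).trans ?_)
        rw [abs_mul, abs_mul, hσ, one_mul, abs_of_pos ht]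
        gcongr
        exact hM x
    have upE : ∫ x, Real.exp (t ^ 2 * q x) ∂(gibbs U)
        ≤ 1 + t ^ 2 * (∫ x, q x ∂(gibbs U)) + Q ^ 2 * t ^ 4 := by
      have i1 : Integrable q (gibbs U) := bInt Q cq fun x => by
        rw [abs_of_nonneg (hq0 x)]; exact hqQ x
      have hpt : ∀ x, Real.exp (t ^ 2 * q x) ≤ 1 + t ^ 2 * q x + Q ^ 2 * t ^ 4 := by
        intro x
        have h1 : 0 ≤ t ^ 2 * q x := mul_nonneg (sq_nonneg _) (hq0 x)
        have h2 : t ^ 2 * q x ≤ t ^ 2 * Q := by have := hqQ x; (clear * - this ht; gcongr)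
        have h3 := exp_upper h1 (h2.trans e5)
        have h4 : (t ^ 2 * q x) ^ 2 ≤ (t ^ 2 * Q) ^ 2 := pow_le_pow_left₀ h1 h2 2
        linarith only [h3, h4]
      have hint := integral_mono (μ := gibbs U) (f := fun x => Real.exp (t ^ 2 * q x))
        (g := fun x => 1 + t ^ 2 * q x + Q ^ 2 * t ^ 4) ?_ ?_ hpt
      · refine hint.trans (le_of_eq ?_)
        rw [integral_add, integral_add]
        · simp only [integral_const, probReal_univ, smul_eq_mul, one_mul,
            integral_const_mul]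
        · exact integrable_const _
        · exact i1.const_mul _
        · exact (integrable_const _).add (i1.const_mul _)
        · exact integrable_const _
      · refine bInt (Real.exp (t ^ 2 * Q)) (by fun_prop) fun x => ?_
        rw [abs_of_pos (Real.exp_pos _)]
        refine Real.exp_le_exp.2 ?_
        have := hqQ x
        (clear * - this ht; gcongr)
      · exact ((integrable_const _).add (i1.const_mul _)).add (integrable_const _)
    have l1 := lowE 1 (by simp)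
    have l2 := lowE (-1) (by simp)
    simp only [one_mul, neg_mul] at l1 l2
    have hAl := (abs_le.1 hA).1
    have hAu := (abs_le.1 hA).2
    have hM3 : M ^ 3 * t ^ 3 ≤ 1 / 4 := by
      have h1 : (t * M) ^ 3 ≤ (1 / 4) ^ 3 := pow_le_pow_left₀ (by (clear * - ht; positivity)) e1 3
      calc M ^ 3 * t ^ 3 = (t * M) ^ 3 := by ring
        _ ≤ (1 / 4) ^ 3 := h1
        _ ≤ 1 / 4 := by norm_num
    have hb : 0 ≤ t ^ 2 * (∫ x, f x ^ 2 ∂(gibbs U)) / 2 := by (clear m hm hc g hf hg hcs cf hgcs M0 hM0 L0 hL0 M L hM hL hM1 hL1 bInt bIntE ε hε hε1 δ hδ hu hu' Q hQ hQ0 q hq cq hq0 hqQ t0 ht0 ht0' htt e1 e2 e3 e4 e5 hpl hA hB0 lowE upE l1 l2 hAl hAu hM3; positivity)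
    have p2 : 0 ≤ 1 - t * (∫ x, f x ∂(gibbs U)) + t ^ 2 * (∫ x, f x ^ 2 ∂(gibbs U)) / 2
        - M ^ 3 * t ^ 3 := by (refine le_of_not_gt fun hng_ => ?_; (clear hm hc g hf hg hcs cf hgcs hL0 hL hM1 hL1 bInt bIntE ε hε hε1 hδ hu hu' hQ hQ0 q hq cq hq0 hqQ ht0 ht0' e2 e4 e5 hpl hB0 lowE upE l1 l2 hAl; linarith only [mul_nonneg (sub_nonneg.2 e3) (le_of_lt (sub_pos.2 hng_)), mul_pos ht (sub_pos.2 hng_), mul_nonneg (le_of_lt ht) (sub_nonneg.2 hAu), mul_nonneg (le_of_lt ht) (sub_nonneg.2 hM3), mul_nonneg (le_of_lt ht) hb, mul_nonneg (le_of_lt ht) (sub_nonneg.2 e1), mul_nonneg (sub_nonneg.2 e1) (sub_nonneg.2 e3), mul_nonneg (sub_nonneg.2 e3) (sub_nonneg.2 hM3), mul_nonneg (sub_nonneg.2 e3) hb]))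
    have p1 : 0 ≤ 1 + t * (∫ x, f x ∂(gibbs U)) + t ^ 2 * (∫ x, f x ^ 2 ∂(gibbs U)) / 2
        - M ^ 3 * t ^ 3 := by (refine le_of_not_gt fun hng_ => ?_; linarith only [mul_nonneg (sub_nonneg.2 e3) (le_of_lt (sub_pos.2 hng_)), mul_pos ht (sub_pos.2 hng_), mul_nonneg (le_of_lt ht) (sub_nonneg.2 hAl), mul_nonneg (le_of_lt ht) (sub_nonneg.2 hM3), mul_nonneg (le_of_lt ht) hb, mul_nonneg (le_of_lt ht) (sub_nonneg.2 e1), mul_nonneg (sub_nonneg.2 e1) (sub_nonneg.2 e3), mul_nonneg (sub_nonneg.2 e3) (sub_nonneg.2 hM3), mul_nonneg (sub_nonneg.2 e3) hb])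
    calc _ ≤ (∫ x, Real.exp (t * f x) ∂(gibbs U)) * (∫ x, Real.exp (-(t * f x)) ∂(gibbs U)) := by
          refine mul_le_mul l1 ?_ p2 (integral_nonneg fun x => (Real.exp_pos _).le)
          refine le_trans (le_of_eq ?_) l2
          ring
      _ ≤ _ := hpl
      _ ≤ _ := pow_le_pow_left₀ (integral_nonneg fun x => (Real.exp_pos _).le) upE 2
  refine le_of_forall_pos_le_add fun η hη => ?_
  set ε : ℝ := min 1 (η * m / (2 * L + 1)) with hε
  have hε0 : 0 < ε := by (clear * - hη hm; positivity)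
  refine (key ε hε0 (min_le_left _ _)).trans ?_
  have i1 : Integrable (fun x => ‖g x‖ ^ 2) (gibbs U) := bInt (L ^ 2) (by fun_prop) fun x => by
    rw [abs_of_nonneg (by (clear * -; positivity))]; exact pow_le_pow_left₀ (norm_nonneg _) (hL x) 2
  have h1 : ∫ x, (‖g x‖ + ε) ^ 2 / (2 * m) ∂(gibbs U)
      ≤ ∫ x, (‖g x‖ ^ 2 + ε * (2 * L + 1)) / (2 * m) ∂(gibbs U) := by
    refine integral_mono ?_ ?_ fun x => ?_
    · exact bInt ((L + 1) ^ 2 / (2 * m)) (by fun_prop) fun x => by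
        rw [abs_of_nonneg (by (clear * - hη hm; positivity))]
        have := hL x
        have := min_le_left 1 (η * m / (2 * L + 1))
        (clear hc f hf hg hcs cf hgcs M0 hM0 M hM hM1 hL1 bInt bIntE key hε hε0 i1; gcongr)
    · exact (i1.add (integrable_const _)).div_const _
    · simp only
      have h2 := hL x
      have h3 : ε ≤ 1 := min_le_left _ _
      have h4 : 0 ≤ ‖g x‖ := norm_nonneg _
      gcongr
      (refine le_of_not_gt fun hng_ => ?_; linarith only [mul_pos hε0 (sub_pos.2 hng_), mul_nonneg (sub_nonneg.2 h3) (le_of_lt (sub_pos.2 hng_)), mul_nonneg (le_of_lt hε0) (sub_nonneg.2 h2), mul_nonneg (le_of_lt hε0) (sub_nonneg.2 h3)])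
  have h5 : ∫ x, (‖g x‖ ^ 2 + ε * (2 * L + 1)) / (2 * m) ∂(gibbs U)
      = (∫ x, ‖g x‖ ^ 2 ∂(gibbs U)) / (2 * m) + ε * (2 * L + 1) / (2 * m) := by
    rw [integral_div, integral_add i1 (integrable_const _)]
    simp only [integral_const, probReal_univ, smul_eq_mul, one_mul, add_div]
  have h6 : ε * (2 * L + 1) / m ≤ η := by
    have h7 : ε ≤ η * m / (2 * L + 1) := min_le_right _ _
    rw [le_div_iff₀ (by (clear * -; positivity))] at h7
    rw [div_le_iff₀ hm]
    exact h7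
  calc 2 * ∫ x, (‖g x‖ + ε) ^ 2 / (2 * m) ∂(gibbs U)
      ≤ 2 * ((∫ x, ‖g x‖ ^ 2 ∂(gibbs U)) / (2 * m) + ε * (2 * L + 1) / (2 * m)) := by
        rw [← h5]; gcongr
    _ = 1 / m * (∫ x, ‖g x‖ ^ 2 ∂(gibbs U)) + ε * (2 * L + 1) / m := by (clear hc f hf hg hcs cf hgcs M0 hM0 hL0 M hM hL hM1 bInt bIntE key hε i1 h1 h5 h6; field_simp)
    _ ≤ _ := by (clear hc f hf hg hcs cf hgcs M0 hM0 hL0 M hM hL hM1 hL1 bInt bIntE key hη hε hε0 i1 h1 h5; gcongr)

end Vale.Agent.P347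
end

section

/-! # P254/SL, S2c: the Brascamp-Lieb inequality in the `x`-chart of a moment map (helper700).

`Var_V F ≤ E ∑ τ_ij F_i F_j`: the second order term of Prekopa-Leindler for the Legendre duals of `ψ ± t F`. -/

open MeasureTheory Filter Set
open scoped Topology

namespace Vale.Agent.P254.SL.Gap

open Vale.Agent.P227.M

variable {n : ℕ}

/-- Taylor lower bound in dimension one -/
theorem taylor_low {f f' f'' : ℝ → ℝ} {m : ℝ} (h1 : ∀ s, HasDerivAt f (f' s) s)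
    (h2 : ∀ s, HasDerivAt f' (f'' s) s) (hm : ∀ s, 0 ≤ s → s ≤ 1 → m ≤ f'' s) :
    f 0 + f' 0 + m / 2 ≤ f 1 := by
  have a1 : ∀ s ∈ Icc (0 : ℝ) 1, f' 0 + m * s ≤ f' s := by
    intro s hs
    have hmono : MonotoneOn (fun s => f' s - m * s) (Icc (0 : ℝ) 1) := by
      refine monotoneOn_of_deriv_nonneg (convex_Icc 0 1) ?_ ?_ ?_
      · exact fun t _ => (((h2 t).sub ((hasDerivAt_id t).const_mul m)).continuousAt).continuousWithinAt
      · exact fun t _ => (((h2 t).sub ((hasDerivAt_id t).const_mul m)).differentiableAt).differentiableWithinAt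
      · intro t ht
        rw [interior_Icc] at ht
        have h := ((h2 t).sub ((hasDerivAt_id t).const_mul m)).deriv
        have h' : deriv (fun s => f' s - m * s) t = f'' t - m * 1 := h
        rw [h']
        have := hm t ht.1.le ht.2.le
        linarith
    have h0 := hmono (left_mem_Icc.2 zero_le_one) hs hs.1
    simp only [mul_zero, sub_zero] at h0
    linarith
  have hmono : MonotoneOn (fun s => f s - f' 0 * s - m / 2 * s ^ 2) (Icc (0 : ℝ) 1) := by
    have hd : ∀ t : ℝ, HasDerivAt (fun s => f s - f' 0 * s - m / 2 * s ^ 2) (f' t - f' 0 - m * t) t := by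
      intro t
      have h := ((h1 t).sub ((hasDerivAt_id t).const_mul (f' 0))).sub (((hasDerivAt_id t).pow 2).const_mul (m / 2))
      refine h.congr_deriv ?_
      simp only [id]
      ring
    refine monotoneOn_of_deriv_nonneg (convex_Icc 0 1) ?_ ?_ ?_
    · exact fun t _ => (hd t).continuousAt.continuousWithinAt
    · exact fun t _ => (hd t).differentiableAt.differentiableWithinAt
    · intro t ht
      rw [interior_Icc] at ht
      rw [(hd t).deriv]
      have := a1 t ⟨ht.1.le, ht.2.le⟩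
      linarith
  have h0 := hmono (left_mem_Icc.2 zero_le_one) (right_mem_Icc.2 zero_le_one) zero_le_one
  simp only at h0
  linarith

theorem line1 {f : E n → ℝ} (hf : ContDiff ℝ 2 f) (x v : E n) (t : ℝ) :
    HasDerivAt (fun t : ℝ => f (x + t • v)) (fderiv ℝ f (x + t • v) v) t := by
  have h1 : HasDerivAt (fun t : ℝ => x + t • v) v t := by
    simpa using ((hasDerivAt_id t).smul_const v).const_add x
  exact ((hf.differentiable (by norm_num)) (x + t • v)).hasFDerivAt.comp_hasDerivAt t h1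

theorem line2 {f : E n → ℝ} (hf : ContDiff ℝ 2 f) (x v : E n) (t : ℝ) :
    HasDerivAt (fun t : ℝ => fderiv ℝ f (x + t • v) v) (qf (hess f (x + t • v)) v) t := by
  have h1 : HasDerivAt (fun t : ℝ => x + t • v) v t := by
    simpa using ((hasDerivAt_id t).smul_const v).const_add x
  have h2 : Differentiable ℝ (fderiv ℝ f) :=
    (hf.fderiv_right (m := 1) (by norm_num)).differentiable (by norm_num)
  have h := (h2 (x + t • v)).hasFDerivAt.comp_hasDerivAt t h1
  have h' := h.clm_apply (hasDerivAt_const t v)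
  rw [qf_hess_eq hf]
  simpa using h'

theorem low1 {ψ : E n → ℝ} {c : ℝ} (h2 : ContDiff ℝ 2 ψ) (hl : ∀ x v, c * ‖v‖ ^ 2 ≤ qf (hess ψ x) v)
    (x h : E n) : ψ x + fderiv ℝ ψ x h + c * ‖h‖ ^ 2 / 2 ≤ ψ (x + h) := by
  have := taylor_low (m := c * ‖h‖ ^ 2) (line1 h2 x h) (line2 h2 x h) (fun s _ _ => hl _ _)
  simpa using this

theorem qf_lip {ψ : E n → ℝ} {M : ℝ} (hL : ∀ i j x y, |hess ψ x i j - hess ψ y i j| ≤ M * ‖x - y‖)
    (x y v : E n) : qf (hess ψ y) v ≤ qf (hess ψ x) v + (n : ℝ) ^ 2 * |M| * ‖x - y‖ * ‖v‖ ^ 2 := by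
  have h1 : qf (hess ψ y) v - qf (hess ψ x) v ≤ ∑ i : Fin n, ∑ j : Fin n, |M| * ‖x - y‖ * ‖v‖ ^ 2 := by
    unfold qf
    rw [← Finset.sum_sub_distrib]
    refine Finset.sum_le_sum fun i _ => ?_
    rw [← Finset.sum_sub_distrib]
    refine Finset.sum_le_sum fun j _ => ?_
    have e : hess ψ y i j * v i * v j - hess ψ x i j * v i * v j = (hess ψ y i j - hess ψ x i j) * (v i * v j) := by
      ring
    rw [e]
    refine (le_abs_self _).trans ?_
    rw [abs_mul, abs_mul]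
    have a1 : |hess ψ y i j - hess ψ x i j| ≤ |M| * ‖x - y‖ := by
      have := hL i j y x
      rw [norm_sub_rev] at this
      exact this.trans (mul_le_mul_of_nonneg_right (le_abs_self M) (norm_nonneg _))
    have a2 : |v i| * |v j| ≤ ‖v‖ ^ 2 := by
      rw [pow_two]
      exact mul_le_mul (abs_coord_le v i) (abs_coord_le v j) (abs_nonneg _) (norm_nonneg _)
    exact mul_le_mul a1 a2 (by positivity) (by positivity)
  rw [Finset.sum_const, Finset.sum_const, Finset.card_univ, Fintype.card_fin, nsmul_eq_mul, nsmul_eq_mul] at h1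
  nlinarith

theorem low2 {ψ : E n → ℝ} {M : ℝ} (h2 : ContDiff ℝ 2 ψ)
    (hL : ∀ i j x y, |hess ψ x i j - hess ψ y i j| ≤ M * ‖x - y‖) (x h : E n) :
    ψ x + fderiv ℝ ψ x h + (qf (hess ψ x) h - (n : ℝ) ^ 2 * |M| * ‖h‖ ^ 3) / 2 ≤ ψ (x + h) := by
  have := taylor_low (m := qf (hess ψ x) h - (n : ℝ) ^ 2 * |M| * ‖h‖ ^ 3) (line1 h2 x h) (line2 h2 x h) (fun s hs0 hs1 => by
    have h1 := qf_lip hL (x + s • h) x h
    have h3 : ‖x + s • h - x‖ ≤ ‖h‖ := by
      rw [add_sub_cancel_left, norm_smul, Real.norm_eq_abs, abs_of_nonneg hs0]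
      exact mul_le_of_le_one_left (norm_nonneg _) hs1
    have h4 : (n : ℝ) ^ 2 * |M| * ‖x + s • h - x‖ * ‖h‖ ^ 2 ≤ (n : ℝ) ^ 2 * |M| * ‖h‖ * ‖h‖ ^ 2 := by gcongr
    have h5 : (n : ℝ) ^ 2 * |M| * ‖h‖ * ‖h‖ ^ 2 = (n : ℝ) ^ 2 * |M| * ‖h‖ ^ 3 := by ring
    linarith)
  simpa using this

/-- the quadratic form of `τ` -/
noncomputable def qq (ψ F : E n → ℝ) (x : E n) : ℝ := ∑ i, ∑ j, tau ψ x i j * pd i F x * pd j F x

open Matrix in
/-- completing the square -/
theorem square_nonneg {H : Matrix (Fin n) (Fin n) ℝ} (hH : H.PosDef) (p v : Fin n → ℝ) (t : ℝ) :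
    0 ≤ (v ⬝ᵥ (H *ᵥ v)) / 2 + t * (p ⬝ᵥ v) + t ^ 2 / 2 * (p ⬝ᵥ (H⁻¹ *ᵥ p)) := by
  have hdet : IsUnit H.det := isUnit_iff_ne_zero.2 hH.det_pos.ne'
  have hs : Hᵀ = H := by
    have := hH.isHermitian
    rwa [Matrix.IsHermitian, Matrix.conjTranspose_eq_transpose_of_trivial] at this
  have h0 : 0 ≤ (v + t • (H⁻¹ *ᵥ p)) ⬝ᵥ (H *ᵥ (v + t • (H⁻¹ *ᵥ p))) := by
    have := hH.posSemidef.dotProduct_mulVec_nonneg (v + t • (H⁻¹ *ᵥ p))
    simpa using this
  have h1 : H *ᵥ (H⁻¹ *ᵥ p) = p := by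
    rw [Matrix.mulVec_mulVec, Matrix.mul_nonsing_inv _ hdet, Matrix.one_mulVec]
  have h2 : (H⁻¹ *ᵥ p) ⬝ᵥ (H *ᵥ v) = p ⬝ᵥ v := by
    rw [Matrix.dotProduct_mulVec, ← Matrix.mulVec_transpose, hs, h1]
  have h3 : (v + t • (H⁻¹ *ᵥ p)) ⬝ᵥ (H *ᵥ (v + t • (H⁻¹ *ᵥ p))) =
      v ⬝ᵥ (H *ᵥ v) + 2 * t * (p ⬝ᵥ v) + t ^ 2 * (p ⬝ᵥ (H⁻¹ *ᵥ p)) := by
    rw [Matrix.mulVec_add, Matrix.mulVec_smul, h1, add_dotProduct, dotProduct_add, dotProduct_add,
      smul_dotProduct, smul_dotProduct, dotProduct_smul, dotProduct_smul, h2, smul_eq_mul, smul_eq_mul,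
      smul_eq_mul, smul_eq_mul, dotProduct_comm v p, dotProduct_comm (H⁻¹ *ᵥ p) p]
    ring
  rw [h3] at h0
  linarith

theorem hess_posDef {ψ : E n → ℝ} {c : ℝ} (hc : 0 < c) (h2 : ContDiff ℝ 2 ψ)
    (hl : ∀ x v, c * ‖v‖ ^ 2 ≤ qf (hess ψ x) v) (x : E n) : (hess ψ x).PosDef :=
  Loc.posDef_of_qf (fun i j => hess_symm h2 x i j) hc (fun v => hl x v)

theorem qq_eq (ψ F : E n → ℝ) (x : E n) :
    qq ψ F x = (fun i => pd i F x) ⬝ᵥ ((tau ψ x).mulVec (fun i => pd i F x)) := by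
  unfold qq
  simp only [dotProduct, Matrix.mulVec, Finset.mul_sum]
  refine Finset.sum_congr rfl fun i _ => Finset.sum_congr rfl fun j _ => ?_
  ring

theorem sq_low {ψ F : E n → ℝ} {c : ℝ} (hc : 0 < c) (h2 : ContDiff ℝ 2 ψ)
    (hl : ∀ x v, c * ‖v‖ ^ 2 ≤ qf (hess ψ x) v) (x h : E n) (t : ℝ) :
    0 ≤ qf (hess ψ x) h / 2 + t * fderiv ℝ F x h + t ^ 2 / 2 * qq ψ F x := by
  have h3 := square_nonneg (hess_posDef hc h2 hl x) (fun i => pd i F x) h.ofLp t
  rw [Loc.qf_eq, qq_eq, fderiv_eq_sum F x h]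
  have e : (fun i => pd i F x) ⬝ᵥ h.ofLp = ∑ i, h i * pd i F x := by
    simp only [dotProduct]
    exact Finset.sum_congr rfl fun i _ => mul_comm _ _
  rw [e] at h3
  exact h3

theorem qq_nonneg {ψ F : E n → ℝ} {c : ℝ} (hc : 0 < c) (h2 : ContDiff ℝ 2 ψ)
    (hl : ∀ x v, c * ‖v‖ ^ 2 ≤ qf (hess ψ x) v) (x : E n) : 0 ≤ qq ψ F x := by
  have h3 := sq_low (F := F) hc h2 hl x 0 1
  have e1 : qf (hess ψ x) 0 = 0 := by simp [qf]
  rw [e1, map_zero] at h3
  linarith

/-- the key one-sided expansion -/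
theorem key {ψ F : E n → ℝ} {c M K B : ℝ} (hc : 0 < c) (h2 : ContDiff ℝ 2 ψ)
    (hl : ∀ x v, c * ‖v‖ ^ 2 ≤ qf (hess ψ x) v)
    (hL : ∀ i j x y, |hess ψ x i j - hess ψ y i j| ≤ M * ‖x - y‖) (hK : 0 ≤ K) (hB : 0 ≤ B)
    (hF : ∀ x h, |F (x + h) - F x| ≤ K * ‖h‖)
    (hF2 : ∀ x h, |F (x + h) - F x - fderiv ℝ F x h| ≤ B * ‖h‖ ^ 2) :
    ∃ A : ℝ, 0 ≤ A ∧ ∀ (x h : E n) (t : ℝ), ψ x + fderiv ℝ ψ x h + t * F x - t ^ 2 / 2 * qq ψ F x
      - A * |t| ^ 3 ≤ ψ (x + h) + t * F (x + h) := by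
  set R : ℝ := 2 * K / c with hR
  have hR0 : 0 ≤ R := by positivity
  refine ⟨(n : ℝ) ^ 2 * |M| * R ^ 3 / 2 + B * R ^ 2, by positivity, fun x h t => ?_⟩
  have ht := abs_nonneg t
  have hh := norm_nonneg h
  have hA : 0 ≤ (n : ℝ) ^ 2 * |M| * R ^ 3 / 2 + B * R ^ 2 := by positivity
  have b1 : -(|t| * (K * ‖h‖)) ≤ t * (F (x + h) - F x) := by
    have : |t * (F (x + h) - F x)| ≤ |t| * (K * ‖h‖) := by
      rw [abs_mul]
      exact mul_le_mul_of_nonneg_left (hF x h) ht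
    exact (abs_le.1 this).1
  by_cases hc1 : R * |t| ≤ ‖h‖
  · have h3 := low1 h2 hl x h
    have hq := qq_nonneg (F := F) hc h2 hl x
    have h4 : |t| * (K * ‖h‖) ≤ c * ‖h‖ ^ 2 / 2 := by
      have h5 : 2 * K * |t| ≤ c * ‖h‖ := by
        have := mul_le_mul_of_nonneg_left hc1 hc.le
        have e : c * (R * |t|) = 2 * K * |t| := by rw [hR]; field_simp
        linarith
      nlinarith
    have h6 : 0 ≤ t ^ 2 / 2 * qq ψ F x := by positivity
    have h7 : 0 ≤ ((n : ℝ) ^ 2 * |M| * R ^ 3 / 2 + B * R ^ 2) * |t| ^ 3 := by positivity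
    nlinarith
  · push Not at hc1
    have h3 := low2 h2 hL x h
    have h4 := sq_low (F := F) hc h2 hl x h t
    have b2 : -(|t| * (B * ‖h‖ ^ 2)) ≤ t * (F (x + h) - F x - fderiv ℝ F x h) := by
      have : |t * (F (x + h) - F x - fderiv ℝ F x h)| ≤ |t| * (B * ‖h‖ ^ 2) := by
        rw [abs_mul]
        exact mul_le_mul_of_nonneg_left (hF2 x h) ht
      exact (abs_le.1 this).1
    have h5 : ‖h‖ ^ 3 ≤ (R * |t|) ^ 3 := pow_le_pow_left₀ hh hc1.le 3
    have h6 : ‖h‖ ^ 2 ≤ (R * |t|) ^ 2 := pow_le_pow_left₀ hh hc1.le 2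
    have h7 : (n : ℝ) ^ 2 * |M| * ‖h‖ ^ 3 ≤ (n : ℝ) ^ 2 * |M| * (R * |t|) ^ 3 := by gcongr
    have h8 : |t| * (B * ‖h‖ ^ 2) ≤ |t| * (B * (R * |t|) ^ 2) := by gcongr
    have e1 : ((n : ℝ) ^ 2 * |M| * R ^ 3 / 2 + B * R ^ 2) * |t| ^ 3 =
      (n : ℝ) ^ 2 * |M| * (R * |t|) ^ 3 / 2 + |t| * (B * (R * |t|) ^ 2) := by ring
    rw [e1]
    nlinarith

end Vale.Agent.P254.SL.Gap
end

section

/-! # P254/SL, S2c: Prekopa-Leindler for the Legendre duals of `ψ ± t F` (helper700). -/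

open MeasureTheory Filter Set
open scoped Topology

namespace Vale.Agent.P254.SL.Gap

open Vale.Agent.P227.M

variable {n : ℕ}

/-- the gradient -/
noncomputable def gr (ψ : E n → ℝ) (x : E n) : E n :=
  (InnerProductSpace.toDual ℝ (E n)).symm (fderiv ℝ ψ x)

theorem inner_gr (ψ : E n → ℝ) (x v : E n) : inner ℝ (gr ψ x) v = fderiv ℝ ψ x v :=
  InnerProductSpace.toDual_symm_apply

theorem gr_grad {ψ : E n → ℝ} (h2 : ContDiff ℝ 2 ψ) (x : E n) : HasGradientAt ψ (gr ψ x) x := by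
  have h := ((h2.differentiable (by norm_num)) x).hasGradientAt
  exact h

theorem gr_contDiff {ψ : E n → ℝ} (h2 : ContDiff ℝ 2 ψ) : ContDiff ℝ 1 (gr ψ) := by
  have h1 : ContDiff ℝ 1 (fderiv ℝ ψ) := h2.fderiv_right (by norm_num)
  exact (InnerProductSpace.toDual ℝ (E n)).symm.toContinuousLinearEquiv.contDiff.comp h1

theorem gr_mono {ψ : E n → ℝ} {c : ℝ} (h2 : ContDiff ℝ 2 ψ) (hl : ∀ x v, c * ‖v‖ ^ 2 ≤ qf (hess ψ x) v)
    (x y : E n) : c * ‖x - y‖ ^ 2 ≤ inner ℝ (gr ψ x - gr ψ y) (x - y) := by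
  have a1 := low1 h2 hl x (y - x)
  have a2 := low1 h2 hl y (x - y)
  rw [add_sub_cancel] at a1 a2
  rw [inner_sub_left, inner_gr, inner_gr]
  have e : fderiv ℝ ψ x (y - x) = - fderiv ℝ ψ x (x - y) := by rw [← map_neg, neg_sub]
  have e2 : ‖y - x‖ = ‖x - y‖ := norm_sub_rev _ _
  rw [e, e2] at a1
  linarith

theorem gr_det {ψ : E n → ℝ} (h2 : ContDiff ℝ 2 ψ) (x : E n) :
    (hess ψ x).det = (fderiv ℝ (gr ψ) x).det := by
  have h := DUAL.dual_det (gr_grad h2) (fun x => (((gr_contDiff h2).differentiable (by norm_num)) x).hasFDerivAt) x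
  exact h

theorem abs_inv_le' {ψ : E n → ℝ} {c : ℝ} (hc : 0 < c) (h2 : ContDiff ℝ 2 ψ)
    (hl : ∀ x v, c * ‖v‖ ^ 2 ≤ qf (hess ψ x) v) (x : E n) (i j : Fin n) : |tau ψ x i j| ≤ 1 / c :=
  Loc.abs_inv_le (hess_posDef hc h2 hl x) hc (hl x) i j

theorem tau_lip' {ψ : E n → ℝ} {c M : ℝ} (hc : 0 < c) (h2 : ContDiff ℝ 2 ψ)
    (hl : ∀ x v, c * ‖v‖ ^ 2 ≤ qf (hess ψ x) v)
    (hL : ∀ i j x y, |hess ψ x i j - hess ψ y i j| ≤ M * ‖x - y‖) (x y : E n) (i j : Fin n) :
    |tau ψ x i j - tau ψ y i j| ≤ (n : ℝ) ^ 2 * (1 / c) ^ 2 * M * ‖x - y‖ := by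
  have := Loc.abs_inv_sub_le (hess_posDef hc h2 hl x) (hess_posDef hc h2 hl y) hc (hl x) (hl y)
    (fun i j => hL i j x y) i j
  rw [mul_assoc]
  exact this

theorem tau_cont' {ψ : E n → ℝ} {c M : ℝ} (hc : 0 < c) (h2 : ContDiff ℝ 2 ψ)
    (hl : ∀ x v, c * ‖v‖ ^ 2 ≤ qf (hess ψ x) v)
    (hL : ∀ i j x y, |hess ψ x i j - hess ψ y i j| ≤ M * ‖x - y‖) (i j : Fin n) :
    Continuous (fun x => tau ψ x i j) := by
  have : LipschitzWith (Real.toNNReal ((n : ℝ) ^ 2 * (1 / c) ^ 2 * M)) (fun x => tau ψ x i j) := by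
    refine LipschitzWith.of_dist_le' fun x y => ?_
    rw [Real.dist_eq, dist_eq_norm]
    exact tau_lip' hc h2 hl hL x y i j
  exact this.continuous

theorem sum_pd_eq (ψ : E n → ℝ) (x : E n) : (∑ i, x i * pd i ψ x) = inner ℝ (gr ψ x) x := by
  rw [inner_gr, fderiv_eq_sum]

/-- Prekopa-Leindler for the duals of `ψ ± t F` -/
theorem pl_main {ψ V F : E n → ℝ} {c C M K B : ℝ} (hc : 0 < c) (h2 : ContDiff ℝ 2 ψ)
    (hl : ∀ x v, c * ‖v‖ ^ 2 ≤ qf (hess ψ x) v)
    (hL : ∀ i j x y, |hess ψ x i j - hess ψ y i j| ≤ M * ‖x - y‖)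
    (hma : ∀ x, V x = (∑ i, x i * pd i ψ x) - ψ x - Real.log (hess ψ x).det)
    (hVi : Integrable (fun x => Real.exp (-V x)))
    (hFc : Continuous F) (hqc : Continuous (qq ψ F)) {A : ℝ}
    (hA : ∀ (x h : E n) (t : ℝ), ψ x + fderiv ℝ ψ x h + t * F x - t ^ 2 / 2 * qq ψ F x
      - A * |t| ^ 3 ≤ ψ (x + h) + t * F (x + h)) {B0 Q : ℝ} (hB0 : ∀ x, |F x| ≤ B0)
      (hQ : ∀ x, |qq ψ F x| ≤ Q) (t : ℝ) :
    (∫ x, Real.exp (t * F x - t ^ 2 / 2 * qq ψ F x - A * |t| ^ 3) * Real.exp (-V x)) *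
      (∫ x, Real.exp (-(t * F x) - t ^ 2 / 2 * qq ψ F x - A * |t| ^ 3) * Real.exp (-V x))
      ≤ (∫ x, Real.exp (-V x)) ^ 2 := by
  have hmono := gr_mono h2 hl
  have hg := gr_contDiff h2
  have hd : Differentiable ℝ (gr ψ) := hg.differentiable (by norm_num)
  have hinj := LIM.injective_of_mono hc hmono
  have hsur := LIM.surjective_of_mono hc hg hmono
  obtain ⟨X, hX⟩ : ∃ X : E n → E n, ∀ y, gr ψ (X y) = y := ⟨fun y => (hsur y).choose,
    fun y => (hsur y).choose_spec⟩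
  have hX' : ∀ x, X (gr ψ x) = x := fun x => hinj (hX _)
  have hXlip : LipschitzWith (Real.toNNReal c⁻¹) X := by
    refine LipschitzWith.of_dist_le_mul fun x y => ?_
    have h1 := (LIM.antilipschitz_of_mono hc hmono).le_mul_dist (X x) (X y)
    rwa [hX, hX] at h1
  have hXc := hXlip.continuous
  have hψc : Continuous ψ := h2.continuous
  -- the dual potential
  obtain ⟨φ, hφ⟩ : ∃ φ : E n → ℝ, φ = fun y => inner ℝ (X y) y - ψ (X y) := ⟨_, rfl⟩
  have hφc : Continuous φ := by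
    rw [hφ]
    exact (hXc.inner continuous_id).sub (hψc.comp hXc)
  have hdetpos : ∀ x, 0 < (fderiv ℝ (gr ψ) x).det := LIM.det_pos_of_mono hc hd hmono
  have hVφ : ∀ x, -V x = -φ (gr ψ x) + Real.log (fderiv ℝ (gr ψ) x).det := by
    intro x
    have e2 : φ (gr ψ x) = inner ℝ x (gr ψ x) - ψ x := by
      rw [hφ]
      show inner ℝ (X (gr ψ x)) (gr ψ x) - ψ (X (gr ψ x)) = _
      rw [hX']
    rw [hma x, e2, sum_pd_eq, real_inner_comm, gr_det h2]
    ring
  -- change of variables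
  have hcv : ∀ P : E n → ℝ, ∫ y, Real.exp (-φ y + P (X y)) = ∫ x, Real.exp (P x) * Real.exp (-V x) := by
    intro P
    rw [LIM.integral_comp_mul_det hc hg hmono (fun y => Real.exp (-φ y + P (X y)))]
    refine integral_congr_ae (Eventually.of_forall fun x => ?_)
    show Real.exp (-φ (gr ψ x) + P (X (gr ψ x))) * (fderiv ℝ (gr ψ) x).det = Real.exp (P x) * Real.exp (-V x)
    have e1 := hVφ x
    rw [e1, Real.exp_add (-φ (gr ψ x)) (Real.log _), Real.exp_log (hdetpos x), hX', Real.exp_add]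
    ring
  have hci : ∀ P : E n → ℝ, Integrable (fun x => Real.exp (P x) * Real.exp (-V x)) →
      Integrable (fun y => Real.exp (-φ y + P (X y))) := by
    intro P hP
    have h1 := integrableOn_image_iff_integrableOn_abs_det_fderiv_smul (volume : Measure (E n))
      (s := univ) (f := gr ψ) MeasurableSet.univ (f' := fderiv ℝ (gr ψ))
      (fun x _ => (hd x).hasFDerivAt.hasFDerivWithinAt) hinj.injOn (fun y => Real.exp (-φ y + P (X y)))
    rw [image_univ, hsur.range_eq, integrableOn_univ, integrableOn_univ] at h1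
    rw [h1]
    refine hP.congr (Eventually.of_forall fun x => ?_)
    show Real.exp (P x) * Real.exp (-V x) = |(fderiv ℝ (gr ψ) x).det| • Real.exp (-φ (gr ψ x) + P (X (gr ψ x)))
    have e1 := hVφ x
    rw [e1, Real.exp_add (-φ (gr ψ x)) (Real.log _), Real.exp_log (hdetpos x), hX', Real.exp_add,
      abs_of_pos (hdetpos x), smul_eq_mul]
    ring
  have hVc : Continuous (fun x => Real.exp (-V x)) := by
    have h3 : (fun x => Real.exp (-V x)) = fun x => Real.exp (-φ (gr ψ x)) * (fderiv ℝ (gr ψ) x).det := by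
      funext x
      have e1 := hVφ x
      rw [e1, Real.exp_add, Real.exp_log (hdetpos x)]
    rw [h3]
    exact (Real.continuous_exp.comp ((hφc.comp hg.continuous).neg)).mul
      (ContinuousLinearMap.continuous_det.comp (hg.continuous_fderiv (by norm_num)))
  have hint : ∀ P : E n → ℝ, Continuous P → (∃ S : ℝ, ∀ x, P x ≤ S) →
      Integrable (fun x => Real.exp (P x) * Real.exp (-V x)) := by
    rintro P hP ⟨S, hS⟩
    refine (hVi.const_mul (Real.exp S)).mono' ((Real.continuous_exp.comp hP).mul hVc).aestronglyMeasurable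
      (Eventually.of_forall fun x => ?_)
    rw [Real.norm_eq_abs, abs_of_pos (mul_pos (Real.exp_pos _) (Real.exp_pos _))]
    exact mul_le_mul_of_nonneg_right (Real.exp_le_exp.2 (hS x)) (Real.exp_pos _).le
  -- the two perturbations
  set P1 : E n → ℝ := fun x => t * F x - t ^ 2 / 2 * qq ψ F x - A * |t| ^ 3 with hP1
  set P2 : E n → ℝ := fun x => -(t * F x) - t ^ 2 / 2 * qq ψ F x - A * |t| ^ 3 with hP2
  have hP1c : Continuous P1 := by rw [hP1]; fun_prop
  have hP2c : Continuous P2 := by rw [hP2]; fun_prop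
  have bF : ∀ x, |t * F x| ≤ |t| * B0 := fun x => by
    rw [abs_mul]; exact mul_le_mul_of_nonneg_left (hB0 x) (abs_nonneg t)
  have bQ : ∀ x, |t ^ 2 / 2 * qq ψ F x| ≤ t ^ 2 / 2 * Q := fun x => by
    rw [abs_mul, abs_of_nonneg (by positivity : (0:ℝ) ≤ t ^ 2 / 2)]
    exact mul_le_mul_of_nonneg_left (hQ x) (by positivity)
  have hi1 := hint P1 hP1c ⟨|t| * B0 + t ^ 2 / 2 * Q - A * |t| ^ 3, fun x => by
    have h1 := abs_le.1 (bF x)
    have h3 := abs_le.1 (bQ x)
    simp only [hP1]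
    linarith [h1.2, h3.1]⟩
  have hi2 := hint P2 hP2c ⟨|t| * B0 + t ^ 2 / 2 * Q - A * |t| ^ 3, fun x => by
    have h1 := abs_le.1 (bF x)
    have h3 := abs_le.1 (bQ x)
    simp only [hP2]
    linarith [h1.1, h3.1]⟩
  have hi0 : Integrable (fun y => Real.exp (-φ y)) := by
    have := hci (fun _ => 0) (by simpa using hVi)
    simpa using this
  have hw := hcv (fun _ => 0)
  simp only [add_zero, Real.exp_zero, one_mul] at hw
  have main := P347.pl_exp_real (E := E n) (A := fun y => -φ y + P1 (X y)) (B := fun y => -φ y + P2 (X y))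
    (C := fun y => -φ y) (hφc.neg.add (hP1c.comp hXc)) (hφc.neg.add (hP2c.comp hXc)) hφc.neg
    (hci P1 hi1) (hci P2 hi2) hi0 (fun y0 y1 => by
      set z : E n := X ((2 : ℝ)⁻¹ • (y0 + y1)) with hz
      have k1 := hA (X y0) (z - X y0) t
      have k2 := hA (X y1) (z - X y1) (-t)
      rw [add_sub_cancel, ← inner_gr, hX, inner_sub_right] at k1
      rw [add_sub_cancel, ← inner_gr, hX, inner_sub_right, abs_neg] at k2
      have e1 : φ ((2 : ℝ)⁻¹ • (y0 + y1)) = (2 : ℝ)⁻¹ * (inner ℝ y0 z + inner ℝ y1 z) - ψ z := by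
        rw [hφ]
        show inner ℝ z ((2 : ℝ)⁻¹ • (y0 + y1)) - ψ z = _
        rw [inner_smul_right, inner_add_right, real_inner_comm z y0, real_inner_comm z y1]
      have e2 : φ y0 = inner ℝ y0 (X y0) - ψ (X y0) := by
        rw [hφ]
        show inner ℝ (X y0) y0 - ψ (X y0) = _
        rw [real_inner_comm]
      have e3 : φ y1 = inner ℝ y1 (X y1) - ψ (X y1) := by
        rw [hφ]
        show inner ℝ (X y1) y1 - ψ (X y1) = _
        rw [real_inner_comm]
      simp only [hP1, hP2]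
      rw [e1, e2, e3]
      have e4 : (-t) ^ 2 = t ^ 2 := by ring
      rw [e4] at k2
      linarith)
  rw [hcv P1, hcv P2, hw] at main
  exact main

end Vale.Agent.P254.SL.Gap
end

section

/-! # P254/SL, S2c: the second order expansion (helper700). -/

open MeasureTheory Filter Set
open scoped Topology

namespace Vale.Agent.P254.SL.Gap

open Vale.Agent.P227.M

variable {n : ℕ}

theorem exp_low (s : ℝ) : 1 + s + s ^ 2 / 2 - |s| ^ 3 ≤ Real.exp s := by
  rcases le_or_gt 0 s with hs | hs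
  · have h1 := Real.quadratic_le_exp_of_nonneg hs
    have h2 : 0 ≤ |s| ^ 3 := by positivity
    linarith
  · -- e^s for negative s
    have habs : |s| = -s := abs_of_neg hs
    rw [habs]
    by_cases h1 : -1 ≤ s
    · have h2 := Real.exp_bound (x := s) (abs_le.2 ⟨h1, by linarith⟩) (n := 3) (by norm_num)
      have h3 := (abs_le.1 h2).1
      simp only [Finset.sum_range_succ, Finset.sum_range_zero, Nat.factorial] at h3
      rw [habs] at h3
      norm_num at h3
      have h4 : 0 ≤ (-s) ^ 3 := by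
        have : 0 ≤ -s := by linarith
        positivity
      nlinarith
    · push Not at h1
      have h2 := Real.exp_pos s
      have h3 : 1 + s + s ^ 2 / 2 - (-s) ^ 3 ≤ 0 := by
        have h4 : 1 < -s := by linarith
        nlinarith [mul_pos (sub_pos.2 h4) (sub_pos.2 h4), sq_nonneg s]
      linarith

/-- pointwise lower bound of the perturbed exponential -/
theorem pt_low {t f q B0 Q : ℝ} (ht0 : 0 ≤ t) (ht1 : t ≤ 1) (hf : |f| ≤ B0) (hq : |q| ≤ Q) :
    1 + t * f + t ^ 2 / 2 * (f ^ 2 - q) - (B0 * Q / 2 + (B0 + Q / 2) ^ 3) * t ^ 3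
      ≤ Real.exp (t * f - t ^ 2 / 2 * q) := by
  have hB : 0 ≤ B0 := (abs_nonneg f).trans hf
  have hQ : 0 ≤ Q := (abs_nonneg q).trans hq
  have h1 := exp_low (t * f - t ^ 2 / 2 * q)
  have h2 : |t * f - t ^ 2 / 2 * q| ≤ t * (B0 + Q / 2) := by
    calc |t * f - t ^ 2 / 2 * q| ≤ |t * f| + |t ^ 2 / 2 * q| := abs_sub _ _
      _ = t * |f| + t ^ 2 / 2 * |q| := by
          rw [abs_mul, abs_mul, abs_of_nonneg ht0, abs_of_nonneg (by positivity : (0:ℝ) ≤ t ^ 2 / 2)]
      _ ≤ t * B0 + t ^ 2 / 2 * Q := by gcongr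
      _ ≤ t * B0 + t / 2 * Q := by
          have : t ^ 2 ≤ t := by nlinarith
          nlinarith
      _ = t * (B0 + Q / 2) := by ring
  have h3 : |t * f - t ^ 2 / 2 * q| ^ 3 ≤ (t * (B0 + Q / 2)) ^ 3 := pow_le_pow_left₀ (abs_nonneg _) h2 3
  have h4 : f * q ≤ B0 * Q := (le_abs_self _).trans (by rw [abs_mul]; exact mul_le_mul hf hq (abs_nonneg _) hB)
  have h5 : (t * f - t ^ 2 / 2 * q) ^ 2 / 2 = t ^ 2 / 2 * f ^ 2 - t ^ 3 / 2 * (f * q) + t ^ 4 / 8 * q ^ 2 := by ring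
  have h6 : 0 ≤ t ^ 4 / 8 * q ^ 2 := by positivity
  have h7 : t ^ 3 / 2 * (f * q) ≤ t ^ 3 / 2 * (B0 * Q) := mul_le_mul_of_nonneg_left h4 (by positivity)
  have h8 : (t * (B0 + Q / 2)) ^ 3 = (B0 + Q / 2) ^ 3 * t ^ 3 := by ring
  nlinarith

/-- choice of a small parameter -/
theorem exists_small {S D ρ : ℝ} (hS : 1 ≤ S) (hD : 0 ≤ D) (hρ : 0 < ρ) :
    ∃ t : ℝ, 0 < t ∧ t * S ≤ 1 ∧ D * t < ρ := by
  have hS0 : 0 < S := by linarith
  refine ⟨min (1 / S) (ρ / (2 * (D + 1))), by positivity, ?_, ?_⟩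
  · calc min (1 / S) _ * S ≤ 1 / S * S := mul_le_mul_of_nonneg_right (min_le_left _ _) hS0.le
      _ = 1 := by field_simp
  · have h2 : min (1 / S) (ρ / (2 * (D + 1))) ≤ ρ / (2 * (D + 1)) := min_le_right _ _
    have h3 : D * (ρ / (2 * (D + 1))) < ρ := by
      rw [mul_div_assoc', div_lt_iff₀ (by positivity)]
      nlinarith
    exact (mul_le_mul_of_nonneg_left h2 hD).trans_lt h3

/-- the second order consequence -/
theorem second_order {m r N A : ℝ} (hN : 0 ≤ N) (hA : 0 ≤ A)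
    (H : ∀ t : ℝ, 0 < t → t ≤ 1 → ∃ a b : ℝ, 1 + t * m + t ^ 2 / 2 * r - N * t ^ 3 ≤ a ∧
      1 - t * m + t ^ 2 / 2 * r - N * t ^ 3 ≤ b ∧ a * b ≤ Real.exp (2 * A * t ^ 3)) : r - m ^ 2 ≤ 0 := by
  by_contra hcon
  push Not at hcon
  have hm := abs_nonneg m
  have hr := abs_nonneg r
  obtain ⟨t, ht0, ht1, ht2⟩ := exists_small (S := |m| + |r| / 2 + N + 2 * A + 1) (D := 4 * A + 2 * N)
    (by linarith) (by positivity) hcon
  have e : t * (|m| + |r| / 2 + N + 2 * A + 1) = t * |m| + t * (|r| / 2) + t * N + t * (2 * A) + t := by ring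
  rw [e] at ht1
  have p1 : 0 ≤ t * |m| := by positivity
  have p2 : 0 ≤ t * (|r| / 2) := by positivity
  have p3 : 0 ≤ t * N := by positivity
  have p4 : 0 ≤ t * (2 * A) := by positivity
  have htS : t ≤ 1 := by linarith
  have hsq : t ^ 2 ≤ t := by
    have := mul_le_mul_of_nonneg_left htS ht0.le
    rw [mul_one] at this
    rw [pow_two]
    exact this
  have hcube : t ^ 3 ≤ t := by
    have h1 : t ^ 3 = t * t ^ 2 := by ring
    have h2 : t ^ 2 ≤ 1 := hsq.trans htS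
    have := mul_le_mul_of_nonneg_left h2 ht0.le
    rw [mul_one] at this
    rw [h1]
    exact this
  have u1 : |t * m| ≤ t * |m| := by rw [abs_mul, abs_of_pos ht0]
  have u2 : |t ^ 2 / 2 * r| ≤ t * (|r| / 2) := by
    rw [abs_mul, abs_of_nonneg (by positivity : (0:ℝ) ≤ t ^ 2 / 2)]
    have := mul_le_mul_of_nonneg_right hsq (by positivity : (0:ℝ) ≤ |r| / 2)
    linarith
  have u3 : N * t ^ 3 ≤ t * N := by
    have := mul_le_mul_of_nonneg_left hcube hN
    linarith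
  have u4 : 2 * A * t ^ 3 ≤ t * (2 * A) := by
    have := mul_le_mul_of_nonneg_left hcube (by positivity : (0:ℝ) ≤ 2 * A)
    linarith
  obtain ⟨a, b, ha, hb, hab⟩ := H t ht0 htS
  have v1 := abs_le.1 u1
  have v2 := abs_le.1 u2
  have hα0 : 0 ≤ 1 + t * m + t ^ 2 / 2 * r - N * t ^ 3 := by linarith [v1.1, v2.1]
  have hβ0 : 0 ≤ 1 - t * m + t ^ 2 / 2 * r - N * t ^ 3 := by linarith [v1.2, v2.1]
  have h1 : (1 + t * m + t ^ 2 / 2 * r - N * t ^ 3) * (1 - t * m + t ^ 2 / 2 * r - N * t ^ 3)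
      ≤ Real.exp (2 * A * t ^ 3) := (mul_le_mul ha hb hβ0 (hα0.trans ha)).trans hab
  have h2 : (1 + t * m + t ^ 2 / 2 * r - N * t ^ 3) * (1 - t * m + t ^ 2 / 2 * r - N * t ^ 3) =
      1 + t ^ 2 * (r - m ^ 2) - 2 * N * t ^ 3 + (t ^ 2 / 2 * r - N * t ^ 3) ^ 2 := by
    ring
  have h3 : Real.exp (2 * A * t ^ 3) ≤ 1 + 4 * A * t ^ 3 := by
    have h0 : 0 ≤ 2 * A * t ^ 3 := by positivity
    have h4 : |2 * A * t ^ 3| ≤ 1 := by
      rw [abs_of_nonneg h0]
      linarith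
    have h5 := Real.abs_exp_sub_one_le h4
    have h6 := (abs_le.1 h5).2
    rw [abs_of_nonneg h0] at h6
    linarith
  have h4 : 0 ≤ (t ^ 2 / 2 * r - N * t ^ 3) ^ 2 := sq_nonneg _
  have e5 : (4 * A + 2 * N) * t * t ^ 2 = 4 * A * t ^ 3 + 2 * N * t ^ 3 := by ring
  have h5 : (r - m ^ 2) * t ^ 2 ≤ (4 * A + 2 * N) * t * t ^ 2 := by
    have e6 : (r - m ^ 2) * t ^ 2 = t ^ 2 * (r - m ^ 2) := by ring
    rw [e5, e6]
    linarith
  have h6 : r - m ^ 2 ≤ (4 * A + 2 * N) * t := le_of_mul_le_mul_right h5 (by positivity)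
  linarith

theorem abs_qq_le {ψ F : E n → ℝ} {c K : ℝ} (hc : 0 < c) (h2 : ContDiff ℝ 2 ψ)
    (hl : ∀ x v, c * ‖v‖ ^ 2 ≤ qf (hess ψ x) v) (hK : ∀ x, ‖fderiv ℝ F x‖ ≤ K) (x : E n) :
    |qq ψ F x| ≤ (n : ℝ) ^ 2 * (1 / c * K * K) := by
  have hK0 : 0 ≤ K := (norm_nonneg _).trans (hK x)
  unfold qq
  calc |∑ i, ∑ j, tau ψ x i j * pd i F x * pd j F x|
      ≤ ∑ i, ∑ j, |tau ψ x i j * pd i F x * pd j F x| :=
        (Finset.abs_sum_le_sum_abs _ _).trans (Finset.sum_le_sum fun i _ => Finset.abs_sum_le_sum_abs _ _)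
    _ ≤ ∑ _i : Fin n, ∑ _j : Fin n, 1 / c * K * K := by
        refine Finset.sum_le_sum fun i _ => Finset.sum_le_sum fun j _ => ?_
        rw [abs_mul, abs_mul]
        have h1 := abs_inv_le' hc h2 hl x i j
        have h3 := (abs_pd_le_norm F x i).trans (hK x)
        have h4 := (abs_pd_le_norm F x j).trans (hK x)
        have : 0 ≤ 1 / c := by positivity
        gcongr
    _ = _ := by
        rw [Finset.sum_const, Finset.sum_const, Finset.card_univ, Fintype.card_fin, nsmul_eq_mul, nsmul_eq_mul]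
        ring

/-- Brascamp-Lieb for `F` bounded with two bounded derivatives (in the weak form needed) -/
theorem gap_smooth {ψ V F : E n → ℝ} {c M K B B0 : ℝ} (hc : 0 < c) (h2 : ContDiff ℝ 2 ψ)
    (hl : ∀ x v, c * ‖v‖ ^ 2 ≤ qf (hess ψ x) v)
    (hL : ∀ i j x y, |hess ψ x i j - hess ψ y i j| ≤ M * ‖x - y‖)
    (hma : ∀ x, V x = (∑ i, x i * pd i ψ x) - ψ x - Real.log (hess ψ x).det)
    (hVi : Integrable (fun x => Real.exp (-V x))) (hVc : Continuous V)
    (hK : 0 ≤ K) (hB : 0 ≤ B) (hF1 : ContDiff ℝ 1 F) (hFd : ∀ x, ‖fderiv ℝ F x‖ ≤ K)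
    (hFl : ∀ x h, |F (x + h) - F x| ≤ K * ‖h‖)
    (hF2 : ∀ x h, |F (x + h) - F x - fderiv ℝ F x h| ≤ B * ‖h‖ ^ 2) (hB0 : ∀ x, |F x| ≤ B0) :
    Ex V (fun x => F x ^ 2) - (Ex V F) ^ 2 ≤ Ex V (qq ψ F) := by
  obtain ⟨A, hA0, hA⟩ := key hc h2 hl hL hK hB hFl hF2
  have hFc : Continuous F := hF1.continuous
  have hpc : ∀ i, Continuous (pd i F) := fun i => by
    unfold pd
    exact (hF1.continuous_fderiv (by norm_num)).clm_apply continuous_const
  have hqc : Continuous (qq ψ F) := by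
    unfold qq
    refine continuous_finsetSum _ fun i _ => continuous_finsetSum _ fun j _ => ?_
    exact ((tau_cont' hc h2 hl hL i j).mul (hpc i)).mul (hpc j)
  have hQ := abs_qq_le (F := F) hc h2 hl hFd
  set Q : ℝ := (n : ℝ) ^ 2 * (1 / c * K * K) with hQdef
  have hB00 : 0 ≤ B0 := (abs_nonneg _).trans (hB0 0)
  have hQ0 : 0 ≤ Q := (abs_nonneg _).trans (hQ 0)
  set Z : ℝ := ∫ x, Real.exp (-V x) with hZ
  have hZ0 : 0 < Z := integral_exp_pos (f := fun x => -V x) hVi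
  have hint : ∀ P : E n → ℝ, Continuous P → (∃ S : ℝ, ∀ x, |P x| ≤ S) →
      Integrable (fun x => P x * Real.exp (-V x)) := by
    rintro P hP ⟨S, hS⟩
    refine (hVi.const_mul S).mono' (hP.mul (Real.continuous_exp.comp hVc.neg)).aestronglyMeasurable
      (Eventually.of_forall fun x => ?_)
    rw [Real.norm_eq_abs, abs_mul, Real.abs_exp]
    exact mul_le_mul_of_nonneg_right (hS x) (Real.exp_pos _).le
  set N : ℝ := B0 * Q / 2 + (B0 + Q / 2) ^ 3 with hN
  have hN0 : 0 ≤ N := by positivity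
  -- lower bound for the normalised integrals
  have low : ∀ G : E n → ℝ, Continuous G → (∀ x, |G x| ≤ B0) → ∀ t : ℝ, 0 < t → t ≤ 1 →
      (1 + t * Ex V G + t ^ 2 / 2 * (Ex V (fun x => G x ^ 2) - Ex V (qq ψ F)) - N * t ^ 3) * Z ≤
        ∫ x, Real.exp (t * G x - t ^ 2 / 2 * qq ψ F x) * Real.exp (-V x) := by
    intro G hG hGB t ht0 ht1
    have i1 := hint G hG ⟨B0, hGB⟩
    have i2 := hint (fun x => G x ^ 2) (hG.pow 2) ⟨B0 ^ 2, fun x => by
      rw [abs_pow]; exact pow_le_pow_left₀ (abs_nonneg _) (hGB x) 2⟩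
    have i3 := hint (qq ψ F) hqc ⟨Q, hQ⟩
    have i4 : Integrable (fun x => Real.exp (t * G x - t ^ 2 / 2 * qq ψ F x) * Real.exp (-V x)) := by
      refine hint (fun x => Real.exp (t * G x - t ^ 2 / 2 * qq ψ F x)) (by fun_prop)
        ⟨Real.exp (t * B0 + t ^ 2 / 2 * Q), fun x => ?_⟩
      rw [Real.abs_exp]
      refine Real.exp_le_exp.2 ?_
      have h1 := abs_le.1 (hGB x)
      have h3 := abs_le.1 (hQ x)
      nlinarith [mul_le_mul_of_nonneg_left h1.2 ht0.le, mul_le_mul_of_nonneg_left h3.1 (by positivity : (0:ℝ) ≤ t ^ 2 / 2)]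
    have e1 : (1 + t * Ex V G + t ^ 2 / 2 * (Ex V (fun x => G x ^ 2) - Ex V (qq ψ F)) - N * t ^ 3) * Z =
        ∫ x, (1 + t * G x + t ^ 2 / 2 * (G x ^ 2 - qq ψ F x) - N * t ^ 3) * Real.exp (-V x) := by
      have e2 : ∀ x, (1 + t * G x + t ^ 2 / 2 * (G x ^ 2 - qq ψ F x) - N * t ^ 3) * Real.exp (-V x) =
          ((fun x => (1 - N * t ^ 3) * Real.exp (-V x)) + ((fun x => t * (G x * Real.exp (-V x))) +
            ((fun x => t ^ 2 / 2 * (G x ^ 2 * Real.exp (-V x))) -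
              (fun x => t ^ 2 / 2 * (qq ψ F x * Real.exp (-V x))))) : E n → ℝ) x := fun x => by
        simp only [Pi.add_apply, Pi.sub_apply]
        ring
      rw [integral_congr_ae (Eventually.of_forall e2), integral_add' (hVi.const_mul _)
        ((i1.const_mul _).add ((i2.const_mul _).sub (i3.const_mul _))),
        integral_add' (i1.const_mul _) ((i2.const_mul _).sub (i3.const_mul _)),
        integral_sub' (i2.const_mul _) (i3.const_mul _), integral_const_mul, integral_const_mul,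
        integral_const_mul, integral_const_mul]
      unfold Ex
      rw [← hZ]
      field_simp
      ring
    rw [e1]
    refine integral_mono ?_ i4 (fun x => ?_)
    · exact hint _ (by fun_prop) ⟨1 + t * B0 + t ^ 2 / 2 * (B0 ^ 2 + Q) + N * t ^ 3, fun x => by
        have h1 := hGB x
        have h3 := hQ x
        have h4 : |G x ^ 2| ≤ B0 ^ 2 := by rw [abs_pow]; exact pow_le_pow_left₀ (abs_nonneg _) h1 2
        have t2 : 0 ≤ t ^ 2 / 2 := by positivity
        have t3 : 0 ≤ N * t ^ 3 := by positivity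
        have a1 := abs_le.1 h1
        have a3 := abs_le.1 h3
        have a4 := abs_le.1 h4
        have b1 := mul_le_mul_of_nonneg_left a1.2 ht0.le
        have b1' := mul_le_mul_of_nonneg_left a1.1 ht0.le
        have b2 := mul_le_mul_of_nonneg_left a4.2 t2
        have b2' := mul_le_mul_of_nonneg_left a4.1 t2
        have b3 := mul_le_mul_of_nonneg_left a3.2 t2
        have b3' := mul_le_mul_of_nonneg_left a3.1 t2
        refine abs_le.2 ⟨by nlinarith, by nlinarith⟩⟩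
    · exact mul_le_mul_of_nonneg_right (pt_low ht0.le ht1 (hGB x) (hQ x)) (Real.exp_pos _).le
  have hneg : Ex V (fun x => -F x) = - Ex V F := by
    unfold Ex
    rw [← neg_div]
    congr 1
    rw [← integral_neg]
    exact integral_congr_ae (Eventually.of_forall fun x => by simp)
  have fin : (Ex V (fun x => F x ^ 2) - Ex V (qq ψ F)) - (Ex V F) ^ 2 ≤ 0 := by
    refine second_order (m := Ex V F) (r := Ex V (fun x => F x ^ 2) - Ex V (qq ψ F)) hN0 hA0 ?_
    intro t ht0 ht1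
    have l1 := low F hFc hB0 t ht0 ht1
    have l2 := low (fun x => -F x) hFc.neg (fun x => by rw [abs_neg]; exact hB0 x) t ht0 ht1
    rw [hneg] at l2
    have e0 : (fun x => (-F x) ^ 2) = fun x => F x ^ 2 := by funext x; ring
    rw [e0] at l2
    have hpl := pl_main (V := V) (C := 0) (K := K) (B := B) hc h2 hl hL hma hVi hFc hqc hA hB0 hQ t
    have hexp : 0 < Real.exp (A * t ^ 3) := Real.exp_pos _
    have habs : |t| = t := abs_of_pos ht0
    rw [habs] at hpl
    refine ⟨(∫ x, Real.exp (t * F x - t ^ 2 / 2 * qq ψ F x) * Real.exp (-V x)) / Z,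
      (∫ x, Real.exp (t * (-F x) - t ^ 2 / 2 * qq ψ F x) * Real.exp (-V x)) / Z, ?_, ?_, ?_⟩
    · rw [le_div_iff₀ hZ0]; exact l1
    · rw [le_div_iff₀ hZ0]
      refine le_trans (le_of_eq ?_) l2
      ring
    · have g1 : ∫ x, Real.exp (t * F x - t ^ 2 / 2 * qq ψ F x - A * t ^ 3) * Real.exp (-V x) =
          Real.exp (-(A * t ^ 3)) * ∫ x, Real.exp (t * F x - t ^ 2 / 2 * qq ψ F x) * Real.exp (-V x) := by
        rw [← integral_const_mul]
        refine integral_congr_ae (Eventually.of_forall fun x => ?_)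
        show Real.exp (t * F x - t ^ 2 / 2 * qq ψ F x - A * t ^ 3) * Real.exp (-V x) =
          Real.exp (-(A * t ^ 3)) * (Real.exp (t * F x - t ^ 2 / 2 * qq ψ F x) * Real.exp (-V x))
        rw [sub_eq_add_neg (t * F x - t ^ 2 / 2 * qq ψ F x), Real.exp_add]
        ring
      have g2 : ∫ x, Real.exp (-(t * F x) - t ^ 2 / 2 * qq ψ F x - A * t ^ 3) * Real.exp (-V x) =
          Real.exp (-(A * t ^ 3)) * ∫ x, Real.exp (t * (-F x) - t ^ 2 / 2 * qq ψ F x) * Real.exp (-V x) := by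
        rw [← integral_const_mul]
        refine integral_congr_ae (Eventually.of_forall fun x => ?_)
        show Real.exp (-(t * F x) - t ^ 2 / 2 * qq ψ F x - A * t ^ 3) * Real.exp (-V x) =
          Real.exp (-(A * t ^ 3)) * (Real.exp (t * (-F x) - t ^ 2 / 2 * qq ψ F x) * Real.exp (-V x))
        have e5 : t * (-F x) - t ^ 2 / 2 * qq ψ F x = -(t * F x) - t ^ 2 / 2 * qq ψ F x := by ring
        rw [e5, sub_eq_add_neg (-(t * F x) - t ^ 2 / 2 * qq ψ F x), Real.exp_add]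
        ring
      rw [g1, g2] at hpl
      set I1 := ∫ x, Real.exp (t * F x - t ^ 2 / 2 * qq ψ F x) * Real.exp (-V x) with hI1
      set I2 := ∫ x, Real.exp (t * (-F x) - t ^ 2 / 2 * qq ψ F x) * Real.exp (-V x) with hI2
      have g3 : Real.exp (-(A * t ^ 3)) * I1 * (Real.exp (-(A * t ^ 3)) * I2) =
          (Real.exp (2 * A * t ^ 3))⁻¹ * (I1 * I2) := by
        have : (Real.exp (2 * A * t ^ 3))⁻¹ = Real.exp (-(A * t ^ 3)) * Real.exp (-(A * t ^ 3)) := by
          rw [← Real.exp_neg, ← Real.exp_add]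
          congr 1
          ring
        rw [this]; ring
      rw [g3, inv_mul_le_iff₀ (Real.exp_pos _)] at hpl
      rw [div_mul_div_comm, div_le_iff₀ (by positivity)]
      calc I1 * I2 ≤ Real.exp (2 * A * t ^ 3) * Z ^ 2 := hpl
        _ = _ := by ring
  linarith

end Vale.Agent.P254.SL.Gap
end
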