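import Mathlib
import Vale.Agent.P254.Bdl.B1
import Vale.Agent.P254.Bdl.B9
import Vale.Agent.P254.Bdl.B16
import Vale.Agent.P254.Bdl.B17
import Vale.Agent.P254.Bdl.B11
import Vale.Agent.P254.Bdl.B18
import Vale.Agent.P254.Bdl.B6
import Vale.Agent.P254.Bdl.B15
import Vale.Agent.P254.Bdl.B2
import Vale.Agent.P254.Bdl.B3
import Vale.Agent.P254.Bdl.B14
import Vale.Agent.P254.Bdl.B12
import Vale.Agent.P254.Bdl.B13
import Vale.Agent.P254.Bdl.B7
import Vale.Agent.P254.Bdl.B8

set_option linter.all false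

section

/-! # P254/S814: almost everywhere calculus for `τ`, moment map without evenness (copy of helper497's `ID/Rad`) -/

set_option linter.all false

open MeasureTheory Filter
open scoped Topology

namespace Vale.Agent.P254.S814

open Vale.Agent.P227.M

variable {n : ℕ} {ψ V : E n → ℝ} {c C M : ℝ}

theorem rad_tau_mul (h : MC.MMc ψ V c C M) (x : E n) : tau ψ x * hess ψ x = 1 :=
  Matrix.nonsing_inv_mul _ (isUnit_iff_ne_zero.2 (rad_det_ne h.c_pos (h.lower x)))

theorem rad_mul_tau (h : MC.MMc ψ V c C M) (x : E n) : hess ψ x * tau ψ x = 1 :=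
  Matrix.mul_nonsing_inv _ (isUnit_iff_ne_zero.2 (rad_det_ne h.c_pos (h.lower x)))

theorem rad_tau_le (h : MC.MMc ψ V c C M) (x : E n) (i j : Fin n) : |tau ψ x i j| ≤ 1 / c :=
  rad_inv_le h.c_pos (h.lower x) i j

theorem rad_tau_symm (h : MC.MMc ψ V c C M) (x : E n) (i j : Fin n) : tau ψ x i j = tau ψ x j i := by
  have h1 : (hess ψ x).transpose = hess ψ x := by
    ext a b
    exact rad_hess_symm h.C2 x b a
  have h2 : (tau ψ x).transpose = tau ψ x := by
    unfold tau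
    rw [Matrix.transpose_nonsing_inv, h1]
  exact congrFun (congrFun h2 j) i

theorem rad_tau_sub (h : MC.MMc ψ V c C M) (x y : E n) :
    tau ψ x - tau ψ y = tau ψ x * (hess ψ y - hess ψ x) * tau ψ y := by
  rw [Matrix.mul_sub, rad_tau_mul h, Matrix.sub_mul, Matrix.mul_assoc, rad_mul_tau h, Matrix.mul_one, Matrix.one_mul]

/-- `τ` is Lipschitz -/
theorem rad_tau_lip (h : MC.MMc ψ V c C M) (x y : E n) (i j : Fin n) :
    |tau ψ x i j - tau ψ y i j| ≤ ((n : ℝ) * n * (1 / c) * |M| * (1 / c)) * ‖x - y‖ := by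
  have h1 : tau ψ x i j - tau ψ y i j =
      ∑ l, ∑ k, tau ψ x i k * (hess ψ y k l - hess ψ x k l) * tau ψ y l j := by
    have h2 := congrFun (congrFun (rad_tau_sub h x y) i) j
    rw [Matrix.mul_apply] at h2
    have h3 : ∀ l, (tau ψ x * (hess ψ y - hess ψ x)) i l = ∑ k, tau ψ x i k * (hess ψ y k l - hess ψ x k l) :=
      fun l => by rw [Matrix.mul_apply]; rfl
    simp only [h3, Finset.sum_mul] at h2
    exact h2
  rw [h1]
  have hc : 0 ≤ 1 / c := by have := h.c_pos; positivity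
  have h4 : ∀ l k, |tau ψ x i k * (hess ψ y k l - hess ψ x k l) * tau ψ y l j| ≤
      (1 / c) * (|M| * ‖x - y‖) * (1 / c) := by
    intro l k
    rw [abs_mul, abs_mul]
    have h5 : |hess ψ y k l - hess ψ x k l| ≤ |M| * ‖x - y‖ := by
      refine (h.lip k l y x).trans ?_
      rw [norm_sub_rev y x]
      exact mul_le_mul_of_nonneg_right (le_abs_self M) (norm_nonneg _)
    exact mul_le_mul (mul_le_mul (rad_tau_le h x i k) h5 (abs_nonneg _) hc) (rad_tau_le h y l j) (abs_nonneg _)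
      (by positivity)
  refine (Finset.abs_sum_le_sum_abs _ _).trans ?_
  refine (Finset.sum_le_sum fun l _ => (Finset.abs_sum_le_sum_abs _ _).trans
    (Finset.sum_le_sum fun k _ => h4 l k)).trans ?_
  simp only [Finset.sum_const, Finset.card_univ, Fintype.card_fin, nsmul_eq_mul]
  apply le_of_eq
  ring

theorem rad_good (h : MC.MMc ψ V c C M) : ∀ᵐ x : E n, Good ψ x := by
  have h1 : ∀ᵐ x : E n, ∀ i j, DifferentiableAt ℝ (fun y => hess ψ y i j) x := by
    rw [ae_all_iff]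
    intro i
    rw [ae_all_iff]
    intro j
    exact (rad_lipw (h.lip i j)).ae_differentiableAt
  have h2 : ∀ᵐ x : E n, ∀ i j, DifferentiableAt ℝ (fun y => tau ψ y i j) x := by
    rw [ae_all_iff]
    intro i
    rw [ae_all_iff]
    intro j
    exact (rad_lipw fun x y => rad_tau_lip h x y i j).ae_differentiableAt
  filter_upwards [h1, h2] with x a b
  exact ⟨a, b⟩

theorem D3_symm (h : MC.MMc ψ V c C M) {x : E n} (hx : Good ψ x) (k i j : Fin n) : D3 ψ x k i j = D3 ψ x i k j :=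
  rad_third h.C2 hx.1 k i j

theorem D3_symm' (h : MC.MMc ψ V c C M) (x : E n) (k i j : Fin n) : D3 ψ x k i j = D3 ψ x k j i := by
  unfold D3
  congr 1
  funext y
  exact rad_hess_symm h.C2 y i j

/-- derivative of `τ` -/
theorem rad_dtau (h : MC.MMc ψ V c C M) {x : E n} (hx : Good ψ x) (k i j : Fin n) :
    pd k (fun y => tau ψ y i j) x = - ∑ a, ∑ b, tau ψ x i a * D3 ψ x k a b * tau ψ x b j := by
  have h1 : ∀ b, ∑ a, (pd k (fun y => tau ψ y i a) x * hess ψ x a b + tau ψ x i a * D3 ψ x k a b) = 0 := by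
    intro b
    have e : (fun y => ∑ a, tau ψ y i a * hess ψ y a b) = fun _ => (1 : Matrix (Fin n) (Fin n) ℝ) i b := by
      funext y
      have := congrFun (congrFun (rad_tau_mul h y) i) b
      rw [Matrix.mul_apply] at this
      exact this
    have h2 : pd k (fun y => ∑ a, tau ψ y i a * hess ψ y a b) x = 0 := by rw [e, rpd_const]
    rw [rpd_sum fun a _ => (hx.2 i a).fun_mul (hx.1 a b)] at h2
    rw [← h2]
    exact Finset.sum_congr rfl fun a _ => (rpd_mul (hx.2 i a) (hx.1 a b)).symm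
  have h3 : ∑ b, (∑ a, (pd k (fun y => tau ψ y i a) x * hess ψ x a b + tau ψ x i a * D3 ψ x k a b)) * tau ψ x b j = 0 :=
    Finset.sum_eq_zero fun b _ => by rw [h1 b, zero_mul]
  have h4 : ∑ b, (∑ a, pd k (fun y => tau ψ y i a) x * hess ψ x a b) * tau ψ x b j = pd k (fun y => tau ψ y i j) x := by
    simp only [Finset.sum_mul]
    rw [Finset.sum_comm]
    have h5 : ∀ a, ∑ b, pd k (fun y => tau ψ y i a) x * hess ψ x a b * tau ψ x b j =
        pd k (fun y => tau ψ y i a) x * if a = j then 1 else 0 := by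
      intro a
      have := congrFun (congrFun (rad_mul_tau h x) a) j
      rw [Matrix.mul_apply, Matrix.one_apply] at this
      rw [← this, Finset.mul_sum]
      exact Finset.sum_congr rfl fun b _ => by ring
    rw [Finset.sum_congr rfl fun a _ => h5 a]
    simp
  have h6 : ∑ b, (∑ a, tau ψ x i a * D3 ψ x k a b) * tau ψ x b j =
      ∑ a, ∑ b, tau ψ x i a * D3 ψ x k a b * tau ψ x b j := by
    simp only [Finset.sum_mul]
    rw [Finset.sum_comm]
  simp only [Finset.sum_add_distrib, add_mul] at h3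
  rw [h4, h6] at h3
  linarith

/-- derivative of the Monge-Ampere equation -/
theorem rad_dV (h : MC.MMc ψ V c C M) {x : E n} (hx : Good ψ x) (b : Fin n) :
    pd b V x = (∑ i, x i * hess ψ x b i) - ∑ i, ∑ j, tau ψ x j i * D3 ψ x b i j := by
  have hV : V = fun y => ((∑ i, y i * pd i ψ y) - ψ y) - Real.log (hess ψ y).det := funext h.ma
  obtain ⟨hd1, hd2⟩ := rad_det hx.1 b
  have hne : (hess ψ x).det ≠ 0 := rad_det_ne h.c_pos (h.lower x)
  have hs : ∀ i ∈ (Finset.univ : Finset (Fin n)), DifferentiableAt ℝ (fun y : E n => y i * pd i ψ y) x := fun i _ =>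
    (rad_diff_coord i x).mul (rad_pd_diff h.C2 i x)
  have hψ : DifferentiableAt ℝ ψ x := h.C2.differentiable (by norm_num) x
  have hlog : DifferentiableAt ℝ (fun y => Real.log (hess ψ y).det) x := hd1.log hne
  have e1 : pd b (fun y => Real.log (hess ψ y).det) x = ∑ i, ∑ j, tau ψ x j i * D3 ψ x b i j := by
    have e2 : pd b (fun y => Real.log (hess ψ y).det) x = ((hess ψ x).det)⁻¹ * pd b (fun y => (hess ψ y).det) x := by
      unfold pd
      rw [fderiv.log hd1 hne]
      simp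
    rw [e2, hd2, Finset.mul_sum]
    refine Finset.sum_congr rfl fun i _ => ?_
    rw [Finset.mul_sum]
    refine Finset.sum_congr rfl fun j _ => ?_
    have e3 : tau ψ x j i = ((hess ψ x).det)⁻¹ * (hess ψ x).adjugate j i := by
      unfold tau
      rw [Matrix.inv_def, Matrix.smul_apply, smul_eq_mul, Ring.inverse_eq_inv']
    rw [e3, mul_assoc]
    rfl
  conv_lhs => rw [hV]
  rw [rpd_sub ((DifferentiableAt.fun_sum hs).fun_sub hψ) hlog, rpd_sub (DifferentiableAt.fun_sum hs) hψ, rpd_sum hs, e1]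
  have e4 : ∀ i, pd b (fun y : E n => y i * pd i ψ y) x = (if i = b then 1 else 0) * pd i ψ x + x i * hess ψ x b i := by
    intro i
    rw [rpd_mul (rad_diff_coord i x) (rad_pd_diff h.C2 i x), rpd_coord]
    rfl
  rw [Finset.sum_congr rfl fun i _ => e4 i, Finset.sum_add_distrib]
  simp

/-- the divergence identity: `-div_μ τ = x` -/
theorem rad_div (h : MC.MMc ψ V c C M) {x : E n} (hx : Good ψ x) (k : Fin n) :
    ∑ b, (pd b (fun y => tau ψ y b k) x - tau ψ x b k * pd b V x) = - x k := by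
  have h1 : ∀ b, pd b (fun y => tau ψ y b k) x - tau ψ x b k * pd b V x =
      - (∑ a, ∑ d, tau ψ x b a * D3 ψ x b a d * tau ψ x d k) - (∑ i, x i * (tau ψ x k b * hess ψ x b i))
        + ∑ i, ∑ j, tau ψ x j i * D3 ψ x b i j * tau ψ x b k := by
    intro b
    rw [rad_dtau h hx, rad_dV h hx, mul_sub]
    have e1 : tau ψ x b k * ∑ i, x i * hess ψ x b i = ∑ i, x i * (tau ψ x k b * hess ψ x b i) := by
      rw [Finset.mul_sum]
      exact Finset.sum_congr rfl fun i _ => by rw [rad_tau_symm h x k b]; ring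
    have e2 : tau ψ x b k * ∑ i, ∑ j, tau ψ x j i * D3 ψ x b i j =
        ∑ i, ∑ j, tau ψ x j i * D3 ψ x b i j * tau ψ x b k := by
      rw [Finset.mul_sum]
      refine Finset.sum_congr rfl fun i _ => ?_
      rw [Finset.mul_sum]
      exact Finset.sum_congr rfl fun j _ => by ring
    rw [e1, e2]
    ring
  rw [Finset.sum_congr rfl fun b _ => h1 b, Finset.sum_add_distrib, Finset.sum_sub_distrib, Finset.sum_neg_distrib]
  have h2 : ∑ b, ∑ a, ∑ d, tau ψ x b a * D3 ψ x b a d * tau ψ x d k =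
      ∑ b, ∑ i, ∑ j, tau ψ x j i * D3 ψ x b i j * tau ψ x b k := by
    -- rename: `d` is the outer index on the right
    have h3 : ∀ b a d, tau ψ x b a * D3 ψ x b a d * tau ψ x d k = tau ψ x b a * D3 ψ x d a b * tau ψ x d k := by
      intro b a d
      have : D3 ψ x b a d = D3 ψ x d a b := by
        rw [D3_symm' h x b a d, D3_symm h hx b d a, D3_symm' h x d b a]
      rw [this]
    calc ∑ b, ∑ a, ∑ d, tau ψ x b a * D3 ψ x b a d * tau ψ x d k
        = ∑ b, ∑ a, ∑ d, tau ψ x b a * D3 ψ x d a b * tau ψ x d k :=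
          Finset.sum_congr rfl fun b _ => Finset.sum_congr rfl fun a _ => Finset.sum_congr rfl fun d _ => h3 b a d
      _ = ∑ a, ∑ b, ∑ d, tau ψ x b a * D3 ψ x d a b * tau ψ x d k := Finset.sum_comm
      _ = ∑ a, ∑ d, ∑ b, tau ψ x b a * D3 ψ x d a b * tau ψ x d k :=
          Finset.sum_congr rfl fun a _ => Finset.sum_comm
      _ = ∑ d, ∑ a, ∑ b, tau ψ x b a * D3 ψ x d a b * tau ψ x d k := Finset.sum_comm
  have h5 : ∑ b, ∑ i, x i * (tau ψ x k b * hess ψ x b i) = x k := by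
    rw [Finset.sum_comm]
    have h6 : ∀ i, ∑ b, x i * (tau ψ x k b * hess ψ x b i) = x i * if k = i then 1 else 0 := by
      intro i
      have := congrFun (congrFun (rad_tau_mul h x) k) i
      rw [Matrix.mul_apply, Matrix.one_apply] at this
      rw [← this, Finset.mul_sum]
    rw [Finset.sum_congr rfl fun i _ => h6 i]
    simp
  rw [h2, h5]
  ring

/-- `∑_e τ_{ae} ∂_e τ_{bd}` is symmetric in `a, b` (and in `b, d`) -/
theorem rad_T (h : MC.MMc ψ V c C M) {x : E n} (hx : Good ψ x) (a b d : Fin n) :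
    ∑ e, tau ψ x a e * pd e (fun y => tau ψ y b d) x = ∑ e, tau ψ x b e * pd e (fun y => tau ψ y a d) x := by
  have h1 : ∀ a b, ∑ e, tau ψ x a e * pd e (fun y => tau ψ y b d) x =
      - ∑ e, ∑ k, ∑ l, tau ψ x a e * tau ψ x b k * D3 ψ x e k l * tau ψ x l d := by
    intro a b
    rw [← Finset.sum_neg_distrib]
    refine Finset.sum_congr rfl fun e _ => ?_
    rw [rad_dtau h hx, mul_neg, Finset.mul_sum]
    congr 1
    refine Finset.sum_congr rfl fun k _ => ?_
    rw [Finset.mul_sum]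
    exact Finset.sum_congr rfl fun l _ => by ring
  rw [h1, h1, neg_inj, Finset.sum_comm]
  refine Finset.sum_congr rfl fun e _ => Finset.sum_congr rfl fun k _ => Finset.sum_congr rfl fun l _ => ?_
  rw [D3_symm h hx k e l]
  ring

theorem rad_T' (h : MC.MMc ψ V c C M) {x : E n} (a b d : Fin n) :
    ∑ e, tau ψ x a e * pd e (fun y => tau ψ y b d) x = ∑ e, tau ψ x a e * pd e (fun y => tau ψ y d b) x := by
  refine Finset.sum_congr rfl fun e _ => ?_
  congr 1
  unfold pd
  congr 2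
  funext y
  exact rad_tau_symm h y b d

end Vale.Agent.P254.S814
end

section

/-! # P254/S2 (helper232): the block `StmtN1` -/

open MeasureTheory Filter
open scoped NNReal
open Vale.Agent.P227.M Vale.Agent.P227.M.K814

namespace Vale.Agent.P254.SN

variable {n : ℕ} {ψ V : E n → ℝ} {c C M c1 C1 : ℝ}

/-- the inverse Hessian of the moment map is a frame -/
theorem tb_tau (hR : Reg V c1 C1) (h : MC.MMc ψ V c C M) : TB V (tau ψ) where
  V2 := hR.C2
  lip := fun i j => by
    have hc := h.c_pos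
    refine ⟨((n : ℝ) * n * (1 / c) * |M| * (1 / c)).toNNReal, ?_⟩
    refine LipschitzWith.of_dist_le_mul fun x y => ?_
    rw [Real.dist_eq, dist_eq_norm, Real.coe_toNNReal _ (by positivity)]
    exact S814.rad_tau_lip h x y i j
  symm := S814.rad_tau_symm h
  div := by
    filter_upwards [S814.rad_good h] with x hx a
    rw [← S814.rad_div h hx a]
    refine Finset.sum_congr rfl fun b _ => ?_
    have e : (fun y => tau ψ y a b) = fun y => tau ψ y b a :=
      funext fun y => S814.rad_tau_symm h y a b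
    rw [e, S814.rad_tau_symm h x a b]
  tot := by
    filter_upwards [S814.rad_good h] with x hx d b k
    exact S814.rad_T h hx d b k
  bt := ⟨1 / c, fun x i j => S814.rad_tau_le h x i j⟩
  bV := by
    obtain ⟨B, hB⟩ := hR.abs_hess
    exact ⟨B, fun x i j => hB x i j⟩
  int := hR.integrable_exp

theorem gb_gam {t : E n → Matrix (Fin n) (Fin n) ℝ} (h : TB V t) (i j : Fin n) :
    GB (fun x => ∑ k, ∑ l, t x k l * pd k (fun y => t y i j) x * pd l (fun y => t y i j) x) :=
  GB.sum _ fun k _ => GB.sum _ fun l _ => ((gb_t h k l).mul (gb_pt h k i j)).mul (gb_pt h l i j)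

theorem I_sum2 (hV : Integrable (fun x => Real.exp (-V x))) (w : Fin n → ℝ)
    {f : Fin n → Fin n → E n → ℝ} (hf : ∀ i j, GB (f i j)) :
    I V (fun x => ∑ i, ∑ j, w i * w j * f i j x) = ∑ i, ∑ j, w i * w j * I V (f i j) := by
  unfold I
  have e : ∀ x, (∑ i, ∑ j, w i * w j * f i j x) * Real.exp (-V x) =
      ∑ i, ∑ j, w i * w j * (f i j x * Real.exp (-V x)) := by
    intro x
    rw [Finset.sum_mul]
    refine Finset.sum_congr rfl fun i _ => ?_
    rw [Finset.sum_mul]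
    exact Finset.sum_congr rfl fun j _ => by ring
  simp only [e]
  rw [integral_finsetSum]
  · refine Finset.sum_congr rfl fun i _ => ?_
    rw [integral_finsetSum]
    · refine Finset.sum_congr rfl fun j _ => ?_
      rw [integral_const_mul]
    · exact fun j _ => ((hf i j).int hV).const_mul _
  · exact fun i _ => integrable_finsetSum _ fun j _ => ((hf i j).int hV).const_mul _

theorem I_comb (hV : Integrable (fun x => Real.exp (-V x))) {f1 f2 f3 f4 : E n → ℝ}
    (h1 : GB f1) (h2 : GB f2) (h3 : GB f3) (h4 : GB f4) :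
    I V (fun x => f1 x + f2 x + f3 x - f4 x) = I V f1 + I V f2 + I V f3 - I V f4 := by
  unfold I
  have e : ∀ x, (f1 x + f2 x + f3 x - f4 x) * Real.exp (-V x) =
      f1 x * Real.exp (-V x) + f2 x * Real.exp (-V x) + f3 x * Real.exp (-V x)
        - f4 x * Real.exp (-V x) := fun x => by ring
  simp only [e]
  have i12 : Integrable (fun x => f1 x * Real.exp (-V x) + f2 x * Real.exp (-V x)) :=
    (h1.int hV).add (h2.int hV)
  have i123 : Integrable (fun x => f1 x * Real.exp (-V x) + f2 x * Real.exp (-V x)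
      + f3 x * Real.exp (-V x)) := i12.add (h3.int hV)
  rw [integral_sub i123 (h4.int hV), integral_add i12 (h3.int hV),
    integral_add (h1.int hV) (h2.int hV)]

theorem tr_cub (H t : Matrix (Fin n) (Fin n) ℝ) (ht : ∀ i j, t i j = t j i) (w : Fin n → ℝ) :
    (H * t * Matrix.diagonal w * t * Matrix.diagonal w * t).trace =
      ∑ a, ∑ i, w a * w i * t a i * (∑ b, ∑ e, t i e * H e b * t a b) := by
  have e1 : H * t * Matrix.diagonal w * t * Matrix.diagonal w * t =
      (H * t) * (Matrix.diagonal w * t * Matrix.diagonal w * t) := by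
    simp only [Matrix.mul_assoc]
  rw [e1, Matrix.trace_mul_comm]
  have e2 : Matrix.diagonal w * t * Matrix.diagonal w * t * (H * t) =
      Matrix.diagonal w * t * Matrix.diagonal w * (t * H * t) := by
    simp only [Matrix.mul_assoc]
  rw [e2, S2.pw_tr4]
  refine Finset.sum_congr rfl fun a _ => Finset.sum_congr rfl fun i _ => ?_
  have e3 : (t * H * t) i a = ∑ b, ∑ e, t i e * H e b * t a b := by
    rw [Matrix.mul_apply]
    refine Finset.sum_congr rfl fun b _ => ?_
    rw [Matrix.mul_apply, Finset.sum_mul]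
    refine Finset.sum_congr rfl fun e _ => ?_
    rw [ht b a]
  rw [e3]
  ring

end Vale.Agent.P254.SN

namespace Vale.Agent.P254.S2

open Vale.Agent.P254.SN

/-- the block N1 -/
theorem stmtN1 : StmtN1 := by
  intro n ψ V c C M c1 C1 hR h w hw
  have hT : TB V (tau ψ) := tb_tau hR h
  have hV := hT.int
  have hZ := hR.Z_pos
  set A1 : E n → ℝ := fun x => ∑ a, ∑ i, w a * w i * tau ψ x a i *
    (∑ b, ∑ e, tau ψ x i e * pd e (pd b V) x * tau ψ x a b) with hA1
  set N1 : E n → ℝ := fun x => ∑ a, ∑ i, w a * w i *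
    (∑ b, Dt (tau ψ) b (fun y => tau ψ y i a) x * pd b (fun y => tau ψ y a i) x) with hN1
  set N2 : E n → ℝ := fun x => ∑ a, ∑ i, w a * w i * tau ψ x a i *
    (∑ b, ∑ e, pd b (fun y => tau ψ y i e) x * pd e (fun y => tau ψ y a b) x) with hN2
  set A0 : E n → ℝ := fun x => ∑ a, ∑ i, w a * w i * (tau ψ x i a * tau ψ x a i) with hA0
  have g1 : GB A1 := GB.sum _ fun a _ => GB.sum _ fun i _ => ((GB.const _).mul (gb_t hT a i)).mul
    (GB.sum _ fun b _ => GB.sum _ fun e _ => ((gb_t hT i e).mul (gb_V hT e b)).mul (gb_t hT a b))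
  have g2 : GB N1 := GB.sum _ fun a _ => GB.sum _ fun i _ => (GB.const _).mul
    (GB.sum _ fun b _ => (gb_Dt hT b i a).mul (gb_pt hT b a i))
  have g3 : GB N2 := GB.sum _ fun a _ => GB.sum _ fun i _ => ((GB.const _).mul (gb_t hT a i)).mul
    (GB.sum _ fun b _ => GB.sum _ fun e _ => (gb_pt hT b i e).mul (gb_pt hT e a b))
  have g4 : GB A0 := GB.sum _ fun a _ => GB.sum _ fun i _ => (GB.const _).mul
    ((gb_t hT i a).mul (gb_t hT a i))
  have hid : I V A1 + I V N1 + I V N2 - I V A0 = 0 := by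
    rw [← I_comb hV g1 g2 g3 g4]
    exact stat_id hT w
  -- pointwise
  have hN1g : ∀ x, N1 x = ∑ i, ∑ j, w i * w j * gam ψ (fun x => tau ψ x i j) x := by
    intro x
    refine Finset.sum_congr rfl fun a _ => Finset.sum_congr rfl fun i _ => ?_
    congr 1
    unfold gam Dt
    refine Finset.sum_congr rfl fun b _ => ?_
    have e : (fun y => tau ψ y i a) = fun y => tau ψ y a i :=
      funext fun y => S814.rad_tau_symm h y i a
    rw [Finset.sum_mul, e]
    exact Finset.sum_congr rfl fun l _ => by ring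
  have hle : I V N1 ≤ I V N2 := by
    refine integral_mono_ae (g2.int hV) (g3.int hV) ?_
    filter_upwards [S814.rad_good h] with x hx
    refine mul_le_mul_of_nonneg_right ?_ (Real.exp_pos _).le
    have h1 := n1_le_n2 (h.tau_posDef x) (P := fun e a b => pd e (fun y => tau ψ y a b) x)
      (fun e b c => by
        have e1 : (fun y => tau ψ y b c) = fun y => tau ψ y c b :=
          funext fun y => S814.rad_tau_symm h y b c
        simp only [e1])
      (fun a b c => S814.rad_T h hx a b c) w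
    rw [hN1g x]
    refine le_trans (le_of_eq ?_) (h1.trans (le_of_eq ?_))
    · refine Finset.sum_congr rfl fun a _ => Finset.sum_congr rfl fun i _ => rfl
    · refine Finset.sum_congr rfl fun a _ => Finset.sum_congr rfl fun i _ => ?_
      congr 1
      exact Finset.sum_congr rfl fun b _ => Finset.sum_congr rfl fun e _ => mul_comm _ _
  have hE1 : ∑ i, ∑ j, w i * w j * I V (gam ψ (fun x => tau ψ x i j)) = I V N1 := by
    have h0 := I_sum2 hV w (f := fun i j => gam ψ (fun x => tau ψ x i j))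
      fun i j => gb_gam hT i j
    rw [← h0]
    congr 1
    funext x
    exact (hN1g x).symm
  have hE0 : (fun x => (Matrix.diagonal w * tau ψ x * Matrix.diagonal w * tau ψ x).trace) = A0 := by
    funext x
    rw [pw_tr4]
    exact Finset.sum_congr rfl fun a _ => Finset.sum_congr rfl fun i _ => by
      rw [mul_comm (tau ψ x a i)]
  have hE2 : (fun x => (hess V x * tau ψ x * Matrix.diagonal w * tau ψ x * Matrix.diagonal w
      * tau ψ x).trace) = A1 := by
    funext x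
    rw [tr_cub _ _ (fun i j => S814.rad_tau_symm h x i j)]
    rfl
  rw [hE0, hE2]
  have hEx : ∀ f : E n → ℝ, Ex V f = I V f / ∫ x, Real.exp (-V x) := fun _ => rfl
  simp only [hEx]
  have e3 : ∑ i, ∑ j, w i * w j * (I V (gam ψ (fun x => tau ψ x i j)) / ∫ x, Real.exp (-V x)) =
      I V N1 / ∫ x, Real.exp (-V x) := by
    rw [← hE1, Finset.sum_div]
    refine Finset.sum_congr rfl fun i _ => ?_
    rw [Finset.sum_div]
    exact Finset.sum_congr rfl fun j _ => by rw [mul_div_assoc]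
  rw [e3, ← sub_div, ← mul_div_assoc]
  exact div_le_div_of_nonneg_right (by linarith) hZ.le

end Vale.Agent.P254.S2
end

section

/-! P254 stage 3, block S2 (d) (helper300): `StmtBes`. -/

open MeasureTheory
open scoped Topology

namespace Vale.Agent.P254.S2.H300

open Vale.Agent.P227.M

theorem coreId {n : ℕ} {ψ V : E n → ℝ} {c C M c₁ C₁ : ℝ} (hV : Reg V c₁ C₁)
    (h : MC.MMc ψ V c C M) : CoreId (tau ψ) V := fun a G hG h0 h1 =>
  S2.core_gr hV h a G hG h0 h1

theorem stmtBes : StmtBes := fun _ _ _ _ _ _ _ _ hV h h0 h1 =>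
  ⟨fun i j => ((coreId hV h).bes hV (S2.gr_tau h) (S2.tau_symm h) h0 h1 i j).1,
    fun i j => ((coreId hV h).bes hV (S2.gr_tau h) (S2.tau_symm h) h0 h1 i j).2⟩

end Vale.Agent.P254.S2.H300
end

section

/-! # P254/SL, S2c: Brascamp-Lieb for bounded Lipschitz functions (helper700). -/

open MeasureTheory Filter Set
open scoped Topology ContDiff

namespace Vale.Agent.P254.SL.Gap

open Vale.Agent.P227.M

variable {n : ℕ}

theorem moll_eq (η : E n → ℝ) (G : E n → (E n →L[ℝ] ℝ)) (x : E n) :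
    DENS.moll η G x = ∫ s, η (x - s) • G s := by
  have h := integral_sub_left_eq_self (fun s => η (x - s) • G s) (volume : Measure (E n)) x
  rw [← h]
  unfold DENS.moll
  refine integral_congr_ae (Eventually.of_forall fun t => ?_)
  show η t • G (x - t) = η (x - (x - t)) • G (x - t)
  rw [sub_sub_cancel]

/-- the mollification of a bounded function is Lipschitz -/
theorem moll_lip {η : E n → ℝ} {L : NNReal} (hη : LipschitzWith L η) (hs : ∀ t, 1 < ‖t‖ → η t = 0)
    {G : E n → (E n →L[ℝ] ℝ)} (hG : AEStronglyMeasurable G) {K : ℝ} (hK : ∀ x, ‖G x‖ ≤ K) :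
    ∃ B : ℝ, 0 ≤ B ∧ ∀ x y, ‖DENS.moll η G x - DENS.moll η G y‖ ≤ B * ‖x - y‖ := by
  have hK0 : 0 ≤ K := (norm_nonneg _).trans (hK 0)
  have hηc : Continuous η := hη.continuous
  have hcs : ∀ x : E n, HasCompactSupport (fun s => η (x - s)) := by
    intro x
    refine HasCompactSupport.intro (K := Metric.closedBall x 1) (isCompact_closedBall x 1) fun s hs' => ?_
    rw [Metric.mem_closedBall, dist_eq_norm] at hs'
    push Not at hs'
    exact hs (x - s) (by rwa [norm_sub_rev])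
  have hηi : ∀ x : E n, Integrable (fun s => η (x - s)) := fun x =>
    (hηc.comp (continuous_const.sub continuous_id)).integrable_of_hasCompactSupport (hcs x)
  have hi : ∀ x : E n, Integrable (fun s => η (x - s) • G s) := by
    intro x
    refine ((hηi x).norm.mul_const K).mono' ((hηc.comp (continuous_const.sub continuous_id)).aestronglyMeasurable.smul hG)
      (Eventually.of_forall fun s => ?_)
    rw [norm_smul]
    exact mul_le_mul_of_nonneg_left (hK s) (norm_nonneg _)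
  set v : ℝ := (volume (Metric.closedBall (0 : E n) 1)).toReal with hv
  refine ⟨K * L * (v + v), by positivity, fun x y => ?_⟩
  rw [moll_eq, moll_eq, ← integral_sub (hi x) (hi y)]
  have hind : ∀ z : E n, Integrable ((Metric.closedBall z 1).indicator (fun _ : E n => (1 : ℝ))) := fun z =>
    (integrable_indicator_iff Metric.isClosed_closedBall.measurableSet).2
      (integrableOn_const (isCompact_closedBall z 1).measure_lt_top.ne)
  have hval : ∀ z : E n, ∫ s, (Metric.closedBall z 1).indicator (fun _ : E n => (1 : ℝ)) s = v := by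
    intro z
    rw [integral_indicator Metric.isClosed_closedBall.measurableSet]
    simp only [integral_const, smul_eq_mul, mul_one]
    rw [hv, measureReal_restrict_apply_univ]
    unfold Measure.real
    rw [Measure.addHaar_closedBall_center]
  calc ‖∫ s, (η (x - s) • G s - η (y - s) • G s)‖
      ≤ ∫ s, (K * L * ‖x - y‖) * ((Metric.closedBall x 1).indicator (fun _ : E n => (1 : ℝ)) s +
          (Metric.closedBall y 1).indicator (fun _ : E n => (1 : ℝ)) s) := by
        refine norm_integral_le_of_norm_le (((hind x).add (hind y)).const_mul _) (Eventually.of_forall fun s => ?_)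
        have esm : η (x - s) • G s - η (y - s) • G s = (η (x - s) - η (y - s)) • G s := by
          ext v
          show η (x - s) * G s v - η (y - s) * G s v = (η (x - s) - η (y - s)) * G s v
          ring
        rw [esm, norm_smul]
        have hind0 : ∀ z : E n, 0 ≤ (Metric.closedBall z 1).indicator (fun _ : E n => (1 : ℝ)) s := fun z =>
          indicator_nonneg (fun _ _ => zero_le_one) s
        by_cases h0 : ‖x - s‖ ≤ 1 ∨ ‖y - s‖ ≤ 1
        · have h1 : (1 : ℝ) ≤ (Metric.closedBall x 1).indicator (fun _ : E n => (1 : ℝ)) s +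
              (Metric.closedBall y 1).indicator (fun _ : E n => (1 : ℝ)) s := by
            rcases h0 with h0 | h0
            · have : s ∈ Metric.closedBall x 1 := by
                rw [Metric.mem_closedBall, dist_eq_norm, norm_sub_rev]; exact h0
              rw [indicator_of_mem this]
              linarith [hind0 y]
            · have : s ∈ Metric.closedBall y 1 := by
                rw [Metric.mem_closedBall, dist_eq_norm, norm_sub_rev]; exact h0
              rw [indicator_of_mem (s := Metric.closedBall y 1) this]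
              linarith [hind0 x]
          have h2 : ‖η (x - s) - η (y - s)‖ ≤ L * ‖x - y‖ := by
            have := hη.dist_le_mul (x - s) (y - s)
            rwa [dist_eq_norm, dist_eq_norm, sub_sub_sub_cancel_right] at this
          calc ‖η (x - s) - η (y - s)‖ * ‖G s‖ ≤ (L * ‖x - y‖) * K :=
                mul_le_mul h2 (hK s) (norm_nonneg _) (by positivity)
            _ = (K * L * ‖x - y‖) * 1 := by ring
            _ ≤ _ := mul_le_mul_of_nonneg_left h1 (by positivity)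
        · push Not at h0
          rw [hs _ h0.1, hs _ h0.2, sub_self, norm_zero, zero_mul]
          have := hind0 x
          have := hind0 y
          positivity
    _ = K * L * (v + v) * ‖x - y‖ := by
        rw [integral_const_mul, integral_add (hind x) (hind y), hval, hval]
        ring

theorem ker_zero (k : ℕ) (t : E n) (ht : 1 < ‖t‖) : DENS.ker (E n) k t = 0 := by
  by_contra h
  have h1 := DENS.norm_le_of_ker_ne h
  have h2 : (1 : ℝ) / ((k : ℝ) + 1) ≤ 1 := by
    rw [div_le_one (by positivity)]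
    have : (0 : ℝ) ≤ k := Nat.cast_nonneg k
    linarith
  linarith

theorem ker_lip (k : ℕ) : ∃ L : NNReal, LipschitzWith L (DENS.ker (E n) k) := by
  have h : ContDiff ℝ 1 (DENS.ker (E n) k) := (DENS.ker_smooth k).of_le (by norm_cast)
  obtain ⟨C, hC⟩ := h.lipschitzWith_of_hasCompactSupport (DENS.ker_supp k) (by norm_num)
  exact ⟨C, hC⟩

/-- **Brascamp-Lieb in the x-chart**, bounded Lipschitz `F` -/
theorem gap {ψ V F : E n → ℝ} {c M K B0 : ℝ} (hc : 0 < c) (h2 : ContDiff ℝ 2 ψ)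
    (hl : ∀ x v, c * ‖v‖ ^ 2 ≤ qf (hess ψ x) v)
    (hL : ∀ i j x y, |hess ψ x i j - hess ψ y i j| ≤ M * ‖x - y‖)
    (hma : ∀ x, V x = (∑ i, x i * pd i ψ x) - ψ x - Real.log (hess ψ x).det)
    (hVi : Integrable (fun x => Real.exp (-V x))) (hVc : Continuous V)
    (hF : ∀ x y, |F x - F y| ≤ K * ‖x - y‖) (hB0 : ∀ x, |F x| ≤ B0) :
    Ex V (fun x => F x ^ 2) - (Ex V F) ^ 2 ≤ Ex V (qq ψ F) := by
  set K1 : NNReal := K.toNNReal with hK1
  have hFL : LipschitzWith K1 F := by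
    refine LipschitzWith.of_dist_le_mul fun x y => ?_
    rw [Real.dist_eq, dist_eq_norm]
    exact (hF x y).trans (mul_le_mul_of_nonneg_right (Real.le_coe_toNNReal K) (norm_nonneg _))
  have hFc : Continuous F := hFL.continuous
  have hB00 : 0 ≤ B0 := (abs_nonneg _).trans (hB0 0)
  set Fk : ℕ → E n → ℝ := fun k => DENS.moll (DENS.ker (E n) k) F with hFk
  have hkc := fun k => DENS.ker_cont (E := E n) k
  have hks := fun k => DENS.ker_supp (E := E n) k
  have hk0 := fun k => DENS.ker_nonneg (E := E n) k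
  have hk1 := fun k => DENS.ker_integral (E := E n) k
  have hsm : ∀ k, ContDiff ℝ ∞ (Fk k) := fun k => DENS.contDiff_moll (DENS.ker_smooth k) (hks k) hFc.locallyIntegrable
  have hbd : ∀ k x, |Fk k x| ≤ B0 := fun k x => by
    rw [← Real.norm_eq_abs]
    exact DENS.norm_moll_le (hkc k) (hks k) (hk0 k) (hk1 k) (fun y => by rw [Real.norm_eq_abs]; exact hB0 y) x
  have hlip : ∀ k, LipschitzWith K1 (Fk k) := fun k =>
    DENS.lipschitz_moll (hkc k) (hks k) (hk0 k) (hk1 k) hFL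
  have hfd : ∀ k x, ‖fderiv ℝ (Fk k) x‖ ≤ K1 := fun k x => norm_fderiv_le_of_lipschitz ℝ (hlip k)
  have hfd0 : ∀ x, ‖fderiv ℝ F x‖ ≤ K1 := fun x => norm_fderiv_le_of_lipschitz ℝ hFL
  have hmain : ∀ k, Ex V (fun x => Fk k x ^ 2) - (Ex V (Fk k)) ^ 2 ≤ Ex V (qq ψ (Fk k)) := by
    intro k
    obtain ⟨L, hLk⟩ := ker_lip (n := n) k
    obtain ⟨B, hB, hBl⟩ := moll_lip hLk (ker_zero k) (G := fderiv ℝ F)
      (measurable_fderiv ℝ F).aestronglyMeasurable hfd0
    have hfe : fderiv ℝ (Fk k) = DENS.moll (DENS.ker (E n) k) (fderiv ℝ F) :=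
      DENS.fderiv_moll_of_lipschitz (hkc k) (hks k) hFL
    have hdiff : Differentiable ℝ (Fk k) := (hsm k).differentiable (by simp)
    refine gap_smooth hc h2 hl hL hma hVi hVc (K := K1) (B := B) (B0 := B0) K1.coe_nonneg hB
      ((hsm k).of_le (by norm_cast)) (hfd k) (fun x h => ?_) (fun x h => ?_) (hbd k)
    · have := (hlip k).dist_le_mul (x + h) x
      rwa [Real.dist_eq, dist_eq_norm, add_sub_cancel_left] at this
    · have h3 := (convex_closedBall x ‖h‖).norm_image_sub_le_of_norm_fderiv_le' (𝕜 := ℝ) (f := Fk k)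
        (φ := fderiv ℝ (Fk k) x) (C := B * ‖h‖) (x := x) (y := x + h) (fun z _ => hdiff z)
        (fun z hz => by
          rw [hfe]
          refine (hBl z x).trans (mul_le_mul_of_nonneg_left ?_ hB)
          rwa [Metric.mem_closedBall, dist_eq_norm] at hz)
        (Metric.mem_closedBall_self (norm_nonneg h))
        (by rw [Metric.mem_closedBall, dist_eq_norm, add_sub_cancel_left])
      rw [add_sub_cancel_left, Real.norm_eq_abs] at h3
      rw [pow_two, ← mul_assoc]
      exact h3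
  -- limits
  have hexpc : Continuous fun x => Real.exp (-V x) := Real.continuous_exp.comp hVc.neg
  have hlim : ∀ (f : ℕ → E n → ℝ) (g : E n → ℝ) (S : ℝ), (∀ k, AEStronglyMeasurable (f k) volume) →
      (∀ k x, |f k x| ≤ S) → (∀ᵐ x, Tendsto (fun k => f k x) atTop (𝓝 (g x))) →
      Tendsto (fun k => Ex V (f k)) atTop (𝓝 (Ex V g)) := by
    intro f g S hf hS hfg
    unfold Ex
    refine Tendsto.div_const ?_ _
    refine tendsto_integral_of_dominated_convergence (fun x => S * Real.exp (-V x))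
      (fun k => (hf k).mul hexpc.aestronglyMeasurable) (hVi.const_mul S)
      (fun k => Eventually.of_forall fun x => ?_) ?_
    · rw [Real.norm_eq_abs, abs_mul, Real.abs_exp]
      exact mul_le_mul_of_nonneg_right (hS k x) (Real.exp_pos _).le
    · filter_upwards [hfg] with x hx
      exact hx.mul_const _
  have hpt : ∀ x, Tendsto (fun k => Fk k x) atTop (𝓝 (F x)) := fun x => DENS.tendsto_moll_of_continuous hFc x
  have l1 : Tendsto (fun k => Ex V (fun x => Fk k x ^ 2)) atTop (𝓝 (Ex V (fun x => F x ^ 2))) :=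
    hlim _ _ (B0 ^ 2) (fun k => ((hsm k).continuous.pow 2).aestronglyMeasurable)
      (fun k x => by rw [abs_pow]; exact pow_le_pow_left₀ (abs_nonneg _) (hbd k x) 2)
      (Eventually.of_forall fun x => (hpt x).pow 2)
  have l2 : Tendsto (fun k => Ex V (Fk k)) atTop (𝓝 (Ex V F)) :=
    hlim _ _ B0 (fun k => (hsm k).continuous.aestronglyMeasurable) hbd (Eventually.of_forall hpt)
  have hmq : ∀ k, AEStronglyMeasurable (qq ψ (Fk k)) volume := by
    intro k
    refine Continuous.aestronglyMeasurable ?_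
    have hpc : ∀ i, Continuous (pd i (Fk k)) := fun i => by
      unfold pd
      exact (((hsm k).of_le (m := 1) (by norm_cast)).continuous_fderiv (by norm_num)).clm_apply continuous_const
    unfold qq
    refine continuous_finsetSum _ fun i _ => continuous_finsetSum _ fun j _ => ?_
    exact ((tau_cont' hc h2 hl hL i j).mul (hpc i)).mul (hpc j)
  have l3 : Tendsto (fun k => Ex V (qq ψ (Fk k))) atTop (𝓝 (Ex V (qq ψ F))) := by
    refine hlim _ _ ((n : ℝ) ^ 2 * (1 / c * K1 * K1)) hmq (fun k x => abs_qq_le hc h2 hl (hfd k) x) ?_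
    filter_upwards [DENS.ae_tendsto_fderiv_moll hFL] with x hx
    have hpd : ∀ i, Tendsto (fun k => pd i (Fk k) x) atTop (𝓝 (pd i F x)) := fun i => by
      unfold pd
      exact ((ContinuousLinearMap.apply ℝ ℝ (ei i : E n)).continuous.tendsto _).comp hx
    unfold qq
    exact tendsto_finsetSum _ fun i _ => tendsto_finsetSum _ fun j _ =>
      (tendsto_const_nhds.mul (hpd i)).mul (hpd j)
  exact le_of_tendsto_of_tendsto' (l1.sub (l2.pow 2)) l3 hmain

end Vale.Agent.P254.SL.Gap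
end

section

/-! # P254/SL: `StmtBL` of `S2/Ifc.lean` (helper700). -/

open MeasureTheory

namespace Vale.Agent.P254.SL.Gap

open Vale.Agent.P227.M

variable {n : ℕ}

/-- Brascamp-Lieb for bounded Lipschitz functions, `MMc` form -/
theorem gap_mmc {ψ V F : E n → ℝ} {c C M c1 C1 K B0 : ℝ} (hV : Reg V c1 C1) (h : MC.MMc ψ V c C M)
    (hF : ∀ x y, |F x - F y| ≤ K * ‖x - y‖) (hB0 : ∀ x, |F x| ≤ B0) :
    Ex V (fun x => F x ^ 2) - (Ex V F) ^ 2 ≤ Ex V (S2.gam ψ F) :=
  gap h.c_pos h.C2 h.lower h.lip h.ma hV.integrable_exp hV.cont hF hB0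

theorem stmtBL : S2.StmtBL := by
  intro n ψ V c C M c1 C1 hV h i j
  exact gap_mmc hV h (fun x y => tau_lip' h.c_pos h.C2 h.lower h.lip x y i j)
    (fun x => abs_inv_le' h.c_pos h.C2 h.lower x i j)

end Vale.Agent.P254.SL.Gap
end

section

/-!
P254, side project (note 11007), block S5: the potential of a tilted nice weight on Euclidean space.
-/

open MeasureTheory Matrix

namespace Vale.Agent.P254.S5

open Vale.Agent.P227

/-- the potential `-log w + ½ ⟨x, Bx⟩ - ⟨c, x⟩`, `w = Fr.wK K ε m` -/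
noncomputable def pot {n : ℕ} (K : Set (Fin n → ℝ)) (ε m : ℝ) (B : Matrix (Fin n) (Fin n) ℝ)
    (c : Fin n → ℝ) (x : M.E n) : ℝ :=
  -Real.log (Fr.wK K ε m x.ofLp) + 1 / 2 * (x.ofLp ⬝ᵥ B *ᵥ x.ofLp) - c ⬝ᵥ x.ofLp

/-- the affine map `y ↦ P y + a` of Euclidean space -/
noncomputable def aff {n : ℕ} (P : Matrix (Fin n) (Fin n) ℝ) (a : Fin n → ℝ) (y : M.E n) : M.E n :=
  WithLp.toLp 2 (P *ᵥ y.ofLp + a)

end Vale.Agent.P254.S5
end

section

/-!
P254, side project (note 11007), block S5, identification half: the moments of `e^{-pot ∘ aff}` are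
the tilted cumulants of the frame.
-/

open MeasureTheory Matrix Filter

namespace Vale.Agent.P254.S5

open Vale.Agent.P227

variable {n : ℕ}

theorem integral_ofLp (g : (Fin n → ℝ) → ℝ) : ∫ y : M.E n, g y.ofLp = ∫ x, g x := by
  exact (EuclideanSpace.volume_preserving_symm_measurableEquiv_toLp (Fin n)).integral_comp' g

/-- change of variables -/
theorem integral_aff {P : Matrix (Fin n) (Fin n) ℝ} (hP : IsUnit P) (a : Fin n → ℝ)
    (f : (Fin n → ℝ) → ℝ) :
    ∫ y : M.E n, f (aff P a y).ofLp = |P.det|⁻¹ * ∫ x, f x := by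
  have hdet : P.det ≠ 0 := ((Matrix.isUnit_iff_isUnit_det _).1 hP).ne_zero
  have h1 := integral_ofLp (n := n) (fun x => f (P *ᵥ x + a))
  have h2 := setIntegral_aff_image (n := n) hdet a MeasurableSet.univ f
  have h3 : Vale.Agent.P254.aff P a '' Set.univ = Set.univ := by
    rw [Set.image_univ, Set.range_eq_univ]
    intro x
    refine ⟨P⁻¹ *ᵥ (x - a), ?_⟩
    unfold Vale.Agent.P254.aff
    rw [Matrix.mulVec_mulVec, Matrix.mul_nonsing_inv _ ((Matrix.isUnit_iff_isUnit_det _).1 hP),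
      Matrix.one_mulVec, sub_add_cancel]
  rw [h3, Measure.restrict_univ] at h2
  have h4 : ∫ y : M.E n, f (aff P a y).ofLp = ∫ x, f (P *ᵥ x + a) := h1
  rw [h4, h2]
  have h5 : |P.det| ≠ 0 := abs_ne_zero.2 hdet
  unfold Vale.Agent.P254.aff
  field_simp

theorem exp_neg_pot {K : Set (Fin n → ℝ)} {ε m : ℝ} (hw : ∀ x, 0 < Fr.wK K ε m x)
    (B : Matrix (Fin n) (Fin n) ℝ) (c : Fin n → ℝ) (x : M.E n) :
    Real.exp (-pot K ε m B c x) = Fr.tl B c x.ofLp * Fr.wK K ε m x.ofLp := by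
  unfold pot Fr.tl
  have e : -(-Real.log (Fr.wK K ε m x.ofLp) + 1 / 2 * (x.ofLp ⬝ᵥ B *ᵥ x.ofLp) - c ⬝ᵥ x.ofLp)
      = (c ⬝ᵥ x.ofLp - 1 / 2 * (x.ofLp ⬝ᵥ B *ᵥ x.ofLp)) + Real.log (Fr.wK K ε m x.ofLp) := by ring
  rw [e, Real.exp_add, Real.exp_log (hw _)]

/-- expectations under `e^{-pot ∘ aff}` are tilted expectations -/
theorem Ex_pot {K : Set (Fin n → ℝ)} {ε m : ℝ} (hw : ∀ x, 0 < Fr.wK K ε m x)
    (B : Matrix (Fin n) (Fin n) ℝ) (c : Fin n → ℝ) {P : Matrix (Fin n) (Fin n) ℝ} (hP : IsUnit P)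
    (a : Fin n → ℝ) (φ : (Fin n → ℝ) → ℝ) :
    M.Ex (fun y => pot K ε m B c (aff P a y)) (fun y => φ (aff P a y).ofLp)
      = Fr.Ev (Fr.wK K ε m) B c φ := by
  unfold M.Ex Fr.Ev Fr.I
  have hdet : P.det ≠ 0 := ((Matrix.isUnit_iff_isUnit_det _).1 hP).ne_zero
  have h5 : |P.det|⁻¹ ≠ 0 := inv_ne_zero (abs_ne_zero.2 hdet)
  simp only [exp_neg_pot hw]
  have h1 := integral_aff hP a (fun x => φ x * (Fr.tl B c x * Fr.wK K ε m x))
  have h2 := integral_aff hP a (fun x => Fr.tl B c x * Fr.wK K ε m x)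
  rw [h1, h2, mul_div_mul_left _ _ h5]
  simp only [one_mul]

section moments

variable {w : (Fin n → ℝ) → ℝ} {m C : ℝ} {B : Matrix (Fin n) (Fin n) ℝ}

/-- centred coordinates -/
noncomputable def cc (w : (Fin n → ℝ) → ℝ) (B : Matrix (Fin n) (Fin n) ℝ) (c : Fin n → ℝ)
    (i : Fin n) (x : Fin n → ℝ) : ℝ := x i - Fr.muF w B c i

theorem pg_cc (w : (Fin n → ℝ) → ℝ) (B : Matrix (Fin n) (Fin n) ℝ) (c : Fin n → ℝ) (i : Fin n) :
    Fr.Pg (cc w B c i) := (Fr.Pg.coord i).sub (Fr.Pg.const _)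

theorem Ev_cc (hw : Fr.Wt w m C) (hB : Fr.Adm m B) (c : Fin n → ℝ) (i : Fin n) :
    Fr.Ev w B c (cc w B c i) = 0 := by
  unfold cc
  rw [Fr.Ev_sub hw hB c (Fr.Pg.coord i) (Fr.Pg.const _), Fr.Ev_const hw hB]
  exact sub_self _

theorem Ev_cc2 (hw : Fr.Wt w m C) (hB : Fr.Adm m B) (c : Fin n → ℝ) (i j : Fin n) :
    Fr.Ev w B c (fun x => cc w B c i x * cc w B c j x) = Fr.AF w B c i j := by
  have h := Fr.lin_Ev hw hB c
  have e1 : (fun x => cc w B c i x * cc w B c j x) = fun x =>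
      (x i * x j - Fr.muF w B c j * x i) - (Fr.muF w B c i * x j
        - Fr.muF w B c i * Fr.muF w B c j) := by
    funext x; unfold cc; ring
  have p1 := Fr.Pg.coord (n := n) i
  have p2 := Fr.Pg.coord (n := n) j
  rw [e1, Fr.Ev_sub hw hB c ((p1.mul p2).sub (p1.const_mul _))
    ((p2.const_mul _).sub (Fr.Pg.const _)), Fr.Ev_sub hw hB c (p1.mul p2) (p1.const_mul _),
    Fr.Ev_sub hw hB c (p2.const_mul _) (Fr.Pg.const _), Fr.Ev_const_mul, Fr.Ev_const_mul,
    Fr.Ev_const hw hB, Fr.AF_apply]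
  unfold Fr.c2 Fr.muF Fr.co
  ring

theorem Ev_cc3 (hw : Fr.Wt w m C) (hB : Fr.Adm m B) (c : Fin n → ℝ) (i j k : Fin n) :
    Fr.Ev w B c (fun x => cc w B c i x * cc w B c j x * cc w B c k x) = Fr.TF w B c i j k := by
  have p1 := Fr.Pg.coord (n := n) i
  have p2 := Fr.Pg.coord (n := n) j
  have p3 := Fr.Pg.coord (n := n) k
  set a := Fr.muF w B c i with ha
  set b := Fr.muF w B c j with hb
  set d := Fr.muF w B c k with hd
  have e1 : (fun x => cc w B c i x * cc w B c j x * cc w B c k x) = fun x =>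
      (x i * x j * x k - ((d * (x i * x j) + b * (x i * x k)) + a * (x j * x k)))
        + (((b * d) * x i + (a * d) * x j) + ((a * b) * x k - a * b * d)) := by
    funext x; unfold cc; rw [← ha, ← hb, ← hd]; ring
  have q1 := (p1.mul p2).mul p3
  have q2 := (((p1.mul p2).const_mul d).add ((p1.mul p3).const_mul b)).add ((p2.mul p3).const_mul a)
  have q3 := ((p1.const_mul (b * d)).add (p2.const_mul (a * d))).add
    ((p3.const_mul (a * b)).sub (Fr.Pg.const (n := n) (a * b * d)))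
  rw [e1, Fr.Ev_add hw hB c (q1.sub q2) q3, Fr.Ev_sub hw hB c q1 q2,
    Fr.Ev_add hw hB c (((p1.mul p2).const_mul d).add ((p1.mul p3).const_mul b))
      ((p2.mul p3).const_mul a),
    Fr.Ev_add hw hB c ((p1.mul p2).const_mul d) ((p1.mul p3).const_mul b),
    Fr.Ev_add hw hB c ((p1.const_mul (b * d)).add (p2.const_mul (a * d)))
      ((p3.const_mul (a * b)).sub (Fr.Pg.const (n := n) (a * b * d))),
    Fr.Ev_add hw hB c (p1.const_mul (b * d)) (p2.const_mul (a * d)),
    Fr.Ev_sub hw hB c (p3.const_mul (a * b)) (Fr.Pg.const (n := n) (a * b * d)),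
    Fr.Ev_const_mul, Fr.Ev_const_mul, Fr.Ev_const_mul, Fr.Ev_const_mul, Fr.Ev_const_mul,
    Fr.Ev_const_mul, Fr.Ev_const hw hB]
  have a' : Fr.Ev w B c (fun x => x i) = a := rfl
  have b' : Fr.Ev w B c (fun x => x j) = b := rfl
  have d' : Fr.Ev w B c (fun x => x k) = d := rfl
  unfold Fr.TF Fr.c3 Fr.c2 Fr.co
  rw [a', b', d']
  ring

end moments

section main

variable {K : Set (Fin n → ℝ)} {ε m : ℝ}

/-- the moments in the frame `L` -/
theorem moments (hK : IsCompact K) (hi : (interior K).Nonempty) (hε : 0 < ε) (hm : 0 < m)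
    {B : Matrix (Fin n) (Fin n) ℝ} (hB : B.PosSemidef) (c : Fin n → ℝ)
    {L : Matrix (Fin n) (Fin n) ℝ} (hL : IsUnit L) :
    let V : M.E n → ℝ := fun y => pot K ε m B c (aff L⁻¹ (Fr.muF (Fr.wK K ε m) B c) y)
    (∀ i, M.Ex V (fun y => y i) = 0) ∧
    (∀ i j, M.Ex V (fun y => y i * y j) = (L * Fr.AF (Fr.wK K ε m) B c * Lᵀ) i j) ∧
    (∀ i j k, M.Ex V (fun y => y i * y j * y k)
      = Vale.Agent.P254.L.frT L (Fr.TF (Fr.wK K ε m) B c) i j k) := by
  intro V
  obtain ⟨C, hw⟩ := Fr.wt_wK hK hi hε hm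
  have hadm := Fr.adm_of_posSemidef hm hB
  have hLi : IsUnit L⁻¹ := (Matrix.isUnit_nonsing_inv_iff).2 hL
  have hpos : ∀ x, 0 < Fr.wK K ε m x := hw.pos
  have hlin := Fr.lin_Ev hw hadm c
  set μ := Fr.muF (Fr.wK K ε m) B c with hμ
  have hc : ∀ (y : M.E n) (i : Fin n),
      y i = ∑ a, L i a * cc (Fr.wK K ε m) B c a (aff L⁻¹ μ y).ofLp := by
    intro y i
    have h1 : L *ᵥ (fun a => cc (Fr.wK K ε m) B c a (aff L⁻¹ μ y).ofLp) = y.ofLp := by
      have h2 : (fun a => cc (Fr.wK K ε m) B c a (aff L⁻¹ μ y).ofLp) = L⁻¹ *ᵥ y.ofLp := by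
        funext a
        unfold cc aff
        simp [← hμ]
      rw [h2, Matrix.mulVec_mulVec, Matrix.mul_nonsing_inv _
        ((Matrix.isUnit_iff_isUnit_det _).1 hL), Matrix.one_mulVec]
    have h3 := congrFun h1 i
    exact h3.symm
  refine ⟨fun i => ?_, fun i j => ?_, fun i j k => ?_⟩
  · have h1 := Ex_pot hpos B c hLi μ (fun x => ∑ a, L i a * cc (Fr.wK K ε m) B c a x)
    have h2 : (fun y : M.E n => y i)
        = fun y => (fun x => ∑ a, L i a * cc (Fr.wK K ε m) B c a x) (aff L⁻¹ μ y).ofLp :=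
      funext fun y => hc y i
    rw [h2, h1, hlin.sum Finset.univ (fun a => L i a) _ fun a _ => pg_cc _ B c a]
    refine Finset.sum_eq_zero fun a _ => ?_
    rw [Ev_cc hw hadm, mul_zero]
  · have h1 := Ex_pot hpos B c hLi μ (fun x => (∑ a, L i a * cc (Fr.wK K ε m) B c a x)
      * (∑ b, L j b * cc (Fr.wK K ε m) B c b x))
    have h2 : (fun y : M.E n => y i * y j)
        = fun y => (fun x => (∑ a, L i a * cc (Fr.wK K ε m) B c a x)
          * (∑ b, L j b * cc (Fr.wK K ε m) B c b x)) (aff L⁻¹ μ y).ofLp :=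
      funext fun y => by
        show y i * y j = _
        rw [hc y i, hc y j]
    rw [h2, h1, hlin.two (fun a => L i a) (fun b => L j b) fun a => pg_cc _ B c a]
    simp only [Ev_cc2 hw hadm]
    rw [Matrix.mul_apply]
    simp only [Matrix.mul_apply, Matrix.transpose_apply, Finset.sum_mul]
    rw [Finset.sum_comm]
    refine Finset.sum_congr rfl fun a _ => Finset.sum_congr rfl fun b _ => ?_
    ring
  · have h1 := Ex_pot hpos B c hLi μ (fun x => (∑ a, L i a * cc (Fr.wK K ε m) B c a x)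
      * (∑ b, L j b * cc (Fr.wK K ε m) B c b x) * (∑ d, L k d * cc (Fr.wK K ε m) B c d x))
    have h2 : (fun y : M.E n => y i * y j * y k)
        = fun y => (fun x => (∑ a, L i a * cc (Fr.wK K ε m) B c a x)
          * (∑ b, L j b * cc (Fr.wK K ε m) B c b x)
          * (∑ d, L k d * cc (Fr.wK K ε m) B c d x)) (aff L⁻¹ μ y).ofLp :=
      funext fun y => by
        show y i * y j * y k = _
        rw [hc y i, hc y j, hc y k]
    rw [h2, h1, hlin.three (fun a => L i a) (fun b => L j b) (fun d => L k d)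
      fun a => pg_cc _ B c a]
    simp only [Ev_cc3 hw hadm]
    rfl

end main

end Vale.Agent.P254.S5
end

section

/-!
P254, side project (note 11007), block S5: assembly.
-/

open MeasureTheory Matrix Filter Set

namespace Vale.Agent.P254.S5

open Vale.Agent.P227

variable {n : ℕ}

/-- (R1) -/
def RegPot : Prop := ∀ (n : ℕ) (K : Set (Fin n → ℝ)), IsCompact K → Convex ℝ K →
  (interior K).Nonempty → ∀ (ε m : ℝ), 0 < ε → 0 < m → ∀ B : Matrix (Fin n) (Fin n) ℝ,
    B.PosSemidef → ∀ c : Fin n → ℝ, ∃ c1 C1 : ℝ, M.Reg (pot K ε m B c) c1 C1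

/-- (R2) -/
def HessPot : Prop := ∀ (n : ℕ) (K : Set (Fin n → ℝ)), IsCompact K → Convex ℝ K →
  (interior K).Nonempty → ∀ (ε m : ℝ), 0 < ε → 0 < m → ∀ B : Matrix (Fin n) (Fin n) ℝ,
    B.PosSemidef → ∀ (c : Fin n → ℝ) (x v : M.E n),
      v.ofLp ⬝ᵥ B *ᵥ v.ofLp ≤ M.qf (M.hess (pot K ε m B c) x) v

/-- (R3) -/
def RegAff : Prop := ∀ (n : ℕ) (V : M.E n → ℝ) (c C : ℝ), M.Reg V c C →
  ∀ (P : Matrix (Fin n) (Fin n) ℝ), IsUnit P → ∀ a : Fin n → ℝ,
    ∃ c' C' : ℝ, M.Reg (fun y => V (aff P a y)) c' C'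

/-- (R4) -/
def HessAff : Prop := ∀ (n : ℕ) (V : M.E n → ℝ), ContDiff ℝ 2 V →
  ∀ (P : Matrix (Fin n) (Fin n) ℝ) (a : Fin n → ℝ) (y v : M.E n),
    M.qf (M.hess (fun y => V (aff P a y)) y) v
      = M.qf (M.hess V (aff P a y)) (WithLp.toLp 2 (P *ᵥ v.ofLp))

/-- block S5 for one weight, from the four regularity facts -/
theorem statIneq_of (R1 : RegPot) (R2 : HessPot) (R3 : RegAff) (R4 : HessAff)
    (hS : St625.StmtStatic) {K : Set (Fin n → ℝ)} (hK : IsCompact K) (hc : Convex ℝ K)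
    (hi : (interior K).Nonempty) {ε m : ℝ} (hε : 0 < ε) (hm : 0 < m)
    {B : Matrix (Fin n) (Fin n) ℝ} (hB : B.PosSemidef) (c : Fin n → ℝ) :
    St625.StatIneq St625.kst (Fr.AF (Fr.wK K ε m) B c) B (Fr.TF (Fr.wK K ε m) B c) := by
  intro L β hL hA hBL hβ r hr
  have hLdet := (Matrix.isUnit_iff_isUnit_det _).1 hL
  have hLi : IsUnit L⁻¹ := (Matrix.isUnit_nonsing_inv_iff).2 hL
  obtain ⟨h0, h2, h3⟩ := moments hK hi hε hm hB c hL
  obtain ⟨c1, C1, hReg⟩ := R1 n K hK hc hi ε m hε hm B hB c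
  obtain ⟨c2, C2, hReg2⟩ := R3 n _ c1 C1 hReg L⁻¹ hLi (Fr.muF (Fr.wK K ε m) B c)
  have key := hS n (fun y => pot K ε m B c (aff L⁻¹ (Fr.muF (Fr.wK K ε m) B c) y)) c2 C2 hReg2
    h0 (fun i j => by rw [h2 i j, hA, Matrix.one_apply]) β (fun i => ⟨(hβ i).1, (hβ i).2⟩)
    (fun x v => by
      rw [R4 n _ hReg.C2]
      have h5 := R2 n K hK hc hi ε m hε hm B hB c
        (aff L⁻¹ (Fr.muF (Fr.wK K ε m) B c) x) (WithLp.toLp 2 (L⁻¹ *ᵥ v.ofLp))
      refine le_trans (le_of_eq ?_) h5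
      show ∑ i, β i * v i ^ 2 = (L⁻¹ *ᵥ v.ofLp) ⬝ᵥ B *ᵥ (L⁻¹ *ᵥ v.ofLp)
      have h6 : L *ᵥ (L⁻¹ *ᵥ v.ofLp) = v.ofLp := by
        rw [Matrix.mulVec_mulVec, Matrix.mul_nonsing_inv _ hLdet, Matrix.one_mulVec]
      have h7 : B *ᵥ (L⁻¹ *ᵥ v.ofLp) = Lᵀ *ᵥ (Matrix.diagonal β *ᵥ v.ofLp) := by
        conv_lhs => rw [hBL]
        rw [← Matrix.mulVec_mulVec, h6, ← Matrix.mulVec_mulVec]
      rw [h7, Matrix.dotProduct_mulVec, Matrix.vecMul_transpose, h6]
      unfold dotProduct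
      refine Finset.sum_congr rfl fun i _ => ?_
      rw [Matrix.mulVec_diagonal]
      ring) r hr
  refine le_trans (le_of_eq ?_) key
  refine Finset.sum_congr rfl fun i _ => Finset.sum_congr rfl fun j _ => ?_
  congr 1
  refine Finset.sum_congr rfl fun k _ => ?_
  rw [h3 i j k]

end Vale.Agent.P254.S5
end

section

/-! # P254/S5: the potential of a tilted nice weight is `Reg` (helper669), part 2 -/

open MeasureTheory Matrix Filter Topology

namespace Vale.Agent.P254.S5.R669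

open Vale.Agent.P227.M (Reg hess qf pd ei)
open Vale.Agent.P227.M.Lap (lap Expo contDiff_lap lap_pos integrable_lap contDiff_log_lap qf_hess
  line1 line2)

variable {n : ℕ}

section gen

theorem two_le_top {f : EE n → ℝ} (h : ContDiff ℝ (⊤ : ℕ∞) f) : ContDiff ℝ 2 f :=
  h.of_le (WithTop.coe_le_coe.2 (le_top : (2 : ℕ∞) ≤ ⊤))

theorem qf_le_of_bdd {V : EE n → ℝ} (hV : ContDiff ℝ (⊤ : ℕ∞) V) {C : ℝ}
    (hC : ∀ x, ‖iteratedFDeriv ℝ 2 V x‖ ≤ C) (x v : EE n) : |qf (hess V x) v| ≤ C * ‖v‖ ^ 2 := by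
  rw [qf_hess (two_le_top hV)]
  have h1 : ‖fderiv ℝ (fderiv ℝ V) x‖ ≤ C := by
    have h2 := hC x
    rw [← norm_iteratedFDeriv_fderiv, ← norm_iteratedFDeriv_fderiv, norm_iteratedFDeriv_zero] at h2
    exact h2
  have h3 := (fderiv ℝ (fderiv ℝ V) x).le_opNorm₂ v v
  rw [Real.norm_eq_abs] at h3
  calc |fderiv ℝ (fderiv ℝ V) x v v| ≤ ‖fderiv ℝ (fderiv ℝ V) x‖ * ‖v‖ * ‖v‖ := h3
    _ ≤ C * ‖v‖ * ‖v‖ := by gcongr
    _ = C * ‖v‖ ^ 2 := by ring

theorem reg_of {V : EE n → ℝ} {c : ℝ} (hc : 0 < c) (hs : ContDiff ℝ (⊤ : ℕ∞) V)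
    (hl : ∀ x v, c * ‖v‖ ^ 2 ≤ qf (hess V x) v)
    (hb : ∀ k : ℕ, 2 ≤ k → ∃ B : ℝ, ∀ x, ‖iteratedFDeriv ℝ k V x‖ ≤ B) : ∃ C, Reg V c C := by
  obtain ⟨C, hC⟩ := hb 2 le_rfl
  exact ⟨C, hc, hs, hl, fun x v => (le_abs_self _).trans (qf_le_of_bdd hs hC x v), hb⟩

theorem qf_hess_add {f g : EE n → ℝ} (hf : ContDiff ℝ (⊤ : ℕ∞) f) (hg : ContDiff ℝ (⊤ : ℕ∞) g)
    (x v : EE n) : qf (hess (fun x => f x + g x) x) v = qf (hess f x) v + qf (hess g x) v := by
  have hfd : Differentiable ℝ f := hf.differentiable (by simp)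
  have hgd : Differentiable ℝ g := hg.differentiable (by simp)
  have hf2 : Differentiable ℝ (fderiv ℝ f) :=
    ((two_le_top hf).fderiv_right (m := 1) (by norm_num)).differentiable (by norm_num)
  have hg2 : Differentiable ℝ (fderiv ℝ g) :=
    ((two_le_top hg).fderiv_right (m := 1) (by norm_num)).differentiable (by norm_num)
  rw [qf_hess (two_le_top hf), qf_hess (two_le_top hg), qf_hess (two_le_top (hf.add hg))]
  have e1 : fderiv ℝ (fun x => f x + g x) = fun x => fderiv ℝ f x + fderiv ℝ g x := by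
    funext y
    exact fderiv_add (hfd y) (hgd y)
  have e2 : fderiv ℝ (fun x => fderiv ℝ f x + fderiv ℝ g x) x
      = fderiv ℝ (fderiv ℝ f) x + fderiv ℝ (fderiv ℝ g) x := fderiv_add (hf2 x) (hg2 x)
  rw [e1, e2]
  rfl

theorem bdd_add {f g : EE n → ℝ} (hf : ContDiff ℝ (⊤ : ℕ∞) f) (hg : ContDiff ℝ (⊤ : ℕ∞) g)
    {k : ℕ} (h1 : ∃ B : ℝ, ∀ x, ‖iteratedFDeriv ℝ k f x‖ ≤ B)
    (h2 : ∃ B : ℝ, ∀ x, ‖iteratedFDeriv ℝ k g x‖ ≤ B) :
    ∃ B : ℝ, ∀ x, ‖iteratedFDeriv ℝ k (fun x => f x + g x) x‖ ≤ B := by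
  obtain ⟨B1, h1⟩ := h1
  obtain ⟨B2, h2⟩ := h2
  refine ⟨B1 + B2, fun x => ?_⟩
  have e : iteratedFDeriv ℝ k (fun x => f x + g x) x
      = iteratedFDeriv ℝ k f x + iteratedFDeriv ℝ k g x :=
    iteratedFDeriv_add_apply (hf.of_le (by exact_mod_cast le_top)).contDiffAt
      (hg.of_le (by exact_mod_cast le_top)).contDiffAt
  rw [e]
  exact (norm_add_le _ _).trans (add_le_add (h1 x) (h2 x))

end gen

section aff

/-- the linear map of a matrix -/
noncomputable def ML (M : Matrix (Fin n) (Fin n) ℝ) : EE n →L[ℝ] EE n :=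
  ((EuclideanSpace.equiv (Fin n) ℝ).symm : (Fin n → ℝ) →L[ℝ] EE n) ∘L
    (LinearMap.toContinuousLinearMap (Matrix.mulVecLin M)) ∘L
    ((EuclideanSpace.equiv (Fin n) ℝ) : EE n →L[ℝ] (Fin n → ℝ))

theorem ML_apply (M : Matrix (Fin n) (Fin n) ℝ) (x : EE n) :
    ML M x = WithLp.toLp 2 (M *ᵥ x.ofLp) := rfl

theorem aff_eq (M : Matrix (Fin n) (Fin n) ℝ) (a : Fin n → ℝ) (y : EE n) :
    aff M a y = ML M y + WithLp.toLp 2 a := rfl

theorem hasFDerivAt_comp_aff {V : EE n → ℝ} (hV : Differentiable ℝ V)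
    (M : Matrix (Fin n) (Fin n) ℝ) (a : Fin n → ℝ) (y : EE n) :
    HasFDerivAt (fun y => V (aff M a y)) ((fderiv ℝ V (aff M a y)).comp (ML M)) y := by
  have h1 : HasFDerivAt (fun y => aff M a y) (ML M) y := by
    simp only [aff_eq]
    exact (ML M).hasFDerivAt.add_const _
  exact (hV (aff M a y)).hasFDerivAt.comp y h1

/-- (R4) -/
theorem qf_hess_aff {V : EE n → ℝ} (hV : ContDiff ℝ 2 V)
    (M : Matrix (Fin n) (Fin n) ℝ) (a : Fin n → ℝ) (y v : EE n) :
    qf (hess (fun y => V (aff M a y)) y) v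
      = qf (hess V (aff M a y)) (WithLp.toLp 2 (M *ᵥ v.ofLp)) := by
  have hd : Differentiable ℝ V := hV.differentiable (by norm_num)
  have hd2 : Differentiable ℝ (fderiv ℝ V) :=
    (hV.fderiv_right (m := 1) (by norm_num)).differentiable (by norm_num)
  have haff : ContDiff ℝ 2 (fun y : EE n => aff M a y) := by
    simp only [aff_eq]
    exact (ML M).contDiff.add contDiff_const
  have hcomp : ContDiff ℝ 2 (fun y => V (aff M a y)) := hV.comp haff
  rw [qf_hess hcomp, qf_hess hV]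
  have e1 : fderiv ℝ (fun y => V (aff M a y)) = fun y => (fderiv ℝ V (aff M a y)).comp (ML M) := by
    funext y
    exact (hasFDerivAt_comp_aff hd M a y).fderiv
  rw [e1]
  have h1 : HasFDerivAt (fun y => aff M a y) (ML M) y := by
    simp only [aff_eq]
    exact (ML M).hasFDerivAt.add_const _
  have h2 : HasFDerivAt (fun y => fderiv ℝ V (aff M a y))
      ((fderiv ℝ (fderiv ℝ V) (aff M a y)).comp (ML M)) y :=
    (hd2 (aff M a y)).hasFDerivAt.comp y h1
  have h3 : HasFDerivAt (fun y => (fderiv ℝ V (aff M a y)).comp (ML M))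
      ((ContinuousLinearMap.compL ℝ (EE n) (EE n) ℝ).flip (ML M) ∘L
        ((fderiv ℝ (fderiv ℝ V) (aff M a y)).comp (ML M))) y :=
    (((ContinuousLinearMap.compL ℝ (EE n) (EE n) ℝ).flip (ML M)).hasFDerivAt).comp y h2
  rw [h3.fderiv]
  rfl

theorem contDiff_aff {V : EE n → ℝ} (hV : ContDiff ℝ (⊤ : ℕ∞) V)
    (M : Matrix (Fin n) (Fin n) ℝ) (a : Fin n → ℝ) :
    ContDiff ℝ (⊤ : ℕ∞) (fun y => V (aff M a y)) := by
  have haff : ContDiff ℝ (⊤ : ℕ∞) (fun y : EE n => aff M a y) := by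
    simp only [aff_eq]
    exact (ML M).contDiff.add contDiff_const
  exact hV.comp haff

/-- (R3) -/
theorem reg_aff {V : EE n → ℝ} {c C : ℝ} (h : Reg V c C) {M : Matrix (Fin n) (Fin n) ℝ}
    (hM : IsUnit M) (a : Fin n → ℝ) : ∃ c' C', Reg (fun y => V (aff M a y)) c' C' := by
  obtain ⟨N, hN⟩ := hM.exists_left_inv
  have hc := h.c_pos
  have hlow : ∀ v : EE n, ‖v‖ ≤ (‖ML N‖ + 1) * ‖ML M v‖ := by
    intro v
    have e : v = ML N (ML M v) := by
      rw [ML_apply, ML_apply]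
      change v = WithLp.toLp 2 (N *ᵥ (M *ᵥ v.ofLp))
      rw [mulVec_mulVec, hN, one_mulVec]
    calc ‖v‖ = ‖ML N (ML M v)‖ := by rw [← e]
      _ ≤ ‖ML N‖ * ‖ML M v‖ := (ML N).le_opNorm _
      _ ≤ (‖ML N‖ + 1) * ‖ML M v‖ := by
        gcongr
        linarith
  have hN0 : 0 < ‖ML N‖ + 1 := by positivity
  refine ⟨c / (‖ML N‖ + 1) ^ 2, reg_of (by positivity) (contDiff_aff h.smooth M a)
    (fun y v => ?_) fun k hk => ?_⟩
  · rw [qf_hess_aff (two_le_top h.smooth)]
    refine le_trans ?_ (h.lower _ _)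
    rw [← ML_apply]
    have h1 : ‖v‖ ^ 2 ≤ ((‖ML N‖ + 1) * ‖ML M v‖) ^ 2 :=
      pow_le_pow_left₀ (norm_nonneg _) (hlow v) 2
    rw [div_mul_eq_mul_div, div_le_iff₀ (by positivity)]
    calc c * ‖v‖ ^ 2 ≤ c * ((‖ML N‖ + 1) * ‖ML M v‖) ^ 2 := by gcongr
      _ = _ := by ring
  · obtain ⟨B, hB⟩ := h.bdd k hk
    refine ⟨‖ML M‖ ^ k * B, fun y => ?_⟩
    have hadd : ContDiff ℝ (⊤ : ℕ∞) (fun z : EE n => V (z + WithLp.toLp 2 a)) :=
      h.smooth.comp (contDiff_id.add contDiff_const)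
    have e1 : iteratedFDeriv ℝ k (fun y => V (aff M a y)) y
        = (iteratedFDeriv ℝ k (fun z : EE n => V (z + WithLp.toLp 2 a)) (ML M y)).compContinuousLinearMap
          fun _ => ML M :=
      (ML M).iteratedFDeriv_comp_right hadd y (by exact_mod_cast le_top)
    rw [e1, iteratedFDeriv_comp_add_right]
    refine (ContinuousMultilinearMap.norm_compContinuousLinearMap_le _ _).trans ?_
    rw [Finset.prod_const, Finset.card_univ, Fintype.card_fin, mul_comm]
    exact mul_le_mul_of_nonneg_left (hB _) (by positivity)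

end aff

section nice

variable {K : Set (Fin n → ℝ)} {ε m : ℝ}

/-- the pairing `(1/ε) ⟨y, x⟩` -/
noncomputable def KP (n : ℕ) (ε : ℝ) : (Fin n → ℝ) →L[ℝ] EE n →L[ℝ] ℝ :=
  ∑ i, (1 / ε) • (ContinuousLinearMap.proj i : (Fin n → ℝ) →L[ℝ] ℝ).smulRight
    (EuclideanSpace.proj i : EE n →L[ℝ] ℝ)

theorem KP_apply (ε : ℝ) (y : Fin n → ℝ) (x : EE n) : KP n ε y x = (1 / ε) * (y ⬝ᵥ x.ofLp) := by
  unfold KP
  simp only [_root_.sum_apply, _root_.smul_apply,
    ContinuousLinearMap.smulRight_apply, smul_eq_mul, dotProduct]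
  rw [Finset.mul_sum]
  rfl

/-- the density on `K` -/
noncomputable def dn (ε : ℝ) (y : Fin n → ℝ) : ℝ := Real.exp (-(1 / (2 * ε)) * (y ⬝ᵥ y))

theorem cont_dn (ε : ℝ) : Continuous (dn ε : (Fin n → ℝ) → ℝ) := by
  unfold dn dotProduct
  fun_prop

/-- Laplace transform of the density on `K` -/
noncomputable def LK (K : Set (Fin n → ℝ)) (ε : ℝ) (x : EE n) : ℝ :=
  lap (KP n ε) (volume.restrict K) (dn ε) x

theorem gau_eq (hε : 0 < ε) (x : EE n) :
    Fr.gau K ε x.ofLp = Real.exp (-(1 / (2 * ε)) * (x.ofLp ⬝ᵥ x.ofLp)) * LK K ε x := by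
  unfold Fr.gau LK lap
  rw [← integral_const_mul]
  refine integral_congr_ae (Eventually.of_forall fun y => ?_)
  simp only [KP_apply, dn, smul_eq_mul]
  rw [← Real.exp_add, ← Real.exp_add]
  congr 1
  have h1 : (x.ofLp - y) ⬝ᵥ (x.ofLp - y) = x.ofLp ⬝ᵥ x.ofLp - 2 * (y ⬝ᵥ x.ofLp) + y ⬝ᵥ y := by
    rw [sub_dotProduct, dotProduct_sub, dotProduct_sub, dotProduct_comm x.ofLp y]
    ring
  rw [h1]
  field_simp
  ring

theorem LK_pos (hK : IsCompact K) (hi : (interior K).Nonempty) (hε : 0 < ε) (x : EE n) :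
    0 < LK K ε x := by
  have h1 := Fr.gau_pos hK hi hε x.ofLp
  rw [gau_eq hε] at h1
  exact (mul_pos_iff_of_pos_left (Real.exp_pos _)).1 h1

theorem contDiff_logLK (hK : IsCompact K) (hi : (interior K).Nonempty) (hε : 0 < ε) :
    ContDiff ℝ (⊤ : ℕ∞) (fun x => Real.log (LK K ε x)) :=
  contDiff_log_lap (expo_compact hK (cont_dn ε)) fun x => LK_pos hK hi hε x

theorem bdd_logLK (hK : IsCompact K) (hi : (interior K).Nonempty) (hε : 0 < ε) (k : ℕ) (hk : 2 ≤ k) :
    ∃ C : ℝ, ∀ y, ‖iteratedFDeriv ℝ k (fun x : EE n => Real.log (LK K ε x)) y‖ ≤ C :=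
  log_lap_bdd hK (KP n ε) (cont_dn ε) (fun _ => (Real.exp_pos _).le)
    (fun x => LK_pos hK hi hε x) k hk

/-- `-log gau` -/
noncomputable def FG (K : Set (Fin n → ℝ)) (ε : ℝ) (x : EE n) : ℝ :=
  qd (bil ((1 / ε) • (1 : Matrix (Fin n) (Fin n) ℝ))) 0 x + -Real.log (LK K ε x)

theorem FG_eq (hK : IsCompact K) (hi : (interior K).Nonempty) (hε : 0 < ε) (x : EE n) :
    FG K ε x = -Real.log (Fr.gau K ε x.ofLp) := by
  unfold FG qd
  rw [gau_eq hε, Real.log_mul (Real.exp_pos _).ne' (LK_pos hK hi hε x).ne', Real.log_exp,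
    bil_apply, smul_mulVec, one_mulVec, dotProduct_smul, smul_eq_mul]
  simp only [_root_.zero_apply]
  field_simp
  ring

theorem contDiff_FG (hK : IsCompact K) (hi : (interior K).Nonempty) (hε : 0 < ε) :
    ContDiff ℝ (⊤ : ℕ∞) (FG K ε) :=
  (contDiff_qd _ _).add (contDiff_logLK hK hi hε).neg

theorem bdd_FG (hK : IsCompact K) (hi : (interior K).Nonempty) (hε : 0 < ε) (k : ℕ) (hk : 2 ≤ k) :
    ∃ C : ℝ, ∀ y, ‖iteratedFDeriv ℝ k (FG K ε) y‖ ≤ C := by
  refine bdd_add (contDiff_qd _ _) (contDiff_logLK hK hi hε).neg (bdd_qd _ _ k hk) ?_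
  obtain ⟨C, hC⟩ := bdd_logLK hK hi hε k hk
  refine ⟨C, fun y => ?_⟩
  have e : iteratedFDeriv ℝ k (fun x : EE n => -Real.log (LK K ε x)) y
      = -iteratedFDeriv ℝ k (fun x : EE n => Real.log (LK K ε x)) y := by
    exact iteratedFDeriv_neg_apply
  rw [e, norm_neg]
  exact hC y

theorem qf_FG_nonneg (hK : IsCompact K) (hc : Convex ℝ K) (hi : (interior K).Nonempty)
    (hε : 0 < ε) (x v : EE n) : 0 ≤ qf (hess (FG K ε) x) v := by
  have hs := contDiff_FG hK hi hε
  have h := Fr.second_le (f := fun t : ℝ => -FG K ε (x + t • v))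
    (f' := fun t => -(fderiv ℝ (FG K ε) (x + t • v) v))
    (d := -qf (hess (FG K ε) (x + (0 : ℝ) • v)) v)
    (fun t => (line1 hs x v t).neg) (line2 hs x v 0).neg fun t => by
      have h1 := Fr.gau_mid hK hc hε (x + t • v).ofLp (x + (-t) • v).ofLp
      have e : (1 / 2 : ℝ) • (x + t • v).ofLp + (1 / 2 : ℝ) • (x + (-t) • v).ofLp
          = (x + (0 : ℝ) • v).ofLp := by
        ext i
        simp
        ring
      rw [e] at h1
      have p1 := Fr.gau_pos hK hi hε (x + t • v).ofLp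
      have p2 := Fr.gau_pos hK hi hε (x + (-t) • v).ofLp
      have h2 := Real.log_le_log (mul_pos p1 p2) h1
      rw [Real.log_mul p1.ne' p2.ne', Real.log_pow] at h2
      simp only [FG_eq hK hi hε, neg_neg]
      push_cast at h2
      exact h2
  rw [zero_smul, add_zero] at h
  linarith

/-- the potential as a sum -/
theorem pot_eq (hK : IsCompact K) (hi : (interior K).Nonempty) (hε : 0 < ε)
    (B : Matrix (Fin n) (Fin n) ℝ) (c : Fin n → ℝ) :
    pot K ε m B c = fun x => FG K ε x + qd (bil (B + m • (1 : Matrix (Fin n) (Fin n) ℝ))) (lin c) x := by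
  funext x
  unfold pot Fr.wK qd
  rw [FG_eq hK hi hε, Real.log_mul (Fr.gau_pos hK hi hε x.ofLp).ne' (Real.exp_pos _).ne', Real.log_exp,
    bil_apply, lin_apply, add_mulVec, smul_mulVec, one_mulVec, dotProduct_add, dotProduct_smul,
    smul_eq_mul]
  ring

theorem contDiff_pot (hK : IsCompact K) (hi : (interior K).Nonempty) (hε : 0 < ε)
    (B : Matrix (Fin n) (Fin n) ℝ) (c : Fin n → ℝ) : ContDiff ℝ (⊤ : ℕ∞) (pot K ε m B c) := by
  rw [pot_eq hK hi hε]
  exact (contDiff_FG hK hi hε).add (contDiff_qd _ _)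

/-- (R2) -/
theorem le_qf_pot (hK : IsCompact K) (hcv : Convex ℝ K) (hi : (interior K).Nonempty) (hε : 0 < ε)
    (B : Matrix (Fin n) (Fin n) ℝ) (c : Fin n → ℝ) (x v : EE n) :
    v.ofLp ⬝ᵥ ((B + m • (1 : Matrix (Fin n) (Fin n) ℝ)) *ᵥ v.ofLp) ≤ qf (hess (pot K ε m B c) x) v := by
  rw [pot_eq hK hi hε, qf_hess_add (contDiff_FG hK hi hε) (contDiff_qd _ _), qf_qd, bil_apply]
  have := qf_FG_nonneg hK hcv hi hε x v
  linarith

/-- (R1) -/
theorem reg_pot (hK : IsCompact K) (hcv : Convex ℝ K) (hi : (interior K).Nonempty) (hε : 0 < ε)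
    (hm : 0 < m) {B : Matrix (Fin n) (Fin n) ℝ} (hB : B.PosSemidef) (c : Fin n → ℝ) :
    ∃ C, Reg (pot K ε m B c) m C := by
  refine reg_of hm (contDiff_pot hK hi hε B c) (fun x v => ?_) fun k hk => ?_
  · refine le_trans ?_ (le_qf_pot hK hcv hi hε B c x v)
    rw [add_mulVec, smul_mulVec, one_mulVec, dotProduct_add, dotProduct_smul, smul_eq_mul]
    have h1 : 0 ≤ v.ofLp ⬝ᵥ (B *ᵥ v.ofLp) := by
      have := hB.dotProduct_mulVec_nonneg v.ofLp
      simpa using this
    have h2 : v.ofLp ⬝ᵥ v.ofLp = ‖v‖ ^ 2 := by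
      rw [EuclideanSpace.norm_sq_eq]
      simp [dotProduct, sq]
    rw [h2]
    linarith
  · rw [pot_eq hK hi hε]
    exact bdd_add (contDiff_FG hK hi hε) (contDiff_qd _ _) (bdd_FG hK hi hε k hk) (bdd_qd _ _ k hk)

end nice

end Vale.Agent.P254.S5.R669
end

section

/-! P254, static method: the entropy inequality with loss `δ` per dimension. -/

namespace Vale.Agent.P254.St625

open Matrix Filter Topology Set
open Vale.Agent.P254.L
open Vale.Agent.P254.Z546 (e1 e2 dd1_e_nonneg)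

variable {n : ℕ}

theorem e1_mul' {x : ℝ} (hx : x < 1) : e1 x * (1 - x) = Real.sqrt (1 - x) / 2 := by
  unfold e1
  have hs : 0 < Real.sqrt (1 - x) := Real.sqrt_pos.2 (by linarith)
  have h2 : Real.sqrt (1 - x) * Real.sqrt (1 - x) = 1 - x := Real.mul_self_sqrt (by linarith)
  nth_rewrite 2 [← h2]
  field_simp

section
variable {δ : ℝ} {k : ℝ → ℝ} (W : WP δ k)

/-- `√c`, `c = 1/4 - x² w''/2` -/
noncomputable def rr (x : ℝ) : ℝ := Real.sqrt (1 / 4 - x ^ 2 * W.w2 x / 2)

theorem rr_pos {x : ℝ} (hx : x ∈ Ioo (0 : ℝ) 1) : 0 < rr W x := Real.sqrt_pos.2 (W.c_pos x hx)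

theorem rr_sq {x : ℝ} (hx : x ∈ Ioo (0 : ℝ) 1) : rr W x ^ 2 = 1 / 4 - x ^ 2 * W.w2 x / 2 :=
  Real.sq_sqrt (W.c_pos x hx).le

theorem sum_neg (hn : 0 < n) {ε : ℝ} (hε : 0 < ε) {β : Vec n}
    (hβ : ∀ i, β i ∈ Ioo (0 : ℝ) 1) {T : Ten n}
    (hP : ∑ i, ∑ j, rr W (β i) * rr W (β j) * ∑ a, T i j a ^ 2
      ≤ ∑ i, rr W (β i) ^ 2 * k (β i)) :
    ∑ a : Fin n, (1 : ℝ) * (∑ i, ∑ j, (1 / 2 * (1 / 2 - β i * β j * dd1 W.w1 W.w2 (β i) (β j)
        - ε * (β i * β j * dd1 e1 e2 (β i) (β j)))) * T i j a ^ 2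
      - (W.w1 (β a) + ε * e1 (β a)) * (1 - β a)) < 0 := by
  have h1 : ∀ a, (∑ i, ∑ j, (1 / 2 * (1 / 2
        - β i * β j * dd1 W.w1 W.w2 (β i) (β j)
        - ε * (β i * β j * dd1 e1 e2 (β i) (β j)))) * T i j a ^ 2)
      ≤ ∑ i, ∑ j, rr W (β i) * rr W (β j) * T i j a ^ 2 := by
    intro a
    refine Finset.sum_le_sum fun i _ => Finset.sum_le_sum fun j _ => ?_
    refine mul_le_mul_of_nonneg_right ?_ (sq_nonneg _)
    have h3 := W.cij _ (hβ i) _ (hβ j)
    have h4 : 0 ≤ ε * (β i * β j * dd1 e1 e2 (β i) (β j)) := by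
      have := dd1_e_nonneg (hβ i).2 (hβ j).2
      have h5 := (hβ i).1
      have h6 := (hβ j).1
      positivity
    unfold rr
    linarith
  have h2 : ∑ a, ∑ i, ∑ j, rr W (β i) * rr W (β j) * T i j a ^ 2
      ≤ ∑ a, W.w1 (β a) * (1 - β a) := by
    have e : ∑ a, ∑ i, ∑ j, rr W (β i) * rr W (β j) * T i j a ^ 2
        = ∑ i, ∑ j, rr W (β i) * rr W (β j) * ∑ a, T i j a ^ 2 := by
      rw [Finset.sum_comm]
      refine Finset.sum_congr rfl fun i _ => ?_
      rw [Finset.sum_comm]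
      refine Finset.sum_congr rfl fun j _ => ?_
      rw [Finset.mul_sum]
    rw [e]
    refine hP.trans (Finset.sum_le_sum fun i _ => ?_)
    rw [rr_sq W (hβ i)]
    exact W.ode _ (hβ i)
  have h3 : ∑ a : Fin n, (1 : ℝ) * (∑ i, ∑ j, (1 / 2 * (1 / 2
        - β i * β j * dd1 W.w1 W.w2 (β i) (β j)
        - ε * (β i * β j * dd1 e1 e2 (β i) (β j)))) * T i j a ^ 2
      - (W.w1 (β a) + ε * e1 (β a)) * (1 - β a))
      ≤ ∑ a, (W.w1 (β a) * (1 - β a) - (W.w1 (β a) + ε * e1 (β a)) * (1 - β a)) := by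
    rw [Finset.sum_sub_distrib]
    have h4 := (Finset.sum_le_sum fun a (_ : a ∈ Finset.univ) => h1 a).trans h2
    have e : ∑ a : Fin n, (1 : ℝ) * (∑ i, ∑ j, (1 / 2 * (1 / 2
        - β i * β j * dd1 W.w1 W.w2 (β i) (β j)
        - ε * (β i * β j * dd1 e1 e2 (β i) (β j)))) * T i j a ^ 2
      - (W.w1 (β a) + ε * e1 (β a)) * (1 - β a))
      = ∑ a, (∑ i, ∑ j, (1 / 2 * (1 / 2
        - β i * β j * dd1 W.w1 W.w2 (β i) (β j)
        - ε * (β i * β j * dd1 e1 e2 (β i) (β j)))) * T i j a ^ 2)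
        - ∑ a, (W.w1 (β a) + ε * e1 (β a)) * (1 - β a) := by
      rw [← Finset.sum_sub_distrib]
      exact Finset.sum_congr rfl fun a _ => by rw [one_mul]
    rw [e]
    linarith
  refine h3.trans_lt ?_
  have : Nonempty (Fin n) := ⟨⟨0, hn⟩⟩
  refine Finset.sum_neg (fun a _ => ?_) Finset.univ_nonempty
  have h5 := e1_mul' (hβ a).2
  have h6 : 0 < Real.sqrt (1 - β a) := Real.sqrt_pos.2 (by linarith [(hβ a).2])
  have h7 : (W.w1 (β a) + ε * e1 (β a)) * (1 - β a)
      = W.w1 (β a) * (1 - β a) + ε * (Real.sqrt (1 - β a) / 2) := by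
    rw [← h5]; ring
  rw [h7]
  have : 0 < ε * (Real.sqrt (1 - β a) / 2) := by positivity
  linarith

end

/-- the entropy inequality with loss, for one tilt -/
theorem ent_le {δ : ℝ} {k : ℝ → ℝ} (W : WP δ k) {D : TiltData n} (E : EntData D)
    (hP : ∀ B : Mat n, B.PosDef → ∀ c : Vec n, StatIneq k (D.A B c) B (D.T B c))
    {B : Mat n} (hB : B.PosDef) (c : Vec n) :
    (n : ℝ) + 1 / 2 * Real.log (D.A B c).det ≤ E.Ent B c + δ * n := by
  rcases Nat.eq_zero_or_pos n with hn | hn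
  · subst hn
    have h := E.lowE B hB.posSemidef c
    simpa using h
  refine ent_of_GG E W hB c fun ε hε η hη => ?_
  by_contra hlt
  push Not at hlt
  obtain ⟨B', c', hB', -, hc', hf'⟩ :=
    exists_min E W hε.le hη (q0 := 1) (Λ := 1) one_pos le_rfl hB hlt
  obtain ⟨L, β, hF⟩ := exists_Fr (D.posA B' hB'.posSemidef c') hB'.isHermitian
  have hβ : ∀ i, β i ∈ Ioo (0 : ℝ) 1 := hF.beta_mem hB' c'
  have e0 : Lᵀ * Matrix.diagonal (fun _ => (1 : ℝ)) * L = (D.A B' c')⁻¹ := by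
    rw [Matrix.diagonal_one, Matrix.mul_one, hF.inv_A]
  have hf'' := hf' (Lᵀ * Matrix.diagonal (fun _ => (1 : ℝ)) * L) (by
      rw [e0, one_smul, sub_self]; exact Matrix.PosSemidef.zero) (by
      rw [e0, one_smul, sub_self]; exact Matrix.PosSemidef.zero)
  have h1 := contact_ineq E W hB' hF (r := fun _ => (1 : ℝ)) (fun i => zero_le_one) hc' hf''
  have h2 : ∑ i, ∑ j, rr W (β i) * rr W (β j) * ∑ a, frT L (D.T B' c') i j a ^ 2
      ≤ ∑ i, rr W (β i) ^ 2 * k (β i) :=
    hP B' hB' c' L β hF.isUnit hF.hA hF.hB hβ (fun i => rr W (β i)) fun i => rr_pos W (hβ i)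
  exact absurd h1 (not_le.2 (sum_neg W hn hε hβ h2))

end Vale.Agent.P254.St625
end

section

/-!
P254, frame block (b) (helper829): the interface structures `TiltData`, `EntData` for the nice
measures `wK K ε m dx`, `K` a strictly convex body, `ε, m > 0`.
-/

open MeasureTheory Filter Topology Matrix

namespace Vale.Agent.P254.Fr

open L (Mat Ten NN N3 frT TiltData EntData TSymm)

variable {n : ℕ} {K : Set (E n)} {ε m : ℝ}

/-- the cumulant data of a nice measure -/
noncomputable def tiltData (hK : IsCompact K) (hs : StrictConvex ℝ K) (hi : (interior K).Nonempty)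
    (hε : 0 < ε) (hm : 0 < m) : TiltData n where
  m := m
  M := m + 1 / ε
  hm := hm
  hM := le_add_of_nonneg_right (by positivity)
  mu := muF (wK K ε m)
  A := AF (wK K ε m)
  T := TF (wK K ε m)
  K := KF (wK K ε m)
  R := RF (wK K ε m)
  A_symm := fun B c i j => AF_symm _ B c i j
  T_symm := fun B c => ⟨fun i j k => TF_symm1 _ B c i j k, fun i j k => TF_symm2 _ B c i j k⟩
  K_symm1 := fun B c i j k l => KF_symm1 _ B c i j k l
  K_symm2 := fun B c i j k l => KF_symm2 _ B c i j k l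
  K_symm3 := fun B c i j k l => KF_symm3 _ B c i j k l
  dA := fun B hB c e i j t => dA (wt_wK hK hi hε hm).choose_spec B hB c e i j t
  dT := fun B hB c e i j k t => dT (wt_wK hK hi hε hm).choose_spec B hB c e i j k t
  dK := fun B hB c e i j k l t => dK (wt_wK hK hi hε hm).choose_spec B hB c e i j k l t
  fA := fun B hB c Q hQ i j => fA (wt_wK hK hi hε hm).choose_spec B hB c Q hQ i j
  fT := fun B hB c Q hQ i j k => fT (wt_wK hK hi hε hm).choose_spec B hB c Q hQ i j k
  cA := fun i j => cA (wt_wK hK hi hε hm).choose_spec i j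
  cT := fun i j k => cT (wt_wK hK hi hε hm).choose_spec i j k
  posA := fun B hB c => posA hK hi hε hm B hB c
  lo := fun B hB c => lo hK hi hε hm B hB c
  up := fun B hB c => up hK hs.convex hi hε hm B hB c
  CT := (bT hK hi hε hm).choose
  hCT := (bT hK hi hε hm).choose_spec.1
  bT := (bT hK hi hε hm).choose_spec.2
  vT := vT hK hs hi hε hm

/-- the entropy data of a nice measure -/
noncomputable def entData (hK : IsCompact K) (hs : StrictConvex ℝ K) (hi : (interior K).Nonempty)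
    (hε : 0 < ε) (hm : 0 < m) : EntData (tiltData hK hs hi hε hm) where
  Ent := EntF (wK K ε m)
  g := gF (wK K ε m)
  Xi := XiF (wK K ε m)
  dE := fun B hB c e => dE (wt_wK hK hi hε hm).choose_spec B hB c e
  fE := fun B hB c Q hQ => fE (wt_wK hK hi hε hm).choose_spec B hB c Q hQ
  cE := cE (wt_wK hK hi hε hm).choose_spec
  lowE := fun B hB c => lowE hK hi hε hm B hB c
  vA := vA hK hs hi hε hm

end Vale.Agent.P254.Fr
end

section

/-!
P254, stage 3, block S6 (helper821): top file.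

`StmtNice` is the output of block S5 (static inequality for the nice measures). With the one-variable
data `WP δ kst` (block S3w) it gives
* `isoConst K ≤ exp (δ (n + 1) / n) * isoConst S` for every convex body `K` and simplex `S`,
* `isoConst K ≤ exp (δ - 1)` for every convex body `K`.
-/

open MeasureTheory Set Matrix Filter Topology Metric
open scoped Pointwise

namespace Vale.Agent.P254.X.Top

open R304 Loss St625

/-- output of block S5 -/
def StmtNice : Prop := ∀ (n : ℕ) (K : Set (Fin n → ℝ)), IsCompact K → StrictConvex ℝ K →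
  (interior K).Nonempty → ∀ ε m : ℝ, 0 < ε → 0 < m → ∀ (B : Matrix (Fin n) (Fin n) ℝ), B.PosDef →
  ∀ c : Fin n → ℝ,
    StatIneq kst (Fr.AF (Fr.wK K ε m) B c) B (Fr.TF (Fr.wK K ε m) B c)

variable {n : ℕ} {δ : ℝ}

theorem nice_eq_wK (K : Set (Fin n → ℝ)) (ε m : ℝ) : nice K ε m = Fr.wK K ε m := by
  funext x
  unfold nice Fr.wK R304.qq Fr.gau
  congr 1
  refine integral_congr_ae (Filter.Eventually.of_forall fun y => ?_)
  simp only
  congr 1
  ring

/-- the entropy inequality with loss for the nice measures -/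
theorem niceFrL (W : WP δ kst) (h : StmtNice) (n : ℕ) : NiceFrL δ n := by
  intro K hK hs hi ε m hε hm B hB c
  rw [nice_eq_wK]
  exact ent_le (D := Fr.tiltData hK hs hi hε hm) W (Fr.entData hK hs hi hε hm)
    (fun B hB c => h n K hK hs hi ε m hε hm B hB c) hB c

/-- near-sharp slicing with loss `δ`, relative form -/
theorem isoConst_le (W : WP δ kst) (h : StmtNice) (hn : 1 ≤ n) {K S : Set (Fin n → ℝ)}
    (hK : IsConvexBody K) (hS : IsSimplex S) :
    isoConst K ≤ Real.exp (δ * ((n : ℝ) + 1) / n) * isoConst S :=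
  isoConst_le_of_niceDDL hn (niceFrL W h (n + 1)).niceDDL hK hS

/-! ### the dimension-free form -/

lemma limDens_zero (K : Set (Fin n → ℝ)) : limDens 0 0 K = K.indicator fun _ => (1 : ℝ) := by
  unfold limDens
  congr 1
  ext x
  unfold tilt
  simp

lemma int_ind {K : Set (Fin n → ℝ)} (hK : IsCompact K) (φ : (Fin n → ℝ) → ℝ) :
    ∫ x, φ x * K.indicator (fun _ => (1 : ℝ)) x = ∫ x in K, φ x := by
  rw [← integral_indicator hK.measurableSet]
  refine integral_congr_ae (Filter.Eventually.of_forall fun x => ?_)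
  by_cases hx : x ∈ K <;> simp [hx]

lemma mass_ind {K : Set (Fin n → ℝ)} (hK : IsCompact K) :
    ∫ x, K.indicator (fun _ => (1 : ℝ)) x = (volume K).toReal := by
  have h := int_ind hK fun _ => (1 : ℝ)
  simp only [one_mul] at h
  rw [h]
  simp [Measure.real]

lemma entF_ind {K : Set (Fin n → ℝ)} (hK : IsCompact K) :
    entF (K.indicator fun _ => (1 : ℝ)) = Real.log (volume K).toReal := by
  unfold entF
  have h : ∀ x, K.indicator (fun _ => (1 : ℝ)) x * Real.log (K.indicator (fun _ => (1 : ℝ)) x) = 0 := by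
    intro x
    by_cases hx : x ∈ K <;> simp [hx]
  simp only [h, integral_zero, zero_div, sub_zero]
  rw [mass_ind hK]

lemma covF_ind {K : Set (Fin n → ℝ)} (hK : IsCompact K) (hV : (volume K).toReal ≠ 0) :
    covF (K.indicator fun _ => (1 : ℝ)) = covMatrix K := by
  ext i j
  rw [cov_eq hK hV]
  unfold covF Ef
  simp only [of_apply]
  rw [int_ind hK (fun x => x i * x j), int_ind hK (fun x => x i), int_ind hK (fun x => x j),
    mass_ind hK]
  unfold centroid
  field_simp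

/-- dimension-free form -/
theorem isoConst_le_abs_of (hn : 1 ≤ n) (hN : NiceDDL δ n) {K : Set (Fin n → ℝ)}
    (hK : IsConvexBody K) : isoConst K ≤ Real.exp (δ - 1) := by
  have hn0 : (0 : ℝ) < n := by exact_mod_cast hn
  have hV : 0 < (volume K).toReal := K468.volume_pos_of_body hK
  obtain ⟨D, hD0, hD⟩ := hK.2.1.isBounded.exists_pos_norm_le
  have h1 := DD_limDens_loss hN (B := 0) Matrix.PosSemidef.zero (c := 0) hK.2.1.isClosed hK.1
    hK.2.2 (a := 1) (b := D) one_pos (fun y hy => by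
      have := hD y hy
      simp only [zero_dotProduct]
      linarith)
  rw [limDens_zero] at h1
  unfold DD at h1
  rw [entF_ind hK.2.1, covF_ind hK.2.1 hV.ne'] at h1
  have hr : 0 ≤ (covMatrix K).det := K468.det_cov_nonneg hK.2.1
  unfold isoConst
  rcases hr.eq_or_lt with h0 | h0
  · rw [← h0, zero_div, Real.zero_rpow (by positivity)]
    exact (Real.exp_pos _).le
  · have h2 : (covMatrix K).det / (volume K).toReal ^ 2 ≤ Real.exp ((δ - 1) * (2 * n)) := by
      rw [← Real.log_le_iff_le_exp (by positivity), Real.log_div h0.ne' (by positivity), Real.log_pow]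
      push_cast
      linarith
    have h3 := Real.rpow_le_rpow (by positivity) h2 (z := 1 / (2 * (n : ℝ))) (by positivity)
    rw [← Real.exp_mul] at h3
    have e : (δ - 1) * (2 * n) * (1 / (2 * (n : ℝ))) = δ - 1 := by field_simp
    rwa [e] at h3

theorem isoConst_le_abs (W : WP δ kst) (h : StmtNice) (hn : 1 ≤ n) {K : Set (Fin n → ℝ)}
    (hK : IsConvexBody K) : isoConst K ≤ Real.exp (δ - 1) :=
  isoConst_le_abs_of hn (niceFrL W h n).niceDDL hK

end Vale.Agent.P254.X.Top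
end

section

/-!
P254, stage 3 (helper821): the final theorem from the output `StmtNice` of block S5.
-/

open MeasureTheory Set Matrix

namespace Vale.Agent.P254.X.Top

theorem final (h : StmtNice) {n : ℕ} (hn : 1 ≤ n) {K S : Set (Fin n → ℝ)}
    (hK : IsConvexBody K) (hS : IsSimplex S) :
    isoConst K ≤ Real.exp (19 / 100 * (((n : ℝ) + 1) / n)) * isoConst S ∧
      isoConst K ≤ Real.exp (-(81 / 100)) := by
  refine ⟨?_, ?_⟩
  · have h1 := isoConst_le St625.W833.wp h hn hK hS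
    rwa [mul_div_assoc] at h1
  · have h1 := isoConst_le_abs St625.W833.wp h hn hK
    have e : (19 / 100 - 1 : ℝ) = -(81 / 100) := by norm_num
    rwa [e] at h1

end Vale.Agent.P254.X.Top
end

section

/-!
P254, stage 3, block S5 in the form of `X/Top.lean`: `StmtStatic → StmtNice`, and the final theorem
from `StmtStatic`.
-/

open MeasureTheory Matrix Filter Set

namespace Vale.Agent.P254.S5.N710

open Vale.Agent.P227

theorem regPot : RegPot := by
  intro n K hK hc hi ε m hε hm B hB c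
  obtain ⟨C, hC⟩ := R669.reg_pot hK hc hi hε hm hB c
  exact ⟨m, C, hC⟩

theorem hessPot : HessPot := by
  intro n K hK hc hi ε m hε hm B hB c x v
  refine le_trans ?_ (R669.le_qf_pot hK hc hi hε B c x v)
  rw [Matrix.add_mulVec, Matrix.smul_mulVec, Matrix.one_mulVec, dotProduct_add, dotProduct_smul,
    smul_eq_mul]
  have h1 : 0 ≤ v.ofLp ⬝ᵥ v.ofLp := Fr.dot_self_nonneg v.ofLp
  have h2 : 0 ≤ m * (v.ofLp ⬝ᵥ v.ofLp) := mul_nonneg hm.le h1
  linarith

theorem regAff : RegAff := by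
  intro n V c C h P hP a
  exact R669.reg_aff h hP a

theorem hessAff : HessAff := by
  intro n V hV P a y v
  exact R669.qf_hess_aff hV P a y v

/-- block S5 -/
theorem stmtNice_of (hS : St625.StmtStatic) : X.Top.StmtNice := by
  intro n K hK hs hi ε m hε hm B hB c
  exact statIneq_of regPot hessPot regAff hessAff hS hK hs.convex hi hε hm hB.posSemidef c

/-- the final theorem from the static inequality -/
theorem final_of_static (hS : St625.StmtStatic) {n : ℕ} (hn : 1 ≤ n) {K S : Set (Fin n → ℝ)}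
    (hK : IsConvexBody K) (hSi : IsSimplex S) :
    isoConst K ≤ Real.exp (19 / 100 * (((n : ℝ) + 1) / n)) * isoConst S ∧
      isoConst K ≤ Real.exp (-(81 / 100)) :=
  X.Top.final (stmtNice_of hS) hn hK hSi

end Vale.Agent.P254.S5.N710
end

section

/-! # `StmtInv` from `StmtSC` and the regularity of the log-Laplace transform. -/

namespace Vale.Agent.P227.M.MM

variable {n : ℕ}

theorem cls_iff {k c₀ C₀ m : ℝ} {c : E n → ℝ} : Cls k c₀ C₀ m c ↔ LK.ClassK k c₀ C₀ m c :=
  ⟨fun h => ⟨h.nice, h.sc, h.zero⟩, fun h => ⟨h.nice, h.sc, h.zero⟩⟩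

theorem phiK_eq (k : ℝ) (c : E n → ℝ) : phiK k c = LK.phiK k c := rfl

theorem QK_eq (k : ℝ) (c : E n → ℝ) : QK k c = LK.QK k c := rfl

theorem TK_eq (k : ℝ) (V c : E n → ℝ) : TK k V c = LK.TK k V c := rfl

theorem stmtInv_of (hSC : StmtSC) (hLL : LK.RegLL) : StmtInv := by
  intro n hn V c₀ C₀ hV
  obtain ⟨MV, hMV, hVs⟩ := LK.Reg.exists_selfConc hV.toReg
  have hc0 : 0 < c₀ := hV.c_pos
  have hC0 : 0 < C₀ := hc0.trans_le (nice_le hn hV.toReg)
  refine ⟨2 / 3 * MV * √(C₀ / c₀), max 1 ((2 / 3 * MV * √(C₀ / c₀)) ^ 2), by positivity, le_max_left _ _,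
    fun k hk => ?_⟩
  have hk0 : 0 < k := lt_of_lt_of_le one_pos ((le_max_left _ _).trans hk)
  have hmk : (2 / 3 * MV * √(C₀ / c₀)) ^ 2 ≤ k := (le_max_right _ _).trans hk
  refine ⟨fun c hc => ?_, fun c hc => ⟨?_, ?_⟩⟩
  · exact cls_iff.2 (LK.ClassK.TK_mem hSC hLL hV hC0 hMV hVs le_rfl hk0 hmk (cls_iff.1 hc))
  · exact LK.nice_phiK hLL hk0 hc0 hC0 hc.nice
  · exact LK.sc_phiK hSC hLL hk0 hC0 (by positivity) hmk hc.nice hc.sc

end Vale.Agent.P227.M.MM
end

section

/-! # `RegLL` : the log-Laplace transform of a regular potential is regular. -/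

open MeasureTheory Set
open scoped ContDiff

namespace Vale.Agent.P227.M.LK.H570

variable {n : ℕ}

/-- convexity from the Hessian -/
theorem convex_of_qf {f : E n → ℝ} (hf : ContDiff ℝ (⊤ : ℕ∞) f) (h : ∀ x v, 0 ≤ qf (hess f x) v) :
    ConvexOn ℝ univ f := by
  have hline : ∀ x v : E n, ConvexOn ℝ univ (fun t : ℝ => f (x + t • v)) := by
    intro x v
    have hg : ContDiff ℝ (⊤ : ℕ∞) (fun t : ℝ => f (x + t • v)) :=
      hf.comp (contDiff_const.add (contDiff_id.smul contDiff_const))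
    have h1 : Differentiable ℝ (fun t : ℝ => f (x + t • v)) := hg.differentiable (by simp)
    have h2 : Differentiable ℝ (deriv (fun t : ℝ => f (x + t • v))) :=
      (contDiff_infty_iff_deriv.1 hg).2.differentiable (by simp)
    refine convexOn_univ_of_deriv2_nonneg h1 h2 fun t => ?_
    have h3 : deriv^[2] (fun t : ℝ => f (x + t • v)) t = qf (hess f (x + t • v)) v := by
      rw [← iteratedDeriv_eq_iterate, iteratedDeriv_line hf, ← iteratedDeriv_two_line hf,
        iteratedDeriv_line_zero hf]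
    rw [h3]
    exact h _ _
  refine ⟨convex_univ, fun x _ y _ a b ha hb hab => ?_⟩
  have h1 := (hline x (y - x)).2 (mem_univ 0) (mem_univ 1) ha hb hab
  have e : a • x + b • y = x + (a • (0 : ℝ) + b • (1 : ℝ)) • (y - x) := by
    have : a = 1 - b := by linarith
    subst this
    simp only [smul_eq_mul, mul_zero, mul_one, zero_add, smul_sub, sub_smul, one_smul]
    abel
  rw [e]
  simpa using h1

/-- the Hessian from convexity -/
theorem qf_of_convex {f : E n → ℝ} (hf : ContDiff ℝ (⊤ : ℕ∞) f) (h : ConvexOn ℝ univ f) (x v : E n) :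
    0 ≤ qf (hess f x) v := by
  have hg : ContDiff ℝ (⊤ : ℕ∞) (fun t : ℝ => f (x + t • v)) :=
    hf.comp (contDiff_const.add (contDiff_id.smul contDiff_const))
  have h1 : Differentiable ℝ (fun t : ℝ => f (x + t • v)) := hg.differentiable (by simp)
  have hc : ConvexOn ℝ univ (fun t : ℝ => f (x + t • v)) := by
    refine ⟨convex_univ, fun s _ t _ a b ha hb hab => ?_⟩
    have h2 := h.2 (mem_univ (x + s • v)) (mem_univ (x + t • v)) ha hb hab
    have e : x + (a • s + b • t) • v = a • (x + s • v) + b • (x + t • v) := by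
      have : a = 1 - b := by linarith
      subst this
      module
    simp only [e]
    exact h2
  have hm : Monotone (deriv (fun t : ℝ => f (x + t • v))) := by
    rw [← monotoneOn_univ]
    exact hc.monotoneOn_deriv (fun t _ => h1 t)
  rw [← iteratedDeriv_two_line hf, iteratedDeriv_succ, iteratedDeriv_one]
  exact hm.deriv_nonneg

theorem contDiff_sq (a : ℝ) : ContDiff ℝ (⊤ : ℕ∞) (fun x : E n => a / 2 * ‖x‖ ^ 2) :=
  contDiff_const.mul (contDiff_norm_sq ℝ)

theorem qf_sq (a : ℝ) (x v : E n) : qf (hess (fun x : E n => a / 2 * ‖x‖ ^ 2) x) v = a * ‖v‖ ^ 2 := by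
  rw [← iteratedDeriv_two_line (contDiff_sq a)]
  have h1 : (fun t : ℝ => a / 2 * ‖x + t • v‖ ^ 2) =
      fun t : ℝ => a / 2 * (‖x‖ ^ 2 + 2 * (t * inner ℝ x v) + t ^ 2 * ‖v‖ ^ 2) := by
    funext t
    rw [norm_add_sq_real, norm_smul, real_inner_smul_right, mul_pow, Real.norm_eq_abs, sq_abs]
  have h2 : ∀ t : ℝ, HasDerivAt (fun t : ℝ => a / 2 * (‖x‖ ^ 2 + 2 * (t * inner ℝ x v) + t ^ 2 * ‖v‖ ^ 2))
      (a / 2 * (2 * inner ℝ x v + 2 * t * ‖v‖ ^ 2)) t := by
    intro t
    have e1 : HasDerivAt (fun t : ℝ => 2 * (t * inner ℝ x v)) (2 * (1 * inner ℝ x v)) t :=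
      ((hasDerivAt_id t).mul_const _).const_mul 2
    have e2 : HasDerivAt (fun t : ℝ => t ^ 2 * ‖v‖ ^ 2) ((2 * t) * ‖v‖ ^ 2) t := by
      have := (hasDerivAt_pow 2 t).mul_const (‖v‖ ^ 2)
      simpa using this
    have e3 := ((e1.const_add (‖x‖ ^ 2)).add e2).const_mul (a / 2)
    refine e3.congr_deriv ?_
    ring
  have h3 : deriv (fun t : ℝ => a / 2 * (‖x‖ ^ 2 + 2 * (t * inner ℝ x v) + t ^ 2 * ‖v‖ ^ 2)) =
      fun t => a / 2 * (2 * inner ℝ x v + 2 * t * ‖v‖ ^ 2) := funext fun t => (h2 t).deriv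
  rw [h1, iteratedDeriv_succ, iteratedDeriv_one, h3]
  have h4 : HasDerivAt (fun t : ℝ => a / 2 * (2 * inner ℝ x v + 2 * t * ‖v‖ ^ 2)) (a * ‖v‖ ^ 2) 0 := by
    have e1 : HasDerivAt (fun t : ℝ => 2 * t * ‖v‖ ^ 2) (2 * 1 * ‖v‖ ^ 2) 0 :=
      ((hasDerivAt_id 0).const_mul 2).mul_const _
    refine ((e1.const_add (2 * inner ℝ x v)).const_mul (a / 2)).congr_deriv ?_
    ring
  exact h4.deriv

theorem qf_neg' {W : E n → ℝ} (hW : ContDiff ℝ (⊤ : ℕ∞) W) (x v : E n) :
    qf (hess (fun y => -W y) x) v = - qf (hess W x) v := by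
  have h := qf_scale hW (-1) 1 x v
  simpa using h

theorem qf_sub' {V W : E n → ℝ} (hV : ContDiff ℝ (⊤ : ℕ∞) V) (hW : ContDiff ℝ (⊤ : ℕ∞) W) (x v : E n) :
    qf (hess (fun y => V y - W y) x) v = qf (hess V x) v - qf (hess W x) v := by
  have h1 : (fun y => V y - W y) = fun y => V y + (fun z => -W z) y := by funext y; ring
  rw [h1, qf_add hV hW.neg, qf_neg' hW]
  ring

theorem regLL : RegLL := by
  intro n W c C hW hC
  have hc := hW.c_pos
  have hL : ContDiff ℝ (⊤ : ℕ∞) (logLap W) := Lap.contDiff_logLap hW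
  have e1 : LKE.Lap 1 W = logLap W := by
    funext y; simp [LKE.Lap, logLap]
  have hcv : ConvexOn ℝ univ (fun x : E n => W x - c / 2 * ‖x‖ ^ 2) := by
    refine convex_of_qf (hW.smooth.sub (contDiff_sq c)) fun x v => ?_
    rw [qf_sub' hW.smooth (contDiff_sq c), qf_sq]
    linarith [hW.lower x v]
  have hCv : ConvexOn ℝ univ (fun x : E n => C / 2 * ‖x‖ ^ 2 - W x) := by
    refine convex_of_qf ((contDiff_sq C).sub hW.smooth) fun x v => ?_
    rw [qf_sub' (contDiff_sq C) hW.smooth, qf_sq]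
    linarith [hW.upper x v]
  have hup := LKE.lap_upper hc hcv 1
  have hlo := LKE.lap_lower hC hCv 1 (fun y => LKE.integrable_lap hc hcv 1 y)
  rw [e1] at hup hlo
  refine ⟨by positivity, hL, fun x v => ?_, fun x v => ?_, Lap.logLap_bdd hW⟩
  · have e : (fun y : E n => logLap W y - 1 ^ 2 / (2 * C) * ‖y‖ ^ 2) =
        fun y : E n => logLap W y - (1 / C) / 2 * ‖y‖ ^ 2 := by
      funext y; field_simp
    rw [e] at hlo
    have h := qf_of_convex (hL.sub (contDiff_sq (1 / C))) hlo x v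
    rw [qf_sub' hL (contDiff_sq (1 / C)), qf_sq] at h
    linarith
  · have e : (fun y : E n => 1 ^ 2 / (2 * c) * ‖y‖ ^ 2 - logLap W y) =
        fun y : E n => (1 / c) / 2 * ‖y‖ ^ 2 - logLap W y := by
      funext y; field_simp
    rw [e] at hup
    have h := qf_of_convex ((contDiff_sq (1 / c)).sub hL) hup x v
    rw [qf_sub' (contDiff_sq (1 / c)) hL, qf_sq] at h
    linarith

end Vale.Agent.P227.M.LK.H570
end

section

/-! # P254/MC (S1): the level-`k` class for centred, not necessarily even potentials, and its invariance.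

The map is `TK`, normalised by subtracting its linear part at `0`. -/

open MeasureTheory
open scoped ContDiff

namespace Vale.Agent.P254.MC

open Vale.Agent.P227.M
open Vale.Agent.P227.M.MM (phiK QK TK)

variable {n : ℕ}

/-! ### Subtracting a linear function -/

theorem iteratedFDeriv_sub_lin {V : E n → ℝ} (hV : ContDiff ℝ (⊤ : ℕ∞) V) (l : E n →L[ℝ] ℝ) {i : ℕ}
    (hi : 2 ≤ i) (x : E n) : iteratedFDeriv ℝ i (fun y => V y - l y) x = iteratedFDeriv ℝ i V x := by
  obtain ⟨j, rfl⟩ : ∃ j, i = j + 1 := ⟨i - 1, by omega⟩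
  have hj : j ≠ 0 := by omega
  have hVd : Differentiable ℝ V := hV.differentiable (by simp)
  have hV1 : ContDiff ℝ (⊤ : ℕ∞) (fderiv ℝ V) := (contDiff_infty_iff_fderiv.1 hV).2
  have hfd : fderiv ℝ (fun y => V y - l y) = fun y => fderiv ℝ V y + (fun _ => -l) y := by
    funext y
    have h : fderiv ℝ (fun y => V y - l y) y = fderiv ℝ V y - l :=
      ((hVd y).hasFDerivAt.sub l.hasFDerivAt).fderiv
    rw [h, sub_eq_add_neg]
  rw [iteratedFDeriv_succ_eq_comp_right, iteratedFDeriv_succ_eq_comp_right, hfd]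
  have hle : (j : WithTop ℕ∞) ≤ (⊤ : ℕ∞) := by exact_mod_cast le_top
  simp only [Function.comp_apply]
  rw [fun_iteratedFDeriv_add_apply (hV1.of_le hle).contDiffAt contDiff_const.contDiffAt,
    iteratedFDeriv_const_of_ne hj]
  simp

theorem contDiff_sub_lin {V : E n → ℝ} (hV : ContDiff ℝ (⊤ : ℕ∞) V) (l : E n →L[ℝ] ℝ) :
    ContDiff ℝ (⊤ : ℕ∞) (fun y => V y - l y) := hV.sub l.contDiff

theorem qf_sub_lin {V : E n → ℝ} (hV : ContDiff ℝ (⊤ : ℕ∞) V) (l : E n →L[ℝ] ℝ) (x v : E n) :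
    qf (hess (fun y => V y - l y) x) v = qf (hess V x) v := by
  have h1 := contDiff_sub_lin hV l
  rw [← LK.iteratedDeriv_two_line h1, ← LK.iteratedDeriv_two_line hV,
    LK.iteratedDeriv_line_zero h1, LK.iteratedDeriv_line_zero hV, iteratedFDeriv_sub_lin hV l le_rfl]

theorem Reg.sub_lin {V : E n → ℝ} {c C : ℝ} (hV : Reg V c C) (l : E n →L[ℝ] ℝ) :
    Reg (fun y => V y - l y) c C where
  c_pos := hV.c_pos
  smooth := contDiff_sub_lin hV.smooth l
  lower x v := by rw [qf_sub_lin hV.smooth]; exact hV.lower x v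
  upper x v := by rw [qf_sub_lin hV.smooth]; exact hV.upper x v
  bdd k hk := by
    obtain ⟨B, hB⟩ := hV.bdd k hk
    refine ⟨B, fun x => ?_⟩
    rw [iteratedFDeriv_sub_lin hV.smooth l hk]
    exact hB x

theorem SelfConc.sub_lin {V : E n → ℝ} {c C κ : ℝ} (hV : Reg V c C) (h : SelfConc κ V)
    (l : E n →L[ℝ] ℝ) : SelfConc κ (fun y => V y - l y) := by
  have hR := Reg.sub_lin hV l
  rw [LK.selfConc_iff hR.smooth (LK.qf_nonneg_of_reg hR)]
  rw [LK.selfConc_iff hV.smooth (LK.qf_nonneg_of_reg hV)] at h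
  intro x v
  rw [qf_sub_lin hV.smooth, iteratedFDeriv_sub_lin hV.smooth l (by norm_num)]
  exact h x v

/-! ### Regular versions of the level-`k` estimates -/

theorem Reg.mulK {c : E n → ℝ} {a b k : ℝ} (h : Reg c a b) (hk : 0 < k) :
    Reg (fun x => k * c x) (k * a) (k * b) := by
  have := LK.Reg.scale h hk one_ne_zero
  simpa using this

section
variable {k c0 C0 m : ℝ} {c : E n → ℝ}

theorem reg_phiK (hLL : LK.RegLL) (hk : 0 < k) (hc0 : 0 < c0) (hC0 : 0 < C0)
    (hc : Reg c (c0 * (k + 1) / k) (C0 * (k + 1) / k)) :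
    Reg (phiK k c) (k / ((k + 1) * C0)) (k / ((k + 1) * c0)) := by
  have h1 := Reg.mulK hc hk
  have h2 := hLL n _ _ _ h1 (by positivity)
  have h3 := LK.Reg.scale h2 (α := 1 / k) (β := k) (by positivity) hk.ne'
  refine LK.Reg.congr_const h3 ?_ ?_ <;> field_simp

theorem sc_phiK (hSC : StmtSC) (hLL : LK.RegLL) (hk : 0 < k) (hC0 : 0 < C0) (hm : 0 ≤ m)
    (hmk : m ^ 2 ≤ k) (hc : Reg c (c0 * (k + 1) / k) (C0 * (k + 1) / k)) (hs : SelfConc m c) :
    SelfConc m (phiK k c) := by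
  have hsk : 0 < √k := Real.sqrt_pos.2 hk
  have h1 := Reg.mulK hc hk
  have h1s := LK.SelfConc.mulK hc hs hk
  have h2 := hLL n _ _ _ h1 (by positivity)
  have hle : m / √k ≤ 1 := by
    rw [div_le_one hsk]
    exact Real.le_sqrt_of_sq_le hmk
  have h2s := hSC n _ _ _ _ h1 (by positivity) hle h1s
  have h3 := LK.SelfConc.scale h2 h2s (α := 1 / k) (β := k) (by positivity) hk.ne'
  have h4 : m / √k / √(1 / k) = m := by
    rw [Real.sqrt_div zero_le_one, Real.sqrt_one]
    field_simp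
  rw [h4] at h3
  exact h3

theorem reg_QK (hLL : LK.RegLL) (hk : 0 < k) (hc0 : 0 < c0) (hC0 : 0 < C0)
    (hc : Reg c (c0 * (k + 1) / k) (C0 * (k + 1) / k)) :
    Reg (QK k c) (k * c0) (k * C0) := by
  have h1 := reg_phiK hLL hk hc0 hC0 hc
  have h2 := Reg.mulK h1 (k := k + 1) (by positivity)
  have h3 := hLL n _ _ _ h2 (by positivity)
  have h4 := LK.Reg.scale h3 (α := 1) (β := k) (by positivity) hk.ne'
  simp only [one_mul] at h4
  refine LK.Reg.congr_const h4 ?_ ?_ <;> field_simp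

theorem sc_QK (hSC : StmtSC) (hLL : LK.RegLL) (hk : 0 < k) (hc0 : 0 < c0) (hC0 : 0 < C0) (hm : 0 ≤ m)
    (hmk : m ^ 2 ≤ k) (hc : Reg c (c0 * (k + 1) / k) (C0 * (k + 1) / k)) (hs : SelfConc m c) :
    SelfConc (m / √k) (QK k c) := by
  have hsk : 0 < √k := Real.sqrt_pos.2 hk
  have hsk1 : 0 < √(k + 1) := Real.sqrt_pos.2 (by positivity)
  have h1 := reg_phiK hLL hk hc0 hC0 hc
  have h1s := sc_phiK hSC hLL hk hC0 hm hmk hc hs
  have h2 := Reg.mulK h1 (k := k + 1) (by positivity)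
  have h2s := LK.SelfConc.mulK h1 h1s (k := k + 1) (by positivity)
  have h3 := hLL n _ _ _ h2 (by positivity)
  have hle : m / √(k + 1) ≤ 1 := by
    rw [div_le_one hsk1]
    exact Real.le_sqrt_of_sq_le (by linarith)
  have h3s := hSC n _ _ _ _ h2 (by positivity) hle h2s
  have h4 := LK.Reg.scale h3 (α := 1) (β := k) (by positivity) hk.ne'
  have h4s := LK.SelfConc.scale h3 h3s (α := 1) (β := k) (by positivity) hk.ne'
  simp only [one_mul, Real.sqrt_one, div_one] at h4 h4s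
  refine LK.SelfConc.mono h4 h4s ?_
  exact div_le_div_of_nonneg_left hm hsk (Real.sqrt_le_sqrt (by linarith))

/-- the (not yet tilted) map: regular and self-concordant -/
theorem TK_reg_sc (hSC : StmtSC) (hLL : LK.RegLL) {V : E n → ℝ} {MV : ℝ} (hV : Reg V c0 C0)
    (hC0 : 0 < C0) (hMV : 0 ≤ MV) (hVs : SelfConc MV V) (hm : 2 / 3 * MV * √(C0 / c0) ≤ m)
    (hk : 0 < k) (hmk : m ^ 2 ≤ k) (hc : Reg c (c0 * (k + 1) / k) (C0 * (k + 1) / k))
    (hs : SelfConc m c) :
    Reg (TK k V c) (c0 * (k + 1) / k) (C0 * (k + 1) / k) ∧ SelfConc m (TK k V c) := by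
  have hc0 : 0 < c0 := hV.c_pos
  have hm0 : 0 ≤ m := le_trans (by positivity) hm
  have hsk : 0 < √k := Real.sqrt_pos.2 hk
  have hQ := reg_QK hLL hk hc0 hC0 hc
  have hQs := sc_QK hSC hLL hk hc0 hC0 hm0 hmk hc hs
  -- the sum
  have hS : Reg (fun x => V x + QK k c x) (c0 + k * c0) (C0 + k * C0) := LK.Reg.add hV hQ
  have hSs : SelfConc (m / √k) (fun x => V x + QK k c x) := by
    rw [LK.selfConc_iff hS.smooth (LK.qf_nonneg_of_reg hS)]
    rw [LK.selfConc_iff hV.smooth (LK.qf_nonneg_of_reg hV)] at hVs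
    rw [LK.selfConc_iff hQ.smooth (LK.qf_nonneg_of_reg hQ)] at hQs
    intro x v
    rw [LK.iteratedFDeriv_add' hV.smooth hQ.smooth, LK.qf_add hV.smooth hQ.smooth]
    exact LK.sum_ineq hk hm0 hMV hc0 hC0.le hm (N := ‖v‖ ^ 2) (by positivity)
      (LK.qf_nonneg_of_reg hV x v) (hV.upper x v) (hQ.lower x v) (hVs x v) (hQs x v)
  -- divide by `k`
  have hD := LK.Reg.scale hS (α := 1 / k) (β := 1) (by positivity) one_ne_zero
  have hDs := LK.SelfConc.scale hS hSs (α := 1 / k) (β := 1) (by positivity) one_ne_zero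
  simp only [one_smul, one_pow, mul_one] at hD hDs
  have hTeq : TK k V c = fun x => 1 / k * (V x + QK k c x) - (V 0 + QK k c 0) / k := by
    funext x; unfold TK; ring
  have h4 : m / √k / √(1 / k) = m := by
    rw [Real.sqrt_div zero_le_one, Real.sqrt_one]
    field_simp
  rw [h4] at hDs
  rw [hTeq]
  refine ⟨?_, LK.SelfConc.sub_const hD hDs _⟩
  refine LK.Reg.congr_const (LK.Reg.sub_const hD _) ?_ ?_ <;> field_simp <;> ring

/-- the normalised map preserves the class -/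
theorem Clsc.TKc_mem (hSC : StmtSC) (hLL : LK.RegLL) {V : E n → ℝ} {MV : ℝ} (hV : Reg V c0 C0)
    (hC0 : 0 < C0) (hMV : 0 ≤ MV) (hVs : SelfConc MV V) (hm : 2 / 3 * MV * √(C0 / c0) ≤ m)
    (hk : 0 < k) (hmk : m ^ 2 ≤ k) (hc : Clsc k c0 C0 m c) : Clsc k c0 C0 m (TKc k V c) := by
  obtain ⟨hR, hs⟩ := TK_reg_sc hSC hLL hV hC0 hMV hVs hm hk hmk hc.reg hc.sc
  have hd : DifferentiableAt ℝ (TK k V c) 0 := (hR.smooth.differentiable (by simp)) 0
  refine ⟨Reg.sub_lin hR _, SelfConc.sub_lin hR hs _, ?_, ?_⟩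
  · simp [TKc, TK]
  · have h : fderiv ℝ (fun x => TK k V c x - fderiv ℝ (TK k V c) 0 x) 0 =
        fderiv ℝ (TK k V c) 0 - fderiv ℝ (TK k V c) 0 :=
      (hd.hasFDerivAt.sub (fderiv ℝ (TK k V c) 0).hasFDerivAt).fderiv
    change fderiv ℝ (fun x => TK k V c x - fderiv ℝ (TK k V c) 0 x) 0 = 0
    rw [h, sub_self]

end

theorem stmtInvc_of (hSC : StmtSC) (hLL : LK.RegLL) : StmtInvc := by
  intro n hn V c₀ C₀ hV
  obtain ⟨MV, hMV, hVs⟩ := LK.Reg.exists_selfConc hV
  have hc0 : 0 < c₀ := hV.c_pos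
  have hC0 : 0 < C₀ := hc0.trans_le (MM.nice_le hn hV)
  refine ⟨2 / 3 * MV * √(C₀ / c₀), max 1 ((2 / 3 * MV * √(C₀ / c₀)) ^ 2), by positivity, le_max_left _ _,
    fun k hk => ?_⟩
  have hk0 : 0 < k := lt_of_lt_of_le one_pos ((le_max_left _ _).trans hk)
  have hmk : (2 / 3 * MV * √(C₀ / c₀)) ^ 2 ≤ k := (le_max_right _ _).trans hk
  refine ⟨fun c hc => ?_, fun c hc => ⟨?_, ?_⟩⟩
  · exact Clsc.TKc_mem hSC hLL hV hC0 hMV hVs le_rfl hk0 hmk hc
  · exact reg_phiK hLL hk0 hc0 hC0 hc.reg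
  · exact sc_phiK hSC hLL hk0 hC0 (by positivity) hmk hc.reg hc.sc

/-- the quadratic start is in the class -/
theorem stmtStartc : StmtStartc := by
  intro n hn k c₀ C₀ m hk hc hcC hm
  have h := Vale.Agent.P227.M.MM.Start102.stmtStart n hn k c₀ C₀ m hk hc hcC hm
  refine ⟨h.nice.toReg, h.sc, h.zero, ?_⟩
  have h1 : HasFDerivAt (fun x : E n => c₀ * (k + 1) / k / 2 * ‖x‖ ^ 2)
      ((c₀ * (k + 1) / k / 2) • (2 • (innerSL ℝ (0 : E n)))) 0 :=
    (hasStrictFDerivAt_norm_sq (0 : E n)).hasFDerivAt.const_mul _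
  rw [h1.fderiv]
  simp

/-- the iterates stay in the class -/
theorem itKc_cls {n : ℕ} {k c₀ C₀ m : ℝ} {V : E n → ℝ}
    (h0 : Clsc k c₀ C₀ m (fun x : E n => c₀ * (k + 1) / k / 2 * ‖x‖ ^ 2))
    (hT : ∀ c : E n → ℝ, Clsc k c₀ C₀ m c → Clsc k c₀ C₀ m (TKc k V c)) :
    ∀ i, Clsc k c₀ C₀ m (itKc k c₀ V i)
  | 0 => h0
  | i + 1 => hT _ (itKc_cls h0 hT i)

/-- invariance, from the self-concordance block alone -/
theorem stmtInvc_of_sc (hSC : StmtSC) : StmtInvc := stmtInvc_of hSC LK.H570.regLL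

end Vale.Agent.P254.MC
end

section

/-! # P254/MC: the moment map of a centred regular potential, from `StmtSC` alone -/

namespace Vale.Agent.P254.MC

open Vale.Agent.P227.M

theorem stmtLKc_of_sc (hSC : StmtSC) : StmtLKc := stmtLKc_of (stmtInvc_of_sc hSC) stmtStartc stmtDescc

/-- **existence of the `C^{2,1}` moment map for centred regular potentials** -/
theorem stmtMMc_of_sc (hSC : StmtSC) : StmtMMc := stmtMMc_of_lk (stmtLKc_of_sc hSC)

end Vale.Agent.P254.MC
end

section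

/-! # P254, stage 3: the whole chain put together (integration file, helper447) -/

open MeasureTheory

namespace Vale.Agent.P254.X.Chain

open Vale.Agent.P227.M

/-- block S2: the static inequality from the moment map -/
theorem stmtStatic_of (hMM : MC.StmtMMc) (hBL : S2.StmtBL) (hN1 : S2.StmtN1) : St625.StmtStatic := by
  intro n V c C hV h0 h1 b hb hH r hr
  have hZ := hV.Z_pos
  have hcen : MC.Centred V := by
    intro i
    have h2 := h0 i
    unfold Ex at h2
    rcases div_eq_zero_iff.1 h2 with h3 | h3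
    · exact h3
    · exact absurd h3 hZ.ne'
  obtain ⟨ψ, M, h⟩ := hMM n V c C hV hcen
  have hG := S2.gr_tau h
  have hs : ∀ x i j, tau ψ x i j = tau ψ x j i := S2.tau_symm h
  have hco := S2.H300.coreId hV h
  refine S2d.static_of hV (tau ψ) hG (fun x => ?_) h0 h1 (fun i j => ?_) (fun i j k => ?_) (fun w hw => ?_) b
    (fun i => (hb i).1) hH r hr
  · exact MC.MMc.tau_posSemidef h x
  · rw [hco.ex_tau, h1]
  · rw [hco.ex_three hV hG]
    congr 1
    · exact Ex_congr V fun x => mul_comm _ _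
    · exact Ex_congr V fun x => mul_comm _ _
  · have e1 := hN1 n ψ V c C M c C hV h w hw
    have e2 : ∀ x, (Matrix.diagonal w * tau ψ x * Matrix.diagonal w * tau ψ x).trace
        = ∑ i, ∑ j, w i * w j * tau ψ x i j ^ 2 := by
      intro x
      rw [S2.pw_tr4]
      refine Finset.sum_congr rfl fun i _ => Finset.sum_congr rfl fun j _ => ?_
      rw [hs x j i]
      ring
    have e3 : ∀ x, (hess V x * tau ψ x * Matrix.diagonal w * tau ψ x * Matrix.diagonal w * tau ψ x).trace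
        = ∑ i, ∑ l, hess V x i l * ∑ j, ∑ k, w j * w k * tau ψ x i j * tau ψ x j k * tau ψ x k l := by
      intro x
      have e4 : hess V x * tau ψ x * Matrix.diagonal w * tau ψ x * Matrix.diagonal w * tau ψ x
          = hess V x * (tau ψ x * Matrix.diagonal w * (tau ψ x * Matrix.diagonal w * tau ψ x)) := by
        simp only [Matrix.mul_assoc]
      rw [e4, Matrix.trace]
      refine Finset.sum_congr rfl fun i _ => ?_
      rw [Matrix.diag_apply, Matrix.mul_apply]
      refine Finset.sum_congr rfl fun l _ => ?_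
      congr 1
      have e5 : ∀ a b, (tau ψ x * Matrix.diagonal w * (tau ψ x * Matrix.diagonal w * tau ψ x)) a b
          = ∑ j, ∑ k, w j * w k * tau ψ x a j * tau ψ x j k * tau ψ x k b := by
        intro a b
        rw [Matrix.mul_apply]
        refine Finset.sum_congr rfl fun j _ => ?_
        rw [Matrix.mul_diagonal, Matrix.mul_apply, Finset.mul_sum]
        refine Finset.sum_congr rfl fun k _ => ?_
        rw [Matrix.mul_diagonal]
        ring
      rw [e5]
      rw [Finset.sum_comm]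
      refine Finset.sum_congr rfl fun j _ => Finset.sum_congr rfl fun k _ => ?_
      rw [hs x l k, hs x k j, hs x j i]
      ring
    rw [Ex_congr V e2, Ex_congr V e3] at e1
    refine le_trans ?_ e1
    refine mul_le_mul_of_nonneg_left ?_ zero_le_two
    refine Finset.sum_le_sum fun i _ => Finset.sum_le_sum fun j _ => ?_
    exact mul_le_mul_of_nonneg_left (hBL n ψ V c C M c C hV h i j) (mul_nonneg (hw i) (hw j))

theorem stmtStatic_of_sc (hSC : StmtSC) : St625.StmtStatic :=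
  stmtStatic_of (MC.stmtMMc_of_sc hSC) SL.Gap.stmtBL S2.stmtN1

/-- **near-sharp slicing**, all convex bodies, from `StmtSC` -/
theorem final_of_sc (hSC : StmtSC) {n : ℕ} (hn : 1 ≤ n) {K S : Set (Fin n → ℝ)}
    (hK : IsConvexBody K) (hSi : IsSimplex S) :
    isoConst K ≤ Real.exp (19 / 100 * (((n : ℝ) + 1) / n)) * isoConst S ∧
      isoConst K ≤ Real.exp (-(81 / 100)) :=
  S5.N710.final_of_static (stmtStatic_of_sc hSC) hn hK hSi

end Vale.Agent.P254.X.Chain
end

section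

/-! # P227/M/SC2: linear tilts of regular self-concordant potentials (helper204). -/

open MeasureTheory Filter Topology

namespace Vale.Agent.P227.M.HL

variable {n : ℕ}

/-- tilt -/
noncomputable def tl (W : E n → ℝ) (y : E n) (x : E n) : ℝ := W x - inner ℝ y x

theorem contDiff_tl {W : E n → ℝ} (hW : ContDiff ℝ (⊤ : ℕ∞) W) (y : E n) :
    ContDiff ℝ (⊤ : ℕ∞) (tl W y) :=
  hW.sub (innerSL ℝ y).contDiff

theorem iter_tl {W : E n → ℝ} (hW : ContDiff ℝ (⊤ : ℕ∞) W) (y : E n) {k : ℕ} (hk : 2 ≤ k) (x : E n) :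
    iteratedFDeriv ℝ k (tl W y) x = iteratedFDeriv ℝ k W x := by
  have h1 : iteratedFDeriv ℝ k (fun x : E n => innerSL ℝ y x) x = 0 := by
    obtain ⟨m, rfl⟩ : ∃ m, k = m + 2 := ⟨k - 2, by omega⟩
    have h2 : fderiv ℝ (fun x : E n => innerSL ℝ y x) = fun _ => innerSL ℝ y := by
      funext z; exact (innerSL ℝ y).fderiv
    have h3 : ‖iteratedFDeriv ℝ (m + 1 + 1) (fun x : E n => innerSL ℝ y x) x‖ = 0 := by
      rw [← norm_iteratedFDeriv_fderiv, h2, iteratedFDeriv_const_of_ne (by omega)]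
      simp
    exact norm_eq_zero.1 h3
  have h4 : tl W y = W - (fun x : E n => innerSL ℝ y x) := by
    funext z; simp [tl]
  have hk' : (k : WithTop ℕ∞) ≤ (⊤ : ℕ∞) := by exact_mod_cast le_top
  rw [h4, iteratedFDeriv_sub_apply (hW.of_le hk').contDiffAt (innerSL ℝ y).contDiff.contDiffAt, h1,
    sub_zero]

theorem qf_tl {W : E n → ℝ} (hW : ContDiff ℝ (⊤ : ℕ∞) W) (y x v : E n) :
    qf (hess (tl W y) x) v = qf (hess W x) v := by
  rw [← LK.iteratedDeriv_two_line (contDiff_tl hW y), LK.iteratedDeriv_line_zero (contDiff_tl hW y),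
    iter_tl hW y le_rfl, ← LK.iteratedDeriv_line_zero hW, LK.iteratedDeriv_two_line hW]

theorem reg_tl {W : E n → ℝ} {c C : ℝ} (h : Reg W c C) (y : E n) : Reg (tl W y) c C where
  c_pos := h.c_pos
  smooth := contDiff_tl h.smooth y
  lower x v := by rw [qf_tl h.smooth]; exact h.lower x v
  upper x v := by rw [qf_tl h.smooth]; exact h.upper x v
  bdd k hk := by
    obtain ⟨B, hB⟩ := h.bdd k hk
    exact ⟨B, fun x => by rw [iter_tl h.smooth y hk]; exact hB x⟩

theorem selfConc_tl {W : E n → ℝ} (hW : ContDiff ℝ (⊤ : ℕ∞) W) {κ : ℝ} (hs : SelfConc κ W) (y : E n) :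
    SelfConc κ (tl W y) := by
  intro x v
  have h := hs x v
  rw [LK.iteratedDeriv_line_zero hW, LK.iteratedDeriv_line_zero hW] at h
  rw [LK.iteratedDeriv_line_zero (contDiff_tl hW y), LK.iteratedDeriv_line_zero (contDiff_tl hW y),
    iter_tl hW y le_rfl, iter_tl hW y (by norm_num)]
  exact h

end Vale.Agent.P227.M.HL
end

section

/-! # P227/M/SC2: `StmtHeat` and the one-dimensional third moment lemma give `StmtSC` (helper204). -/

open MeasureTheory Filter Topology

namespace Vale.Agent.P227.M.HL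

variable {n : ℕ}

/-- moments of `⟨v, x⟩` for `exp (-U - ‖pr x‖² / (2σ²))` -/
noncomputable def A (U : E n → ℝ) (v : E n) (σ : ℝ) (j : ℕ) : ℝ :=
  ∫ x : E n, (inner ℝ v x) ^ j * Real.exp (-U x - ‖pr v x‖ ^ 2 / (2 * σ ^ 2))

/-- limit moments -/
noncomputable def Ai (U : E n → ℝ) (v : E n) (j : ℕ) : ℝ :=
  ∫ x : E n, (inner ℝ v x) ^ j * Real.exp (-U x)

theorem gr_inner_pow (v : E n) (j : ℕ) : Gr (fun x : E n => (inner ℝ v x) ^ j) := by
  refine Gr.pow (f := fun x : E n => inner ℝ v x) ?_ j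
  refine ⟨by fun_prop, ‖v‖, 1, norm_nonneg _, fun x => ?_⟩
  rw [pow_one]
  have h1 := abs_real_inner_le_norm v x
  have h2 := norm_nonneg v
  have h3 := norm_nonneg x
  nlinarith

theorem integrable_Ai {U : E n → ℝ} {c C : ℝ} (h : Reg U c C) (v : E n) (j : ℕ) :
    Integrable (fun x : E n => (inner ℝ v x) ^ j * Real.exp (-U x)) :=
  h.integrable_gr (gr_inner_pow v j)

theorem dom_A (U : E n → ℝ) (v : E n) (σ : ℝ) (j : ℕ) (x : E n) :
    ‖(inner ℝ v x) ^ j * Real.exp (-U x - ‖pr v x‖ ^ 2 / (2 * σ ^ 2))‖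
      ≤ |(inner ℝ v x) ^ j * Real.exp (-U x)| := by
  rw [Real.norm_eq_abs, abs_mul, abs_mul, Real.abs_exp, Real.abs_exp]
  refine mul_le_mul_of_nonneg_left (Real.exp_le_exp.2 ?_) (abs_nonneg _)
  have : 0 ≤ ‖pr v x‖ ^ 2 / (2 * σ ^ 2) := by positivity
  linarith

theorem aesm_A {U : E n → ℝ} {c C : ℝ} (h : Reg U c C) (v : E n) (σ : ℝ) (j : ℕ) :
    AEStronglyMeasurable
      (fun x : E n => (inner ℝ v x) ^ j * Real.exp (-U x - ‖pr v x‖ ^ 2 / (2 * σ ^ 2))) volume := by
  have hc := h.cont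
  have : Continuous
      (fun x : E n => (inner ℝ v x) ^ j * Real.exp (-U x - ‖pr v x‖ ^ 2 / (2 * σ ^ 2))) := by
    fun_prop
  exact this.aestronglyMeasurable

theorem integrable_A {U : E n → ℝ} {c C : ℝ} (h : Reg U c C) (v : E n) (σ : ℝ) (j : ℕ) :
    Integrable
      (fun x : E n => (inner ℝ v x) ^ j * Real.exp (-U x - ‖pr v x‖ ^ 2 / (2 * σ ^ 2))) :=
  (integrable_Ai h v j).abs.mono' (aesm_A h v σ j) (Eventually.of_forall (dom_A U v σ j))

theorem tendsto_A {U : E n → ℝ} {c C : ℝ} (h : Reg U c C) (v : E n) (j : ℕ) :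
    Tendsto (fun k : ℕ => A U v ((k : ℝ) + 1) j) atTop (𝓝 (Ai U v j)) := by
  refine tendsto_integral_of_dominated_convergence
    (fun x => |(inner ℝ v x) ^ j * Real.exp (-U x)|) (fun k => aesm_A h v _ j)
    (integrable_Ai h v j).abs (fun k => Eventually.of_forall (dom_A U v _ j))
    (Eventually.of_forall fun x => ?_)
  refine Tendsto.const_mul _ ?_
  have h1 : Tendsto (fun k : ℕ => ‖pr v x‖ ^ 2 / (2 * ((k : ℝ) + 1) ^ 2)) atTop (𝓝 0) := by
    have h2 : Tendsto (fun k : ℕ => (2 * ((k : ℝ) + 1) ^ 2)) atTop atTop := by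
      refine Tendsto.const_mul_atTop (by norm_num) ?_
      exact (tendsto_pow_atTop (by norm_num)).comp
        (tendsto_atTop_add_const_right _ _ tendsto_natCast_atTop_atTop)
    exact h2.const_div_atTop _
  have h3 := (tendsto_const_nhds (x := -U x)).sub h1
  rw [sub_zero] at h3
  exact (Real.continuous_exp.tendsto _).comp h3

theorem Ai_pos {U : E n → ℝ} {c C : ℝ} (h : Reg U c C) (v : E n) : 0 < Ai U v 0 := by
  have := h.Z_pos
  simpa [Ai] using this

theorem A_pos {U : E n → ℝ} {c C : ℝ} (h : Reg U c C) (v : E n) (σ : ℝ) : 0 < A U v σ 0 := by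
  unfold A
  rw [integral_pos_iff_support_of_nonneg (fun x => by positivity) (integrable_A h v σ 0)]
  have : Function.support (fun x : E n =>
      (inner ℝ v x) ^ 0 * Real.exp (-U x - ‖pr v x‖ ^ 2 / (2 * σ ^ 2))) = Set.univ := by
    ext x
    simp [Real.exp_ne_zero]
  rw [this]
  exact isOpen_univ.measure_pos volume ⟨0, trivial⟩

/-- integral of a cubic polynomial in `⟨v, x⟩` -/
theorem poly_A {U : E n → ℝ} {c C : ℝ} (h : Reg U c C) (v : E n) (σ : ℝ) (a0 a1 a2 a3 : ℝ) :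
    Integrable (fun x : E n => (a0 + a1 * inner ℝ v x + a2 * (inner ℝ v x) ^ 2 +
      a3 * (inner ℝ v x) ^ 3) * Real.exp (-U x - ‖pr v x‖ ^ 2 / (2 * σ ^ 2))) ∧
    (∫ x : E n, (a0 + a1 * inner ℝ v x + a2 * (inner ℝ v x) ^ 2 +
      a3 * (inner ℝ v x) ^ 3) * Real.exp (-U x - ‖pr v x‖ ^ 2 / (2 * σ ^ 2)))
      = a0 * A U v σ 0 + a1 * A U v σ 1 + a2 * A U v σ 2 + a3 * A U v σ 3 := by
  have i0 := (integrable_A h v σ 0).const_mul a0
  have i1 := (integrable_A h v σ 1).const_mul a1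
  have i2 := (integrable_A h v σ 2).const_mul a2
  have i3 := (integrable_A h v σ 3).const_mul a3
  have e : (fun x : E n => (a0 + a1 * inner ℝ v x + a2 * (inner ℝ v x) ^ 2 +
      a3 * (inner ℝ v x) ^ 3) * Real.exp (-U x - ‖pr v x‖ ^ 2 / (2 * σ ^ 2)))
      = fun x : E n => a0 * ((inner ℝ v x) ^ 0 * Real.exp (-U x - ‖pr v x‖ ^ 2 / (2 * σ ^ 2)))
        + a1 * ((inner ℝ v x) ^ 1 * Real.exp (-U x - ‖pr v x‖ ^ 2 / (2 * σ ^ 2)))
        + a2 * ((inner ℝ v x) ^ 2 * Real.exp (-U x - ‖pr v x‖ ^ 2 / (2 * σ ^ 2)))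
        + a3 * ((inner ℝ v x) ^ 3 * Real.exp (-U x - ‖pr v x‖ ^ 2 / (2 * σ ^ 2))) := by
    funext x; ring
  rw [e]
  refine ⟨((i0.add i1).add i2).add i3, ?_⟩
  have j1 : Integrable (fun x : E n =>
      a0 * ((inner ℝ v x) ^ 0 * Real.exp (-U x - ‖pr v x‖ ^ 2 / (2 * σ ^ 2)))
        + a1 * ((inner ℝ v x) ^ 1 * Real.exp (-U x - ‖pr v x‖ ^ 2 / (2 * σ ^ 2)))) := i0.add i1
  have j2 : Integrable (fun x : E n =>
      a0 * ((inner ℝ v x) ^ 0 * Real.exp (-U x - ‖pr v x‖ ^ 2 / (2 * σ ^ 2)))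
        + a1 * ((inner ℝ v x) ^ 1 * Real.exp (-U x - ‖pr v x‖ ^ 2 / (2 * σ ^ 2)))
        + a2 * ((inner ℝ v x) ^ 2 * Real.exp (-U x - ‖pr v x‖ ^ 2 / (2 * σ ^ 2)))) := j1.add i2
  rw [integral_add j2 i3, integral_add j1 i2, integral_add i0 i1,
    integral_const_mul, integral_const_mul, integral_const_mul, integral_const_mul]
  rfl

/-- finite `σ` -/
theorem third_A {U : E n → ℝ} {c C : ℝ} (h : Reg U c C) {v : E n} (hv : v ≠ 0) {σ : ℝ} (hσ : 0 < σ)
    {κ : ℝ} (hκ : 0 < κ) (hs : SelfConc κ (heat U (σ • pr v))) :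
    |A U v σ 3 / A U v σ 0 - 3 * (A U v σ 1 / A U v σ 0) * (A U v σ 2 / A U v σ 0)
        + 2 * (A U v σ 1 / A U v σ 0) ^ 3|
      ≤ 2 * κ * √(A U v σ 2 / A U v σ 0 - (A U v σ 1 / A U v σ 0) ^ 2) ^ 3 := by
  have hcp := h.c_pos
  obtain ⟨K, hK, hcv⟩ := cv h hv hσ
  set P := σ • pr v with hP
  set u := uu v with hu
  have huP : ∀ z, inner ℝ u (P z) = 0 := by
    intro z
    rw [hP, hu, smul_apply, inner_smul_right, inner_uu_pr hv, mul_zero]
  have hu0 : u ≠ 0 := by
    intro h0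
    have h1 := inner_uu hv
    rw [← hu, h0, inner_zero_right] at h1
    exact zero_ne_one h1
  have hun : 0 < ‖u‖ ^ 2 := by have := norm_pos_iff.2 hu0; positivity
  have hlow : ∀ t : ℝ, c * ‖u‖ ^ 2 ≤ w2 U u P (t • u) := w2_lower h u P huP
  have d0 : ∀ t : ℝ, HasDerivAt (fun t : ℝ => heat U P (t • u)) (w1 U u P (t • u)) t := fun t => by
    simpa using hasDerivAt_heat h u P 0 t
  have d1 : ∀ t : ℝ, HasDerivAt (fun t : ℝ => w1 U u P (t • u)) (w2 U u P (t • u)) t := fun t => by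
    simpa using hasDerivAt_w1 h u P 0 t
  have d2 : ∀ t : ℝ, HasDerivAt (fun t : ℝ => w2 U u P (t • u)) (w3 U u P (t • u)) t := fun t => by
    simpa using hasDerivAt_w2 h u P 0 t
  have hsc : ∀ t : ℝ, |w3 U u P (t • u)| ≤ 2 * κ * √(w2 U u P (t • u)) ^ 3 := by
    intro t
    have := hs (t • u) u
    rw [iteratedDeriv_two_heat h, iteratedDeriv_three_heat h, LK.rpow_three_half] at this
    · exact this
    · exact le_trans (by positivity) (hlow t)
  set A0 := A U v σ 0
  set A1 := A U v σ 1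
  set A2 := A U v σ 2
  set A3 := A U v σ 3
  have hA0 : 0 < A0 := A_pos h v σ
  set m := A1 / A0 with hm
  have v0 : (∫ t : ℝ, Real.exp (-heat U P (t • u))) = K * A0 := by
    obtain ⟨i, e⟩ := poly_A h v σ 1 0 0 0
    have h1 := hcv (fun t => 1 + 0 * t + 0 * t ^ 2 + 0 * t ^ 3) i
    simp only [e] at h1
    simpa using h1
  have v1 : (∫ t : ℝ, t * Real.exp (-heat U P (t • u))) = K * A1 := by
    obtain ⟨i, e⟩ := poly_A h v σ 0 1 0 0
    have h1 := hcv (fun t => 0 + 1 * t + 0 * t ^ 2 + 0 * t ^ 3) i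
    simp only [e] at h1
    simpa using h1
  have v2 : (∫ t : ℝ, (t - m) ^ 2 * Real.exp (-heat U P (t • u)))
      = K * (m ^ 2 * A0 - 2 * m * A1 + A2) := by
    obtain ⟨i, e⟩ := poly_A h v σ (m ^ 2) (-(2 * m)) 1 0
    have h1 := hcv (fun t => m ^ 2 + -(2 * m) * t + 1 * t ^ 2 + 0 * t ^ 3) i
    simp only [e] at h1
    have e2 : (fun t : ℝ => (t - m) ^ 2 * Real.exp (-heat U P (t • u)))
        = fun t => (m ^ 2 + -(2 * m) * t + 1 * t ^ 2 + 0 * t ^ 3) * Real.exp (-heat U P (t • u)) := by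
      funext t; ring
    rw [e2, h1]; ring
  have v3 : (∫ t : ℝ, (t - m) ^ 3 * Real.exp (-heat U P (t • u)))
      = K * (-m ^ 3 * A0 + 3 * m ^ 2 * A1 - 3 * m * A2 + A3) := by
    obtain ⟨i, e⟩ := poly_A h v σ (-m ^ 3) (3 * m ^ 2) (-(3 * m)) 1
    have h1 := hcv (fun t => -m ^ 3 + 3 * m ^ 2 * t + -(3 * m) * t ^ 2 + 1 * t ^ 3) i
    simp only [e] at h1
    have e2 : (fun t : ℝ => (t - m) ^ 3 * Real.exp (-heat U P (t • u)))
        = fun t => (-m ^ 3 + 3 * m ^ 2 * t + -(3 * m) * t ^ 2 + 1 * t ^ 3) *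
          Real.exp (-heat U P (t • u)) := by
      funext t; ring
    rw [e2, h1]; ring
  have key := SC1.third_le_sc (W := fun t => heat U P (t • u)) (W1 := fun t => w1 U u P (t • u))
    (W2 := fun t => w2 U u P (t • u)) (W3 := fun t => w3 U u P (t • u)) (c0 := c * ‖u‖ ^ 2) (c := κ)
    d0 d1 d2 (by positivity) hlow hκ hsc (Z := K * A0) (m := m)
    (v := (K * (m ^ 2 * A0 - 2 * m * A1 + A2)) / (K * A0)) v0.symm
    (by rw [v1, hm]; field_simp) (by rw [v2])
  rw [v3] at key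
  have e3 : (K * (-m ^ 3 * A0 + 3 * m ^ 2 * A1 - 3 * m * A2 + A3)) / (K * A0)
      = A3 / A0 - 3 * m * (A2 / A0) + 2 * m ^ 3 := by
    have : A1 = m * A0 := by rw [hm]; field_simp
    rw [this]
    field_simp
    ring
  have e2 : (K * (m ^ 2 * A0 - 2 * m * A1 + A2)) / (K * A0) = A2 / A0 - m ^ 2 := by
    have : A1 = m * A0 := by rw [hm]; field_simp
    rw [this]
    field_simp
    ring
  rw [e3, e2] at key
  exact key

/-- limit `σ → ∞` -/
theorem third_Ai {U : E n → ℝ} {c C : ℝ} (h : Reg U c C) {v : E n} (hv : v ≠ 0)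
    {κ : ℝ} (hκ : 0 < κ) (hs : ∀ P : E n →L[ℝ] E n, SelfConc κ (heat U P)) :
    |Ai U v 3 / Ai U v 0 - 3 * (Ai U v 1 / Ai U v 0) * (Ai U v 2 / Ai U v 0)
        + 2 * (Ai U v 1 / Ai U v 0) ^ 3|
      ≤ 2 * κ * √(Ai U v 2 / Ai U v 0 - (Ai U v 1 / Ai U v 0) ^ 2) ^ 3 := by
  have h0 := (Ai_pos h v).ne'
  have t0 := tendsto_A h v 0
  have t1 := (tendsto_A h v 1).div t0 h0
  have t2 := (tendsto_A h v 2).div t0 h0
  have t3 := (tendsto_A h v 3).div t0 h0
  have hL := ((t3.sub ((t1.const_mul 3).mul t2)).add ((t1.pow 3).const_mul 2)).abs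
  have hR := (((Real.continuous_sqrt.tendsto _).comp (t2.sub (t1.pow 2))).pow 3).const_mul (2 * κ)
  refine le_of_tendsto_of_tendsto' hL hR fun k => ?_
  exact third_A h hv (by positivity) hκ (hs _)

/-- constant `κ ≥ 0` -/
theorem third_Ai' {U : E n → ℝ} {c C : ℝ} (h : Reg U c C) {v : E n} (hv : v ≠ 0)
    {κ : ℝ} (hκ : 0 ≤ κ) (hs : ∀ P : E n →L[ℝ] E n, SelfConc κ (heat U P)) :
    |Ai U v 3 / Ai U v 0 - 3 * (Ai U v 1 / Ai U v 0) * (Ai U v 2 / Ai U v 0)
        + 2 * (Ai U v 1 / Ai U v 0) ^ 3|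
      ≤ 2 * κ * √(Ai U v 2 / Ai U v 0 - (Ai U v 1 / Ai U v 0) ^ 2) ^ 3 := by
  have key : ∀ k : ℕ, |Ai U v 3 / Ai U v 0 - 3 * (Ai U v 1 / Ai U v 0) * (Ai U v 2 / Ai U v 0)
        + 2 * (Ai U v 1 / Ai U v 0) ^ 3|
      ≤ 2 * (κ + 1 / ((k : ℝ) + 1)) * √(Ai U v 2 / Ai U v 0 - (Ai U v 1 / Ai U v 0) ^ 2) ^ 3 := by
    intro k
    refine third_Ai h hv (by positivity) fun P x w => (hs P x w).trans ?_
    by_cases hneg : 0 ≤ (iteratedDeriv 2 (fun t : ℝ => heat U P (x + t • w)) 0) ^ ((3 : ℝ) / 2)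
    · refine mul_le_mul_of_nonneg_right ?_ hneg
      have : (0 : ℝ) < 1 / ((k : ℝ) + 1) := by positivity
      linarith
    · exfalso
      apply hneg
      by_cases h2 : 0 ≤ iteratedDeriv 2 (fun t : ℝ => heat U P (x + t • w)) 0
      · exact Real.rpow_nonneg h2 _
      · push Not at h2
        rw [Real.rpow_def_of_neg h2]
        have : Real.cos ((3 : ℝ) / 2 * Real.pi) = 0 := by
          rw [show (3 : ℝ) / 2 * Real.pi = Real.pi / 2 + Real.pi by ring, Real.cos_add_pi,
            Real.cos_pi_div_two, neg_zero]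
        rw [this, mul_zero]
  have hlim : Tendsto (fun k : ℕ => 2 * (κ + 1 / ((k : ℝ) + 1)) *
      √(Ai U v 2 / Ai U v 0 - (Ai U v 1 / Ai U v 0) ^ 2) ^ 3) atTop
      (𝓝 (2 * κ * √(Ai U v 2 / Ai U v 0 - (Ai U v 1 / Ai U v 0) ^ 2) ^ 3)) := by
    have h1 : Tendsto (fun k : ℕ => 1 / ((k : ℝ) + 1)) atTop (𝓝 0) :=
      tendsto_one_div_add_atTop_nhds_zero_nat
    have h2 := ((h1.const_add κ).const_mul 2).mul_const
      (√(Ai U v 2 / Ai U v 0 - (Ai U v 1 / Ai U v 0) ^ 2) ^ 3)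
    simpa using h2
  exact ge_of_tendsto' hlim key

/-- moments of the tilted measure -/
theorem tmean_eq (W : E n → ℝ) (y v : E n) : Lap.tmean W y v = Ai (tl W y) v 1 / Ai (tl W y) v 0 := by
  unfold Lap.tmean Ai tl
  congr 1
  · refine integral_congr_ae (Eventually.of_forall fun x => ?_)
    simp only [pow_one]
    rw [real_inner_comm v x, neg_sub, real_inner_comm y x]
  · refine integral_congr_ae (Eventually.of_forall fun x => ?_)
    simp only [pow_zero, one_mul]
    rw [neg_sub, real_inner_comm y x]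

theorem tmom_eq {W : E n → ℝ} {c C : ℝ} (h : Reg W c C) (y v : E n) :
    Lap.tmom W y v 2 = Ai (tl W y) v 2 / Ai (tl W y) v 0 - (Ai (tl W y) v 1 / Ai (tl W y) v 0) ^ 2 ∧
    Lap.tmom W y v 3 = Ai (tl W y) v 3 / Ai (tl W y) v 0
      - 3 * (Ai (tl W y) v 1 / Ai (tl W y) v 0) * (Ai (tl W y) v 2 / Ai (tl W y) v 0)
      + 2 * (Ai (tl W y) v 1 / Ai (tl W y) v 0) ^ 3 := by
  have hU := reg_tl h y
  set U := tl W y with hUd
  have h0 := (Ai_pos hU v).ne'
  have hm := tmean_eq W y v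
  rw [← hUd] at hm
  set m := Ai U v 1 / Ai U v 0 with hmd
  have hA1 : Ai U v 1 = m * Ai U v 0 := by rw [hmd]; field_simp
  have hZ : (∫ x : E n, Real.exp (inner ℝ x y - W x)) = Ai U v 0 := by
    unfold Ai
    refine integral_congr_ae (Eventually.of_forall fun x => ?_)
    simp only [pow_zero, one_mul, hUd, tl]
    rw [neg_sub, real_inner_comm y x]
  have i := fun j => integrable_Ai hU v j
  constructor
  · unfold Lap.tmom
    rw [hZ, hm]
    have e : (fun x : E n => (inner ℝ x v - m) ^ 2 * Real.exp (inner ℝ x y - W x))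
        = fun x => ((inner ℝ v x) ^ 2 * Real.exp (-U x) + m ^ 2 * ((inner ℝ v x) ^ 0 * Real.exp (-U x)))
          - 2 * m * ((inner ℝ v x) ^ 1 * Real.exp (-U x)) := by
      funext x
      simp only [hUd, tl]
      rw [neg_sub, real_inner_comm y x, real_inner_comm v x]
      ring
    have k1 : Integrable (fun x : E n => (inner ℝ v x) ^ 2 * Real.exp (-U x)
        + m ^ 2 * ((inner ℝ v x) ^ 0 * Real.exp (-U x))) := (i 2).add ((i 0).const_mul _)
    rw [e, integral_sub k1 ((i 1).const_mul _),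
      integral_add (i 2) ((i 0).const_mul _), integral_const_mul, integral_const_mul]
    change (Ai U v 2 + m ^ 2 * Ai U v 0 - 2 * m * Ai U v 1) / Ai U v 0 = _
    rw [hA1]
    field_simp
    ring
  · unfold Lap.tmom
    rw [hZ, hm]
    have e : (fun x : E n => (inner ℝ x v - m) ^ 3 * Real.exp (inner ℝ x y - W x))
        = fun x => ((inner ℝ v x) ^ 3 * Real.exp (-U x)
            + 3 * m ^ 2 * ((inner ℝ v x) ^ 1 * Real.exp (-U x)))
          - (3 * m * ((inner ℝ v x) ^ 2 * Real.exp (-U x))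
            + m ^ 3 * ((inner ℝ v x) ^ 0 * Real.exp (-U x))) := by
      funext x
      simp only [hUd, tl]
      rw [neg_sub, real_inner_comm y x, real_inner_comm v x]
      ring
    have k1 : Integrable (fun x : E n => (inner ℝ v x) ^ 3 * Real.exp (-U x)
        + 3 * m ^ 2 * ((inner ℝ v x) ^ 1 * Real.exp (-U x))) := (i 3).add ((i 1).const_mul _)
    have k2 : Integrable (fun x : E n => 3 * m * ((inner ℝ v x) ^ 2 * Real.exp (-U x))
        + m ^ 3 * ((inner ℝ v x) ^ 0 * Real.exp (-U x))) :=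
      ((i 2).const_mul _).add ((i 0).const_mul _)
    rw [e, integral_sub k1 k2,
      integral_add (i 3) ((i 1).const_mul _), integral_add ((i 2).const_mul _) ((i 0).const_mul _),
      integral_const_mul, integral_const_mul, integral_const_mul]
    change (Ai U v 3 + 3 * m ^ 2 * Ai U v 1 - (3 * m * Ai U v 2 + m ^ 3 * Ai U v 0)) / Ai U v 0 = _
    rw [hA1]
    field_simp
    ring

/-- **block SC from the flow statement** -/
theorem stmtSC_of_heat (H : StmtHeat) : StmtSC := by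
  intro n W c C κ h hκ0 hκ1 hs y v
  have e2 := Lap.iteratedDeriv_two_logLap h y v 0
  have e3 := Lap.iteratedDeriv_three_logLap h y v 0
  rw [zero_smul, add_zero] at e2 e3
  rw [e2, e3]
  obtain ⟨m2, m3⟩ := tmom_eq h y v
  have hvar : 0 ≤ Lap.tmom W y v 2 := by
    unfold Lap.tmom
    exact div_nonneg (integral_nonneg fun x => by positivity) (integral_nonneg fun x => by positivity)
  rw [LK.rpow_three_half hvar]
  by_cases hv : v = 0
  · have : Lap.tmom W y v 3 = 0 := by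
      rw [m3, hv]
      simp [Ai]
    rw [this, abs_zero]
    positivity
  · rw [m2, m3]
    exact third_Ai' (reg_tl h y) hv hκ0 fun P =>
      H n (tl W y) c C κ (reg_tl h y) hκ0 hκ1 (selfConc_tl h.smooth hs y) P

end Vale.Agent.P227.M.HL
end

section

/-! # P227/M/SC: `StmtHeat` is proved (F3 route: two-point steps, iteration, limit). -/

namespace Vale.Agent.P227.M.SC

theorem stmtHeat : StmtHeat := stmtHeat_of_step fun _ => stepStmt

end Vale.Agent.P227.M.SC
end

section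

/-! # P254, stage 3: near-sharp slicing for every convex body (no hypotheses) -/

namespace Vale.Agent.P254.X.Chain

open Vale.Agent.P227.M

theorem final_all {n : ℕ} (hn : 1 ≤ n) {K S : Set (Fin n → ℝ)}
    (hK : IsConvexBody K) (hSi : IsSimplex S) :
    isoConst K ≤ Real.exp (19 / 100 * (((n : ℝ) + 1) / n)) * isoConst S ∧
      isoConst K ≤ Real.exp (-(81 / 100)) :=
  final_of_sc (HL.stmtSC_of_heat SC.stmtHeat) hn hK hSi

end Vale.Agent.P254.X.Chain
end
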