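import Mathlib
import Vale.Agent.P254.Bdl.B2
import Vale.Agent.P254.Bdl.B7
import Vale.Agent.P254.FV.ClsDefs
import Vale.Agent.P254.Bdl.B4
import Vale.Agent.P254.MathlibUsed
import Vale.Agent.P254.Bdl.B3
import Vale.Agent.P254.Bdl.B5

set_option linter.all false

section

/-!
Homogeneous coordinates, maximal minors and affine dependences of `n + 2` points.
-/

open Set Matrix

namespace Vale.Agent.P254.FV

variable {n : ℕ}

/-- homogeneous coordinates -/
def hom (x : Fin n → ℝ) : Fin (n + 1) → ℝ := Fin.cons 1 x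

/-- matrix of homogeneous coordinates -/
def homM (w : Fin (n + 1) → Fin n → ℝ) : Matrix (Fin (n + 1)) (Fin (n + 1)) ℝ :=
  Matrix.of fun i j => hom (w j) i

theorem det_homM (w : Fin (n + 1) → Fin n → ℝ) : (homM w).det = (edge w).det := by
  rw [← det_transpose (homM w), ← det_transpose (edge w)]
  let B : Matrix (Fin (n + 1)) (Fin (n + 1)) ℝ :=
    Matrix.of (Fin.cons (hom (w 0)) (fun i => hom (w i.succ) - hom (w 0)))
  have h1 : (homM w)ᵀ.det = B.det := by
    refine det_eq_of_forall_row_eq_smul_add_const (Fin.cons 0 (fun _ => 1)) 0 rfl ?_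
    intro i j
    refine Fin.cases ?_ (fun k => ?_) i
    · simp [B, homM]
    · simp [B, homM]
  rw [h1, det_succ_column_zero, Fin.sum_univ_succ]
  have h2 : ∀ i : Fin n, (-1 : ℝ) ^ (i.succ : ℕ) * B i.succ 0 *
      (B.submatrix i.succ.succAbove Fin.succ).det = 0 := by
    intro i
    simp [B, hom]
  rw [Finset.sum_eq_zero fun i _ => h2 i, add_zero]
  have h3 : B 0 0 = 1 := by simp [B, hom]
  rw [h3]
  simp only [Fin.val_zero, pow_zero, one_mul]
  congr 1

/-- signed maximal minors of the homogeneous coordinate matrix of `n + 2` points -/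
noncomputable def minor (v : Fin (n + 2) → Fin n → ℝ) (k : Fin (n + 2)) : ℝ :=
  (-1) ^ (k : ℕ) * (homM fun j => v (k.succAbove j)).det

theorem abs_minor (v : Fin (n + 2) → Fin n → ℝ) (k : Fin (n + 2)) :
    |minor v k| = |(edge fun j => v (k.succAbove j)).det| := by
  rw [minor, abs_mul, abs_pow, abs_neg, abs_one, one_pow, one_mul, det_homM]

/-- the matrix with first row `u` and the homogeneous coordinates below -/
def Q (v : Fin (n + 2) → Fin n → ℝ) (u : Fin (n + 2) → ℝ) : Matrix (Fin (n + 2)) (Fin (n + 2)) ℝ :=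
  Matrix.of (Fin.cons u fun i k => hom (v k) i)

theorem det_Q (v : Fin (n + 2) → Fin n → ℝ) (u : Fin (n + 2) → ℝ) :
    (Q v u).det = ∑ k, u k * minor v k := by
  rw [det_succ_row_zero]
  refine Finset.sum_congr rfl fun k _ => ?_
  have h1 : Q v u 0 k = u k := rfl
  have h2 : (Q v u).submatrix Fin.succ k.succAbove = homM fun j => v (k.succAbove j) := by
    ext i j
    simp [Q, homM]
  rw [h1, h2, minor]
  ring

theorem hom_minor (v : Fin (n + 2) → Fin n → ℝ) (i : Fin (n + 1)) :
    ∑ k, hom (v k) i * minor v k = 0 := by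
  rw [← det_Q]
  refine det_zero_of_row_eq (i := 0) (j := i.succ) (Fin.succ_ne_zero i).symm ?_
  ext k
  simp [Q]

theorem sum_minor (v : Fin (n + 2) → Fin n → ℝ) : ∑ k, minor v k = 0 := by
  have := hom_minor v 0
  simpa [hom] using this

theorem sum_minor_mul (v : Fin (n + 2) → Fin n → ℝ) (a : Fin n) :
    ∑ k, minor v k * v k a = 0 := by
  have := hom_minor v a.succ
  simp only [hom, Fin.cons_succ] at this
  rw [← this]
  exact Finset.sum_congr rfl fun k _ => mul_comm _ _

/-- the affine dependences form a line -/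
theorem ker_minor {v : Fin (n + 2) → Fin n → ℝ} {k : Fin (n + 2)} (hk : minor v k ≠ 0)
    {c : Fin (n + 2) → ℝ} (h1 : ∑ k, c k = 0) (h2 : ∀ a, ∑ k, c k * v k a = 0) :
    ∀ j, c j = c k / minor v k * minor v j := by
  set t := c k / minor v k with ht
  set d : Fin (n + 2) → ℝ := fun j => c j - t * minor v j with hd
  have hdk : d k = 0 := by
    simp only [hd, ht]
    rw [div_mul_cancel₀ _ hk, sub_self]
  have hd1 : ∀ i : Fin (n + 1), ∑ j, hom (v j) i * d j = 0 := by
    intro i
    have e : ∀ j, hom (v j) i * d j = hom (v j) i * c j - t * (hom (v j) i * minor v j) := by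
      intro j; simp only [hd]; ring
    simp_rw [e]
    rw [Finset.sum_sub_distrib, ← Finset.mul_sum, hom_minor, mul_zero, sub_zero]
    refine Fin.cases ?_ (fun a => ?_) i
    · simpa [hom] using h1
    · simp only [hom, Fin.cons_succ]
      rw [← h2 a]
      exact Finset.sum_congr rfl fun k _ => mul_comm _ _
  have hd2 : (homM fun j => v (k.succAbove j)) *ᵥ (fun j => d (k.succAbove j)) = 0 := by
    ext i
    have := hd1 i
    rw [Fin.sum_univ_succAbove _ k, hdk, mul_zero, zero_add] at this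
    simpa [mulVec, dotProduct, homM] using this
  have hdet : (homM fun j => v (k.succAbove j)).det ≠ 0 := by
    intro h
    apply hk
    rw [minor, h, mul_zero]
  have hd3 := Matrix.eq_zero_of_mulVec_eq_zero hdet hd2
  intro j
  have : d j = 0 := by
    rcases eq_or_ne j k with rfl | hj
    · exact hdk
    · obtain ⟨z, rfl⟩ := Fin.exists_succAbove_eq hj
      exact congrFun hd3 z
  simp only [hd] at this
  linarith

end Vale.Agent.P254.FV
end

section

/-!
Decomposition of the hull of `n + 2` points into simplices, and its moments.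
-/

open MeasureTheory Set Matrix

namespace Vale.Agent.P254.FV

variable {n : ℕ}

/-- the hull of all points but `v k` -/
def face (v : Fin (n + 2) → Fin n → ℝ) (k : Fin (n + 2)) : Set (Fin n → ℝ) :=
  convexHull ℝ (range fun j : Fin (n + 1) => v (k.succAbove j))

theorem mem_face {v : Fin (n + 2) → Fin n → ℝ} {k : Fin (n + 2)} {x : Fin n → ℝ} :
    x ∈ face v k ↔ ∃ w : Fin (n + 2) → ℝ, (∀ i, 0 ≤ w i) ∧ w k = 0 ∧ ∑ i, w i = 1 ∧
      ∀ a, ∑ i, w i * v i a = x a := by
  rw [face, mem_hull]
  constructor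
  · rintro ⟨w, h1, h2, h3⟩
    refine ⟨k.insertNth (0 : ℝ) w, fun i => ?_, by simp, ?_, fun a => ?_⟩
    · rcases eq_or_ne i k with rfl | hi
      · simp
      · obtain ⟨z, rfl⟩ := Fin.exists_succAbove_eq hi
        simpa using h1 z
    · rw [Fin.sum_univ_succAbove _ k]
      simpa using h2
    · rw [Fin.sum_univ_succAbove _ k]
      simpa using h3 a
  · rintro ⟨w, h1, h2, h3, h4⟩
    refine ⟨fun j => w (k.succAbove j), fun i => h1 _, ?_, fun a => ?_⟩
    · rw [Fin.sum_univ_succAbove _ k, h2, zero_add] at h3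
      exact h3
    · have := h4 a
      rw [Fin.sum_univ_succAbove _ k, h2, zero_mul, zero_add] at this
      exact this

theorem face_subset (v : Fin (n + 2) → Fin n → ℝ) (k : Fin (n + 2)) :
    face v k ⊆ convexHull ℝ (range v) := by
  refine convexHull_mono ?_
  rintro _ ⟨j, rfl⟩
  exact mem_range_self _

theorem isCompact_face (v : Fin (n + 2) → Fin n → ℝ) (k : Fin (n + 2)) : IsCompact (face v k) :=
  (Set.finite_range _).isCompact_convexHull ℝ

theorem hull_eq_iUnion' {v : Fin (n + 2) → Fin n → ℝ} {c : Fin (n + 2) → ℝ} (hc : ∑ k, c k = 0)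
    (hcv : ∀ a, ∑ k, c k * v k a = 0) (h : ∃ k, 0 < c k) :
    convexHull ℝ (range v) = ⋃ k : {k // 0 < c k}, face v k := by
  apply Subset.antisymm
  · intro x hx
    obtain ⟨w, h1, h2, h3⟩ := mem_hull.1 hx
    obtain ⟨k₁, hk₁⟩ := h
    obtain ⟨k, hk, hmin⟩ := Finset.exists_min_image (Finset.univ.filter fun k => 0 < c k)
      (fun k => w k / c k) ⟨k₁, by simpa using hk₁⟩
    have hk : 0 < c k := by simpa using hk
    refine mem_iUnion.2 ⟨⟨k, hk⟩, mem_face.2 ⟨fun i => w i - w k / c k * c i,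
      fun i => ?_, ?_, ?_, fun a => ?_⟩⟩
    · have ht : 0 ≤ w k / c k := div_nonneg (h1 k) hk.le
      rcases lt_or_ge 0 (c i) with hi | hi
      · have := hmin i (by simpa using hi)
        rw [le_div_iff₀ hi] at this
        linarith
      · have := mul_nonneg ht (neg_nonneg.2 hi)
        have := h1 i
        linarith
    · simp only
      rw [div_mul_cancel₀ _ hk.ne', sub_self]
    · rw [Finset.sum_sub_distrib, ← Finset.mul_sum, hc, mul_zero, sub_zero, h2]
    · have e : ∀ i, (w i - w k / c k * c i) * v i a =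
          w i * v i a - w k / c k * (c i * v i a) := fun i => by ring
      simp_rw [e]
      rw [Finset.sum_sub_distrib, ← Finset.mul_sum, hcv, mul_zero, sub_zero, h3]
  · exact iUnion_subset fun k => face_subset v k

theorem hull_eq_iUnion {v : Fin (n + 2) → Fin n → ℝ} (h : ∃ k, 0 < minor v k) :
    convexHull ℝ (range v) = ⋃ k : {k // 0 < minor v k}, face v k :=
  hull_eq_iUnion' (sum_minor v) (sum_minor_mul v) h

theorem face_inter_null (hn : 1 ≤ n) {v : Fin (n + 2) → Fin n → ℝ} {j k : Fin (n + 2)}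
    (hjk : j ≠ k) (hj : 0 < minor v j) (hk : 0 < minor v k) :
    volume (face v j ∩ face v k) = 0 := by
  classical
  obtain ⟨m, rfl⟩ : ∃ m, n = m + 1 := ⟨n - 1, by omega⟩
  set s : Finset (Fin (m + 1 + 2)) := Finset.univ \ {j, k} with hs
  have hcard : s.card = m + 1 := by
    rw [hs, Finset.card_univ_sdiff, Finset.card_pair hjk, Fintype.card_fin]
    omega
  have hsub : face v j ∩ face v k ⊆ affineSpan ℝ (s.image v : Set (Fin (m + 1) → ℝ)) := by
    rintro x ⟨hxj, hxk⟩
    obtain ⟨l, hl1, hl2, hl3, hl4⟩ := mem_face.1 hxj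
    obtain ⟨u, hu1, hu2, hu3, hu4⟩ := mem_face.1 hxk
    have hker := ker_minor (c := fun i => l i - u i) hk.ne'
      (by rw [Finset.sum_sub_distrib, hl3, hu3, sub_self])
      (by
        intro a
        simp_rw [sub_mul]
        rw [Finset.sum_sub_distrib, hl4, hu4, sub_self])
    simp only [hu2, sub_zero] at hker
    have h1 := hker j
    rw [hl2] at h1
    have h2 : 0 ≤ l k / minor v k * minor v j := mul_nonneg (div_nonneg (hl1 k) hk.le) hj.le
    have h3 : l k / minor v k * minor v j = 0 := by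
      have := hu1 j
      linarith
    have h4 : l k = 0 := by
      rcases mul_eq_zero.1 h3 with h | h
      · rcases div_eq_zero_iff.1 h with h | h
        · exact h
        · exact absurd h hk.ne'
      · exact absurd h hj.ne'
    have hl0 : ∀ i, i ∉ s → l i = 0 := by
      intro i hi
      have : i = j ∨ i = k := or_iff_not_imp_left.2 (by simpa [hs] using hi)
      rcases this with rfl | rfl
      · exact hl2
      · exact h4
    have hx : x ∈ convexHull ℝ (s.image v : Set (Fin (m + 1) → ℝ)) := by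
      have h := (convex_convexHull ℝ (s.image v : Set (Fin (m + 1) → ℝ))).sum_mem (t := s) (w := l)
        (z := v) (fun i _ => hl1 i)
        (by
          rw [← hl3]
          exact Finset.sum_subset (Finset.subset_univ _) fun i _ hi => hl0 i hi)
        (fun i hi => subset_convexHull ℝ _ (by
          rw [Finset.coe_image]
          exact mem_image_of_mem v hi))
      have e : ∑ i ∈ s, l i • v i = x := by
        rw [Finset.sum_subset (Finset.subset_univ _) fun i _ hi => by rw [hl0 i hi, zero_smul]]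
        ext a
        rw [Finset.sum_apply, ← hl4 a]
        rfl
      rwa [e] at h
    exact convexHull_subset_affineSpan _ hx
  refine measure_mono_null hsub (Measure.addHaar_affineSubspace volume _ ?_)
  intro htop
  have h1 := AffineSubspace.vectorSpan_eq_top_of_affineSpan_eq_top ℝ (Fin (m + 1) → ℝ)
    (Fin (m + 1) → ℝ) htop
  have h2 := finrank_vectorSpan_image_finset_le ℝ v s hcard
  rw [h1, finrank_top, Module.finrank_fin_fun] at h2
  omega

theorem integral_hull (hn : 1 ≤ n) {v : Fin (n + 2) → Fin n → ℝ} (h : ∃ k, 0 < minor v k)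
    {f : (Fin n → ℝ) → ℝ} (hf : Continuous f) {g : Fin (n + 2) → ℝ}
    (hg : ∀ k, 0 < minor v k → ∫ x in face v k, f x = minor v k * g k) :
    ∫ x in convexHull ℝ (range v), f x = ∑ k, max (minor v k) 0 * g k := by
  have h1 : IntegrableOn f (⋃ k : {k // 0 < minor v k}, face v k) := by
    rw [← hull_eq_iUnion h]
    exact intOn ((Set.finite_range _).isCompact_convexHull ℝ) hf
  rw [hull_eq_iUnion h, integral_iUnion_ae (s := fun k : {k // 0 < minor v k} => face v k)
    (fun k => (isCompact_face v k).measurableSet.nullMeasurableSet)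
    (fun j k hjk => face_inter_null hn (fun hh => hjk (Subtype.ext hh)) j.2 k.2) h1, tsum_fintype]
  rw [← Finset.sum_filter_add_sum_filter_not Finset.univ (fun k => 0 < minor v k)
    (fun k => max (minor v k) 0 * g k)]
  have h2 : ∑ k ∈ Finset.univ.filter (fun k => ¬ 0 < minor v k), max (minor v k) 0 * g k = 0 := by
    refine Finset.sum_eq_zero fun k hk => ?_
    have : ¬ 0 < minor v k := by simpa using hk
    rw [max_eq_right (not_lt.1 this), zero_mul]
  rw [h2, add_zero]
  rw [Finset.sum_subtype (Finset.univ.filter fun k => 0 < minor v k) (p := fun k => 0 < minor v k)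
    (by simp)]
  refine Finset.sum_congr rfl fun k _ => ?_
  rw [hg k.1 k.2, max_eq_left k.2.le]

end Vale.Agent.P254.FV
end

section

/-!
Moments of the hull of `n + 2` points.
-/

open MeasureTheory Set Matrix

namespace Vale.Agent.P254.FV

variable {n : ℕ}

theorem edge_ne {v : Fin (n + 2) → Fin n → ℝ} {k : Fin (n + 2)} (hk : 0 < minor v k) :
    (edge fun j => v (k.succAbove j)).det ≠ 0 := by
  rw [← abs_pos, ← abs_minor]
  exact abs_pos.2 hk.ne'

theorem abs_edge {v : Fin (n + 2) → Fin n → ℝ} {k : Fin (n + 2)} (hk : 0 < minor v k) :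
    |(edge fun j => v (k.succAbove j)).det| = minor v k := by
  rw [← abs_minor, abs_of_pos hk]

theorem vol_hull (hn : 1 ≤ n) {v : Fin (n + 2) → Fin n → ℝ} (h : ∃ k, 0 < minor v k)
    {P : ℝ} (hP : P = ∑ k, max (minor v k) 0) :
    (volume (convexHull ℝ (range v))).toReal = P / (n.factorial : ℝ) := by
  have h1 := integral_hull hn h (f := fun _ => 1) continuous_const
    (g := fun _ => 1 / (n.factorial : ℝ)) (by
      intro k hk
      have := vol_simp (edge_ne hk)
      rw [abs_edge hk] at this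
      rw [setIntegral_const, smul_eq_mul, mul_one, Measure.real, face, this]
      ring)
  rw [setIntegral_const, smul_eq_mul, mul_one, Measure.real, ← Finset.sum_mul, ← hP] at h1
  rw [h1]
  ring

theorem int_hull (hn : 1 ≤ n) {v : Fin (n + 2) → Fin n → ℝ} (h : ∃ k, 0 < minor v k)
    {P : ℝ} (hP : P = ∑ k, max (minor v k) 0) (hP0 : 0 < P) (a : Fin n) :
    ∫ x in convexHull ℝ (range v), x a = P / ((n + 1).factorial : ℝ) *
      (∑ k, v k a - ∑ k, max (minor v k) 0 / P * v k a) := by
  have h1 := integral_hull hn h (f := fun x => x a) (by fun_prop)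
    (g := fun k => 1 / ((n + 1).factorial : ℝ) * (∑ j, v j a - v k a)) (by
      intro k hk
      have := int_simp (edge_ne hk) a
      rw [abs_edge hk] at this
      rw [face, this, Fin.sum_univ_succAbove _ k]
      ring)
  rw [h1]
  have e : ∀ k, max (minor v k) 0 * (1 / ((n + 1).factorial : ℝ) * (∑ j, v j a - v k a)) =
      1 / ((n + 1).factorial : ℝ) * (max (minor v k) 0 * ∑ j, v j a - max (minor v k) 0 * v k a) :=
    fun k => by ring
  simp_rw [e]
  rw [← Finset.mul_sum, Finset.sum_sub_distrib, ← Finset.sum_mul, ← hP]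
  have e2 : ∑ k, max (minor v k) 0 / P * v k a = (∑ k, max (minor v k) 0 * v k a) / P := by
    rw [Finset.sum_div]
    exact Finset.sum_congr rfl fun k _ => by ring
  rw [e2]
  field_simp

theorem int2_hull (hn : 1 ≤ n) {v : Fin (n + 2) → Fin n → ℝ} (h : ∃ k, 0 < minor v k)
    {P : ℝ} (hP : P = ∑ k, max (minor v k) 0) (hP0 : 0 < P) (a b : Fin n) :
    ∫ x in convexHull ℝ (range v), x a * x b = P / ((n + 2).factorial : ℝ) *
      (∑ k, v k a * v k b + (∑ k, v k a) * (∑ k, v k b)
        - (∑ k, v k a) * (∑ k, max (minor v k) 0 / P * v k b)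
        - (∑ k, max (minor v k) 0 / P * v k a) * (∑ k, v k b)) := by
  have h1 := integral_hull hn h (f := fun x => x a * x b) (by fun_prop)
    (g := fun k => 1 / ((n + 2).factorial : ℝ) *
      ((∑ j, v j a * v j b + (∑ j, v j a) * (∑ j, v j b)) - (∑ j, v j a) * v k b
        - (∑ j, v j b) * v k a)) (by
      intro k hk
      have := int_simp2 (edge_ne hk) a b
      rw [abs_edge hk] at this
      rw [face, this, Fin.sum_univ_succAbove (fun j => v j a * v j b) k,
        Fin.sum_univ_succAbove (fun j => v j a) k, Fin.sum_univ_succAbove (fun j => v j b) k]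
      ring)
  rw [h1]
  have e : ∀ k, max (minor v k) 0 * (1 / ((n + 2).factorial : ℝ) *
      ((∑ j, v j a * v j b + (∑ j, v j a) * (∑ j, v j b)) - (∑ j, v j a) * v k b
        - (∑ j, v j b) * v k a)) =
      1 / ((n + 2).factorial : ℝ) * (max (minor v k) 0 *
        (∑ j, v j a * v j b + (∑ j, v j a) * (∑ j, v j b))
        - (∑ j, v j a) * (max (minor v k) 0 * v k b)
        - (∑ j, v j b) * (max (minor v k) 0 * v k a)) :=
    fun k => by ring
  simp_rw [e]
  rw [← Finset.mul_sum, Finset.sum_sub_distrib, Finset.sum_sub_distrib, ← Finset.sum_mul, ← hP,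
    ← Finset.mul_sum, ← Finset.mul_sum]
  have e2 : ∀ a, ∑ k, max (minor v k) 0 / P * v k a = (∑ k, max (minor v k) 0 * v k a) / P := by
    intro a
    rw [Finset.sum_div]
    exact Finset.sum_congr rfl fun k _ => by ring
  rw [e2, e2]
  field_simp

theorem cov_hull (hn : 1 ≤ n) {v : Fin (n + 2) → Fin n → ℝ} (h : ∃ k, 0 < minor v k)
    {P : ℝ} (hP : P = ∑ k, max (minor v k) 0) (hP0 : 0 < P) :
    covMatrix (convexHull ℝ (range v)) = (1 / (((n : ℝ) + 1) * ((n : ℝ) + 2))) •
      Matrix.of fun a b => ∑ k, v k a * v k b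
        - (∑ k, max (minor v k) 0 / P * v k a) * (∑ k, max (minor v k) 0 / P * v k b)
        - (∑ k, v k a - ∑ k, max (minor v k) 0 / P * v k a) *
          (∑ k, v k b - ∑ k, max (minor v k) 0 / P * v k b) / ((n : ℝ) + 1) := by
  have hc : IsCompact (convexHull ℝ (range v)) := (Set.finite_range _).isCompact_convexHull ℝ
  have hV : (volume (convexHull ℝ (range v))).toReal ≠ 0 := by
    rw [vol_hull hn h hP]
    positivity
  have hcen : ∀ a, centroid (convexHull ℝ (range v)) a =
      (∑ k, v k a - ∑ k, max (minor v k) 0 / P * v k a) / ((n : ℝ) + 1) := by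
    intro a
    rw [centroid, vol_hull hn h hP, int_hull hn h hP hP0, Nat.factorial_succ]
    push_cast
    field_simp
  ext a b
  rw [cov_eq hc hV, hcen, hcen, vol_hull hn h hP, int2_hull hn h hP hP0, Matrix.smul_apply,
    Matrix.of_apply, Nat.factorial_succ, Nat.factorial_succ, smul_eq_mul]
  push_cast
  generalize ∑ k, v k a * v k b = V
  generalize ∑ k, max (minor v k) 0 / P * v k a = ra
  generalize ∑ k, max (minor v k) 0 / P * v k b = rb
  generalize ∑ k, v k a = sa
  generalize ∑ k, v k b = sb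
  have h1 : ((n : ℝ) + 1 + 1) ≠ 0 := by positivity
  have h2 : ((n : ℝ) + 2) ≠ 0 := by positivity
  have h3 : (n.factorial : ℝ) ≠ 0 := by positivity
  field_simp
  ring

end Vale.Agent.P254.FV
end

section

/-!
The determinant of the covariance matrix.
-/

open Set Matrix

namespace Vale.Agent.P254.FV

variable {n : ℕ}

/-- bordered matrix -/
def bord {N : ℕ} (x : ℝ) (y z : Fin N → ℝ) (G : Matrix (Fin N) (Fin N) ℝ) :
    Matrix (Fin (N + 1)) (Fin (N + 1)) ℝ :=
  Matrix.of (Fin.cons (Fin.cons x y : Fin (N + 1) → ℝ)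
    (fun i => (Fin.cons (z i) (G i) : Fin (N + 1) → ℝ)))

theorem det_bord_zero {N : ℕ} (x : ℝ) (y : Fin N → ℝ) (G : Matrix (Fin N) (Fin N) ℝ) :
    (bord x y 0 G).det = x * G.det := by
  rw [det_succ_column_zero, Fin.sum_univ_succ]
  have h2 : ∀ i : Fin N, (-1 : ℝ) ^ (i.succ : ℕ) * bord x y 0 G i.succ 0 *
      ((bord x y 0 G).submatrix i.succ.succAbove Fin.succ).det = 0 := by
    intro i
    simp [bord]
  rw [Finset.sum_eq_zero fun i _ => h2 i, add_zero]
  have h3 : bord x y 0 G 0 0 = x := by simp [bord]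
  have h4 : (bord x y 0 G).submatrix (Fin.succAbove 0) Fin.succ = G := by
    ext i j
    simp [bord]
  rw [h3, h4]
  simp

/-- Schur complement -/
theorem det_bord {N : ℕ} {x : ℝ} (hx : x ≠ 0) (y z : Fin N → ℝ) (G : Matrix (Fin N) (Fin N) ℝ) :
    (bord x y z G).det = x * (Matrix.of fun i j => G i j - z i * y j / x).det := by
  rw [← det_bord_zero x y]
  refine det_eq_of_forall_row_eq_smul_add_const (Fin.cons 0 (fun i => z i / x)) 0 rfl ?_
  intro i j
  refine Fin.cases ?_ (fun k => ?_) i
  · simp [bord]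
  · refine Fin.cases ?_ (fun l => ?_) j
    · simp [bord]
      field_simp
    · simp [bord]
      ring

theorem det_bord_add {N : ℕ} (x x' : ℝ) (y z : Fin N → ℝ) (G : Matrix (Fin N) (Fin N) ℝ) :
    (bord (x + x') y z G).det = (bord x y z G).det + x' * G.det := by
  rw [det_succ_row_zero, det_succ_row_zero (bord x y z G), Fin.sum_univ_succ, Fin.sum_univ_succ]
  have h1 : ∀ i : Fin N, (-1 : ℝ) ^ (i.succ : ℕ) * bord (x + x') y z G 0 i.succ *
      ((bord (x + x') y z G).submatrix Fin.succ i.succ.succAbove).det =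
      (-1 : ℝ) ^ (i.succ : ℕ) * bord x y z G 0 i.succ *
      ((bord x y z G).submatrix Fin.succ i.succ.succAbove).det := by
    intro i
    rfl
  simp_rw [h1]
  have h4 : (bord (x + x') y z G).submatrix Fin.succ (Fin.succAbove 0) = G := by
    ext i j
    simp [bord]
  have h5 : (bord x y z G).submatrix Fin.succ (Fin.succAbove 0) = G := by
    ext i j
    simp [bord]
  rw [h4, h5]
  simp [bord]
  ring

/-- `M Mᵀ` -/
noncomputable def gram (v : Fin (n + 2) → Fin n → ℝ) : Matrix (Fin (n + 1)) (Fin (n + 1)) ℝ :=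
  Matrix.of fun i j => ∑ k, hom (v k) i * hom (v k) j

theorem bord_gram (v : Fin (n + 2) → Fin n → ℝ) (u : Fin (n + 2) → ℝ) :
    bord (∑ k, u k * u k) (fun j => ∑ k, u k * hom (v k) j) (fun j => ∑ k, u k * hom (v k) j)
      (gram v) = Q v u * (Q v u)ᵀ := by
  ext i j
  rw [Matrix.mul_apply]
  refine Fin.cases ?_ (fun k => ?_) i
  · refine Fin.cases ?_ (fun l => ?_) j
    · simp [bord, Q]
    · simp [bord, Q]
  · refine Fin.cases ?_ (fun l => ?_) j
    · simp [bord, Q, mul_comm]
    · simp [bord, Q, gram]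

theorem det_bord_gram (v : Fin (n + 2) → Fin n → ℝ) (u : Fin (n + 2) → ℝ) :
    (bord (∑ k, u k * u k) (fun j => ∑ k, u k * hom (v k) j) (fun j => ∑ k, u k * hom (v k) j)
      (gram v)).det = (∑ k, u k * minor v k) ^ 2 := by
  rw [bord_gram, det_mul, det_transpose, det_Q, sq]

theorem det_gram {v : Fin (n + 2) → Fin n → ℝ} (h : ∃ k, minor v k ≠ 0) :
    (gram v).det = ∑ k, minor v k * minor v k := by
  have h0 : 0 < ∑ k, minor v k * minor v k := by
    obtain ⟨k, hk⟩ := h
    exact Finset.sum_pos' (fun i _ => mul_self_nonneg _) ⟨k, Finset.mem_univ k, mul_self_pos.2 hk⟩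
  have h1 := det_bord_gram v (minor v)
  have h2 : (fun j => ∑ k, minor v k * hom (v k) j) = 0 := by
    ext j
    rw [Pi.zero_apply, ← hom_minor v j]
    exact Finset.sum_congr rfl fun k _ => mul_comm _ _
  rw [h2, det_bord_zero, sq] at h1
  exact mul_left_cancel₀ h0.ne' h1

theorem det_gram_sub {v : Fin (n + 2) → Fin n → ℝ} (h : ∃ k, minor v k ≠ 0)
    (u : Fin (n + 2) → ℝ) :
    (Matrix.of fun i j => gram v i j - (∑ k, u k * hom (v k) i) * (∑ k, u k * hom (v k) j)).det =
      (∑ k, u k * minor v k) ^ 2 + (1 - ∑ k, u k * u k) * ∑ k, minor v k * minor v k := by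
  have h1 := det_bord one_ne_zero (fun j => ∑ k, u k * hom (v k) j)
    (fun j => ∑ k, u k * hom (v k) j) (gram v)
  have h2 := det_bord_add (∑ k, u k * u k) (1 - ∑ k, u k * u k) (fun j => ∑ k, u k * hom (v k) j)
    (fun j => ∑ k, u k * hom (v k) j) (gram v)
  rw [add_sub_cancel, h1, det_bord_gram, det_gram h, one_mul] at h2
  simp only [div_one] at h2
  exact h2

theorem det_Z (v : Fin (n + 2) → Fin n → ℝ) {P : ℝ} (hP : P = ∑ k, max (minor v k) 0)
    (hP0 : 0 < P) :
    (Matrix.of fun a b => ∑ k, v k a * v k b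
        - (∑ k, max (minor v k) 0 / P * v k a) * (∑ k, max (minor v k) 0 / P * v k b)
        - (∑ k, v k a - ∑ k, max (minor v k) 0 / P * v k a) *
          (∑ k, v k b - ∑ k, max (minor v k) 0 / P * v k b) / ((n : ℝ) + 1)).det =
      P ^ 2 * (1 - (1 - ∑ k, (max (minor v k) 0 / P) ^ 2) *
        (1 - ∑ k, (max (-minor v k) 0 / P) ^ 2)) / ((n : ℝ) + 1) := by
  have hne : ∃ k, minor v k ≠ 0 := by
    by_contra hc
    push Not at hc
    rw [hP] at hP0
    simp [hc] at hP0
  have hn1 : ((n : ℝ) + 1) ≠ 0 := by positivity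
  set u : Fin (n + 2) → ℝ := fun k => max (minor v k) 0 / P with hu
  have hu1 : ∑ k, u k = 1 := by
    simp only [hu]
    rw [← Finset.sum_div, ← hP, div_self hP0.ne']
  have h1 := det_gram_sub hne u
  have h2 : (Matrix.of fun i j => gram v i j - (∑ k, u k * hom (v k) i) *
      (∑ k, u k * hom (v k) j)) = bord ((n : ℝ) + 1) (fun a => ∑ k, v k a - ∑ k, u k * v k a)
        (fun a => ∑ k, v k a - ∑ k, u k * v k a)
        (Matrix.of fun a b => ∑ k, v k a * v k b - (∑ k, u k * v k a) * (∑ k, u k * v k b)) := by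
    ext i j
    refine Fin.cases ?_ (fun k => ?_) i
    · refine Fin.cases ?_ (fun l => ?_) j
      · simp [bord, gram, hom, hu1]
        ring
      · simp [bord, gram, hom, hu1]
    · refine Fin.cases ?_ (fun l => ?_) j
      · simp [bord, gram, hom, hu1]
      · simp [bord, gram, hom]
  rw [h2, det_bord hn1] at h1
  have h3 : (Matrix.of fun a b => ∑ k, v k a * v k b
        - (∑ k, u k * v k a) * (∑ k, u k * v k b)
        - (∑ k, v k a - ∑ k, u k * v k a) *
          (∑ k, v k b - ∑ k, u k * v k b) / ((n : ℝ) + 1)).det =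
      ((∑ k, u k * minor v k) ^ 2 + (1 - ∑ k, u k * u k) * ∑ k, minor v k * minor v k) /
        ((n : ℝ) + 1) := by
    rw [← h1, mul_div_cancel_left₀ _ hn1]
    rfl
  rw [h3]
  congr 1
  have e1 : ∑ k, u k * minor v k = P * ∑ k, u k ^ 2 := by
    rw [Finset.mul_sum]
    refine Finset.sum_congr rfl fun k _ => ?_
    simp only [hu]
    rcases le_total 0 (minor v k) with h | h
    · rw [max_eq_left h]
      field_simp
    · rw [max_eq_right h]
      simp
  have e2 : ∑ k, minor v k * minor v k =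
      P ^ 2 * (∑ k, u k ^ 2 + ∑ k, (max (-minor v k) 0 / P) ^ 2) := by
    rw [← Finset.sum_add_distrib, Finset.mul_sum]
    refine Finset.sum_congr rfl fun k _ => ?_
    simp only [hu]
    rcases le_total 0 (minor v k) with h | h
    · rw [max_eq_left h, max_eq_right (by linarith)]
      field_simp
      ring
    · rw [max_eq_right h, max_eq_left (by linarith)]
      field_simp
      ring
  have e3 : ∑ k, u k * u k = ∑ k, u k ^ 2 := Finset.sum_congr rfl fun k _ => (sq _).symm
  rw [e1, e2, e3]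
  ring

end Vale.Agent.P254.FV
end

section

/-!
The isotropic constant of the hull of `n + 2` points.
-/

open MeasureTheory Set Matrix

namespace Vale.Agent.P254.FV

variable {n : ℕ}

/-- `∑ (c⁺ / P)²` with `P = ∑ c⁺`. -/
noncomputable def sqp {N : ℕ} (c : Fin N → ℝ) : ℝ :=
  ∑ k, (max (c k) 0 / ∑ j, max (c j) 0) ^ 2

/-- The value for a simplex. -/
noncomputable def simpC (n : ℕ) : ℝ :=
  (n.factorial : ℝ) ^ 2 / (((n : ℝ) + 1) * (((n : ℝ) + 1) * ((n : ℝ) + 2)) ^ n)

theorem simpC_pos (n : ℕ) : 0 < simpC n := by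
  unfold simpC
  positivity

section sums

variable {N : ℕ} {c : Fin N → ℝ}

theorem posSum_pos (h : ∃ k, 0 < c k) : 0 < ∑ j, max (c j) 0 := by
  obtain ⟨k, hk⟩ := h
  exact Finset.sum_pos' (fun i _ => le_max_right _ _) ⟨k, Finset.mem_univ k, lt_max_of_lt_left hk⟩

theorem exists_pos_of_sum (h0 : ∑ k, c k = 0) (h : ∃ k, c k ≠ 0) : ∃ k, 0 < c k := by
  by_contra hc
  push Not at hc
  obtain ⟨k, hk⟩ := h
  have := (Finset.sum_eq_zero_iff_of_nonpos fun i _ => hc i).1 h0 k (Finset.mem_univ k)
  exact hk this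

theorem posSum_neg (h0 : ∑ k, c k = 0) : ∑ j, max (-c j) 0 = ∑ j, max (c j) 0 := by
  have : ∑ j, max (c j) 0 - ∑ j, max (-c j) 0 = ∑ k, c k := by
    rw [← Finset.sum_sub_distrib]
    refine Finset.sum_congr rfl fun k _ => ?_
    rcases le_total 0 (c k) with h | h
    · rw [max_eq_left h, max_eq_right (by linarith)]
      ring
    · rw [max_eq_right h, max_eq_left (by linarith)]
      ring
  linarith

theorem sqp_smul {t : ℝ} (ht : 0 < t) (c : Fin N → ℝ) : sqp (fun k => t * c k) = sqp c := by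
  unfold sqp
  have e : ∀ k, max (t * c k) 0 = t * max (c k) 0 := fun k => by
    rw [mul_max_of_nonneg _ _ ht.le, mul_zero]
  simp_rw [e]
  rw [← Finset.mul_sum]
  refine Finset.sum_congr rfl fun k _ => ?_
  rw [mul_div_mul_left _ _ ht.ne']

theorem wt_nonneg (k : Fin N) : 0 ≤ max (c k) 0 / ∑ j, max (c j) 0 :=
  div_nonneg (le_max_right _ _) (Finset.sum_nonneg fun _ _ => le_max_right _ _)

theorem wt_sum (h : ∃ k, 0 < c k) : ∑ k, max (c k) 0 / ∑ j, max (c j) 0 = 1 := by
  rw [← Finset.sum_div, div_self (posSum_pos h).ne']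

theorem wt_le_one (h : ∃ k, 0 < c k) (k : Fin N) : max (c k) 0 / ∑ j, max (c j) 0 ≤ 1 := by
  rw [← wt_sum h]
  exact Finset.single_le_sum (f := fun k => max (c k) 0 / ∑ j, max (c j) 0)
    (fun i _ => wt_nonneg i) (Finset.mem_univ k)

theorem sqp_le_one (h : ∃ k, 0 < c k) : sqp c ≤ 1 := by
  rw [← wt_sum h]
  refine Finset.sum_le_sum fun k _ => ?_
  have h1 := wt_nonneg (c := c) k
  have h2 := wt_le_one h k
  nlinarith

theorem sqp_pos (h : ∃ k, 0 < c k) : 0 < sqp c := by
  obtain ⟨k, hk⟩ := h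
  refine Finset.sum_pos' (fun i _ => sq_nonneg _) ⟨k, Finset.mem_univ k, ?_⟩
  have := posSum_pos ⟨k, hk⟩
  have : 0 < max (c k) 0 := lt_max_of_lt_left hk
  positivity

theorem sqp_eq_one (h : ∃ k, 0 < c k) (h1 : sqp c = 1) : ∃ k, 0 < c k ∧ ∀ j, j ≠ k → c j ≤ 0 := by
  obtain ⟨k, hk⟩ := h
  refine ⟨k, hk, fun j hj => ?_⟩
  by_contra hc
  push Not at hc
  rw [← wt_sum ⟨k, hk⟩] at h1
  have h2 : ∀ i ∈ (Finset.univ : Finset (Fin N)), (max (c i) 0 / ∑ j, max (c j) 0) ^ 2 ≤
      max (c i) 0 / ∑ j, max (c j) 0 := by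
    intro i _
    have h1 := wt_nonneg (c := c) i
    have h2 := wt_le_one ⟨k, hk⟩ i
    nlinarith
  have h3 := (Finset.sum_eq_sum_iff_of_le h2).1 h1
  have h4 : ∀ i, 0 < c i → max (c i) 0 / ∑ j, max (c j) 0 = 1 := by
    intro i hi
    have h5 := h3 i (Finset.mem_univ i)
    have h6 : 0 < max (c i) 0 / ∑ j, max (c j) 0 :=
      div_pos (lt_max_of_lt_left hi) (posSum_pos ⟨k, hk⟩)
    rw [sq] at h5
    exact mul_left_cancel₀ h6.ne' (by rw [h5, mul_one])
  have h7 := h4 k hk
  have h8 := h4 j hc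
  have h9 : max (c j) 0 / ∑ j, max (c j) 0 + max (c k) 0 / ∑ j, max (c j) 0 ≤ 1 := by
    rw [← wt_sum ⟨k, hk⟩, ← Finset.sum_pair (f := fun k => max (c k) 0 / ∑ j, max (c j) 0) hj]
    exact Finset.sum_le_sum_of_subset_of_nonneg (Finset.subset_univ _) fun k _ _ => wt_nonneg k
  linarith

end sums

/-- the determinant formula, for the minors -/
theorem det_formula (hn : 1 ≤ n) {v : Fin (n + 2) → Fin n → ℝ} (h : ∃ k, 0 < minor v k) :
    (covMatrix (convexHull ℝ (range v))).det / (volume (convexHull ℝ (range v))).toReal ^ 2 =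
      simpC n * (1 - (1 - sqp (minor v)) * (1 - sqp fun k => -minor v k)) := by
  have hP0 := posSum_pos h
  rw [cov_hull hn h rfl hP0, vol_hull hn h rfl, det_smul, det_Z v rfl hP0, Fintype.card_fin]
  unfold sqp
  rw [posSum_neg (sum_minor v)]
  unfold simpC
  rw [one_div, inv_pow]
  field_simp

/-- the determinant formula, for any affine dependence -/
theorem det_formula' (hn : 1 ≤ n) {v : Fin (n + 2) → Fin n → ℝ} (h : ∃ k, minor v k ≠ 0)
    {c : Fin (n + 2) → ℝ} (hc0 : ∃ k, c k ≠ 0) (hc : ∑ k, c k = 0)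
    (hcv : ∀ a, ∑ k, c k * v k a = 0) :
    (covMatrix (convexHull ℝ (range v))).det / (volume (convexHull ℝ (range v))).toReal ^ 2 =
      simpC n * (1 - (1 - sqp c) * (1 - sqp fun k => -c k)) := by
  have h' := exists_pos_of_sum (sum_minor v) h
  obtain ⟨k, hk⟩ := h'
  have hker := ker_minor hk.ne' hc hcv
  have hck : c k ≠ 0 := by
    intro h0
    obtain ⟨j, hj⟩ := hc0
    rw [hker j, h0, zero_div, zero_mul] at hj
    exact hj rfl
  rw [det_formula hn ⟨k, hk⟩]
  set t := c k / minor v k with ht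
  have ht0 : t ≠ 0 := div_ne_zero hck hk.ne'
  congr 1
  rcases lt_or_gt_of_ne ht0 with h1 | h1
  · have e1 : sqp c = sqp fun k => -minor v k := by
      rw [← sqp_smul (neg_pos.2 h1) fun k => -minor v k]
      congr 1
      ext j
      rw [hker j]
      ring
    have e2 : (sqp fun k => -c k) = sqp (minor v) := by
      rw [← sqp_smul (neg_pos.2 h1) (minor v)]
      congr 1
      ext j
      rw [hker j]
      ring
    rw [e1, e2]
    ring
  · have e1 : sqp c = sqp (minor v) := by
      rw [← sqp_smul h1 (minor v)]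
      congr 1
      ext j
      rw [hker j]
    have e2 : (sqp fun k => -c k) = sqp fun k => -minor v k := by
      rw [← sqp_smul h1 fun k => -minor v k]
      congr 1
      ext j
      rw [hker j]
      ring
    rw [e1, e2]

/-- the value of a simplex -/
theorem det_simplex (hn : 1 ≤ n) :
    (covMatrix (stdS n)).det / (volume (stdS n)).toReal ^ 2 = simpC n := by
  let v : Fin (n + 2) → Fin n → ℝ := Fin.cons (stdV n 0) (stdV n)
  have hv : convexHull ℝ (range v) = stdS n := by
    rw [stdS_eq_convexHull]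
    congr 1
    apply Subset.antisymm
    · rintro _ ⟨i, rfl⟩
      refine Fin.cases ?_ (fun k => ?_) i
      · exact ⟨0, rfl⟩
      · exact ⟨k, rfl⟩
    · rintro _ ⟨i, rfl⟩
      exact ⟨i.succ, rfl⟩
  have he : edge (fun j => v ((0 : Fin (n + 2)).succAbove j)) = 1 := by
    ext i k
    simp only [edge, Matrix.of_apply, Fin.zero_succAbove, v, Fin.cons_succ, stdV_succ, stdV_zero]
    rw [Matrix.one_apply, Pi.single_apply]
    simp
  have hm : minor v 0 ≠ 0 := by
    have := abs_minor v 0
    rw [he, det_one, abs_one] at this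
    intro h
    rw [h] at this
    simp at this
  let c : Fin (n + 2) → ℝ := Fin.cons 1 (Fin.cons (-1) fun _ => 0)
  have hc1 : ∑ k, c k = 0 := by
    rw [Fin.sum_univ_succ, Fin.sum_univ_succ]
    simp [c]
  have hc2 : ∀ a, ∑ k, c k * v k a = 0 := by
    intro a
    rw [Fin.sum_univ_succ, Fin.sum_univ_succ]
    simp [c, v]
  have hf := det_formula' hn ⟨0, hm⟩ (c := c) ⟨0, by simp [c]⟩ hc1 hc2
  have hs1 : ∑ k, max (c k) 0 = 1 := by
    rw [Fin.sum_univ_succ, Fin.sum_univ_succ]
    simp [c]
  have hq1 : sqp c = 1 := by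
    unfold sqp
    rw [hs1, Fin.sum_univ_succ, Fin.sum_univ_succ]
    simp [c]
  rw [hv, hq1] at hf
  rw [hf]
  ring

end Vale.Agent.P254.FV
end

section

/-!
If the hull of `n + 2` points has nonempty interior, then some maximal minor is nonzero.
-/

open Set Matrix

namespace Vale.Agent.P254.FV

variable {n : ℕ}

theorem exists_minor_ne {v : Fin (n + 2) → Fin n → ℝ}
    (h : (interior (convexHull ℝ (range v))).Nonempty) : ∃ k, minor v k ≠ 0 := by
  -- the rows of the homogeneous coordinate matrix are linearly independent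
  have hli : LinearIndependent ℝ (fun (i : Fin (n + 1)) (k : Fin (n + 2)) => hom (v k) i) := by
    rw [Fintype.linearIndependent_iff]
    intro y hy
    have hy1 : ∀ x ∈ convexHull ℝ (range v), y 0 + ∑ a : Fin n, y a.succ * x a = 0 := by
      intro x hx
      obtain ⟨w, h1, h2, h3⟩ := mem_hull.1 hx
      have e : y 0 + ∑ a : Fin n, y a.succ * x a =
          ∑ k, w k * (y 0 + ∑ a : Fin n, y a.succ * v k a) := by
        simp_rw [mul_add]
        rw [Finset.sum_add_distrib, ← Finset.sum_mul, h2, one_mul]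
        congr 1
        simp_rw [Finset.mul_sum]
        rw [Finset.sum_comm]
        refine Finset.sum_congr rfl fun a _ => ?_
        rw [← h3 a, Finset.mul_sum]
        exact Finset.sum_congr rfl fun k _ => by ring
      rw [e]
      refine Finset.sum_eq_zero fun k _ => ?_
      have h4 := congrFun hy k
      rw [Finset.sum_apply, Fin.sum_univ_succ] at h4
      simp only [Pi.smul_apply, smul_eq_mul, hom, Fin.cons_zero, Fin.cons_succ, mul_one,
        Pi.zero_apply] at h4
      rw [h4, mul_zero]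
    obtain ⟨x, hx⟩ := h
    obtain ⟨ε, hε, hball⟩ := Metric.isOpen_iff.1 isOpen_interior x hx
    have hx0 := hy1 x (interior_subset hx)
    have hya : ∀ a : Fin n, y a.succ = 0 := by
      intro a
      have hx' : x + Pi.single a (ε / 2) ∈ convexHull ℝ (range v) := by
        refine interior_subset (hball ?_)
        rw [Metric.mem_ball, dist_eq_norm, add_sub_cancel_left, Pi.norm_single, Real.norm_eq_abs,
          abs_of_pos (by linarith)]
        linarith
      have h5 := hy1 _ hx'
      simp only [Pi.add_apply, mul_add] at h5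
      rw [Finset.sum_add_distrib] at h5
      have h6 : ∑ b : Fin n, y b.succ * (Pi.single a (ε / 2) : Fin n → ℝ) b = y a.succ * (ε / 2) := by
        simp [Pi.single_apply]
      rw [h6] at h5
      have h7 : y a.succ * (ε / 2) = 0 := by linarith
      rcases mul_eq_zero.1 h7 with h8 | h8
      · exact h8
      · linarith
    intro i
    refine Fin.cases ?_ (fun a => ?_) i
    · simp_rw [hya] at hx0
      simpa using hx0
    · exact hya a
  -- extend by one row
  have hspan : ∃ u : Fin (n + 2) → ℝ,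
      u ∉ Submodule.span ℝ (range fun (i : Fin (n + 1)) (k : Fin (n + 2)) => hom (v k) i) := by
    by_contra hc
    push Not at hc
    have h1 : Submodule.span ℝ
        (range fun (i : Fin (n + 1)) (k : Fin (n + 2)) => hom (v k) i) = ⊤ := by
      rw [eq_top_iff]
      exact fun u _ => hc u
    have h2 := finrank_range_le_card (R := ℝ)
      (fun (i : Fin (n + 1)) (k : Fin (n + 2)) => hom (v k) i)
    rw [Set.finrank, h1, finrank_top, Module.finrank_fin_fun, Fintype.card_fin] at h2
    omega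
  obtain ⟨u, hu⟩ := hspan
  have h3 : LinearIndependent ℝ (Fin.cons u (fun (i : Fin (n + 1)) (k : Fin (n + 2)) =>
      hom (v k) i) : Fin (n + 2) → Fin (n + 2) → ℝ) :=
    linearIndependent_finCons.2 ⟨hli, hu⟩
  have h4 : (Q v u).det ≠ 0 := by
    have h5 : LinearIndependent ℝ (Q v u).row := h3
    rw [Matrix.linearIndependent_rows_iff_isUnit, Matrix.isUnit_iff_isUnit_det] at h5
    exact h5.ne_zero
  by_contra hc
  push Not at hc
  rw [det_Q] at h4
  simp [hc] at h4

end Vale.Agent.P254.FV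
end

section

/-!
The isotropic constant of a pyramid.
-/

open MeasureTheory Set Matrix
open scoped Pointwise

namespace Vale.Agent.P254.FV

variable {p : ℕ}

theorem beta0 (b : ℕ) : ∫ t in (0 : ℝ)..1, t ^ 0 * (1 - t) ^ b = 1 / ((b : ℝ) + 1) := by
  have h := intervalIntegral.integral_comp_sub_left (a := 0) (b := 1) (fun s : ℝ => s ^ b) 1
  simp only [sub_self, sub_zero] at h
  simp only [pow_zero, one_mul]
  rw [h, integral_pow]
  simp

theorem beta1 (b : ℕ) :
    ∫ t in (0 : ℝ)..1, t ^ 1 * (1 - t) ^ b = 1 / (((b : ℝ) + 1) * ((b : ℝ) + 2)) := by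
  have h := intervalIntegral.integral_comp_sub_left (a := 0) (b := 1)
    (fun s : ℝ => (1 - s) ^ 1 * s ^ b) 1
  simp only [sub_self, sub_zero, sub_sub_cancel] at h
  rw [h]
  have e : ∀ s : ℝ, (1 - s) ^ 1 * s ^ b = s ^ b - s ^ (b + 1) := fun s => by ring
  simp_rw [e]
  rw [intervalIntegral.integral_sub (Continuous.intervalIntegrable (by fun_prop) _ _)
    (Continuous.intervalIntegrable (by fun_prop) _ _), integral_pow, integral_pow]
  push_cast
  have : ((b : ℝ) + 1) ≠ 0 := by positivity
  have : ((b : ℝ) + 1 + 1) ≠ 0 := by positivity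
  have : ((b : ℝ) + 2) ≠ 0 := by positivity
  simp
  field_simp
  ring

theorem beta2 (b : ℕ) : ∫ t in (0 : ℝ)..1, t ^ 2 * (1 - t) ^ b =
    2 / (((b : ℝ) + 1) * ((b : ℝ) + 2) * ((b : ℝ) + 3)) := by
  have h := intervalIntegral.integral_comp_sub_left (a := 0) (b := 1)
    (fun s : ℝ => (1 - s) ^ 2 * s ^ b) 1
  simp only [sub_self, sub_zero, sub_sub_cancel] at h
  rw [h]
  have e : ∀ s : ℝ, (1 - s) ^ 2 * s ^ b = s ^ b - 2 * s ^ (b + 1) + s ^ (b + 2) :=
    fun s => by ring
  simp_rw [e]
  rw [intervalIntegral.integral_add (Continuous.intervalIntegrable (by fun_prop) _ _)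
    (Continuous.intervalIntegrable (by fun_prop) _ _),
    intervalIntegral.integral_sub (Continuous.intervalIntegrable (by fun_prop) _ _)
    (Continuous.intervalIntegrable (by fun_prop) _ _), intervalIntegral.integral_const_mul,
    integral_pow, integral_pow, integral_pow]
  push_cast
  have : ((b : ℝ) + 1) ≠ 0 := by positivity
  have : ((b : ℝ) + 1 + 1) ≠ 0 := by positivity
  have : ((b : ℝ) + 2 + 1) ≠ 0 := by positivity
  have : ((b : ℝ) + 2) ≠ 0 := by positivity
  have : ((b : ℝ) + 3) ≠ 0 := by positivity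
  simp
  field_simp
  ring

section mom

variable {K : Set (Fin p → ℝ)}

theorem vol_pyr (hK : IsCompact K) :
    (volume (pyrS K)).toReal = (volume K).toReal / ((p : ℝ) + 1) := by
  have h := pyr_int hK (F := fun _ => 1) continuous_const 0 0 (fun r x => by simp)
  rw [beta0] at h
  simp only [pow_zero, mul_one, setIntegral_const, smul_eq_mul, Measure.real, add_zero] at h
  rw [h]
  ring

theorem int_pyr_0 (hK : IsCompact K) : ∫ z in pyrS K, z 0 =
    (volume K).toReal / (((p : ℝ) + 1) * ((p : ℝ) + 2)) := by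
  have h := pyr_int hK (F := fun _ => 1) continuous_const 1 0 (fun r x => by simp)
  rw [beta1] at h
  simp only [pow_one, mul_one, setIntegral_const, smul_eq_mul, Measure.real, add_zero] at h
  rw [h]
  ring

theorem int_pyr_00 (hK : IsCompact K) : ∫ z in pyrS K, z 0 * z 0 =
    2 * (volume K).toReal / (((p : ℝ) + 1) * ((p : ℝ) + 2) * ((p : ℝ) + 3)) := by
  have h := pyr_int hK (F := fun _ => 1) continuous_const 2 0 (fun r x => by simp)
  rw [beta2] at h
  simp only [mul_one, setIntegral_const, smul_eq_mul, Measure.real, add_zero] at h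
  simp_rw [← sq]
  rw [h]
  ring

theorem int_pyr_s (hK : IsCompact K) (i : Fin p) : ∫ z in pyrS K, z i.succ =
    (∫ x in K, x i) / ((p : ℝ) + 2) := by
  have h := pyr_int hK (F := fun x => x i) (by fun_prop) 0 1 (fun r x => by simp)
  rw [beta0] at h
  simp only [pow_zero, one_mul, Fin.tail] at h
  rw [h]
  push_cast
  have : ((p : ℝ) + 2) ≠ 0 := by positivity
  have : ((p : ℝ) + 1 + 1) ≠ 0 := by positivity
  field_simp
  ring

theorem int_pyr_0s (hK : IsCompact K) (i : Fin p) : ∫ z in pyrS K, z 0 * z i.succ =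
    (∫ x in K, x i) / (((p : ℝ) + 2) * ((p : ℝ) + 3)) := by
  have h := pyr_int hK (F := fun x => x i) (by fun_prop) 1 1 (fun r x => by simp)
  rw [beta1] at h
  simp only [pow_one, Fin.tail] at h
  rw [h]
  push_cast
  have : ((p : ℝ) + 2) ≠ 0 := by positivity
  have : ((p : ℝ) + 3) ≠ 0 := by positivity
  have : ((p : ℝ) + 1 + 1) ≠ 0 := by positivity
  have : ((p : ℝ) + 1 + 2) ≠ 0 := by positivity
  field_simp
  ring

theorem int_pyr_ss (hK : IsCompact K) (i j : Fin p) : ∫ z in pyrS K, z i.succ * z j.succ =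
    (∫ x in K, x i * x j) / ((p : ℝ) + 3) := by
  have h := pyr_int hK (F := fun x => x i * x j) (by fun_prop) 0 2 (fun r x => by simp; ring)
  rw [beta0] at h
  simp only [pow_zero, one_mul, Fin.tail] at h
  rw [h]
  push_cast
  have : ((p : ℝ) + 3) ≠ 0 := by positivity
  have : ((p : ℝ) + 2 + 1) ≠ 0 := by positivity
  field_simp
  ring

theorem cov_pyr (hK : IsCompact K) (hV : (volume K).toReal ≠ 0) :
    covMatrix (pyrS K) = bord (((p : ℝ) + 1) / (((p : ℝ) + 2) ^ 2 * ((p : ℝ) + 3)))
      (fun i => -(((p : ℝ) + 1) / (((p : ℝ) + 2) ^ 2 * ((p : ℝ) + 3))) * centroid K i)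
      (fun i => -(((p : ℝ) + 1) / (((p : ℝ) + 2) ^ 2 * ((p : ℝ) + 3))) * centroid K i)
      (Matrix.of fun i j => ((p : ℝ) + 1) / ((p : ℝ) + 3) * covMatrix K i j +
        ((p : ℝ) + 1) / (((p : ℝ) + 2) ^ 2 * ((p : ℝ) + 3)) * (centroid K i * centroid K j)) := by
  have h1 : ((p : ℝ) + 1) ≠ 0 := by positivity
  have h2 : ((p : ℝ) + 2) ≠ 0 := by positivity
  have h3 : ((p : ℝ) + 3) ≠ 0 := by positivity
  have hV' : (volume (pyrS K)).toReal ≠ 0 := by
    rw [vol_pyr hK]
    exact div_ne_zero hV h1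
  have hc0 : centroid (pyrS K) 0 = 1 / ((p : ℝ) + 2) := by
    rw [centroid, vol_pyr hK, int_pyr_0 hK]
    field_simp
  have hcs : ∀ i : Fin p, centroid (pyrS K) i.succ =
      ((p : ℝ) + 1) / ((p : ℝ) + 2) * centroid K i := by
    intro i
    rw [centroid, vol_pyr hK, int_pyr_s hK, centroid]
    field_simp
  have hcc : IsCompact (pyrS K) := isCompact_pyrS hK
  have e0s : ∀ i : Fin p, covMatrix (pyrS K) 0 i.succ =
      -(((p : ℝ) + 1) / (((p : ℝ) + 2) ^ 2 * ((p : ℝ) + 3))) * centroid K i := by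
    intro i
    rw [cov_eq hcc hV', hc0, hcs, vol_pyr hK, int_pyr_0s hK, centroid]
    field_simp
    ring
  ext i j
  refine Fin.cases ?_ (fun k => ?_) i
  · refine Fin.cases ?_ (fun l => ?_) j
    · rw [cov_eq hcc hV', hc0, vol_pyr hK, int_pyr_00 hK]
      simp only [bord, Matrix.of_apply, Fin.cons_zero]
      field_simp
      ring
    · rw [e0s]
      simp [bord]
  · refine Fin.cases ?_ (fun l => ?_) j
    · rw [covMatrix_symm, e0s]
      simp [bord]
    · rw [cov_eq hcc hV', hcs, hcs, vol_pyr hK, int_pyr_ss hK]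
      simp only [bord, Matrix.of_apply, Fin.cons_succ]
      rw [cov_eq hK hV]
      field_simp
      ring

/-- the normalised determinant -/
noncomputable def Dn {n : ℕ} (K : Set (Fin n → ℝ)) : ℝ :=
  (covMatrix K).det / (volume K).toReal ^ 2

theorem Dn_pyr (hK : IsCompact K) (hV : (volume K).toReal ≠ 0) :
    Dn (pyrS K) * simpC p = Dn K * simpC (p + 1) := by
  have h1 : ((p : ℝ) + 1) ≠ 0 := by positivity
  have h2 : ((p : ℝ) + 2) ≠ 0 := by positivity
  have h3 : ((p : ℝ) + 3) ≠ 0 := by positivity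
  have hv : ((p : ℝ) + 1) / (((p : ℝ) + 2) ^ 2 * ((p : ℝ) + 3)) ≠ 0 := by positivity
  unfold Dn
  rw [cov_pyr hK hV, det_bord hv, vol_pyr hK]
  have e : (Matrix.of fun i j => (Matrix.of fun i j =>
      ((p : ℝ) + 1) / ((p : ℝ) + 3) * covMatrix K i j +
        ((p : ℝ) + 1) / (((p : ℝ) + 2) ^ 2 * ((p : ℝ) + 3)) * (centroid K i * centroid K j)) i j -
      -(((p : ℝ) + 1) / (((p : ℝ) + 2) ^ 2 * ((p : ℝ) + 3))) * centroid K i *
        (-(((p : ℝ) + 1) / (((p : ℝ) + 2) ^ 2 * ((p : ℝ) + 3))) * centroid K j) /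
          (((p : ℝ) + 1) / (((p : ℝ) + 2) ^ 2 * ((p : ℝ) + 3)))) =
      (((p : ℝ) + 1) / ((p : ℝ) + 3)) • covMatrix K := by
    ext i j
    simp only [Matrix.of_apply, Matrix.smul_apply, smul_eq_mul]
    field_simp
    ring
  rw [e, det_smul, Fintype.card_fin]
  unfold simpC
  rw [Nat.factorial_succ]
  push_cast
  have h4 : ((p : ℝ) + 1 + 1) = (p : ℝ) + 2 := by ring
  have h5 : ((p : ℝ) + 1 + 2) = (p : ℝ) + 3 := by ring
  rw [h4, h5, div_pow, mul_pow ((p : ℝ) + 1) ((p : ℝ) + 2) p,
    mul_pow ((p : ℝ) + 2) ((p : ℝ) + 3) (p + 1), pow_succ ((p : ℝ) + 2) p,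
    pow_succ ((p : ℝ) + 3) p]
  field_simp

end mom

end Vale.Agent.P254.FV
end

section

/-!
Pyramids over convex bodies.
-/

open MeasureTheory Set Matrix
open scoped Pointwise

namespace Vale.Agent.P254.FV

variable {p : ℕ}

theorem convex_pyrS {K : Set (Fin p → ℝ)} (hK : Convex ℝ K) : Convex ℝ (pyrS K) := by
  rintro z ⟨h1, h2, x, hx, h3⟩ z' ⟨h1', h2', x', hx', h3'⟩ a b ha hb hab
  have e0 : (a • z + b • z') 0 = a * z 0 + b * z' 0 := rfl
  have hs : 1 - (a * z 0 + b * z' 0) = a * (1 - z 0) + b * (1 - z' 0) := by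
    linear_combination (-1 : ℝ) * hab
  have hp1 : 0 ≤ a * (1 - z 0) := mul_nonneg ha (by linarith)
  have hp2 : 0 ≤ b * (1 - z' 0) := mul_nonneg hb (by linarith)
  have hq1 : 0 ≤ a * z 0 := mul_nonneg ha h1
  have hq2 : 0 ≤ b * z' 0 := mul_nonneg hb h1'
  refine ⟨by rw [e0]; linarith, by rw [e0]; linarith, ?_⟩
  rw [e0, hs]
  rcases eq_or_lt_of_le (add_nonneg hp1 hp2) with h | h
  · have h4 : a * (1 - z 0) = 0 := by linarith
    have h5 : b * (1 - z' 0) = 0 := by linarith
    refine ⟨x, hx, fun i => ?_⟩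
    have e : (a • z + b • z') i.succ = a * z i.succ + b * z' i.succ := rfl
    rw [e, h3, h3', ← mul_assoc, ← mul_assoc, h4, h5]
    ring
  · set s := a * (1 - z 0) + b * (1 - z' 0) with hsdef
    have h6 : (a * (1 - z 0) / s) • x + (b * (1 - z' 0) / s) • x' ∈ K :=
      hK hx hx' (div_nonneg hp1 h.le) (div_nonneg hp2 h.le) (by
        rw [← add_div, ← hsdef, div_self h.ne'])
    refine ⟨_, h6, fun i => ?_⟩
    have e : (a • z + b • z') i.succ = a * z i.succ + b * z' i.succ := rfl
    rw [e, h3, h3']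
    simp only [Pi.add_apply, Pi.smul_apply, smul_eq_mul]
    field_simp

theorem pyramid_eq {K : Set (Fin p → ℝ)} (hK : Convex ℝ K) (hne : K.Nonempty) :
    pyramid K = pyrS K := by
  obtain ⟨y, hy⟩ := hne
  apply Subset.antisymm
  · refine convexHull_min ?_ (convex_pyrS hK)
    rintro z (rfl | ⟨x, hx, rfl⟩)
    · exact ⟨by simp, by simp, y, hy, fun i => by simp⟩
    · exact ⟨by simp, by simp, x, hx, fun i => by simp⟩
  · rintro z ⟨h1, h2, x, hx, h3⟩
    have h4 := (convex_convexHull ℝ (insert (Fin.cons 1 0) ((fun x => Fin.cons 0 x) '' K) :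
      Set (Fin (p + 1) → ℝ))) (subset_convexHull ℝ _ (mem_insert _ _))
      (subset_convexHull ℝ _ (mem_insert_of_mem _ (mem_image_of_mem (fun x => Fin.cons 0 x) hx)))
      h1 (sub_nonneg.2 h2) (add_sub_cancel _ _)
    have e : z 0 • (Fin.cons 1 0 : Fin (p + 1) → ℝ) + (1 - z 0) • (Fin.cons 0 x : Fin (p + 1) → ℝ) =
        z := by
      ext i
      refine Fin.cases ?_ (fun j => ?_) i
      · simp
      · simp [h3 j]
    rw [e] at h4
    exact h4

theorem body_of_vol {n : ℕ} {K : Set (Fin n → ℝ)} (hc : Convex ℝ K) (hK : IsCompact K)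
    (hV : (volume K).toReal ≠ 0) : IsConvexBody K := by
  refine ⟨hc, hK, ?_⟩
  by_contra hne
  rw [not_nonempty_iff_eq_empty] at hne
  have : volume K = 0 := by
    have h8 := hc.addHaar_frontier (volume : Measure (Fin n → ℝ))
    have h9 : K ⊆ frontier K := by
      rw [hK.isClosed.frontier_eq, hne, sdiff_empty]
    exact measure_mono_null h9 h8
  rw [this] at hV
  simp at hV

theorem vol_pos {n : ℕ} {K : Set (Fin n → ℝ)} (hK : IsConvexBody K) : 0 < (volume K).toReal := by
  have h1 : 0 < volume K := lt_of_lt_of_le (isOpen_interior.measure_pos volume hK.2.2)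
    (measure_mono interior_subset)
  exact ENNReal.toReal_pos h1.ne' hK.2.1.measure_lt_top.ne

theorem body_pyramid {K : Set (Fin p → ℝ)} (hK : IsConvexBody K) : IsConvexBody (pyramid K) := by
  have hne : K.Nonempty := hK.2.2.mono interior_subset
  rw [pyramid_eq hK.1 hne]
  refine body_of_vol (convex_pyrS hK.1) (isCompact_pyrS hK.2.1) ?_
  rw [vol_pyr hK.2.1]
  have := vol_pos hK
  positivity

theorem edge_ne_of_indep {n : ℕ} {v : Fin (n + 1) → (Fin n → ℝ)} (hv : AffineIndependent ℝ v) :
    (edge v).det ≠ 0 := by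
  rw [affineIndependent_iff_linearIndependent_vsub ℝ _ (0 : Fin (n + 1))] at hv
  have h1 : LinearIndependent ℝ (fun k : Fin n => v k.succ - v 0) := by
    have := hv.comp (fun k : Fin n => (⟨k.succ, Fin.succ_ne_zero k⟩ : {x : Fin (n + 1) // x ≠ 0}))
      (by
        intro a b hab
        simpa using hab)
    exact this
  have h2 : LinearIndependent ℝ ((edge v)ᵀ).row := by
    have : ((edge v)ᵀ).row = fun k : Fin n => v k.succ - v 0 := by
      ext k j; rfl
    rw [this]
    exact h1
  have h3 := Matrix.linearIndependent_rows_iff_isUnit.mp h2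
  rw [Matrix.isUnit_iff_isUnit_det, det_transpose] at h3
  exact h3.ne_zero

theorem isSimplex_of_edge {n : ℕ} {w : Fin (n + 1) → (Fin n → ℝ)} (hw : (edge w).det ≠ 0) :
    IsSimplex (convexHull ℝ (range w)) := by
  rw [← image_edge]
  exact isSimplex_image hw _

theorem isSimplex_pyramid {K : Set (Fin p → ℝ)} (hK : IsSimplex K) : IsSimplex (pyramid K) := by
  obtain ⟨v, hv, rfl⟩ := hK
  have hd := edge_ne_of_indep hv
  let w : Fin (p + 2) → (Fin (p + 1) → ℝ) :=
    Fin.cons (Fin.cons 1 0) (fun j => Fin.cons 0 (v j))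
  have hr : range w = insert (Fin.cons 1 0) ((fun x => Fin.cons 0 x) '' range v) := by
    ext z
    constructor
    · rintro ⟨i, rfl⟩
      refine Fin.cases ?_ (fun j => ?_) i
      · exact mem_insert _ _
      · exact mem_insert_of_mem _ ⟨v j, mem_range_self j, rfl⟩
    · rintro (rfl | ⟨_, ⟨j, rfl⟩, rfl⟩)
      · exact ⟨0, rfl⟩
      · exact ⟨j.succ, rfl⟩
  have hne : (convexHull ℝ (range v)).Nonempty := ⟨v 0, subset_convexHull ℝ _ (mem_range_self 0)⟩
  have hw : pyramid (convexHull ℝ (range v)) = convexHull ℝ (range w) := by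
    rw [hr]
    apply Subset.antisymm
    · refine convexHull_min ?_ (convex_convexHull ℝ _)
      rintro z (rfl | ⟨x, hx, rfl⟩)
      · exact subset_convexHull ℝ _ (mem_insert _ _)
      · have hlin : (fun x : Fin p → ℝ => (Fin.cons 0 x : Fin (p + 1) → ℝ)) '' convexHull ℝ (range v)
            = convexHull ℝ ((fun x : Fin p → ℝ => (Fin.cons 0 x : Fin (p + 1) → ℝ)) '' range v) := by
          let L : (Fin p → ℝ) →ₗ[ℝ] (Fin (p + 1) → ℝ) :=
            { toFun := fun x => Fin.cons 0 x
              map_add' := fun x y => by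
                ext i; refine Fin.cases ?_ (fun j => ?_) i <;> simp
              map_smul' := fun r x => by
                ext i; refine Fin.cases ?_ (fun j => ?_) i <;> simp }
          exact L.image_convexHull (range v)
        have h5 : (Fin.cons 0 x : Fin (p + 1) → ℝ) ∈
            convexHull ℝ ((fun x : Fin p → ℝ => (Fin.cons 0 x : Fin (p + 1) → ℝ)) '' range v) := by
          rw [← hlin]
          exact mem_image_of_mem _ hx
        exact convexHull_mono (subset_insert _ _) h5
    · exact convexHull_mono (insert_subset_insert (image_mono (subset_convexHull ℝ _)))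
  rw [hw]
  refine isSimplex_of_edge ?_
  have he : edge w = Matrix.of fun i j =>
      (Fin.cons (-1) (fun _ => 1) : Fin (p + 1) → ℝ) i * homM v i j := by
    ext i j
    refine Fin.cases ?_ (fun k => ?_) i
    · simp [edge, w, homM, hom]
    · simp [edge, w, homM, hom]
  rw [he, Matrix.det_mul_column, det_homM]
  refine mul_ne_zero ?_ hd
  rw [Fin.prod_univ_succ]
  simp

end Vale.Agent.P254.FV
end

section

/-!
Direct products of convex bodies.
-/

open MeasureTheory Set Matrix

namespace Vale.Agent.P254.FV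

variable {m n : ℕ}

/-- `ℝᵐ × ℝⁿ ≃ ℝᵐ⁺ⁿ` -/
noncomputable def glue (m n : ℕ) : (Fin m → ℝ) × (Fin n → ℝ) ≃ᵐ (Fin (m + n) → ℝ) :=
  (MeasurableEquiv.sumPiEquivProdPi (fun _ : Fin m ⊕ Fin n => ℝ)).symm.trans
    (MeasurableEquiv.piCongrLeft (fun _ : Fin (m + n) => ℝ) finSumFinEquiv)

theorem glue_left (w : (Fin m → ℝ) × (Fin n → ℝ)) (i : Fin m) :
    glue m n w (Fin.castAdd n i) = w.1 i := by
  have h : Fin.castAdd n i = finSumFinEquiv (Sum.inl i) := by simp
  rw [h]
  simp only [glue, MeasurableEquiv.trans_apply, MeasurableEquiv.coe_piCongrLeft,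
    Equiv.piCongrLeft_apply_apply]
  rfl

theorem glue_right (w : (Fin m → ℝ) × (Fin n → ℝ)) (j : Fin n) :
    glue m n w (Fin.natAdd m j) = w.2 j := by
  have h : Fin.natAdd m j = finSumFinEquiv (Sum.inr j) := by simp
  rw [h]
  simp only [glue, MeasurableEquiv.trans_apply, MeasurableEquiv.coe_piCongrLeft,
    Equiv.piCongrLeft_apply_apply]
  rfl

theorem glue_mp (m n : ℕ) : MeasurePreserving (glue m n) :=
  (volume_measurePreserving_sumPiEquivProdPi_symm (fun _ : Fin m ⊕ Fin n => ℝ)).trans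
    (volume_measurePreserving_piCongrLeft (fun _ : Fin (m + n) => ℝ) finSumFinEquiv)

theorem preimage_glue (K : Set (Fin m → ℝ)) (L : Set (Fin n → ℝ)) :
    glue m n ⁻¹' directProd K L = K ×ˢ L := by
  ext w
  simp only [mem_preimage, directProd, mem_ofPred_eq, glue_left, glue_right, mem_prod]

theorem prod_int (K : Set (Fin m → ℝ)) (L : Set (Fin n → ℝ)) {F : (Fin (m + n) → ℝ) → ℝ}
    {f : (Fin m → ℝ) → ℝ} {g : (Fin n → ℝ) → ℝ} (h : ∀ w, F (glue m n w) = f w.1 * g w.2) :
    ∫ z in directProd K L, F z = (∫ x in K, f x) * ∫ y in L, g y := by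
  rw [← (glue_mp m n).setIntegral_preimage_emb (MeasurableEquiv.measurableEmbedding _) F,
    preimage_glue]
  simp_rw [h]
  rw [Measure.volume_eq_prod, setIntegral_prod_mul]

variable {K : Set (Fin m → ℝ)} {L : Set (Fin n → ℝ)}

theorem vol_prod : (volume (directProd K L)).toReal = (volume K).toReal * (volume L).toReal := by
  have h := prod_int K L (F := fun _ => 1) (f := fun _ => 1) (g := fun _ => 1) (fun w => by simp)
  simpa [Measure.real] using h

theorem isCompact_prod (hK : IsCompact K) (hL : IsCompact L) : IsCompact (directProd K L) := by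
  have h : directProd K L = (fun w : (Fin m → ℝ) × (Fin n → ℝ) => Fin.append w.1 w.2) '' (K ×ˢ L) := by
    ext z
    constructor
    · rintro ⟨h1, h2⟩
      refine ⟨(_, _), ⟨h1, h2⟩, ?_⟩
      ext i
      refine Fin.addCases (fun j => ?_) (fun j => ?_) i
      · simp
      · simp
    · rintro ⟨⟨x, y⟩, ⟨hx, hy⟩, rfl⟩
      refine ⟨?_, ?_⟩
      · simpa using hx
      · simpa using hy
  rw [h]
  refine (hK.prod hL).image ?_
  refine continuous_pi fun i => ?_
  refine Fin.addCases (fun j => ?_) (fun j => ?_) i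
  · simp only [Fin.append_left]; fun_prop
  · simp only [Fin.append_right]; fun_prop

theorem convex_prod (hK : Convex ℝ K) (hL : Convex ℝ L) : Convex ℝ (directProd K L) := by
  rintro z ⟨h1, h2⟩ z' ⟨h1', h2'⟩ a b ha hb hab
  exact ⟨hK h1 h1' ha hb hab, hL h2 h2' ha hb hab⟩

theorem body_prod (hK : IsConvexBody K) (hL : IsConvexBody L) : IsConvexBody (directProd K L) := by
  refine body_of_vol (convex_prod hK.1 hL.1) (isCompact_prod hK.2.1 hL.2.1) ?_
  rw [vol_prod]
  exact mul_ne_zero (vol_pos hK).ne' (vol_pos hL).ne'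

theorem cov_prod (hK : IsConvexBody K) (hL : IsConvexBody L) :
    covMatrix (directProd K L) = (fromBlocks (covMatrix K) 0 0 (covMatrix L)).submatrix
      finSumFinEquiv.symm finSumFinEquiv.symm := by
  have hV := (vol_pos hK).ne'
  have hW := (vol_pos hL).ne'
  have hVW : (volume (directProd K L)).toReal ≠ 0 := by
    rw [vol_prod]
    exact mul_ne_zero hV hW
  have hc := isCompact_prod hK.2.1 hL.2.1
  have hcl : ∀ i : Fin m, centroid (directProd K L) (Fin.castAdd n i) = centroid K i := by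
    intro i
    have h := prod_int K L (F := fun z => z (Fin.castAdd n i)) (f := fun x => x i)
      (g := fun _ => 1) (fun w => by simp [glue_left])
    rw [centroid, vol_prod, h, setIntegral_const, smul_eq_mul, mul_one, Measure.real, centroid]
    field_simp
  have hcr : ∀ j : Fin n, centroid (directProd K L) (Fin.natAdd m j) = centroid L j := by
    intro j
    have h := prod_int K L (F := fun z => z (Fin.natAdd m j)) (f := fun _ => 1)
      (g := fun y => y j) (fun w => by simp [glue_right])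
    rw [centroid, vol_prod, h, setIntegral_const, smul_eq_mul, mul_one, Measure.real, centroid]
    field_simp
  have h12 : ∀ (i : Fin m) (j : Fin n),
      covMatrix (directProd K L) (Fin.castAdd n i) (Fin.natAdd m j) = 0 := by
    intro i j
    have h := prod_int K L (F := fun z => z (Fin.castAdd n i) * z (Fin.natAdd m j))
      (f := fun x => x i) (g := fun y => y j) (fun w => by simp [glue_left, glue_right])
    rw [cov_eq hc hVW, hcl, hcr, vol_prod, h, centroid, centroid]
    field_simp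
    ring
  ext i j
  refine Fin.addCases (fun i' => ?_) (fun i' => ?_) i
  · refine Fin.addCases (fun j' => ?_) (fun j' => ?_) j
    · have h := prod_int K L (F := fun z => z (Fin.castAdd n i') * z (Fin.castAdd n j'))
        (f := fun x => x i' * x j') (g := fun _ => 1) (fun w => by simp [glue_left])
      rw [cov_eq hc hVW, hcl, hcl, vol_prod, h, setIntegral_const, smul_eq_mul, mul_one,
        Measure.real]
      simp only [submatrix_apply, finSumFinEquiv_symm_apply_castAdd, fromBlocks_apply₁₁]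
      rw [cov_eq hK.2.1 hV]
      field_simp
    · rw [h12]
      simp
  · refine Fin.addCases (fun j' => ?_) (fun j' => ?_) j
    · rw [covMatrix_symm, h12]
      simp
    · have h := prod_int K L (F := fun z => z (Fin.natAdd m i') * z (Fin.natAdd m j'))
        (f := fun _ => 1) (g := fun y => y i' * y j') (fun w => by simp [glue_right])
      rw [cov_eq hc hVW, hcr, hcr, vol_prod, h, setIntegral_const, smul_eq_mul, mul_one,
        Measure.real]
      simp only [submatrix_apply, finSumFinEquiv_symm_apply_natAdd, fromBlocks_apply₂₂]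
      rw [cov_eq hL.2.1 hW]
      field_simp

theorem Dn_prod (hK : IsConvexBody K) (hL : IsConvexBody L) :
    Dn (directProd K L) = Dn K * Dn L := by
  unfold Dn
  rw [cov_prod hK hL, det_submatrix_equiv_self, det_fromBlocks_zero₁₂, vol_prod]
  have hV := (vol_pos hK).ne'
  have hW := (vol_pos hL).ne'
  field_simp

end Vale.Agent.P254.FV
end

section

/-!
Integration over free sums.
-/

open MeasureTheory Set Matrix
open scoped Pointwise

namespace Vale.Agent.P254.FV

theorem beta_rec (a b : ℕ) :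
    ((a : ℝ) + 1) * ∫ t in (0 : ℝ)..1, (1 - t) ^ a * t ^ (b + 1) =
      ((b : ℝ) + 1) * ∫ t in (0 : ℝ)..1, (1 - t) ^ (a + 1) * t ^ b := by
  have h : ∀ t ∈ uIcc (0 : ℝ) 1, HasDerivAt (fun t : ℝ => (1 - t) ^ (a + 1) * t ^ (b + 1))
      (((b : ℝ) + 1) * ((1 - t) ^ (a + 1) * t ^ b) - ((a : ℝ) + 1) * ((1 - t) ^ a * t ^ (b + 1))) t := by
    intro t _
    have h2 : HasDerivAt (fun t : ℝ => 1 - t) (-1) t := by
      simpa using (hasDerivAt_id t).const_sub 1
    have h1 := h2.fun_pow (a + 1)
    have h3 : HasDerivAt (fun t : ℝ => t ^ (b + 1)) (((b + 1 : ℕ) : ℝ) * t ^ b) t := by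
      simpa using hasDerivAt_pow (b + 1) t
    have h4 := h1.fun_mul h3
    refine h4.congr_deriv ?_
    push_cast
    ring
  have h5 := intervalIntegral.integral_eq_sub_of_hasDerivAt h
    (Continuous.intervalIntegrable (by fun_prop) _ _)
  rw [intervalIntegral.integral_sub (Continuous.intervalIntegrable (by fun_prop) _ _)
    (Continuous.intervalIntegrable (by fun_prop) _ _), intervalIntegral.integral_const_mul,
    intervalIntegral.integral_const_mul] at h5
  simp at h5
  linarith

theorem beta_eq (b : ℕ) : ∀ a : ℕ, ∫ t in (0 : ℝ)..1, (1 - t) ^ a * t ^ b =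
    (a.factorial : ℝ) * b.factorial / ((a + b + 1).factorial : ℝ) := by
  induction b with
  | zero =>
    intro a
    have h := beta0 a
    simp only [pow_zero, one_mul] at h
    simp only [pow_zero, mul_one, Nat.factorial_zero, Nat.cast_one, add_zero]
    rw [h, Nat.factorial_succ]
    push_cast
    have : (a.factorial : ℝ) ≠ 0 := by positivity
    field_simp
  | succ b ih =>
    intro a
    have h := beta_rec a b
    rw [ih (a + 1)] at h
    have ha : ((a : ℝ) + 1) ≠ 0 := by positivity
    have e : a + 1 + b + 1 = a + (b + 1) + 1 := by ring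
    rw [e] at h
    refine mul_left_cancel₀ ha (h.trans ?_)
    rw [Nat.factorial_succ a, Nat.factorial_succ b]
    push_cast
    ring

/-- scaling of integrals of homogeneous functions -/
theorem scale_int {p : ℕ} {K : Set (Fin p → ℝ)} {F : (Fin p → ℝ) → ℝ} {k : ℕ}
    (hom : ∀ (r : ℝ) (x : Fin p → ℝ), F (r • x) = r ^ k * F x) {r : ℝ} (hr : 0 < r) :
    ∫ x in r • K, F x = r ^ (p + k) * ∫ x in K, F x := by
  have h8 := Measure.setIntegral_comp_smul_of_pos (volume : Measure (Fin p → ℝ)) F K hr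
  rw [Module.finrank_fin_fun] at h8
  simp_rw [hom] at h8
  rw [integral_const_mul, smul_eq_mul] at h8
  have h10 : (r ^ p) ≠ 0 := (pow_pos hr p).ne'
  rw [pow_add, mul_assoc, h8]
  field_simp

/-- the dilates of a compact convex set containing `0` which contain a given point -/
theorem up_set {p : ℕ} {K : Set (Fin p → ℝ)} (hK : Convex ℝ K) (hc : IsCompact K)
    (h0 : (0 : Fin p → ℝ) ∈ K) (x : Fin p → ℝ) :
    (∀ s ∈ Icc (0 : ℝ) 1, x ∉ s • K) ∨
      ∃ β ∈ Icc (0 : ℝ) 1, ∀ s ∈ Icc (0 : ℝ) 1, (x ∈ s • K ↔ β ≤ s) := by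
  set I : Set ℝ := {s | s ∈ Icc (0 : ℝ) 1 ∧ x ∈ s • K} with hI
  rcases I.eq_empty_or_nonempty with h | h
  · left
    intro s hs hx
    have : s ∈ I := ⟨hs, hx⟩
    rw [h] at this
    exact this
  · right
    have hcomp : IsCompact I := by
      have e : I = Prod.fst '' ((Icc (0 : ℝ) 1 ×ˢ K) ∩
          (fun w : ℝ × (Fin p → ℝ) => w.1 • w.2) ⁻¹' {x}) := by
        ext s
        constructor
        · rintro ⟨hs, k, hk, hkx⟩
          exact ⟨(s, k), ⟨⟨hs, hk⟩, hkx⟩, rfl⟩
        · rintro ⟨⟨s', k⟩, ⟨⟨hs, hk⟩, hkx⟩, rfl⟩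
          exact ⟨hs, k, hk, hkx⟩
      rw [e]
      refine IsCompact.image ?_ continuous_fst
      exact (isCompact_Icc.prod hc).inter_right
        (isClosed_singleton.preimage (by fun_prop))
    have hmem := hcomp.sInf_mem h
    refine ⟨sInf I, hmem.1, fun s hs => ⟨fun hx => csInf_le hcomp.bddBelow ⟨hs, hx⟩, fun hle => ?_⟩⟩
    obtain ⟨k, hk, hkx⟩ := hmem.2
    rcases eq_or_lt_of_le hs.1 with h1 | h1
    · have h2 : sInf I = 0 := le_antisymm (by rw [h1]; exact hle) hmem.1.1
      rw [← h1]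
      exact ⟨k, hk, by rw [← hkx, h2]⟩
    · refine ⟨(sInf I / s) • k, hK.smul_mem_of_zero_mem h0 hk
        ⟨div_nonneg hmem.1.1 h1.le, (div_le_one h1).2 hle⟩, ?_⟩
      simp only [smul_smul]
      rw [mul_div_cancel₀ _ h1.ne']
      exact hkx

variable {m n : ℕ}

/-- the free sum, in product coordinates -/
def sumP (K : Set (Fin m → ℝ)) (L : Set (Fin n → ℝ)) : Set ((Fin m → ℝ) × (Fin n → ℝ)) :=
  {w | ∃ t ∈ Icc (0 : ℝ) 1, w.1 ∈ (1 - t) • K ∧ w.2 ∈ t • L}

section

variable {K : Set (Fin m → ℝ)} {L : Set (Fin n → ℝ)}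

theorem mem_smul_sumP (hK0 : (0 : Fin m → ℝ) ∈ K) (hL0 : (0 : Fin n → ℝ) ∈ L)
    {r : ℝ} (hr : 0 ≤ r) {w : (Fin m → ℝ) × (Fin n → ℝ)} :
    w ∈ r • sumP K L ↔ ∃ s t : ℝ, 0 ≤ s ∧ 0 ≤ t ∧ s + t = r ∧ w.1 ∈ s • K ∧ w.2 ∈ t • L := by
  constructor
  · rintro ⟨w', ⟨t, ht, ⟨x, hx, hx'⟩, ⟨y, hy, hy'⟩⟩, rfl⟩
    refine ⟨r * (1 - t), r * t, mul_nonneg hr (by linarith [ht.2]), mul_nonneg hr ht.1, by ring,
      ⟨x, hx, ?_⟩, ⟨y, hy, ?_⟩⟩
    · simp only at hx' ⊢
      rw [mul_smul, hx']
      rfl
    · simp only at hy' ⊢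
      rw [mul_smul, hy']
      rfl
  · rintro ⟨s, t, hs, ht, hst, ⟨x, hx, hx'⟩, ⟨y, hy, hy'⟩⟩
    simp only at hx' hy'
    rcases eq_or_lt_of_le hr with h1 | h1
    · have hs0 : s = 0 := by linarith
      have ht0 : t = 0 := by linarith
      refine ⟨(0, 0), ⟨0, ⟨le_rfl, zero_le_one⟩, ⟨0, hK0, by simp⟩, ⟨0, hL0, by simp⟩⟩, ?_⟩
      ext1
      · rw [← hx', hs0]
        simp
      · rw [← hy', ht0]
        simp
    · refine ⟨(r⁻¹ • w.1, r⁻¹ • w.2), ⟨t / r, ⟨div_nonneg ht h1.le, (div_le_one h1).2 (by linarith)⟩,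
        ⟨x, hx, ?_⟩, ⟨y, hy, ?_⟩⟩, ?_⟩
      · simp only
        rw [← hx', smul_smul]
        congr 1
        rw [← hst]
        have : s + t ≠ 0 := by rw [hst]; exact h1.ne'
        field_simp
        ring
      · simp only
        rw [← hy', smul_smul]
        congr 1
        field_simp
      · ext1
        · simp only [Prod.smul_fst, smul_smul]
          rw [mul_inv_cancel₀ h1.ne', one_smul]
        · simp only [Prod.smul_snd, smul_smul]
          rw [mul_inv_cancel₀ h1.ne', one_smul]

theorem slice_eq (hK : Convex ℝ K) (hKc : IsCompact K) (hK0 : (0 : Fin m → ℝ) ∈ K)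
    (hL : Convex ℝ L) (hLc : IsCompact L) (hL0 : (0 : Fin n → ℝ) ∈ L)
    (w : (Fin m → ℝ) × (Fin n → ℝ)) :
    volume {t : ℝ | t ∈ Icc (0 : ℝ) 1 ∧ w.1 ∈ (1 - t) • K ∧ w.2 ∈ t • L} =
      volume {r : ℝ | r ∈ Icc (0 : ℝ) 1 ∧ w ∈ r • sumP K L} := by
  rcases up_set hK hKc hK0 w.1 with hx | ⟨β, hβ, hx⟩
  · have e1 : {t : ℝ | t ∈ Icc (0 : ℝ) 1 ∧ w.1 ∈ (1 - t) • K ∧ w.2 ∈ t • L} = ∅ := by
      ext t
      simp only [mem_ofPred_eq, mem_empty_iff_false, iff_false]
      rintro ⟨ht, h1, _⟩
      exact hx (1 - t) ⟨by linarith [ht.2], by linarith [ht.1]⟩ h1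
    have e2 : {r : ℝ | r ∈ Icc (0 : ℝ) 1 ∧ w ∈ r • sumP K L} = ∅ := by
      ext r
      simp only [mem_ofPred_eq, mem_empty_iff_false, iff_false]
      rintro ⟨hr, h1⟩
      obtain ⟨s, t, hs, ht, hst, h2, _⟩ := (mem_smul_sumP hK0 hL0 hr.1).1 h1
      exact hx s ⟨hs, by linarith [hr.2]⟩ h2
    rw [e1, e2]
  · rcases up_set hL hLc hL0 w.2 with hy | ⟨α, hα, hy⟩
    · have e1 : {t : ℝ | t ∈ Icc (0 : ℝ) 1 ∧ w.1 ∈ (1 - t) • K ∧ w.2 ∈ t • L} = ∅ := by
        ext t
        simp only [mem_ofPred_eq, mem_empty_iff_false, iff_false]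
        rintro ⟨ht, _, h1⟩
        exact hy t ht h1
      have e2 : {r : ℝ | r ∈ Icc (0 : ℝ) 1 ∧ w ∈ r • sumP K L} = ∅ := by
        ext r
        simp only [mem_ofPred_eq, mem_empty_iff_false, iff_false]
        rintro ⟨hr, h1⟩
        obtain ⟨s, t, hs, ht, hst, _, h2⟩ := (mem_smul_sumP hK0 hL0 hr.1).1 h1
        exact hy t ⟨ht, by linarith [hr.2]⟩ h2
      rw [e1, e2]
    · have e1 : {t : ℝ | t ∈ Icc (0 : ℝ) 1 ∧ w.1 ∈ (1 - t) • K ∧ w.2 ∈ t • L} =
          Icc α (1 - β) := by
        ext t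
        simp only [mem_ofPred_eq, mem_Icc]
        constructor
        · rintro ⟨ht, h1, h2⟩
          have h3 := (hx (1 - t) ⟨by linarith [ht.2], by linarith [ht.1]⟩).1 h1
          have h4 := (hy t ht).1 h2
          exact ⟨h4, by linarith⟩
        · rintro ⟨h1, h2⟩
          have ht : t ∈ Icc (0 : ℝ) 1 := ⟨by linarith [hα.1], by linarith [hβ.1]⟩
          exact ⟨ht, (hx (1 - t) ⟨by linarith [ht.2], by linarith [ht.1]⟩).2 (by linarith),
            (hy t ht).2 h1⟩
      have e2 : {r : ℝ | r ∈ Icc (0 : ℝ) 1 ∧ w ∈ r • sumP K L} = Icc (α + β) 1 := by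
        ext r
        simp only [mem_ofPred_eq, mem_Icc]
        constructor
        · rintro ⟨hr, h1⟩
          obtain ⟨s, t, hs, ht, hst, h2, h3⟩ := (mem_smul_sumP hK0 hL0 hr.1).1 h1
          have h4 := (hx s ⟨hs, by linarith [hr.2]⟩).1 h2
          have h5 := (hy t ⟨ht, by linarith [hr.2]⟩).1 h3
          exact ⟨by linarith, hr.2⟩
        · rintro ⟨h1, h2⟩
          have hr : 0 ≤ r := by linarith [hα.1, hβ.1]
          refine ⟨⟨hr, h2⟩, (mem_smul_sumP hK0 hL0 hr).2 ⟨r - α, α, by linarith [hβ.1], hα.1,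
            by ring, ?_, ?_⟩⟩
          · exact (hx (r - α) ⟨by linarith [hβ.1], by linarith [hα.1]⟩).2 (by linarith)
          · exact (hy α hα).2 le_rfl
      rw [e1, e2, Real.volume_Icc, Real.volume_Icc]
      congr 1
      ring

end

end Vale.Agent.P254.FV
end

section

/-!
Comparison of the isotropic constants of a body `K` and of a body `U` containing it.
-/

open MeasureTheory Set Matrix

namespace Vale.Agent.P254

variable {n : ℕ} {K U : Set (Fin n → ℝ)}

/-- the covariance matrix of a convex body is positive definite -/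
lemma covMatrix_posDef (hU : IsConvexBody U) : (covMatrix U).PosDef := by
  have hc := hU.2.1
  have hV : 0 < (volume U).toReal :=
    ENNReal.toReal_pos ((isOpen_interior.measure_pos volume hU.2.2).trans_le
      (measure_mono interior_subset)).ne' hc.measure_ne_top
  refine PosDef.of_dotProduct_mulVec_pos ?_ (fun y hy => ?_)
  · ext i j
    simp only [conjTranspose_apply, star_trivial]
    exact covMatrix_symm U j i
  · have e : star y ⬝ᵥ (covMatrix U *ᵥ y) = ∑ i, ∑ j, y i * covMatrix U i j * y j := by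
      simp only [dotProduct, mulVec, star_trivial, Finset.mul_sum]
      refine Finset.sum_congr rfl (fun i _ => Finset.sum_congr rfl (fun j _ => ?_))
      ring
    rw [e, cov_quad hc]
    refine mul_pos (inv_pos.mpr hV) ?_
    have hcont : Continuous fun x : Fin n → ℝ => (∑ i, y i * (x i - centroid U i)) ^ 2 := by
      fun_prop
    rw [setIntegral_pos_iff_support_of_nonneg_ae (Filter.Eventually.of_forall fun x => sq_nonneg _)
      (intOn hc hcont)]
    have hO : IsOpen (interior U ∩ Function.support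
        fun x : Fin n → ℝ => (∑ i, y i * (x i - centroid U i)) ^ 2) :=
      isOpen_interior.inter (hcont.isOpen_support)
    refine lt_of_lt_of_le (hO.measure_pos volume ?_)
      (measure_mono fun x hx => ⟨hx.2, interior_subset hx.1⟩)
    obtain ⟨x, hx⟩ := hU.2.2
    by_cases h0 : ∑ i, y i * (x i - centroid U i) = 0
    · obtain ⟨r, hr, hball⟩ := Metric.isOpen_iff.mp isOpen_interior x hx
      have hyn : 0 < ‖y‖ := norm_pos_iff.mpr hy
      refine ⟨x + (r / (2 * ‖y‖)) • y, hball ?_, ?_⟩
      · rw [Metric.mem_ball, dist_eq_norm, add_sub_cancel_left, norm_smul, Real.norm_eq_abs,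
          abs_of_pos (by positivity)]
        have : r / (2 * ‖y‖) * ‖y‖ = r / 2 := by field_simp
        rw [this]
        linarith
      · rw [Function.mem_support]
        have e1 : ∑ i, y i * ((x + (r / (2 * ‖y‖)) • y) i - centroid U i)
            = (r / (2 * ‖y‖)) * ∑ i, y i ^ 2 := by
          simp only [Pi.add_apply, Pi.smul_apply, smul_eq_mul]
          have : ∀ i, y i * (x i + r / (2 * ‖y‖) * y i - centroid U i)
              = y i * (x i - centroid U i) + r / (2 * ‖y‖) * y i ^ 2 := by intro i; ring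
          simp_rw [this]
          rw [Finset.sum_add_distrib, h0, zero_add, Finset.mul_sum]
        rw [e1]
        have h2 : 0 < ∑ i, y i ^ 2 := by
          obtain ⟨k, hk⟩ := Function.ne_iff.mp hy
          exact Finset.sum_pos' (fun i _ => sq_nonneg _)
            ⟨k, Finset.mem_univ _, by have : y k ≠ 0 := hk; positivity⟩
        positivity
    · exact ⟨x, hx, by simpa [Function.mem_support] using h0⟩

/-- second moments about an arbitrary point -/
lemma cov_shift (hK : IsCompact K) (hV : (volume K).toReal ≠ 0) (c : Fin n → ℝ) (i j : Fin n) :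
    (volume K).toReal⁻¹ * (∫ x in K, (x i - c i) * (x j - c j))
      = covMatrix K i j + (centroid K i - c i) * (centroid K j - c j) := by
  have e : ∫ x in K, (x i - c i) * (x j - c j)
      = (∫ x in K, x i * x j) - c j * (∫ x in K, x i) - c i * (∫ x in K, x j)
        + (volume K).toReal * (c i * c j) := by
    have e1 : ∀ x : Fin n → ℝ, (x i - c i) * (x j - c j)
        = x i * x j - c j * x i - c i * x j + c i * c j := by
      intro x; ring
    simp_rw [e1]
    rw [integral_add, integral_sub, integral_sub, integral_const_mul, integral_const_mul,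
      setIntegral_const, smul_eq_mul, Measure.real]
    · exact intOn hK (by fun_prop)
    · exact intOn hK (by fun_prop)
    · exact intOn hK (by fun_prop)
    · exact intOn hK (by fun_prop)
    · exact intOn hK (by fun_prop)
    · exact intOn hK (by fun_prop)
  have hi : ∫ x in K, x i = (volume K).toReal * centroid K i := by
    simp only [centroid]; field_simp
  have hj : ∫ x in K, x j = (volume K).toReal * centroid K j := by
    simp only [centroid]; field_simp
  rw [e, cov_eq hK hV, hi, hj]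
  field_simp
  ring

/-- `det Σ_K ≤ (|U| / |K|)ⁿ det Σ_U` for `K ⊆ U`. -/
lemma det_cov_le_of_subset (hn : 0 < n) (hK : IsCompact K) (hV : 0 < (volume K).toReal)
    (hU : IsConvexBody U) (hKU : K ⊆ U) :
    (covMatrix K).det ≤ ((volume U).toReal / (volume K).toReal) ^ n * (covMatrix U).det := by
  have hn0 : (0 : ℝ) < n := by exact_mod_cast hn
  have hUc := hU.2.1
  have hVU : 0 < (volume U).toReal :=
    hV.trans_le (ENNReal.toReal_mono hUc.measure_ne_top (measure_mono hKU))
  have hP := covMatrix_posDef hU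
  set C := covMatrix U with hC
  have hCdet : 0 < C.det := hP.det_pos
  set B := C⁻¹ with hB
  have hBP : B.PosDef := hP.inv
  have hBC : B * C = 1 := nonsing_inv_mul _ (isUnit_iff_ne_zero.mpr hCdet.ne')
  have hBdet : B.det = C.det⁻¹ := by
    have : B.det * C.det = 1 := by rw [← det_mul, hBC, det_one]
    exact eq_inv_of_mul_eq_one_left this
  -- the quadratic form
  have hqc : ∀ c : Fin n → ℝ,
      Continuous fun x : Fin n → ℝ => ∑ i, ∑ j, B i j * ((x i - c i) * (x j - c j)) := by
    intro c; fun_prop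
  have hq0 : ∀ c x : Fin n → ℝ, 0 ≤ ∑ i, ∑ j, B i j * ((x i - c i) * (x j - c j)) := by
    intro c x
    have := hBP.posSemidef.dotProduct_mulVec_nonneg (x - c)
    refine this.trans (le_of_eq ?_)
    simp only [dotProduct, mulVec, star_trivial, Finset.mul_sum, Pi.sub_apply]
    refine Finset.sum_congr rfl (fun i _ => Finset.sum_congr rfl (fun j _ => ?_))
    ring
  have hint : ∀ (c : Fin n → ℝ) {L : Set (Fin n → ℝ)}, IsCompact L → (volume L).toReal ≠ 0 →
      (volume L).toReal⁻¹ * ∫ x in L, ∑ i, ∑ j, B i j * ((x i - c i) * (x j - c j))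
        = (B * covMatrix L).trace
          + ∑ i, ∑ j, B i j * ((centroid L i - c i) * (centroid L j - c j)) := by
    intro c L hL hLV
    have e1 : ∫ x in L, ∑ i, ∑ j, B i j * ((x i - c i) * (x j - c j))
        = ∑ i, ∑ j, B i j * ∫ x in L, (x i - c i) * (x j - c j) := by
      rw [integral_finsetSum _ (fun i _ => intOn hL (by fun_prop))]
      refine Finset.sum_congr rfl (fun i _ => ?_)
      rw [integral_finsetSum _ (fun j _ => intOn hL (by fun_prop))]
      refine Finset.sum_congr rfl (fun j _ => ?_)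
      rw [integral_const_mul]
    rw [e1, Finset.mul_sum]
    simp only [trace, diag_apply, mul_apply]
    rw [← Finset.sum_add_distrib]
    refine Finset.sum_congr rfl (fun i _ => ?_)
    rw [Finset.mul_sum, ← Finset.sum_add_distrib]
    refine Finset.sum_congr rfl (fun j _ => ?_)
    rw [mul_left_comm, cov_shift hL hLV, covMatrix_symm L j i]
    ring
  have hz : ∀ c : Fin n → ℝ,
      ∑ i : Fin n, ∑ j : Fin n, B i j * ((c i - c i) * (c j - c j)) = 0 := by
    intro c; simp
  set c := centroid U with hc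
  have h1 := hint c hK hV.ne'
  have h2 := hint c hUc hVU.ne'
  rw [← hc, ← hC, hBC, trace_one, Fintype.card_fin, hz, add_zero] at h2
  have h4 : 0 ≤ ∑ i, ∑ j, B i j * ((centroid K i - c i) * (centroid K j - c j)) :=
    hq0 c (centroid K)
  have h5 : ∫ x in K, ∑ i, ∑ j, B i j * ((x i - c i) * (x j - c j))
      ≤ ∫ x in U, ∑ i, ∑ j, B i j * ((x i - c i) * (x j - c j)) :=
    setIntegral_mono_set (intOn hUc (hqc c)) (Filter.Eventually.of_forall (hq0 c))
      (Filter.Eventually.of_forall hKU)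
  have h6 : (B * covMatrix K).trace ≤ (volume U).toReal / (volume K).toReal * n := by
    have h7 : ∫ x in U, ∑ i, ∑ j, B i j * ((x i - c i) * (x j - c j))
        = (volume U).toReal * n := by
      rw [← h2]; field_simp
    have h8 := mul_le_mul_of_nonneg_left (h5.trans h7.le) (inv_nonneg.mpr hV.le)
    rw [h1] at h8
    calc (B * covMatrix K).trace ≤ (volume K).toReal⁻¹ * ((volume U).toReal * n) := by linarith
      _ = _ := by field_simp
  have hKP := covMatrix_posSemidef hK
  have h9 := det_mul_det_le hn hBP.posSemidef hKP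
  have h10 : 0 ≤ (B * covMatrix K).trace / n := by
    have h11 := hint (centroid K) hK hV.ne'
    rw [hz, add_zero] at h11
    rw [← h11]
    exact div_nonneg (mul_nonneg (inv_nonneg.mpr hV.le) (integral_nonneg (hq0 _))) hn0.le
  have h11 : (B * covMatrix K).trace / n ≤ (volume U).toReal / (volume K).toReal := by
    rw [div_le_iff₀ hn0]; exact h6
  have h12 := h9.trans (pow_le_pow_left₀ h10 h11 n)
  rw [hBdet, inv_mul_eq_div, div_le_iff₀ hCdet] at h12
  exact h12

end Vale.Agent.P254
end

section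

/-!
Free sums of convex bodies: the bound on the centroid and the determinant.
-/

open MeasureTheory Set Matrix
open scoped Pointwise

namespace Vale.Agent.P254.FV

variable {m n p : ℕ}

theorem deriv_bound {A B C : ℝ}
    (h : ∀ r ∈ Ioo (0 : ℝ) 1, 0 ≤ (1 - r ^ (p + 2)) * A - (1 - r ^ (p + 1)) * B + (1 - r ^ p) * C) :
    0 ≤ ((p : ℝ) + 2) * A - ((p : ℝ) + 1) * B + (p : ℝ) * C := by
  let q : ℝ → ℝ := fun r => (∑ i ∈ Finset.range (p + 2), r ^ i) * A -
    (∑ i ∈ Finset.range (p + 1), r ^ i) * B + (∑ i ∈ Finset.range p, r ^ i) * C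
  have hq : Continuous q := by fun_prop
  have h1 : Ioo (0 : ℝ) 1 ⊆ {r | 0 ≤ q r} := by
    intro r hr
    have h2 := h r hr
    rw [← geom_sum_mul_neg, ← geom_sum_mul_neg, ← geom_sum_mul_neg] at h2
    have h3 : 0 < 1 - r := by linarith [hr.2]
    have h4 : 0 ≤ (1 - r) * q r := by
      simp only [q]
      linarith
    exact nonneg_of_mul_nonneg_right h4 h3
  have h2 : IsClosed {r | 0 ≤ q r} := isClosed_le continuous_const hq
  have h3 : (1 : ℝ) ∈ {r | 0 ≤ q r} := by
    apply closure_minimal h1 h2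
    rw [closure_Ioo zero_ne_one]
    exact ⟨zero_le_one, le_rfl⟩
  simpa [q] using h3

theorem kls (hp : 1 ≤ p) {K : Set (Fin p → ℝ)} (hK : IsConvexBody K)
    (h0 : (0 : Fin p → ℝ) ∈ K) {η : Fin p → ℝ}
    (h : covMatrix K *ᵥ η = (1 / ((p : ℝ) + 2)) • centroid K) :
    0 ≤ centroid K ⬝ᵥ η ∧ centroid K ⬝ᵥ η ≤ p := by
  have hV := vol_pos hK
  set V := (volume K).toReal with hVdef
  set s := centroid K ⬝ᵥ η with hs
  have hp0 : (0 : ℝ) < p := by exact_mod_cast hp
  have hquad : ∑ i, ∑ j, η i * covMatrix K i j * η j = s / ((p : ℝ) + 2) := by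
    have e : ∑ i, ∑ j, η i * covMatrix K i j * η j = η ⬝ᵥ (covMatrix K *ᵥ η) := by
      simp only [dotProduct, mulVec, Finset.mul_sum]
      refine Finset.sum_congr rfl (fun i _ => Finset.sum_congr rfl (fun j _ => ?_))
      ring
    rw [e, h, dotProduct_smul, smul_eq_mul, dotProduct_comm, ← hs]
    ring
  have hl : ∀ x : Fin p → ℝ, ∑ i, η i * (x i - centroid K i) = η ⬝ᵥ x - s := by
    intro x
    rw [hs, dotProduct_comm (centroid K), dotProduct, dotProduct, ← Finset.sum_sub_distrib]
    exact Finset.sum_congr rfl fun i _ => by ring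
  have hcont : Continuous fun x : Fin p → ℝ => η ⬝ᵥ x := by
    unfold dotProduct
    fun_prop
  have hI1 : ∫ x in K, η ⬝ᵥ x = V * s := by
    have h1 : ∀ i, ∫ x in K, x i = V * centroid K i := by
      intro i
      simp only [centroid]
      rw [← hVdef]
      field_simp
    simp only [dotProduct]
    rw [integral_finsetSum _ (fun i _ => intOn hK.2.1 (by fun_prop))]
    simp_rw [integral_const_mul, h1]
    rw [hs, dotProduct, Finset.mul_sum]
    exact Finset.sum_congr rfl fun i _ => by ring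
  have hexp : ∀ (lam : ℝ) (T : Set (Fin p → ℝ)), IsCompact T → ∫ x in T, (η ⬝ᵥ x - lam) ^ 2 =
      (∫ x in T, (η ⬝ᵥ x) ^ 2) - 2 * lam * (∫ x in T, η ⬝ᵥ x) +
        lam ^ 2 * ∫ x in T, (1 : ℝ) := by
    intro lam T hT
    have e : ∀ x : Fin p → ℝ, (η ⬝ᵥ x - lam) ^ 2 =
        (η ⬝ᵥ x) ^ 2 - 2 * lam * (η ⬝ᵥ x) + lam ^ 2 * 1 := fun x => by ring
    simp_rw [e]
    rw [integral_add, integral_sub, integral_const_mul, integral_const_mul]
    · exact intOn hT (by fun_prop)
    · exact intOn hT (by fun_prop)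
    · exact intOn hT (by fun_prop)
    · exact intOn hT (by fun_prop)
  have hV1 : ∫ _ in K, (1 : ℝ) = V := by
    rw [setIntegral_const, smul_eq_mul, mul_one]
    rfl
  have hI2 : ∫ x in K, (η ⬝ᵥ x) ^ 2 = V * (s / ((p : ℝ) + 2) + s ^ 2) := by
    have h1 := cov_quad hK.2.1 η
    simp_rw [hl] at h1
    rw [hquad, hexp s K hK.2.1, hI1, hV1, ← hVdef] at h1
    field_simp at h1 ⊢
    linarith
  have hmono : ∀ lam : ℝ, ∀ r ∈ Ioo (0 : ℝ) 1, 0 ≤ (1 - r ^ (p + 2)) * (∫ x in K, (η ⬝ᵥ x) ^ 2) -
      (1 - r ^ (p + 1)) * (2 * lam * ∫ x in K, η ⬝ᵥ x) + (1 - r ^ p) * (lam ^ 2 * V) := by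
    intro lam r hr
    have hsub : r • K ⊆ K := by
      rintro _ ⟨x, hx, rfl⟩
      exact hK.1.smul_mem_of_zero_mem h0 hx ⟨hr.1.le, hr.2.le⟩
    have h1 : ∫ x in r • K, (η ⬝ᵥ x - lam) ^ 2 ≤ ∫ x in K, (η ⬝ᵥ x - lam) ^ 2 :=
      setIntegral_mono_set (intOn hK.2.1 (by fun_prop))
        (Filter.Eventually.of_forall fun x => sq_nonneg _) hsub.eventuallyLE
    rw [hexp lam _ (hK.2.1.smul r), hexp lam _ hK.2.1] at h1
    have e2 : ∫ x in r • K, (η ⬝ᵥ x) ^ 2 = r ^ (p + 2) * ∫ x in K, (η ⬝ᵥ x) ^ 2 :=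
      scale_int (fun r x => by rw [dotProduct_smul, smul_eq_mul, mul_pow]) hr.1
    have e1 : ∫ x in r • K, η ⬝ᵥ x = r ^ (p + 1) * ∫ x in K, η ⬝ᵥ x :=
      scale_int (fun r x => by rw [dotProduct_smul, smul_eq_mul, pow_one]) hr.1
    have e0 : ∫ x in r • K, (1 : ℝ) = r ^ (p + 0) * ∫ x in K, (1 : ℝ) :=
      scale_int (F := fun _ => (1 : ℝ)) (fun r x => by simp) hr.1
    rw [e2, e1, e0, hV1, add_zero] at h1
    linarith
  have hs0 : 0 ≤ s := by
    have h1 : 0 ≤ s / ((p : ℝ) + 2) := by
      rw [← hquad, cov_quad hK.2.1]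
      exact mul_nonneg (inv_nonneg.mpr ENNReal.toReal_nonneg) (integral_nonneg fun x => sq_nonneg _)
    have h2 : (0 : ℝ) < (p : ℝ) + 2 := by positivity
    have h3 := mul_nonneg h1 h2.le
    rwa [div_mul_cancel₀ _ h2.ne'] at h3
  refine ⟨hs0, ?_⟩
  have h5 := deriv_bound (hmono (((p : ℝ) + 1) * s / p))
  rw [hI1, hI2] at h5
  have e : ((p : ℝ) + 2) * (V * (s / ((p : ℝ) + 2) + s ^ 2)) -
      ((p : ℝ) + 1) * (2 * (((p : ℝ) + 1) * s / p) * (V * s)) +
      (p : ℝ) * ((((p : ℝ) + 1) * s / p) ^ 2 * V) = V * s * (p - s) / p := by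
    field_simp
    ring
  rw [e] at h5
  by_contra hlt
  rw [not_le] at hlt
  have hs1 : 0 < s := hp0.trans hlt
  have : V * s * (p - s) / p < 0 := by
    apply div_neg_of_neg_of_pos _ hp0
    exact mul_neg_of_pos_of_neg (mul_pos hV hs1) (by linarith)
  linarith

theorem det_one_add_vecMulVec' {ι : Type*} [Fintype ι] [DecidableEq ι] (u v : ι → ℝ) :
    det (1 + vecMulVec u v) = 1 + v ⬝ᵥ u := by
  rw [vecMulVec_eq Unit, det_one_add_replicateCol_mul_replicateRow]

theorem X_eq {C : Matrix (Fin p) (Fin p) ℝ} {c η : Fin p → ℝ}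
    (h : C *ᵥ η = (1 / ((p : ℝ) + 2)) • c) :
    (((p : ℝ) + 1) * ((p : ℝ) + 2)) • C + ((p : ℝ) + 1) • vecMulVec c c =
      (((p : ℝ) + 1) * ((p : ℝ) + 2)) • (C * (1 + vecMulVec η c)) := by
  have h2 : ((p : ℝ) + 2) ≠ 0 := by positivity
  rw [Matrix.mul_add, Matrix.mul_one, mul_vecMulVec, h, smul_add]
  congr 1
  ext i j
  simp only [Matrix.smul_apply, vecMulVec_apply, Pi.smul_apply, smul_eq_mul]
  field_simp

theorem det_X {C : Matrix (Fin p) (Fin p) ℝ} {c η : Fin p → ℝ}
    (h : C *ᵥ η = (1 / ((p : ℝ) + 2)) • c) :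
    det ((((p : ℝ) + 1) * ((p : ℝ) + 2)) • C + ((p : ℝ) + 1) • vecMulVec c c) =
      (((p : ℝ) + 1) * ((p : ℝ) + 2)) ^ p * (C.det * (1 + c ⬝ᵥ η)) := by
  rw [X_eq h, det_smul, Fintype.card_fin, det_mul, det_one_add_vecMulVec']

theorem X_mulVec {C : Matrix (Fin p) (Fin p) ℝ} {c η : Fin p → ℝ}
    (h : C *ᵥ η = (1 / ((p : ℝ) + 2)) • c) (h1 : 1 + c ⬝ᵥ η ≠ 0) :
    ((((p : ℝ) + 1) * ((p : ℝ) + 2)) • C + ((p : ℝ) + 1) • vecMulVec c c) *ᵥ
      ((1 / (1 + c ⬝ᵥ η)) • η) = ((p : ℝ) + 1) • c := by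
  have h2 : ((p : ℝ) + 2) ≠ 0 := by positivity
  rw [mulVec_smul, Matrix.add_mulVec, Matrix.smul_mulVec, h, Matrix.smul_mulVec, vecMulVec_mulVec]
  ext i
  simp only [Pi.smul_apply, Pi.add_apply, smul_eq_mul, MulOpposite.smul_eq_mul_unop,
    MulOpposite.unop_op]
  field_simp

end Vale.Agent.P254.FV
end

section

/-!
Strict supermultiplicativity of the values of the simplices.
-/

namespace Vale.Agent.P254.FV

theorem bern3 {a : ℝ} (ha : 0 ≤ a) (k : ℕ) :
    1 + k * a + (k : ℝ) * (k - 1) / 2 * a ^ 2 ≤ (1 + a) ^ k := by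
  induction k with
  | zero => simp
  | succ k ih =>
    rw [pow_succ]
    have h1 : (1 + k * a + (k : ℝ) * (k - 1) / 2 * a ^ 2) * (1 + a) ≤ (1 + a) ^ k * (1 + a) :=
      mul_le_mul_of_nonneg_right ih (by linarith)
    refine le_trans ?_ h1
    push_cast
    have h2 : 0 ≤ (k : ℝ) * (k - 1) / 2 * a ^ 3 := by
      have h3 : 0 ≤ (k : ℝ) * (k - 1) := by
        rcases k with _ | k
        · simp
        · push_cast
          have : (0 : ℝ) ≤ k := Nat.cast_nonneg k
          nlinarith
      positivity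
    nlinarith

theorem key_poly (n : ℕ) {u : ℝ} (hu : u = ((n : ℝ) + 1) * ((n : ℝ) + 4)) :
    ((n : ℝ) + 1) ^ 2 * ((n : ℝ) + 4) * ((n : ℝ) + 3) ^ 2 <
      (1 + ((n : ℝ) + 1) * (2 / u) + ((n : ℝ) + 1) * ((n : ℝ) + 1 - 1) / 2 * (2 / u) ^ 2) *
        ((n : ℝ) + 2) ^ 5 := by
  have hn : (0 : ℝ) ≤ n := Nat.cast_nonneg n
  have e : (1 + ((n : ℝ) + 1) * (2 / u) + ((n : ℝ) + 1) * ((n : ℝ) + 1 - 1) / 2 * (2 / u) ^ 2) =
      (((n : ℝ) + 1) * ((n : ℝ) + 4) ^ 2 + 2 * (((n : ℝ) + 1) * ((n : ℝ) + 4)) + 2 * (n : ℝ)) /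
        (((n : ℝ) + 1) * ((n : ℝ) + 4) ^ 2) := by
    rw [hu]
    field_simp
    ring
  rw [e, div_mul_eq_mul_div, lt_div_iff₀ (by positivity)]
  have : 0 < (((n : ℝ) + 1) * ((n : ℝ) + 4) ^ 2 + 2 * (((n : ℝ) + 1) * ((n : ℝ) + 4)) +
      2 * (n : ℝ)) * ((n : ℝ) + 2) ^ 5 -
      ((n : ℝ) + 1) ^ 2 * ((n : ℝ) + 4) * ((n : ℝ) + 3) ^ 2 *
        (((n : ℝ) + 1) * ((n : ℝ) + 4) ^ 2) := by
    have e2 : (((n : ℝ) + 1) * ((n : ℝ) + 4) ^ 2 + 2 * (((n : ℝ) + 1) * ((n : ℝ) + 4)) +
      2 * (n : ℝ)) * ((n : ℝ) + 2) ^ 5 -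
      ((n : ℝ) + 1) ^ 2 * ((n : ℝ) + 4) * ((n : ℝ) + 3) ^ 2 *
        (((n : ℝ) + 1) * ((n : ℝ) + 4) ^ 2) =
      2 * ((n : ℝ) + 1) ^ 5 + 29 * ((n : ℝ) + 1) ^ 4 + 83 * ((n : ℝ) + 1) ^ 3 +
        73 * ((n : ℝ) + 1) ^ 2 + 7 * ((n : ℝ) + 1) - 2 := by
      ring
    rw [e2]
    nlinarith [pow_nonneg (add_nonneg hn zero_le_one) 5, pow_nonneg (add_nonneg hn zero_le_one) 4,
      pow_nonneg (add_nonneg hn zero_le_one) 3, pow_nonneg (add_nonneg hn zero_le_one) 2]
  linarith

theorem key_ineq (n : ℕ) :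
    ((n : ℝ) + 1) ^ (n + 1) * ((n : ℝ) + 4) ^ (n + 1) * (((n : ℝ) + 1) ^ 2 * ((n : ℝ) + 4) *
      ((n : ℝ) + 3) ^ 2) <
    ((n : ℝ) + 2) ^ (n + 1) * ((n : ℝ) + 3) ^ (n + 1) * ((n : ℝ) + 2) ^ 5 := by
  have hn : (0 : ℝ) ≤ n := Nat.cast_nonneg n
  set u : ℝ := ((n : ℝ) + 1) * ((n : ℝ) + 4) with hu
  have hu0 : 0 < u := by positivity
  have h1 := bern3 (a := 2 / u) (by positivity) (n + 1)
  have h2 : ((n : ℝ) + 2) ^ (n + 1) * ((n : ℝ) + 3) ^ (n + 1) =
      ((n : ℝ) + 1) ^ (n + 1) * ((n : ℝ) + 4) ^ (n + 1) * (1 + 2 / u) ^ (n + 1) := by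
    rw [← mul_pow, ← mul_pow, ← mul_pow, ← hu]
    congr 1
    have h3 : u * (1 + 2 / u) = u + 2 := by field_simp
    rw [h3, hu]
    ring
  rw [h2]
  set A : ℝ := ((n : ℝ) + 1) ^ (n + 1) * ((n : ℝ) + 4) ^ (n + 1) with hA
  have hA0 : 0 < A := by positivity
  have h5 : A * (((n : ℝ) + 1) ^ 2 * ((n : ℝ) + 4) * ((n : ℝ) + 3) ^ 2) <
      A * ((1 + ((n + 1 : ℕ) : ℝ) * (2 / u) +
        ((n + 1 : ℕ) : ℝ) * (((n + 1 : ℕ) : ℝ) - 1) / 2 * (2 / u) ^ 2) * ((n : ℝ) + 2) ^ 5) := by
    refine (mul_lt_mul_iff_right₀ hA0).2 ?_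
    push_cast
    exact key_poly n hu
  refine h5.trans_le ?_
  rw [mul_assoc A ((1 + 2 / u) ^ (n + 1))]
  exact mul_le_mul_of_nonneg_left (mul_le_mul_of_nonneg_right h1 (by positivity)) hA0.le

theorem simpC_ratio (n : ℕ) :
    simpC (n + 1) * simpC (n + 1) < simpC n * simpC (n + 2) := by
  have hk := key_ineq n
  unfold simpC
  rw [Nat.factorial_succ (n + 1), Nat.factorial_succ n]
  push_cast
  have h4 : ((n : ℝ) + 1 + 1) = (n : ℝ) + 2 := by ring
  have h5 : ((n : ℝ) + 1 + 2) = (n : ℝ) + 3 := by ring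
  have h6 : ((n : ℝ) + 2 + 1) = (n : ℝ) + 3 := by ring
  have h7 : ((n : ℝ) + 2 + 2) = (n : ℝ) + 4 := by ring
  rw [h4, h5, h6, h7]
  have hf : (0 : ℝ) < n.factorial := by positivity
  rw [div_mul_div_comm, div_mul_div_comm, div_lt_div_iff₀ (by positivity) (by positivity)]
  set a : ℝ := (n : ℝ) + 1
  set b : ℝ := (n : ℝ) + 2
  set c : ℝ := (n : ℝ) + 3
  set d : ℝ := (n : ℝ) + 4
  have ha : 0 < a := by positivity
  have hb : 0 < b := by positivity
  have hc : 0 < c := by positivity
  have hd : 0 < d := by positivity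
  have h8 : 0 < (n.factorial : ℝ) ^ 4 * a ^ 2 * b ^ n * c ^ (n + 1) := by positivity
  have h9 := (mul_lt_mul_iff_right₀ h8).2 hk
  clear_value a b c d
  calc _ = (n.factorial : ℝ) ^ 4 * a ^ 2 * b ^ n * c ^ (n + 1) *
        (a ^ (n + 1) * d ^ (n + 1) * (a ^ 2 * d * c ^ 2)) := by ring
    _ < _ := h9
    _ = _ := by ring

theorem simpC_zero : simpC 0 = 1 := by simp [simpC]

theorem simpC_mul_le (p q : ℕ) : simpC p * simpC q ≤ simpC (p + q) ∧
    (1 ≤ p → 1 ≤ q → simpC p * simpC q < simpC (p + q)) := by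
  let r : ℕ → ℝ := fun n => simpC (n + 1) / simpC n
  have hr : StrictMono r := by
    refine strictMono_nat_of_lt_succ fun n => ?_
    simp only [r]
    rw [div_lt_div_iff₀ (simpC_pos n) (simpC_pos (n + 1))]
    have := simpC_ratio n
    linarith [mul_comm (simpC n) (simpC (n + 2))]
  have hstep : ∀ n, simpC (n + 1) = simpC n * r n := fun n => by
    simp only [r]
    rw [mul_div_cancel₀ _ (simpC_pos n).ne']
  have hrpos : ∀ n, 0 < r n := fun n => div_pos (simpC_pos _) (simpC_pos _)
  induction q with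
  | zero => simp [simpC_zero]
  | succ q ih =>
    have h1 : simpC p * simpC (q + 1) ≤ simpC (p + q) * r q := by
      rw [hstep q, ← mul_assoc]
      exact mul_le_mul_of_nonneg_right ih.1 (hrpos q).le
    have h2 : simpC (p + (q + 1)) = simpC (p + q) * r (p + q) := hstep (p + q)
    rw [h2]
    refine ⟨h1.trans (mul_le_mul_of_nonneg_left (hr.monotone (by omega)) (simpC_pos _).le), ?_⟩
    intro hp _
    exact h1.trans_lt ((mul_lt_mul_iff_right₀ (simpC_pos _)).2 (hr (by omega)))

end Vale.Agent.P254.FV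
end

section

/-!
From the bound for a body `U` to the bodies `K` nearly filling an affine image of `U`.
-/

open MeasureTheory Set Matrix

namespace Vale.Agent.P254

variable {n : ℕ} {K U S : Set (Fin n → ℝ)}

lemma volume_pos_of_body (hK : IsConvexBody K) : 0 < (volume K).toReal :=
  ENNReal.toReal_pos ((isOpen_interior.measure_pos volume hK.2.2).trans_le
    (measure_mono interior_subset)).ne' hK.2.1.measure_ne_top

lemma isConvexBody_aff_image {A : Matrix (Fin n) (Fin n) ℝ} (hA : A.det ≠ 0) (b : Fin n → ℝ)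
    (hU : IsConvexBody U) : IsConvexBody (aff A b '' U) := by
  refine ⟨?_, isCompact_aff_image A b hU.2.1, ?_⟩
  · rw [← coe_affMap]
    exact hU.1.affine_image _
  · have hconv : Convex ℝ (aff A b '' U) := by
      rw [← coe_affMap]
      exact hU.1.affine_image _
    have hV : 0 < (volume (aff A b '' U)).toReal := by
      rw [volume_aff_image hA b hU.2.1.measurableSet]
      exact mul_pos (abs_pos.mpr hA) (volume_pos_of_body hU)
    by_contra hne
    rw [not_nonempty_iff_eq_empty] at hne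
    have h8 := hconv.addHaar_frontier (volume : Measure (Fin n → ℝ))
    rw [(isCompact_aff_image A b hU.2.1).isClosed.frontier_eq, hne, sdiff_empty] at h8
    rw [h8] at hV
    simp at hV

/-- the class of the bodies nearly filling an affine image of a body `U` with a small
isotropic constant -/
lemma isoConst_lt_of_near (hn : 2 ≤ n) (hK : IsConvexBody K) (hS : IsSimplex S)
    (hU : IsConvexBody U) {A : Matrix (Fin n) (Fin n) ℝ} (hA : A.det ≠ 0) {b : Fin n → ℝ}
    (hKU : K ⊆ aff A b '' U)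
    (hvol : 79 / 80 * (volume (aff A b '' U)).toReal ≤ (volume K).toReal)
    (hnum : ((n : ℝ) + 1) ^ (2 * n + 1) * (80 / 79) ^ (n + 2) < 8 ^ n * (n.factorial : ℝ) ^ 2)
    (hbody : (covMatrix U).det / (volume U).toReal ^ 2 ≤ (((n : ℝ) + 1) / (8 * (n + 2))) ^ n) :
    isoConst K < isoConst S := by
  have hn0 : 0 < n := by omega
  have hV := volume_pos_of_body hK
  have hVU := volume_pos_of_body hU
  set U' := aff A b '' U with hU'
  have hUb : IsConvexBody U' := isConvexBody_aff_image hA b hU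
  have hVU' := volume_pos_of_body hUb
  have h1 := det_cov_le_of_subset hn0 hK.2.1 hV hUb hKU
  have h2 : (covMatrix U').det / (volume U').toReal ^ 2
      = (covMatrix U).det / (volume U).toReal ^ 2 := by
    rw [hU', cov_aff_image hA b hU.2.1 hVU.ne', volume_aff_image hA b hU.2.1.measurableSet,
      det_mul, det_mul, det_transpose, mul_pow, sq_abs]
    field_simp
  set V := (volume K).toReal with hVd
  set W := (volume U').toReal with hWd
  have hr : W / V ≤ 80 / 79 := by
    rw [div_le_iff₀ hV]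
    linarith
  have hr0 : 0 < W / V := div_pos hVU' hV
  have hdU : 0 ≤ (covMatrix U').det / W ^ 2 :=
    div_nonneg (covMatrix_posSemidef hUb.2.1).det_nonneg (by positivity)
  have h3 : (covMatrix K).det / V ^ 2 ≤ (W / V) ^ (n + 2) * ((covMatrix U').det / W ^ 2) := by
    rw [div_le_iff₀ (by positivity)]
    refine h1.trans (le_of_eq ?_)
    rw [pow_add]
    field_simp
  have h4 : (covMatrix K).det / V ^ 2
      ≤ (80 / 79) ^ (n + 2) * (((n : ℝ) + 1) / (8 * (n + 2))) ^ n := by
    refine h3.trans ?_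
    rw [h2] at hdU ⊢
    exact mul_le_mul (pow_le_pow_left₀ hr0.le hr _) hbody hdU (by positivity)
  have h5 : ∀ θ : ℝ, ((n : ℝ) + 1) ^ (2 * n + 1) * θ < 8 ^ n * (n.factorial : ℝ) ^ 2 →
      θ * (((n : ℝ) + 1) / (8 * (n + 2))) ^ n < FV.simpC n := by
    intro θ hθ
    unfold FV.simpC
    rw [div_pow, mul_pow, mul_pow, lt_div_iff₀ (by positivity), ← mul_div_assoc,
      div_mul_eq_mul_div, div_lt_iff₀ (by positivity)]
    have e1 : θ * ((n : ℝ) + 1) ^ n
        * (((n : ℝ) + 1) * (((n : ℝ) + 1) ^ n * ((n : ℝ) + 2) ^ n))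
        = ((n : ℝ) + 1) ^ (2 * n + 1) * θ * ((n : ℝ) + 2) ^ n := by
      ring
    have e2 : (n.factorial : ℝ) ^ 2 * (8 ^ n * ((n : ℝ) + 2) ^ n)
        = 8 ^ n * (n.factorial : ℝ) ^ 2 * ((n : ℝ) + 2) ^ n := by ring
    rw [e1, e2]
    exact mul_lt_mul_of_pos_right hθ (by positivity)
  rw [isoConst_simplex hS, isoConst, isoConst, FV.det_simplex (by omega)]
  have hn' : (0 : ℝ) < n := by exact_mod_cast hn0
  exact Real.rpow_lt_rpow (div_nonneg (covMatrix_posSemidef hK.2.1).det_nonneg (by positivity))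
    (h4.trans_lt (h5 _ hnum)) (by positivity)

/-- The strong isotropic constant conjecture with its equality case. -/
theorem conj_of_near (hn : 1 ≤ n) (hK : IsConvexBody K) (hS : IsSimplex S)
    (hU : IsConvexBody U) {A : Matrix (Fin n) (Fin n) ℝ} (hA : A.det ≠ 0) {b : Fin n → ℝ}
    (hKU : K ⊆ aff A b '' U)
    (hvol : 79 / 80 * (volume (aff A b '' U)).toReal ≤ (volume K).toReal)
    (hnum : 2 ≤ n →
      ((n : ℝ) + 1) ^ (2 * n + 1) * (80 / 79) ^ (n + 2) < 8 ^ n * (n.factorial : ℝ) ^ 2)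
    (hbody : (covMatrix U).det / (volume U).toReal ^ 2 ≤ (((n : ℝ) + 1) / (8 * (n + 2))) ^ n) :
    isoConst K ≤ isoConst S ∧ (isoConst K = isoConst S ↔ IsSimplex K) := by
  rcases Nat.lt_or_ge n 2 with h | h
  · have h1 : n = 1 := by omega
    subst h1
    have hKs := isSimplex_of_dim_one hK
    have e : isoConst K = isoConst S := by rw [isoConst_simplex hKs, isoConst_simplex hS]
    exact ⟨e.le, fun _ => hKs, fun _ => e⟩
  · have hlt := isoConst_lt_of_near h hK hS hU hA hKU hvol (hnum h) hbody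
    refine ⟨hlt.le, fun h' => absurd h' hlt.ne, fun h' => ?_⟩
    rw [isoConst_simplex h', isoConst_simplex hS]

end Vale.Agent.P254
end

section

/-!
The numeric inequality `(n+1)^(2n+1) < 8^n (n!)^2` for `n ≥ 2`.
-/

namespace Vale.Agent.P254.Unc

/-- `((m+1)/m)^(2m+1) ≤ 8` for `m ≥ 2`. -/
theorem ratio_le_eight {m : ℕ} (hm : 2 ≤ m) :
    ((m : ℝ) + 1) ^ (2 * m + 1) ≤ 8 * (m : ℝ) ^ (2 * m + 1) := by
  rcases Nat.lt_or_ge m 3 with h3 | h3
  · have : m = 2 := by omega
    subst this
    norm_num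
  · have hm0 : (0 : ℝ) < m := by positivity
    have h3' : (3 : ℝ) ≤ m := by exact_mod_cast h3
    set y : ℝ := ((m : ℝ) + 1) / m with hy
    have hy1 : 1 ≤ y := by rw [hy, le_div_iff₀ hm0]; linarith
    have hy0 : 0 < y := by linarith
    have hlog : Real.log y ≤ (y - y⁻¹) / 2 := by
      have h := Real.self_le_sinh_iff.2 (Real.log_nonneg hy1)
      rwa [Real.sinh_log hy0] at h
    have h2 : (y - y⁻¹) / 2 = (2 * (m : ℝ) + 1) / (2 * (m * (m + 1))) := by
      rw [hy, inv_div]
      field_simp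
      ring
    have h4 : ((2 * m + 1 : ℕ) : ℝ) * Real.log y ≤ 2 + 1 / 24 := by
      have h5 : ((2 * m + 1 : ℕ) : ℝ) * Real.log y
          ≤ (2 * (m : ℝ) + 1) * ((2 * (m : ℝ) + 1) / (2 * (m * (m + 1)))) := by
        push_cast
        rw [← h2]
        gcongr
      refine h5.trans ?_
      rw [← mul_div_assoc, div_le_iff₀ (by positivity)]
      nlinarith
    have h6 : y ^ (2 * m + 1) ≤ 8 := by
      have h7 : y ^ (2 * m + 1) = Real.exp (((2 * m + 1 : ℕ) : ℝ) * Real.log y) := by
        rw [Real.exp_nat_mul, Real.exp_log hy0]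
      rw [h7]
      refine (Real.exp_le_exp.2 h4).trans ?_
      have he1 := Real.exp_one_lt_d9
      have he0 : 0 < Real.exp 1 := Real.exp_pos 1
      have e2 : Real.exp (2 + 1 / 24) = Real.exp 1 * Real.exp 1 * Real.exp (1 / 24) := by
        rw [← Real.exp_add, ← Real.exp_add]
        norm_num
      have e3 : Real.exp (1 / 24) ≤ 24 / 23 := by
        have h8 := Real.add_one_le_exp (-(1 / 24) : ℝ)
        rw [Real.exp_neg] at h8
        have h9 : (23 / 24 : ℝ) ≤ (Real.exp (1 / 24))⁻¹ := by linarith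
        rw [le_inv_comm₀ (by norm_num) (Real.exp_pos _)] at h9
        linarith [h9, (by norm_num : (23 / 24 : ℝ)⁻¹ = 24 / 23)]
      rw [e2]
      have e4 : Real.exp 1 * Real.exp 1 ≤ 2.7182818286 * 2.7182818286 := by
        gcongr
      calc Real.exp 1 * Real.exp 1 * Real.exp (1 / 24)
          ≤ (2.7182818286 * 2.7182818286) * (24 / 23) := by gcongr
        _ ≤ 8 := by norm_num
    rw [hy, div_pow, div_le_iff₀ (by positivity)] at h6
    exact h6

/-- `((m+1)/m)^(2m+1) (80/79) ≤ 8` for `m ≥ 3`. -/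
theorem ratio_le_eight' {m : ℕ} (h3 : 3 ≤ m) :
    ((m : ℝ) + 1) ^ (2 * m + 1) * (80 / 79) ≤ 8 * (m : ℝ) ^ (2 * m + 1) := by
  have hm0 : (0 : ℝ) < m := by positivity
  have h3' : (3 : ℝ) ≤ m := by exact_mod_cast h3
  set y : ℝ := ((m : ℝ) + 1) / m with hy
  have hy1 : 1 ≤ y := by rw [hy, le_div_iff₀ hm0]; linarith
  have hy0 : 0 < y := by linarith
  have hlog : Real.log y ≤ (y - y⁻¹) / 2 := by
    have h := Real.self_le_sinh_iff.2 (Real.log_nonneg hy1)
    rwa [Real.sinh_log hy0] at h
  have h2 : (y - y⁻¹) / 2 = (2 * (m : ℝ) + 1) / (2 * (m * (m + 1))) := by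
    rw [hy, inv_div]
    field_simp
    ring
  have h4 : ((2 * m + 1 : ℕ) : ℝ) * Real.log y ≤ 2 + 1 / 24 := by
    have h5 : ((2 * m + 1 : ℕ) : ℝ) * Real.log y
        ≤ (2 * (m : ℝ) + 1) * ((2 * (m : ℝ) + 1) / (2 * (m * (m + 1)))) := by
      push_cast
      rw [← h2]
      gcongr
    refine h5.trans ?_
    rw [← mul_div_assoc, div_le_iff₀ (by positivity)]
    nlinarith
  have h6 : y ^ (2 * m + 1) ≤ 79 / 10 := by
    have h7 : y ^ (2 * m + 1) = Real.exp (((2 * m + 1 : ℕ) : ℝ) * Real.log y) := by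
      rw [Real.exp_nat_mul, Real.exp_log hy0]
    rw [h7]
    refine (Real.exp_le_exp.2 h4).trans ?_
    have he1 := Real.exp_one_lt_d9
    have he0 : 0 < Real.exp 1 := Real.exp_pos 1
    have e2 : Real.exp (2 + 1 / 24) = Real.exp 1 * Real.exp 1 * Real.exp (1 / 24) := by
      rw [← Real.exp_add, ← Real.exp_add]
      norm_num
    have e3 : Real.exp (1 / 24) ≤ 24 / 23 := by
      have h8 := Real.add_one_le_exp (-(1 / 24) : ℝ)
      rw [Real.exp_neg] at h8
      have h9 : (23 / 24 : ℝ) ≤ (Real.exp (1 / 24))⁻¹ := by linarith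
      rw [le_inv_comm₀ (by norm_num) (Real.exp_pos _)] at h9
      linarith [h9, (by norm_num : (23 / 24 : ℝ)⁻¹ = 24 / 23)]
    rw [e2]
    have e4 : Real.exp 1 * Real.exp 1 ≤ 2.7182818286 * 2.7182818286 := by
      gcongr
    calc Real.exp 1 * Real.exp 1 * Real.exp (1 / 24)
        ≤ (2.7182818286 * 2.7182818286) * (24 / 23) := by gcongr
      _ ≤ 79 / 10 := by norm_num
  rw [hy, div_pow, div_le_iff₀ (by positivity)] at h6
  have : (0 : ℝ) < (m : ℝ) ^ (2 * m + 1) := by positivity
  linarith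

/-- `(n+1)^(2n+1) (80/79)^(n+2) < 8^n (n!)^2` for `n ≥ 2`. -/
theorem pow_lt_factorial' {n : ℕ} (hn : 2 ≤ n) :
    ((n : ℝ) + 1) ^ (2 * n + 1) * (80 / 79) ^ (n + 2) < 8 ^ n * (n.factorial : ℝ) ^ 2 := by
  induction n, hn using Nat.le_induction with
  | base => norm_num [Nat.factorial]
  | succ n hn ih =>
    have h := ratio_le_eight' (m := n + 1) (by omega)
    push_cast at h ⊢
    have hn0 : (0 : ℝ) < (n : ℝ) + 1 := by positivity
    have e1 : ((n : ℝ) + 1 + 1) ^ (2 * (n + 1) + 1) * (80 / 79) ≤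
        8 * ((n : ℝ) + 1) ^ (2 * (n + 1) + 1) := h
    have e2 : ((n : ℝ) + 1) ^ (2 * (n + 1) + 1) = ((n : ℝ) + 1) ^ 2 * ((n : ℝ) + 1) ^ (2 * n + 1) := by
      rw [← pow_add]; congr 1; ring
    have e3 : ((n : ℝ) + 1) ^ 2 * (((n : ℝ) + 1) ^ (2 * n + 1) * (80 / 79) ^ (n + 2))
        < ((n : ℝ) + 1) ^ 2 * (8 ^ n * (n.factorial : ℝ) ^ 2) := by gcongr
    rw [Nat.factorial_succ]
    push_cast
    calc ((n : ℝ) + 1 + 1) ^ (2 * (n + 1) + 1) * (80 / 79) ^ (n + 1 + 2)
        = (((n : ℝ) + 1 + 1) ^ (2 * (n + 1) + 1) * (80 / 79)) * (80 / 79) ^ (n + 2) := by ring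
      _ ≤ (8 * ((n : ℝ) + 1) ^ (2 * (n + 1) + 1)) * (80 / 79) ^ (n + 2) := by gcongr
      _ = 8 * (((n : ℝ) + 1) ^ 2 * (((n : ℝ) + 1) ^ (2 * n + 1) * (80 / 79) ^ (n + 2))) := by
          rw [e2]; ring
      _ < 8 * (((n : ℝ) + 1) ^ 2 * (8 ^ n * (n.factorial : ℝ) ^ 2)) := by gcongr
      _ = 8 ^ (n + 1) * (((n : ℝ) + 1) * n.factorial) ^ 2 := by ring

/-- `(n+1)^(2n+1) < 8^n (n!)^2` for `n ≥ 2`. -/
theorem pow_lt_factorial {n : ℕ} (hn : 2 ≤ n) :
    ((n : ℝ) + 1) ^ (2 * n + 1) < 8 ^ n * (n.factorial : ℝ) ^ 2 := by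
  induction n, hn using Nat.le_induction with
  | base => norm_num [Nat.factorial]
  | succ n hn ih =>
    have h := ratio_le_eight (m := n + 1) (by omega)
    push_cast at h ⊢
    have hn0 : (0 : ℝ) < (n : ℝ) + 1 := by positivity
    have e1 : ((n : ℝ) + 1 + 1) ^ (2 * (n + 1) + 1) ≤ 8 * ((n : ℝ) + 1) ^ (2 * (n + 1) + 1) := h
    have e2 : ((n : ℝ) + 1) ^ (2 * (n + 1) + 1) = ((n : ℝ) + 1) ^ 2 * ((n : ℝ) + 1) ^ (2 * n + 1) := by
      rw [← pow_add]; congr 1; ring
    have e3 : ((n : ℝ) + 1) ^ 2 * ((n : ℝ) + 1) ^ (2 * n + 1)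
        < ((n : ℝ) + 1) ^ 2 * (8 ^ n * (n.factorial : ℝ) ^ 2) := by gcongr
    rw [Nat.factorial_succ]
    push_cast
    calc ((n : ℝ) + 1 + 1) ^ (2 * (n + 1) + 1) ≤ 8 * ((n : ℝ) + 1) ^ (2 * (n + 1) + 1) := e1
      _ < 8 * (((n : ℝ) + 1) ^ 2 * (8 ^ n * (n.factorial : ℝ) ^ 2)) := by rw [e2]; gcongr
      _ = 8 ^ (n + 1) * (((n : ℝ) + 1) * n.factorial) ^ 2 := by ring

end Vale.Agent.P254.Unc
end

section

/-!
The strong isotropic constant conjecture for the unconditional bodies and for the bodies nearly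
filling an unconditional body.
-/

open MeasureTheory Set Matrix

namespace Vale.Agent.P254

open Unc

theorem top_near {n : ℕ} (hUNC : UNCR n) (hn : 1 ≤ n) {K S : Set (Fin n → ℝ)}
    (hK : IsConvexBody K) (hS : IsSimplex S)
    (h : ∃ (A : Matrix (Fin n) (Fin n) ℝ) (b : Fin n → ℝ) (U : Set (Fin n → ℝ)), A.det ≠ 0 ∧
      IsConvexBody U ∧ Uncond U ∧ K ⊆ (fun x => A *ᵥ x + b) '' U ∧
      79 / 80 * (volume ((fun x => A *ᵥ x + b) '' U)).toReal ≤ (volume K).toReal) :
    isoConst K ≤ isoConst S ∧ (isoConst K = isoConst S ↔ IsSimplex K) ∧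
      (2 ≤ n → isoConst K < isoConst S) := by
  obtain ⟨A, b, U, hA, hU, hu, hKU, hvol⟩ := h
  obtain ⟨h1, h2⟩ := conj_of_near hn hK hS hU hA hKU hvol (fun h => pow_lt_factorial' h)
    (unc_body hUNC hU hu)
  exact ⟨h1, h2, fun h => isoConst_lt_of_near h hK hS hU hA hKU hvol (pow_lt_factorial' h)
    (unc_body hUNC hU hu)⟩

theorem top_uncond {n : ℕ} (hUNC : UNCR n) (hn : 1 ≤ n) {K : Set (Fin n → ℝ)}
    (h : ∃ (A : Matrix (Fin n) (Fin n) ℝ) (b : Fin n → ℝ) (U : Set (Fin n → ℝ)), A.det ≠ 0 ∧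
      IsConvexBody U ∧ Uncond U ∧ K = (fun x => A *ᵥ x + b) '' U) :
    isoConst K ≤ Real.sqrt (((n : ℝ) + 1) / (8 * ((n : ℝ) + 2))) := by
  obtain ⟨A, b, U, hA, hU, hu, rfl⟩ := h
  have e : isoConst ((fun x => A *ᵥ x + b) '' U) = isoConst U :=
    isoConst_aff_image hA b hU.2.1 (volume_pos_of_body hU).ne'
  rw [e]
  have h1 := unc_body hUNC hU hu
  have hn0 : (0 : ℝ) < n := by exact_mod_cast hn
  have hd : 0 ≤ (covMatrix U).det / (volume U).toReal ^ 2 :=
    div_nonneg (covMatrix_posSemidef hU.2.1).det_nonneg (by positivity)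
  have hc : (0 : ℝ) ≤ ((n : ℝ) + 1) / (8 * ((n : ℝ) + 2)) := by positivity
  rw [isoConst, Real.sqrt_eq_rpow]
  refine (Real.rpow_le_rpow hd h1 (by positivity)).trans (le_of_eq ?_)
  rw [← Real.rpow_natCast, ← Real.rpow_mul hc]
  congr 1
  field_simp

end Vale.Agent.P254
end

section

/-!
P254, almost unconditional bodies: the Steiner symmetral of a convex body in a coordinate direction.
-/

open MeasureTheory Set

namespace Vale.Agent.P254.AU

variable {n : ℕ}

/-- The Steiner symmetral of `K` in the direction of the coordinate `j`. -/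
def St (j : Fin n) (K : Set (Fin n → ℝ)) : Set (Fin n → ℝ) :=
  {x | ∃ u l : ℝ, Function.update x j u ∈ K ∧ Function.update x j l ∈ K ∧ 2 * |x j| ≤ u - l}

lemma update_comb (j : Fin n) (x z : Fin n → ℝ) (a b s t : ℝ) :
    Function.update (a • x + b • z) j (a * s + b * t) =
      a • Function.update x j s + b • Function.update z j t := by
  funext i
  by_cases h : i = j
  · subst h
    simp
  · simp [Function.update_of_ne h]

lemma convex_St (j : Fin n) {K : Set (Fin n → ℝ)} (hK : Convex ℝ K) : Convex ℝ (St j K) := by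
  rintro x ⟨u, l, hu, hl, hx⟩ z ⟨u', l', hu', hl', hz⟩ a b ha hb hab
  refine ⟨a * u + b * u', a * l + b * l', ?_, ?_, ?_⟩
  · rw [update_comb]
    exact hK hu hu' ha hb hab
  · rw [update_comb]
    exact hK hl hl' ha hb hab
  · have h1 : |(a • x + b • z) j| ≤ a * |x j| + b * |z j| := by
      simp only [Pi.add_apply, Pi.smul_apply, smul_eq_mul]
      refine (abs_add_le _ _).trans ?_
      rw [abs_mul, abs_mul, abs_of_nonneg ha, abs_of_nonneg hb]
    nlinarith [mul_le_mul_of_nonneg_left hx ha, mul_le_mul_of_nonneg_left hz hb]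

lemma isCompact_St (j : Fin n) {K : Set (Fin n → ℝ)} (hK : IsCompact K) : IsCompact (St j K) := by
  have hC : IsCompact ({p : ((Fin n → ℝ) × (Fin n → ℝ)) × ℝ |
      ∀ i, i ≠ j → p.1.1 i = p.1.2 i} ∩ ((K ×ˢ K) ×ˢ Icc (-1 : ℝ) 1)) := by
    refine IsCompact.inter_left ((hK.prod hK).prod isCompact_Icc) ?_
    have : {p : ((Fin n → ℝ) × (Fin n → ℝ)) × ℝ | ∀ i, i ≠ j → p.1.1 i = p.1.2 i} =
        ⋂ i, ⋂ (_ : i ≠ j), {p | p.1.1 i = p.1.2 i} := by
      ext p
      simp
    rw [this]
    refine isClosed_iInter fun i => isClosed_iInter fun _ => isClosed_eq ?_ ?_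
    · fun_prop
    · fun_prop
  have hcont : Continuous fun p : ((Fin n → ℝ) × (Fin n → ℝ)) × ℝ =>
      Function.update p.1.1 j (p.2 * (p.1.1 j - p.1.2 j) / 2) := by
    refine Continuous.update (by fun_prop) j (by fun_prop)
  convert hC.image hcont using 1
  ext x
  constructor
  · rintro ⟨u, l, hu, hl, hx⟩
    have hul : 0 ≤ u - l := le_trans (by positivity) hx
    refine ⟨((Function.update x j u, Function.update x j l), 2 * x j / (u - l)),
      ⟨fun i hi => ?_, ⟨⟨hu, hl⟩, ?_⟩⟩, ?_⟩
    · simp [Function.update_of_ne hi]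
    · show 2 * x j / (u - l) ∈ Icc (-1 : ℝ) 1
      rw [mem_Icc, ← abs_le]
      rcases eq_or_lt_of_le hul with h | h
      · rw [← h]; simp
      · rw [abs_div, abs_of_pos h, div_le_one h, abs_mul]
        simpa using hx
    · simp only [Function.update_self, Function.update_idem]
      rcases eq_or_lt_of_le hul with h | h
      · have h0 : x j = 0 := by
          rw [← h] at hx
          have := abs_nonneg (x j)
          exact abs_eq_zero.1 (le_antisymm (by linarith) this)
        rw [← h, div_zero, zero_mul, zero_div]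
        rw [← h0, Function.update_eq_self]
      · have : 2 * x j / (u - l) * (u - l) / 2 = x j := by
          field_simp
        rw [this, Function.update_eq_self]
  · rintro ⟨⟨⟨a, b⟩, θ⟩, ⟨hab, ⟨ha, hb⟩, hθ⟩, rfl⟩
    simp only at hab ha hb hθ ⊢
    have hb' : Function.update a j (b j) = b := by
      funext i
      by_cases h : i = j
      · subst h; simp
      · rw [Function.update_of_ne h]; exact hab i h
    have hθ' : |θ| ≤ 1 := abs_le.2 hθ
    have h1 : 2 * |θ * (a j - b j) / 2| ≤ |a j - b j| := by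
      rw [abs_div, abs_mul, abs_two]
      have := mul_le_mul_of_nonneg_right hθ' (abs_nonneg (a j - b j))
      linarith
    rcases le_total (b j) (a j) with h | h
    · refine ⟨a j, b j, ?_, ?_, ?_⟩
      · simpa using ha
      · rw [Function.update_idem, hb']; exact hb
      · rw [Function.update_self]
        rwa [abs_of_nonneg (sub_nonneg.2 h)] at h1
    · refine ⟨b j, a j, ?_, ?_, ?_⟩
      · rw [Function.update_idem, hb']; exact hb
      · simpa using ha
      · rw [Function.update_self]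
        rwa [abs_of_nonpos (sub_nonpos.2 h), neg_sub] at h1

/-- the symmetral is symmetric -/
lemma St_symm (j : Fin n) {K : Set (Fin n → ℝ)} {x : Fin n → ℝ} (hx : x ∈ St j K) {t : ℝ}
    (ht : |t| ≤ |x j|) : Function.update x j t ∈ St j K := by
  obtain ⟨u, l, hu, hl, h⟩ := hx
  refine ⟨u, l, by simpa using hu, by simpa using hl, ?_⟩
  rw [Function.update_self]
  linarith

/-- the symmetral keeps the symmetries in the other coordinates -/
lemma St_symm' (j : Fin n) {K : Set (Fin n → ℝ)} {i : Fin n} (hij : i ≠ j)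
    (hK : ∀ x ∈ K, Function.update x i (-x i) ∈ K) :
    ∀ x ∈ St j K, Function.update x i (-x i) ∈ St j K := by
  rintro x ⟨u, l, hu, hl, h⟩
  have e : ∀ t, Function.update (Function.update x i (-x i)) j t =
      Function.update (Function.update x j t) i (-(Function.update x j t) i) := by
    intro t
    rw [Function.update_of_ne hij, Function.update_comm hij]
  refine ⟨u, l, ?_, ?_, ?_⟩
  · rw [e]; exact hK _ hu
  · rw [e]; exact hK _ hl
  · rwa [Function.update_of_ne hij.symm]

/-- the fibres have the same length -/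
lemma vol_fib (j : Fin n) {K : Set (Fin n → ℝ)} (hK : IsCompact K) (hc : Convex ℝ K)
    (x : Fin n → ℝ) :
    volume {t : ℝ | Function.update x j t ∈ St j K} = volume {t : ℝ | Function.update x j t ∈ K} := by
  set F : Set ℝ := {t : ℝ | Function.update x j t ∈ K} with hF
  have hFc : Convex ℝ F := by
    intro s hs t ht a b ha hb hab
    have := hc hs ht ha hb hab
    show Function.update x j (a • s + b • t) ∈ K
    have e : Function.update x j (a • s + b • t) =
        a • Function.update x j s + b • Function.update x j t := by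
      rw [← update_comb]
      congr 1
      rw [← add_smul, hab, one_smul]
    rw [e]
    exact this
  have hcont : Continuous fun t : ℝ => Function.update x j t :=
    continuous_const.update j continuous_id
  have hFk : IsCompact F := by
    refine Metric.isCompact_of_isClosed_isBounded (hK.isClosed.preimage hcont) ?_
    obtain ⟨R, hR⟩ := hK.isBounded.exists_norm_le
    refine (Metric.isBounded_closedBall (x := (0 : ℝ)) (r := R)).subset ?_
    intro t ht
    rw [mem_closedBall_zero_iff]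
    have h1 := norm_le_pi_norm (Function.update x j t) j
    rw [Function.update_self] at h1
    exact h1.trans (hR _ ht)
  rcases F.eq_empty_or_nonempty with h0 | hne
  · have : {t : ℝ | Function.update x j t ∈ St j K} = ∅ := by
      rw [eq_empty_iff_forall_notMem]
      rintro t ⟨u, l, hu, _, _⟩
      rw [Function.update_idem] at hu
      have : u ∈ F := hu
      rw [h0] at this
      exact this
    rw [this, h0]
  · have hI : F = Icc (sInf F) (sSup F) :=
      eq_Icc_of_connected_compact ⟨hne, hFc.isPreconnected⟩ hFk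
    have hle : sInf F ≤ sSup F := by
      obtain ⟨t, ht⟩ := hne
      rw [hI] at ht
      exact ht.1.trans ht.2
    have e : {t : ℝ | Function.update x j t ∈ St j K} =
        Icc (-((sSup F - sInf F) / 2)) ((sSup F - sInf F) / 2) := by
      ext t
      rw [mem_Icc, ← abs_le]
      constructor
      · rintro ⟨u, l, hu, hl, h⟩
        rw [Function.update_idem] at hu hl
        rw [Function.update_self] at h
        have hu' : u ∈ F := hu
        have hl' : l ∈ F := hl
        rw [hI] at hu' hl'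
        linarith [hu'.2, hl'.1]
      · intro h
        refine ⟨sSup F, sInf F, ?_, ?_, ?_⟩
        · rw [Function.update_idem]
          have : sSup F ∈ F := hFk.sSup_mem hne
          exact this
        · rw [Function.update_idem]
          have : sInf F ∈ F := hFk.sInf_mem hne
          exact this
        · rw [Function.update_self]; linarith
    rw [e, hI, Real.volume_Icc, Real.volume_Icc, ← hI]
    congr 1
    ring

end Vale.Agent.P254.AU
end

section

/-!
P254, almost unconditional bodies: integrals over bodies with the same fibre lengths.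
-/

open MeasureTheory Set

namespace Vale.Agent.P254.AU

lemma upd_ins {m : ℕ} (j : Fin (m + 1)) (y : Fin m → ℝ) (s t : ℝ) :
    Function.update (j.insertNth (α := fun _ => ℝ) s y) j t = j.insertNth (α := fun _ => ℝ) t y := by
  funext i
  refine j.succAboveCases ?_ (fun k => ?_) i
  · simp
  · rw [Function.update_of_ne (Fin.succAbove_ne j k)]
    simp

lemma int_fib {m : ℕ} {K : Set (Fin (m + 1) → ℝ)} (hK : IsCompact K) (j : Fin (m + 1))
    {g : (Fin (m + 1) → ℝ) → ℝ} (hg : Continuous g)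
    (hgj : ∀ x t, g (Function.update x j t) = g x) :
    ∫ x in K, g x = ∫ y : Fin m → ℝ,
      (volume {t : ℝ | Function.update (j.insertNth (α := fun _ => ℝ) 0 y) j t ∈ K}).toReal *
        g (j.insertNth (α := fun _ => ℝ) 0 y) := by
  have hint : Integrable (K.indicator g) volume :=
    (hg.continuousOn.integrableOn_compact hK).integrable_indicator hK.measurableSet
  have hmp := (volume_preserving_piFinSuccAbove (fun _ : Fin (m + 1) => ℝ) j).symm
  rw [← integral_indicator hK.measurableSet]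
  have h1 := hmp.integral_comp' (g := K.indicator g)
  rw [← h1]
  have hint2 : Integrable (fun p : ℝ × (Fin m → ℝ) =>
      K.indicator g ((MeasurableEquiv.piFinSuccAbove (fun _ : Fin (m + 1) => ℝ) j).symm p))
      (volume.prod volume) := (hmp.integrable_comp_emb (MeasurableEquiv.measurableEmbedding _)).2 hint
  change ∫ p : ℝ × (Fin m → ℝ),
      K.indicator g ((MeasurableEquiv.piFinSuccAbove (fun _ : Fin (m + 1) => ℝ) j).symm p)
      ∂(volume.prod volume) = _
  rw [integral_prod_symm _ hint2]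
  refine integral_congr_ae (Filter.Eventually.of_forall fun y => ?_)
  simp only
  have e : ∀ t : ℝ, K.indicator g
      ((MeasurableEquiv.piFinSuccAbove (fun _ : Fin (m + 1) => ℝ) j).symm (t, y)) =
      {t : ℝ | Function.update (j.insertNth (α := fun _ => ℝ) 0 y) j t ∈ K}.indicator
        (fun _ => g (j.insertNth (α := fun _ => ℝ) 0 y)) t := by
    intro t
    have e1 : (MeasurableEquiv.piFinSuccAbove (fun _ : Fin (m + 1) => ℝ) j).symm (t, y) =
        Function.update (j.insertNth (α := fun _ => ℝ) 0 y) j t := by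
      rw [upd_ins]
      rfl
    rw [e1]
    by_cases h : Function.update (j.insertNth (α := fun _ => ℝ) 0 y) j t ∈ K
    · rw [indicator_of_mem h, indicator_of_mem (show t ∈ {t : ℝ | Function.update
        (j.insertNth (α := fun _ => ℝ) 0 y) j t ∈ K} from h), hgj]
    · rw [indicator_of_notMem h, indicator_of_notMem (show t ∉ {t : ℝ | Function.update
        (j.insertNth (α := fun _ => ℝ) 0 y) j t ∈ K} from h)]
  simp_rw [e]
  have hcont : Continuous fun t : ℝ =>
      Function.update (j.insertNth (α := fun _ => ℝ) 0 y) j t :=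
    continuous_const.update j continuous_id
  have hm : MeasurableSet {t : ℝ | Function.update (j.insertNth (α := fun _ => ℝ) 0 y) j t ∈ K} :=
    (hK.isClosed.preimage hcont).measurableSet
  rw [integral_indicator hm, setIntegral_const]
  rfl

/-- Integrals of functions which do not depend on `x_j` only depend on the fibre lengths. -/
theorem int_eq_of_fib {n : ℕ} {K K' : Set (Fin n → ℝ)} (hK : IsCompact K) (hK' : IsCompact K')
    (j : Fin n)
    (hf : ∀ x, volume {t : ℝ | Function.update x j t ∈ K'} =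
      volume {t : ℝ | Function.update x j t ∈ K})
    {g : (Fin n → ℝ) → ℝ} (hg : Continuous g) (hgj : ∀ x t, g (Function.update x j t) = g x) :
    ∫ x in K', g x = ∫ x in K, g x := by
  cases n with
  | zero => exact j.elim0
  | succ m =>
    rw [int_fib hK j hg hgj, int_fib hK' j hg hgj]
    simp_rw [hf]

theorem vol_eq_of_fib {n : ℕ} {K K' : Set (Fin n → ℝ)} (hK : IsCompact K) (hK' : IsCompact K')
    (j : Fin n)
    (hf : ∀ x, volume {t : ℝ | Function.update x j t ∈ K'} =
      volume {t : ℝ | Function.update x j t ∈ K}) :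
    (volume K').toReal = (volume K).toReal := by
  have := int_eq_of_fib hK hK' j hf (g := fun _ => (1 : ℝ)) continuous_const (fun _ _ => rfl)
  simpa [Measure.real] using this

end Vale.Agent.P254.AU
end

section

/-!
P254, almost unconditional bodies: linear algebra.
-/

open Matrix

namespace Vale.Agent.P254.AU

/-- `1 ≤ M_jj (M⁻¹)_jj` -/
lemma one_le_diag_inv {n : ℕ} {M : Matrix (Fin n) (Fin n) ℝ} (hM : M.PosDef) (j : Fin n) :
    1 ≤ M j j * M⁻¹ j j := by
  have hjj : 0 < M j j := hM.diag_pos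
  have hu : IsUnit M.det := hM.det_pos.ne'.isUnit
  set e : Fin n → ℝ := Pi.single j 1 with he
  set y : Fin n → ℝ := M⁻¹ *ᵥ e with hy
  have hMy : M *ᵥ y = e := by
    rw [hy, mulVec_mulVec, mul_nonsing_inv _ hu, one_mulVec]
  have hsymm : Mᵀ = M := by
    have := hM.isHermitian
    rwa [IsHermitian, conjTranspose_eq_transpose_of_trivial] at this
  have h := hM.posSemidef.dotProduct_mulVec_nonneg (e - M j j • y)
  rw [star_trivial, mulVec_sub, mulVec_smul, hMy, sub_dotProduct, dotProduct_sub,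
    dotProduct_sub, smul_dotProduct, dotProduct_smul, smul_dotProduct, dotProduct_smul] at h
  have h1 : e ⬝ᵥ M *ᵥ e = M j j := by
    simp [he]
  have h2 : e ⬝ᵥ e = 1 := by simp [he]
  have h3 : y ⬝ᵥ M *ᵥ e = 1 := by
    rw [dotProduct_mulVec, ← mulVec_transpose, hsymm, hMy, h2]
  have h4 : y ⬝ᵥ e = M⁻¹ j j := by
    rw [hy]
    simp [he]
  rw [h1, h2, h3, h4] at h
  simp only [smul_eq_mul, mul_one] at h
  have h5 : 0 ≤ M j j * (M j j * M⁻¹ j j - 1) := by linarith
  have h6 := nonneg_of_mul_nonneg_right h5 hjj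
  linarith

/-- `det M ≤ M_jj det (minor)` -/
lemma det_le_diag_mul {m : ℕ} {M : Matrix (Fin (m + 1)) (Fin (m + 1)) ℝ} (hM : M.PosDef)
    (j : Fin (m + 1)) : M.det ≤ M j j * (M.submatrix j.succAbove j.succAbove).det := by
  have hd := hM.det_pos
  have h := one_le_diag_inv hM j
  have h1 : M⁻¹ j j = (M.det)⁻¹ * (M.submatrix j.succAbove j.succAbove).det := by
    rw [inv_def, Matrix.smul_apply, adjugate_fin_succ_eq_det_submatrix, Ring.inverse_eq_inv', smul_eq_mul]
    congr 1
    rw [Even.neg_one_pow ⟨(j : ℕ), rfl⟩, one_mul]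
  rw [h1] at h
  have h2 : M.det * 1 ≤ M.det * (M j j * ((M.det)⁻¹ * (M.submatrix j.succAbove j.succAbove).det)) :=
    mul_le_mul_of_nonneg_left h hd.le
  have h3 : M.det * (M j j * ((M.det)⁻¹ * (M.submatrix j.succAbove j.succAbove).det)) =
      M j j * (M.submatrix j.succAbove j.succAbove).det := by
    field_simp
  linarith

/-- comparison of the determinants of two matrices which agree off the row and column `j`. -/
theorem det_compare {n : ℕ} {M M' : Matrix (Fin n) (Fin n) ℝ} (hM : M.PosDef) (j : Fin n)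
    (h1 : ∀ i k, i ≠ j → k ≠ j → M i k = M' i k) (h2 : ∀ k, k ≠ j → M' j k = 0) {Γ : ℝ}
    (h3 : M j j ≤ Γ * M' j j) : M.det ≤ Γ * M'.det := by
  cases n with
  | zero => exact j.elim0
  | succ m =>
    have hsub : M.submatrix j.succAbove j.succAbove = M'.submatrix j.succAbove j.succAbove := by
      ext i k
      exact h1 _ _ (Fin.succAbove_ne j i) (Fin.succAbove_ne j k)
    have hdet' : M'.det = M' j j * (M'.submatrix j.succAbove j.succAbove).det := by
      rw [det_succ_row M' j, Finset.sum_eq_single j]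
      · rw [Even.neg_one_pow ⟨(j : ℕ), rfl⟩, one_mul]
      · intro k _ hk
        rw [h2 k hk]
        ring
      · intro h
        exact absurd (Finset.mem_univ j) h
    have h4 := det_le_diag_mul hM j
    have hpd : 0 < (M.submatrix j.succAbove j.succAbove).det := by
      have := hM.submatrix (Fin.succAbove_right_injective (p := j))
      exact this.det_pos
    rw [hdet', ← hsub]
    calc M.det ≤ M j j * (M.submatrix j.succAbove j.succAbove).det := h4
      _ ≤ Γ * M' j j * (M.submatrix j.succAbove j.succAbove).det :=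
        mul_le_mul_of_nonneg_right h3 hpd.le
      _ = _ := by ring

end Vale.Agent.P254.AU
end

section

/-!
P254, almost unconditional bodies: one Steiner symmetrization changes `det Cov` by a factor of at
most `(n + 1)(n + 2) / 2`.
-/

open MeasureTheory Set Matrix

namespace Vale.Agent.P254.AU

open Vale.Agent.P254.Unc

variable {n : ℕ}

/-- the shear `x_j ↦ ∑ f_i x_i` -/
noncomputable def shear (j : Fin n) (f : Fin n → ℝ) : Matrix (Fin n) (Fin n) ℝ :=
  updateRow 1 j f

lemma det_shear (j : Fin n) {f : Fin n → ℝ} (hf : f j = 1) : (shear j f).det = 1 := by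
  have h : (shear j f)ᵀ = updateCol 1 j f := by
    rw [shear, ← updateCol_transpose, transpose_one]
  rw [← det_transpose, h, ← cramer_apply, cramer_one]
  simpa using hf

lemma shear_self (j : Fin n) (f x : Fin n → ℝ) : aff (shear j f) 0 x j = ∑ i, f i * x i := by
  rw [aff_apply]
  simp [shear]

lemma shear_ne (j : Fin n) (f x : Fin n → ℝ) {i : Fin n} (h : i ≠ j) :
    aff (shear j f) 0 x i = x i := by
  rw [aff_apply]
  simp [shear, updateRow_ne h, Matrix.one_apply]

/-- entries of the covariance matrix off the row `j` are not changed by the shear -/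
lemma cov_shear {K : Set (Fin n → ℝ)} (hK : IsConvexBody K) (j : Fin n) {f : Fin n → ℝ}
    (hf : f j = 1) {i k : Fin n} (hi : i ≠ j) (hk : k ≠ j) :
    covMatrix (aff (shear j f) 0 '' K) i k = covMatrix K i k := by
  rw [cov_aff_image (by rw [det_shear j hf]; exact one_ne_zero) 0 hK.2.1 (volume_pos_of_body hK).ne']
  have h1 : ∀ {i : Fin n}, i ≠ j → shear j f i = (1 : Matrix (Fin n) (Fin n) ℝ) i := by
    intro i hi
    exact updateRow_ne hi
  rw [Matrix.mul_apply]
  simp_rw [Matrix.mul_apply, Matrix.transpose_apply, h1 hi, h1 hk]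
  simp [Matrix.one_apply]

lemma det_cov_shear {K : Set (Fin n → ℝ)} (hK : IsConvexBody K) (j : Fin n) {f : Fin n → ℝ}
    (hf : f j = 1) : (covMatrix (aff (shear j f) 0 '' K)).det = (covMatrix K).det := by
  rw [cov_aff_image (by rw [det_shear j hf]; exact one_ne_zero) 0 hK.2.1 (volume_pos_of_body hK).ne',
    det_mul, det_mul, det_transpose, det_shear j hf, one_mul, mul_one]

/-- Popoviciu's inequality -/
lemma cov_le_of_osc {K : Set (Fin n → ℝ)} (hK : IsConvexBody K) (j : Fin n) {w : ℝ}
    (h : ∀ a ∈ K, ∀ b ∈ K, a j ≤ b j + w) : covMatrix K j j ≤ w ^ 2 / 4 := by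
  have hV := volume_pos_of_body hK
  obtain ⟨z, hz⟩ : K.Nonempty := hK.2.2.mono interior_subset
  obtain ⟨b, hb, hmin⟩ := hK.2.1.exists_isMinOn ⟨z, hz⟩ (continuous_apply j).continuousOn
  have hrange : ∀ x ∈ K, b j ≤ x j ∧ x j ≤ b j + w := fun x hx => ⟨hmin hx, h x hx b hb⟩
  have h1 := cov_shift hK.2.1 hV.ne' (fun _ => b j + w / 2) j j
  have h2 : ∫ x in K, (x j - (b j + w / 2)) * (x j - (b j + w / 2)) ≤
      ∫ _ in K, w ^ 2 / 4 := by
    refine setIntegral_mono_on (intOn hK.2.1 (by fun_prop)) (intOn hK.2.1 (by fun_prop))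
      hK.2.1.measurableSet fun x hx => ?_
    obtain ⟨h3, h4⟩ := hrange x hx
    nlinarith
  rw [setIntegral_const, smul_eq_mul, Measure.real] at h2
  have h5 : (volume K).toReal⁻¹ * (∫ x in K, (x j - (b j + w / 2)) * (x j - (b j + w / 2))) ≤
      w ^ 2 / 4 := by
    rw [inv_mul_le_iff₀ hV]
    exact h2
  rw [h1] at h5
  nlinarith [sq_nonneg (centroid K j - (b j + w / 2))]

lemma isConvexBody_St {K : Set (Fin n → ℝ)} (hK : IsConvexBody K) (j : Fin n) :
    IsConvexBody (St j K) ∧ (volume (St j K)).toReal = (volume K).toReal := by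
  have hv := vol_eq_of_fib hK.2.1 (isCompact_St j hK.2.1) j (vol_fib j hK.2.1 hK.1)
  have hcv := convex_St j hK.1
  have hcp := isCompact_St j hK.2.1
  refine ⟨⟨hcv, hcp, ?_⟩, hv⟩
  have hV := volume_pos_of_body hK
  by_contra hne
  rw [not_nonempty_iff_eq_empty] at hne
  have h8 := hcv.addHaar_frontier (volume : Measure (Fin n → ℝ))
  rw [hcp.isClosed.frontier_eq, hne, sdiff_empty] at h8
  rw [← hv, h8] at hV
  simp at hV

/-- **Steiner symmetrization step.** -/
theorem det_cov_le_St {K : Set (Fin n → ℝ)} (hK : IsConvexBody K) (j : Fin n) :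
    (covMatrix K).det ≤ (((n : ℝ) + 1) * (n + 2) / 2) * (covMatrix (St j K)).det := by
  obtain ⟨hS, hvol⟩ := isConvexBody_St hK j
  have hV := volume_pos_of_body hK
  have hVS := volume_pos_of_body hS
  -- the longest chord
  have hC : IsCompact ({p : (Fin n → ℝ) × (Fin n → ℝ) |
      ∀ i, i ≠ j → p.1 i = p.2 i} ∩ (K ×ˢ K)) := by
    refine IsCompact.inter_left (hK.2.1.prod hK.2.1) ?_
    have : {p : (Fin n → ℝ) × (Fin n → ℝ) | ∀ i, i ≠ j → p.1 i = p.2 i} =
        ⋂ i, ⋂ (_ : i ≠ j), {p | p.1 i = p.2 i} := by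
      ext p
      simp
    rw [this]
    refine isClosed_iInter fun i => isClosed_iInter fun _ => isClosed_eq ?_ ?_
    · fun_prop
    · fun_prop
  obtain ⟨z, hz⟩ : K.Nonempty := hK.2.2.mono interior_subset
  obtain ⟨⟨p, q⟩, ⟨hpq, hp, hq⟩, hmax⟩ := hC.exists_isMaxOn ⟨(z, z), fun _ _ => rfl, hz, hz⟩
    (f := fun p : (Fin n → ℝ) × (Fin n → ℝ) => p.1 j - p.2 j) (by fun_prop)
  simp only at hpq hp hq
  set w := p j - q j with hw
  have hwmax : ∀ x u l, Function.update x j u ∈ K → Function.update x j l ∈ K → u - l ≤ w := by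
    intro x u l hu hl
    have := hmax (a := (Function.update x j u, Function.update x j l))
      ⟨fun i hi => by simp [Function.update_of_ne hi], hu, hl⟩
    simpa using this
  have hq' : Function.update p j (q j) = q := by
    funext i
    by_cases h : i = j
    · subst h; simp
    · rw [Function.update_of_ne h]; exact hpq i h
  -- a point of the symmetral
  set z' := Function.update p j (w / 2) with hz'
  have hw0' : 0 ≤ w := by
    have := hwmax z (z j) (z j) (by simpa using hz) (by simpa using hz)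
    linarith
  have hz'mem : z' ∈ St j K := by
    refine ⟨p j, q j, ?_, ?_, ?_⟩
    · rw [hz', Function.update_idem, Function.update_eq_self]; exact hp
    · rw [hz', Function.update_idem, hq']; exact hq
    · rw [hz', Function.update_self, abs_of_nonneg (by positivity)]; linarith
  have hw0 : 0 < w := by
    rcases eq_or_lt_of_le hw0' with h | h
    · exfalso
      have hsub : St j K ⊆ {x | x j = 0} := by
        rintro x ⟨u, l, hu, hl, hx⟩
        have h1 := hwmax x u l hu hl
        have h2 : |x j| ≤ 0 := by linarith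
        exact abs_eq_zero.1 (le_antisymm h2 (abs_nonneg _))
      have hnull : volume {x : Fin n → ℝ | x j = 0} = 0 := by
        rw [volume_pi]
        exact Measure.pi_hyperplane _ _ _
      have := measure_mono_null hsub hnull
      rw [this] at hVS
      simp at hVS
    · exact h
  -- second moment of the symmetral
  have hrefl : FB.refl j ⁻¹' (St j K) = St j K := by
    have h1 : ∀ x ∈ St j K, FB.refl j x ∈ St j K := by
      intro x hx
      have h2 := St_symm j hx (t := -x j) (by rw [abs_neg])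
      convert h2 using 1
      funext i
      by_cases h : i = j
      · subst h; rw [FB.refl_self, Function.update_self]
      · rw [FB.refl_ne h, Function.update_of_ne h]
    ext x
    constructor
    · intro hx
      have := h1 _ hx
      rwa [FB.refl_refl] at this
    · exact h1 x
  set L : Set (Fin n → ℝ) := St j K ∩ {x | 0 ≤ x j} with hL
  have hLc : Convex ℝ L := by
    refine hS.1.inter ?_
    intro x hx y hy a b ha hb _
    have h1 : 0 ≤ x j := hx
    have h2 : 0 ≤ y j := hy
    show 0 ≤ a * x j + b * y j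
    positivity
  have hLk : IsCompact L :=
    hS.2.1.inter_right (isClosed_le continuous_const (continuous_apply j))
  have hsq := sq_lower hLc hLk j (fun x hx => hx.2) (z := z')
    ⟨hz'mem, by show 0 ≤ z' j; rw [hz', Function.update_self]; positivity⟩ (w := w / 2)
    (by positivity) (by rw [hz', Function.update_self])
  have hhalf : ∫ x in St j K, x j ^ 2 = 2 * ∫ x in L, x j ^ 2 :=
    FB.half j hrefl (intOn hS.2.1 (by fun_prop)) (fun x => by rw [FB.refl_self, neg_sq])
  have hvolL : (volume (St j K)).toReal = 2 * (volume L).toReal := by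
    have h := FB.half j hrefl (f := fun _ => (1 : ℝ)) (intOn hS.2.1 continuous_const)
      (fun _ => rfl)
    rw [setIntegral_const, setIntegral_const] at h
    simpa [Measure.real] using h
  have hodd : ∀ g : (Fin n → ℝ) → ℝ, (∀ x, g (FB.refl j x) = -g x) →
      ∫ x in St j K, g x = 0 := by
    intro g hg
    have h := FB.refl_int j (St j K) g
    rw [hrefl] at h
    simp_rw [hg] at h
    rw [integral_neg] at h
    linarith
  have hcj : centroid (St j K) j = 0 := by
    rw [centroid, hodd (fun x => x j) (FB.refl_self j), mul_zero]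
  have hjj : covMatrix (St j K) j j = (volume (St j K)).toReal⁻¹ * ∫ x in St j K, x j ^ 2 := by
    rw [covMatrix]
    simp only [hcj, sub_zero, pow_two]
  have hlow : w ^ 2 / (2 * (((n : ℝ) + 1) * (n + 2))) ≤ covMatrix (St j K) j j := by
    rw [hjj, hhalf, hvolL, le_inv_mul_iff₀ (by linarith)]
    have e : 2 * (volume L).toReal * (w ^ 2 / (2 * (((n : ℝ) + 1) * (n + 2)))) =
        2 * (2 * ((volume L).toReal * (w / 2) ^ 2 / (((n : ℝ) + 1) * (n + 2)))) := by
      field_simp
    rw [e]
    linarith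
  -- the shear
  obtain ⟨f, hfj, hf⟩ := exists_sep hK j hwmax
  have hA : (shear j f).det ≠ 0 := by rw [det_shear j hfj]; exact one_ne_zero
  have hB := isConvexBody_aff_image hA 0 hK
  rw [← det_cov_shear hK j hfj]
  refine det_compare (covMatrix_posDef hB) j ?_ ?_ ?_
  · intro i k hi hk
    rw [cov_shear hK j hfj hi hk]
    have hint := fun (g : (Fin n → ℝ) → ℝ) (hg : Continuous g)
      (hgj : ∀ x t, g (Function.update x j t) = g x) =>
      int_eq_of_fib hK.2.1 hS.2.1 j (vol_fib j hK.2.1 hK.1) hg hgj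
    have hci : ∀ i, i ≠ j → centroid (St j K) i = centroid K i := by
      intro i hi
      rw [centroid, centroid, hvol, hint (fun x => x i) (by fun_prop)
        (fun x t => Function.update_of_ne hi _ _)]
    rw [covMatrix, covMatrix, hvol, hci i hi, hci k hk]
    congr 1
    refine (hint (fun x => (x i - centroid K i) * (x k - centroid K k)) (by fun_prop) ?_).symm
    intro x t
    simp only [Function.update_of_ne hi, Function.update_of_ne hk]
  · intro k hk
    rw [covMatrix]
    simp only [hcj, sub_zero]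
    rw [hodd (fun x => x j * (x k - centroid (St j K) k)), mul_zero]
    intro x
    rw [FB.refl_self, FB.refl_ne hk]
    ring
  · have h1 : covMatrix (aff (shear j f) 0 '' K) j j ≤ w ^ 2 / 4 := by
      refine cov_le_of_osc hB j ?_
      rintro _ ⟨a, ha, rfl⟩ _ ⟨b, hb, rfl⟩
      rw [shear_self, shear_self]
      exact hf a ha b hb
    have h2 : w ^ 2 / 4 = (((n : ℝ) + 1) * (n + 2) / 2) *
        (w ^ 2 / (2 * (((n : ℝ) + 1) * (n + 2)))) := by
      field_simp
      ring
    rw [h2] at h1
    exact h1.trans (mul_le_mul_of_nonneg_left hlow (by positivity))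

end Vale.Agent.P254.AU
end

section

/-! P254 (UNCOND), block E1 (helper232): `UNC (n+1)` from `CX n`, with the single approximating
function `gN x = sup over z in L of (z 0 - N dist x (tail z))`. -/

open MeasureTheory Set Filter Topology
open scoped NNReal

namespace Vale.Agent.P254.Unc.E1w

variable {n : ℕ}

/-- the penalised height -/
noncomputable def ph (N : ℕ) (x : X n) (z : X (n + 1)) : ℝ :=
  ((z 0 : unitInterval) : ℝ) - N * dist x (Fin.tail z)

/-- sup-convolution of the fibre height -/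
noncomputable def gN (L : Set (X (n + 1))) (N : ℕ) (x : X n) : ℝ := ⨆ z : L, ph N x z.1

theorem continuous_tail : Continuous (fun z : X (n + 1) => (Fin.tail z : X n)) :=
  continuous_pi (fun j => continuous_apply j.succ)

theorem continuous_ph (N : ℕ) (x : X n) : Continuous (ph N x) := by
  unfold ph
  exact (continuous_subtype_val.comp (continuous_apply 0)).sub
    (continuous_const.mul (continuous_const.dist continuous_tail))

theorem ph_le (N : ℕ) (x : X n) (z : X (n + 1)) : ph N x z ≤ ((z 0 : unitInterval) : ℝ) := by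
  unfold ph
  have : 0 ≤ (N : ℝ) * dist x (Fin.tail z) := by positivity
  linarith

theorem ph_le_one (N : ℕ) (x : X n) (z : X (n + 1)) : ph N x z ≤ 1 :=
  (ph_le N x z).trans (z 0).2.2

theorem bdd (L : Set (X (n + 1))) (N : ℕ) (x : X n) :
    BddAbove (range (fun z : L => ph N x z.1)) :=
  ⟨1, by rintro _ ⟨z, rfl⟩; exact ph_le_one N x z.1⟩

theorem le_gN {L : Set (X (n + 1))} (N : ℕ) (x : X n) {z : X (n + 1)} (hz : z ∈ L) :
    ph N x z ≤ gN L N x :=
  le_ciSup (bdd L N x) (⟨z, hz⟩ : L)

theorem gN_le {L : Set (X (n + 1))} (hne : L.Nonempty) (N : ℕ) (x : X n) {c : ℝ}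
    (h : ∀ z ∈ L, ph N x z ≤ c) : gN L N x ≤ c := by
  have : Nonempty L := hne.to_subtype
  exact ciSup_le (fun z => h z.1 z.2)

theorem exists_gN {L : Set (X (n + 1))} (hL : IsClosed L) (hne : L.Nonempty) (N : ℕ) (x : X n) :
    ∃ z ∈ L, gN L N x = ph N x z := by
  obtain ⟨z, hz, hm⟩ := hL.isCompact.exists_isMaxOn hne (continuous_ph N x).continuousOn
  exact ⟨z, hz, le_antisymm (gN_le hne N x (fun w hw => hm hw)) (le_gN N x hz)⟩

theorem gN_lip {L : Set (X (n + 1))} (hne : L.Nonempty) (N : ℕ) :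
    LipschitzWith (N : ℝ≥0) (gN L N) := by
  refine LipschitzWith.of_le_add_mul (N : ℝ≥0) (fun x y => ?_)
  refine gN_le hne N x (fun z hz => ?_)
  have h1 := le_gN (L := L) N y hz
  have h2 := dist_triangle y x (Fin.tail z)
  have h3 : (N : ℝ) * dist y (Fin.tail z) ≤ N * (dist y x + dist x (Fin.tail z)) :=
    mul_le_mul_of_nonneg_left h2 (Nat.cast_nonneg _)
  unfold ph at h1 ⊢
  rw [dist_comm y x] at h3
  have h4 : ((N : ℝ≥0) : ℝ) = (N : ℝ) := by simp
  rw [h4]
  linarith

theorem mid1_dist (a b c d : unitInterval) :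
    dist (mid1 a b) (mid1 c d) ≤ (dist a c + dist b d) / 2 := by
  rw [Subtype.dist_eq, Subtype.dist_eq, Subtype.dist_eq, Real.dist_eq, Real.dist_eq, Real.dist_eq]
  have h : ((mid1 a b : unitInterval) : ℝ) - (mid1 c d : unitInterval) =
      (((a : ℝ) - c) + ((b : ℝ) - d)) / 2 := by
    simp only [mid1]; ring
  rw [h, abs_div, abs_two]
  have := abs_add_le ((a : ℝ) - c) ((b : ℝ) - d)
  linarith

theorem mid_dist (a b c d : X n) : dist (mid a b) (mid c d) ≤ (dist a c + dist b d) / 2 := by
  rw [dist_pi_le_iff (by positivity)]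
  intro k
  refine (mid1_dist _ _ _ _).trans ?_
  have h1 := dist_le_pi_dist a c k
  have h2 := dist_le_pi_dist b d k
  linarith

theorem gN_rel {L : Set (X (n + 1))} (hL : IsClosed L) (hne : L.Nonempty)
    (hmid : ∀ x ∈ L, ∀ y ∈ L, mid x y ∈ L) (N : ℕ) : Rel (gN L N) (gN L N) (gN L N) := by
  intro x y
  obtain ⟨z, hz, h1⟩ := exists_gN hL hne N x
  obtain ⟨w, hw, h2⟩ := exists_gN hL hne N y
  refine le_trans ?_ (le_gN N (mid x y) (hmid z hz w hw))
  rw [h1, h2]
  unfold ph
  have h3 : (Fin.tail (mid z w) : X n) = mid (Fin.tail z) (Fin.tail w) := rfl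
  have h4 : ((mid z w 0 : unitInterval) : ℝ) = (((z 0 : unitInterval) : ℝ) + (w 0 : unitInterval)) / 2 :=
    rfl
  rw [h3, h4]
  have h5 := mid_dist x y (Fin.tail z) (Fin.tail w)
  have h6 : (N : ℝ) * dist (mid x y) (mid (Fin.tail z) (Fin.tail w)) ≤
      N * ((dist x (Fin.tail z) + dist y (Fin.tail w)) / 2) :=
    mul_le_mul_of_nonneg_left h5 (Nat.cast_nonneg _)
  linarith

theorem gN_anti {L : Set (X (n + 1))} (hne : L.Nonempty) (hlow : IsLowerSet L) (N : ℕ) :
    Antitone (gN L N) := by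
  intro x x' hx
  refine gN_le hne N x' (fun z hz => ?_)
  set y : X n := fun k => ⟨max 0 ((x k : ℝ) + (z k.succ : unitInterval) - (x' k : unitInterval)), by
    constructor
    · exact le_max_left _ _
    · refine max_le zero_le_one ?_
      have h1 : ((x k : unitInterval) : ℝ) ≤ (x' k : unitInterval) := hx k
      have h2 := (z k.succ).2.2
      linarith⟩ with hy
  have hyz : ∀ k, y k ≤ z k.succ := by
    intro k
    have h1 : ((x k : unitInterval) : ℝ) ≤ (x' k : unitInterval) := hx k
    have h2 := (z k.succ).2.1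
    show max 0 _ ≤ ((z k.succ : unitInterval) : ℝ)
    exact max_le h2 (by linarith)
  have hw : (Fin.cons (z 0) y : X (n + 1)) ∈ L := by
    refine hlow ?_ hz
    intro k
    refine Fin.cases ?_ (fun j => ?_) k
    · simp
    · simpa using hyz j
  refine le_trans ?_ (le_gN N x hw)
  have hd : dist x y ≤ dist x' (Fin.tail z) := by
    rw [dist_pi_le_iff dist_nonneg]
    intro k
    refine le_trans ?_ (dist_le_pi_dist x' (Fin.tail z) k)
    rw [Subtype.dist_eq, Subtype.dist_eq, Real.dist_eq, Real.dist_eq]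
    have h1 : ((x k : unitInterval) : ℝ) ≤ (x' k : unitInterval) := hx k
    have h2 := (x k).2.1
    have h3 : ((Fin.tail z k : unitInterval) : ℝ) = (z k.succ : unitInterval) := rfl
    rw [h3]
    show |((x k : unitInterval) : ℝ) - max 0 ((x k : ℝ) + (z k.succ : unitInterval) -
      (x' k : unitInterval))| ≤ _
    rcases le_total 0 ((x k : ℝ) + (z k.succ : unitInterval) - (x' k : unitInterval)) with h | h
    · rw [max_eq_right h]
      apply le_of_eq
      congr 1
      ring
    · rw [max_eq_left h, sub_zero, abs_of_nonneg h2]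
      refine le_trans ?_ (le_abs_self _)
      linarith
  unfold ph
  have h0 : ((Fin.cons (z 0) y : X (n + 1)) 0) = z 0 := rfl
  have ht : (Fin.tail (Fin.cons (z 0) y : X (n + 1)) : X n) = y := by
    simp
  rw [h0, ht]
  have h6 : (N : ℝ) * dist x y ≤ N * dist x' (Fin.tail z) :=
    mul_le_mul_of_nonneg_left hd (Nat.cast_nonneg _)
  linarith

/-- the fibre -/
def fib (L : Set (X (n + 1))) (x : X n) : Set unitInterval := {s | (Fin.cons s x : X (n + 1)) ∈ L}

/-- the fibre height -/
noncomputable def ht (L : Set (X (n + 1))) (x : X n) : ℝ := (volume (fib L x)).toReal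

theorem continuous_cons (x : X n) : Continuous (fun s : unitInterval => (Fin.cons s x : X (n + 1))) := by
  refine continuous_pi (fun k => ?_)
  refine Fin.cases ?_ (fun j => ?_) k
  · simp only [Fin.cons_zero]
    exact continuous_id
  · simp only [Fin.cons_succ]
    exact continuous_const

theorem fib_closed {L : Set (X (n + 1))} (hL : IsClosed L) (x : X n) : IsClosed (fib L x) :=
  hL.preimage (continuous_cons x)

theorem fib_lower {L : Set (X (n + 1))} (hlow : IsLowerSet L) (x : X n) : IsLowerSet (fib L x) := by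
  intro a b hba ha
  refine hlow ?_ ha
  intro k
  refine Fin.cases ?_ (fun j => ?_) k
  · simpa using hba
  · simp

theorem fib_eq {L : Set (X (n + 1))} (hL : IsClosed L) (hlow : IsLowerSet L) (x : X n)
    (hne : (fib L x).Nonempty) : ∃ a ∈ fib L x, fib L x = Iic a := by
  obtain ⟨a, ha⟩ := (fib_closed hL x).isCompact.exists_isGreatest hne
  refine ⟨a, ha.1, ?_⟩
  ext s
  exact ⟨fun hs => ha.2 hs, fun hs => fib_lower hlow x hs ha.1⟩

theorem vol_Iic (a : unitInterval) : (volume (Iic a)).toReal = (a : ℝ) := by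
  rw [unitInterval.volume_Iic, ENNReal.toReal_ofReal a.2.1]

theorem int_Iic (a : unitInterval) : ∫ s in Iic a, ((s : unitInterval) : ℝ) = (a : ℝ) ^ 2 / 2 := by
  rw [← integral_indicator measurableSet_Iic]
  have h1 : ∀ s : unitInterval, (Iic a).indicator (fun s : unitInterval => (s : ℝ)) s =
      (Iic (a : ℝ)).indicator (fun x : ℝ => x) (s : ℝ) := by
    intro s
    by_cases h : s ≤ a
    · rw [indicator_of_mem (show s ∈ Iic a from h),
        indicator_of_mem (show (s : ℝ) ∈ Iic (a : ℝ) from h)]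
    · rw [indicator_of_notMem (show s ∉ Iic a from h),
        indicator_of_notMem (show (s : ℝ) ∉ Iic (a : ℝ) from h)]
  simp_rw [h1]
  have h2 := integral_subtype_comap (μ := (volume : Measure ℝ)) (s := Icc (0 : ℝ) 1)
    measurableSet_Icc ((Iic (a : ℝ)).indicator (fun x : ℝ => x))
  refine h2.trans ?_
  rw [setIntegral_indicator measurableSet_Iic]
  have h3 : Icc (0 : ℝ) 1 ∩ Iic (a : ℝ) = Icc 0 (a : ℝ) := by
    ext x
    constructor
    · rintro ⟨h1, h2⟩; exact ⟨h1.1, h2⟩
    · rintro ⟨h1, h2⟩; exact ⟨⟨h1, h2.trans a.2.2⟩, h2⟩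
  rw [h3, integral_Icc_eq_integral_Ioc, ← intervalIntegral.integral_of_le a.2.1, integral_id]
  ring

theorem int_fib {L : Set (X (n + 1))} (hL : IsClosed L) (hlow : IsLowerSet L) (x : X n) :
    ∫ s in fib L x, ((s : unitInterval) : ℝ) = ht L x ^ 2 / 2 := by
  rcases (fib L x).eq_empty_or_nonempty with h | h
  · simp [ht, h]
  · obtain ⟨a, _, ha⟩ := fib_eq hL hlow x h
    rw [ht, ha, int_Iic, vol_Iic]

theorem ht_nonneg (L : Set (X (n + 1))) (x : X n) : 0 ≤ ht L x := ENNReal.toReal_nonneg

theorem ht_le {L : Set (X (n + 1))} (hL : IsClosed L) (hlow : IsLowerSet L) (N : ℕ) (x : X n) :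
    ht L x ≤ max (gN L N x) 0 := by
  rcases (fib L x).eq_empty_or_nonempty with h | h
  · simp [ht, h]
  · obtain ⟨a, ha1, ha⟩ := fib_eq hL hlow x h
    rw [ht, ha, vol_Iic]
    refine le_trans ?_ (le_max_left _ _)
    refine le_trans ?_ (le_gN N x ha1)
    unfold ph
    simp

theorem tendsto_ht {L : Set (X (n + 1))} (hL : IsClosed L) (hne : L.Nonempty)
    (hlow : IsLowerSet L) (x : X n) :
    Tendsto (fun N : ℕ => max (gN L N x) 0) atTop (𝓝 (ht L x)) := by
  rw [Metric.tendsto_atTop]
  intro ε hε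
  set L' : Set (X (n + 1)) := L ∩ {z | ht L x + ε / 2 ≤ ((z 0 : unitInterval) : ℝ)} with hL'
  have hcl : IsClosed L' := hL.inter
    (isClosed_le continuous_const (continuous_subtype_val.comp (continuous_apply 0)))
  have hkey : ∃ N0 : ℕ, ∀ N ≥ N0, ∀ z ∈ L', ph N x z ≤ 0 := by
    rcases L'.eq_empty_or_nonempty with h | h
    · exact ⟨0, fun N _ z hz => by rw [h] at hz; exact absurd hz (by simp)⟩
    · obtain ⟨z0, hz0, hm⟩ := hcl.isCompact.exists_isMinOn h
        ((continuous_const.dist continuous_tail : Continuous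
          (fun z : X (n + 1) => dist x (Fin.tail z))).continuousOn)
      have hpos : 0 < dist x (Fin.tail z0) := by
        rw [dist_pos]
        intro heq
        have h1 : z0 0 ∈ fib L x := by
          show (Fin.cons (z0 0) x : X (n + 1)) ∈ L
          rw [heq]
          have : (Fin.cons (z0 0) (Fin.tail z0) : X (n + 1)) = z0 := Fin.cons_self_tail z0
          rw [this]
          exact hz0.1
        have h2 : Iic (z0 0) ⊆ fib L x := fun s hs => fib_lower hlow x hs h1
        have h3 : ((z0 0 : unitInterval) : ℝ) ≤ ht L x := by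
          rw [← vol_Iic, ht]
          exact ENNReal.toReal_mono (measure_ne_top _ _) (measure_mono h2)
        have h4 : ht L x + ε / 2 ≤ ((z0 0 : unitInterval) : ℝ) := hz0.2
        linarith
      obtain ⟨N0, hN0⟩ := exists_nat_gt (1 / dist x (Fin.tail z0))
      refine ⟨N0, fun N hN z hz => ?_⟩
      have h1 : dist x (Fin.tail z0) ≤ dist x (Fin.tail z) := hm hz
      have h2 : (N0 : ℝ) ≤ N := by exact_mod_cast hN
      have h3 : 1 < (N0 : ℝ) * dist x (Fin.tail z0) := by
        rwa [div_lt_iff₀ hpos] at hN0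
      have h4 : (N0 : ℝ) * dist x (Fin.tail z0) ≤ N * dist x (Fin.tail z) :=
        mul_le_mul h2 h1 dist_nonneg (Nat.cast_nonneg _)
      unfold ph
      linarith [(z 0).2.2]
  obtain ⟨N0, hN0⟩ := hkey
  refine ⟨N0, fun N hN => ?_⟩
  have h1 := ht_le hL hlow N x
  have h0 := ht_nonneg L x
  have h2 : max (gN L N x) 0 ≤ ht L x + ε / 2 := by
    refine max_le ?_ (by linarith)
    refine gN_le hne N x (fun z hz => ?_)
    by_cases hz' : ht L x + ε / 2 ≤ ((z 0 : unitInterval) : ℝ)
    · exact (hN0 N hN z ⟨hz, hz'⟩).trans (by linarith)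
    · rw [not_le] at hz'
      exact (ph_le N x z).trans hz'.le
  rw [Real.dist_eq, abs_of_nonneg (by linarith)]
  linarith

/-! ### Fubini -/

theorem fub {L : Set (X (n + 1))} (hL : IsClosed L) (f : X (n + 1) → ℝ) (hf : Continuous f) :
    ∫ z in L, f z = ∫ x : X n, ∫ s in fib L x, f (Fin.cons s x) := by
  have hm : MeasurableSet L := hL.measurableSet
  rw [← integral_indicator hm]
  set e := MeasurableEquiv.piFinSuccAbove (fun _ : Fin (n + 1) => unitInterval) 0 with he
  have hp := volume_preserving_piFinSuccAbove (fun _ : Fin (n + 1) => unitInterval) 0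
  set g : unitInterval × X n → ℝ := fun y => L.indicator f (Fin.cons y.1 y.2) with hg
  have hge : ∀ z : X (n + 1), g (e z) = L.indicator f z := by
    intro z
    show L.indicator f (Fin.cons (z 0) (fun j => z (Fin.succAbove 0 j))) = _
    congr 1
    funext k
    refine Fin.cases ?_ (fun j => ?_) k
    · simp
    · simp
  have h1 : ∫ z : X (n + 1), L.indicator f z = ∫ y : unitInterval × X n, g y := by
    have h2 := hp.integral_comp' (g := g)
    rw [← h2]
    exact integral_congr_ae (Eventually.of_forall (fun z => (hge z).symm))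
  rw [h1]
  have hcc : Continuous (fun y : unitInterval × X n => (Fin.cons y.1 y.2 : X (n + 1))) := by
    refine continuous_pi (fun k => ?_)
    refine Fin.cases ?_ (fun j => ?_) k
    · simp only [Fin.cons_zero]
      exact continuous_fst
    · simp only [Fin.cons_succ]
      exact (continuous_apply j).comp continuous_snd
  have hint : Integrable g (volume : Measure (unitInterval × X n)) := by
    obtain ⟨B, hB⟩ := isCompact_univ.exists_bound_of_continuousOn (f := f) hf.continuousOn
    refine Integrable.of_bound (C := B) ?_ ?_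
    · exact ((hf.measurable.indicator hm).comp hcc.measurable).aestronglyMeasurable
    · refine Eventually.of_forall (fun y => ?_)
      simp only [hg]
      exact (norm_indicator_le_norm_self f _).trans (hB _ (mem_univ _))
  rw [Measure.volume_eq_prod, integral_prod_symm _ (by rwa [← Measure.volume_eq_prod])]
  refine integral_congr_ae (Eventually.of_forall (fun x => ?_))
  show ∫ s : unitInterval, L.indicator f (Fin.cons s x) = ∫ s in fib L x, f (Fin.cons s x)
  rw [← integral_indicator (fib_closed hL x).measurableSet]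
  refine integral_congr_ae (Eventually.of_forall (fun s => ?_))
  show L.indicator f (Fin.cons s x) = (fib L x).indicator (fun s => f (Fin.cons s x)) s
  by_cases h : (Fin.cons s x : X (n + 1)) ∈ L
  · rw [indicator_of_mem h, indicator_of_mem (show s ∈ fib L x from h)]
  · rw [indicator_of_notMem h, indicator_of_notMem (show s ∉ fib L x from h)]

theorem vol_eq {L : Set (X (n + 1))} (hL : IsClosed L) :
    (volume L).toReal = ∫ x : X n, ht L x := by
  have h := fub hL (fun _ => (1 : ℝ)) continuous_const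
  simp only [integral_const, smul_eq_mul, mul_one, measureReal_restrict_apply_univ] at h
  exact h

theorem tail_eq {L : Set (X (n + 1))} (hL : IsClosed L) (k : Fin n) :
    ∫ z in L, ((z k.succ : unitInterval) : ℝ) = ∫ x : X n, ((x k : unitInterval) : ℝ) * ht L x := by
  rw [fub hL (fun z => ((z k.succ : unitInterval) : ℝ))
    (continuous_subtype_val.comp (continuous_apply _))]
  refine integral_congr_ae (Eventually.of_forall (fun x => ?_))
  simp only [Fin.cons_succ, integral_const, smul_eq_mul, measureReal_restrict_apply_univ]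
  rw [mul_comm]
  rfl

theorem head_eq {L : Set (X (n + 1))} (hL : IsClosed L) (hlow : IsLowerSet L) :
    ∫ z in L, ((z 0 : unitInterval) : ℝ) = (∫ x : X n, ht L x ^ 2) / 2 := by
  rw [fub hL (fun z => ((z 0 : unitInterval) : ℝ))
    (continuous_subtype_val.comp (continuous_apply _)), ← integral_div]
  refine integral_congr_ae (Eventually.of_forall (fun x => ?_))
  simp only [Fin.cons_zero]
  exact int_fib hL hlow x

/-! ### The limit -/

theorem rho_le_one {L : Set (X (n + 1))} (hne : L.Nonempty) (N : ℕ) (x : X n) :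
    max (gN L N x) 0 ≤ 1 :=
  max_le (gN_le hne N x (fun z _ => ph_le_one N x z)) zero_le_one

theorem rho_cont {L : Set (X (n + 1))} (hne : L.Nonempty) (N : ℕ) :
    Continuous (fun x : X n => max (gN L N x) 0) :=
  (gN_lip hne N).continuous.max continuous_const

theorem lim_sq {L : Set (X (n + 1))} (hL : IsClosed L) (hne : L.Nonempty) (hlow : IsLowerSet L) :
    Tendsto (fun N : ℕ => ∫ x : X n, (max (gN L N x) 0) ^ 2) atTop (𝓝 (∫ x : X n, ht L x ^ 2)) := by
  refine tendsto_integral_of_dominated_convergence (fun _ => (1 : ℝ))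
    (fun N => ((rho_cont hne N).pow 2).aestronglyMeasurable) (integrable_const _) ?_ ?_
  · intro N
    refine Eventually.of_forall (fun x => ?_)
    have h1 := rho_le_one hne N x
    have h0 : 0 ≤ max (gN L N x) 0 := le_max_right _ _
    rw [Real.norm_of_nonneg (by positivity)]
    exact pow_le_one₀ h0 h1
  · exact Eventually.of_forall (fun x => (tendsto_ht hL hne hlow x).pow 2)

theorem lim_w {L : Set (X (n + 1))} (hL : IsClosed L) (hne : L.Nonempty) (hlow : IsLowerSet L)
    (w : X n → ℝ) (hw : Continuous w) (hw1 : ∀ x, |w x| ≤ 1) :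
    Tendsto (fun N : ℕ => ∫ x : X n, w x * max (gN L N x) 0) atTop
      (𝓝 (∫ x : X n, w x * ht L x)) := by
  refine tendsto_integral_of_dominated_convergence (fun _ => (1 : ℝ))
    (fun N => (hw.mul (rho_cont hne N)).aestronglyMeasurable) (integrable_const _) ?_ ?_
  · intro N
    refine Eventually.of_forall (fun x => ?_)
    have h1 := rho_le_one hne N x
    have h0 : 0 ≤ max (gN L N x) 0 := le_max_right _ _
    rw [norm_mul, Real.norm_eq_abs, Real.norm_of_nonneg h0]
    exact mul_le_one₀ (hw1 x) h0 h1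
  · exact Eventually.of_forall (fun x => (tendsto_ht hL hne hlow x).const_mul _)

theorem lim_one {L : Set (X (n + 1))} (hL : IsClosed L) (hne : L.Nonempty) (hlow : IsLowerSet L) :
    Tendsto (fun N : ℕ => ∫ x : X n, max (gN L N x) 0) atTop (𝓝 (∫ x : X n, ht L x)) := by
  have h := lim_w hL hne hlow (fun _ => (1 : ℝ)) continuous_const (fun _ => by simp)
  simpa using h

theorem unc_succ_w (n : ℕ) (h : CX n) : UNC (n + 1) := by
  intro L hL hne hlow hmid
  rw [Fin.prod_univ_succ, head_eq hL hlow, vol_eq hL]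
  simp only [tail_eq hL]
  have hN : ∀ N : ℕ, (∫ x : X n, (max (gN L N x) 0) ^ 2) *
      ∏ k : Fin n, (2 * ∫ x : X n, ((x k : unitInterval) : ℝ) * max (gN L N x) 0) ≤
      (∫ x : X n, max (gN L N x) 0) ^ (n + 1) * ∫ x : X n, max (gN L N x) 0 := by
    intro N
    have h1 := h (fun x => max (gN L N x) 0) (gN L N) N N
      ((gN_anti hne hlow N).max antitone_const) (fun x => le_max_right _ _)
      ((gN_lip hne N).max_const 0) (gN_lip hne N) (gN_rel hL hne hmid N)
    have h2 : ∀ x : X n, gN L N x * max (gN L N x) 0 = (max (gN L N x) 0) ^ 2 := by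
      intro x
      rcases le_total (gN L N x) 0 with h3 | h3
      · rw [max_eq_right h3]; ring
      · rw [max_eq_left h3]; ring
    simp only [h2] at h1
    exact h1
  have l1 := lim_sq hL hne hlow
  have l2 : ∀ k : Fin n, Tendsto (fun N : ℕ =>
      ∫ x : X n, ((x k : unitInterval) : ℝ) * max (gN L N x) 0) atTop
      (𝓝 (∫ x : X n, ((x k : unitInterval) : ℝ) * ht L x)) := by
    intro k
    refine lim_w hL hne hlow (fun x => ((x k : unitInterval) : ℝ))
      (continuous_subtype_val.comp (continuous_apply k)) (fun x => ?_)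
    rw [abs_of_nonneg (x k).2.1]
    exact (x k).2.2
  have l3 := lim_one hL hne hlow
  have l4 := l1.mul (tendsto_finsetProd Finset.univ (fun k _ => (l2 k).const_mul (2 : ℝ)))
  have l5 := (l3.pow (n + 1)).mul l3
  have h5 := le_of_tendsto_of_tendsto' l4 l5 hN
  calc 2 * ((∫ x : X n, ht L x ^ 2) / 2) *
        ∏ k : Fin n, (2 * ∫ x : X n, ((x k : unitInterval) : ℝ) * ht L x)
      = (∫ x : X n, ht L x ^ 2) *
        ∏ k : Fin n, (2 * ∫ x : X n, ((x k : unitInterval) : ℝ) * ht L x) := by ring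
    _ ≤ (∫ x : X n, ht L x) ^ (n + 1) * ∫ x : X n, ht L x := h5
    _ = (∫ x : X n, ht L x) ^ (n + 1 + 1) := by ring

end Vale.Agent.P254.Unc.E1w
end

section

/-! P254 (UNCOND), block E1: `UNC (n+1)` from `CX n` (helper232). -/

namespace Vale.Agent.P254.Unc

/-- E1 -/
theorem unc_succ (n : ℕ) (h : CX n) : UNC (n + 1) := E1w.unc_succ_w n h

end Vale.Agent.P254.Unc
end

section

/-!
P254, almost unconditional bodies: the numeric inequality.
-/

namespace Vale.Agent.P254.AU

open Vale.Agent.P254.Unc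

/-- `((n+1)(n+2)/2)^q (n+1)^(2n+1) (80/79)^(n+2) < 8^n (n!)^2` if `40 q log (n+2) ≤ n`. -/
theorem au_num (n q : ℕ) (hn : 2 ≤ n) (h : 40 * (q : ℝ) * Real.log ((n : ℝ) + 2) ≤ n) :
    (((n : ℝ) + 1) * (n + 2) / 2) ^ q * (((n : ℝ) + 1) ^ (2 * n + 1) * (80 / 79) ^ (n + 2)) <
      8 ^ n * (n.factorial : ℝ) ^ 2 := by
  rcases Nat.eq_zero_or_pos q with rfl | hq
  · rw [pow_zero, one_mul]
    exact pow_lt_factorial' hn
  have hq1 : (1 : ℝ) ≤ q := by exact_mod_cast hq
  have hn2 : (2 : ℝ) ≤ n := by exact_mod_cast hn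
  have hn0 : (0 : ℝ) < n := by linarith
  have l2 := Real.log_two_gt_d9
  have hL : Real.log 2 + Real.log 2 ≤ Real.log ((n : ℝ) + 2) := by
    rw [← Real.log_mul (by norm_num) (by norm_num)]
    exact Real.log_le_log (by norm_num) (by linarith)
  have hn40 : (40 : ℝ) ≤ n := by nlinarith
  rw [← Real.log_lt_log_iff (by positivity) (by positivity)]
  rw [Real.log_mul (by positivity) (by positivity), Real.log_mul (by positivity) (by positivity),
    Real.log_mul (by positivity) (by positivity), Real.log_pow, Real.log_pow, Real.log_pow,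
    Real.log_pow, Real.log_pow]
  -- the loss
  have h1 : (q : ℝ) * Real.log (((n : ℝ) + 1) * (n + 2) / 2) ≤ n / 20 - Real.log 2 := by
    have h2 : Real.log (((n : ℝ) + 1) * (n + 2) / 2) ≤
        2 * Real.log ((n : ℝ) + 2) - Real.log 2 := by
      rw [Real.log_div (by positivity) (by norm_num), Real.log_mul (by positivity) (by positivity)]
      have := Real.log_le_log (x := (n : ℝ) + 1) (y := (n : ℝ) + 2) (by positivity) (by linarith)
      linarith
    have h3 := mul_le_mul_of_nonneg_left h2 (by linarith : (0 : ℝ) ≤ q)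
    have h4 : Real.log 2 ≤ q * Real.log 2 := le_mul_of_one_le_left (by linarith) hq1
    nlinarith
  -- Stirling
  have h5 := Stirling.le_log_factorial_stirling (n := n) (by omega)
  have h6 : Real.log ((n : ℝ) + 1) ≤ Real.log n + 1 / n := by
    have e : (n : ℝ) + 1 = n * (1 + 1 / n) := by field_simp
    have h7 := Real.log_le_sub_one_of_pos (x := 1 + 1 / (n : ℝ)) (by positivity)
    rw [e, Real.log_mul hn0.ne' (by positivity)]
    linarith
  have h8 : (2 * (n : ℝ) + 1) * Real.log ((n : ℝ) + 1) ≤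
      (2 * (n : ℝ) + 1) * Real.log n + (2 + 1 / n) := by
    have h9 := mul_le_mul_of_nonneg_left h6 (by positivity : (0 : ℝ) ≤ 2 * (n : ℝ) + 1)
    have e : (2 * (n : ℝ) + 1) * (Real.log n + 1 / n) =
        (2 * (n : ℝ) + 1) * Real.log n + (2 + 1 / n) := by
      field_simp
    rwa [e] at h9
  have h10 : Real.log (80 / 79 : ℝ) ≤ 1 / 79 := by
    have := Real.log_le_sub_one_of_pos (x := (80 / 79 : ℝ)) (by norm_num)
    linarith
  have h11 : (1 : ℝ) ≤ Real.log Real.pi := by
    rw [Real.le_log_iff_exp_le Real.pi_pos]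
    have := Real.exp_one_lt_d9
    have := Real.pi_gt_three
    linarith
  have h12 : Real.log (2 * Real.pi) = Real.log 2 + Real.log Real.pi :=
    Real.log_mul (by norm_num) Real.pi_pos.ne'
  have h13 : Real.log 8 = 3 * Real.log 2 := by
    rw [show (8 : ℝ) = 2 ^ 3 by norm_num, Real.log_pow]
    norm_num
  have h14 : 1 / (n : ℝ) ≤ 1 / 40 := one_div_le_one_div_of_le (by norm_num) hn40
  have h15 : ((n : ℝ) + 2) * Real.log (80 / 79) ≤ ((n : ℝ) + 2) * (1 / 79) :=
    mul_le_mul_of_nonneg_left h10 (by positivity)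
  rw [h13]
  push_cast
  rw [h12] at h5
  have h16 : (n : ℝ) * 0.6931471803 ≤ n * Real.log 2 :=
    mul_le_mul_of_nonneg_left l2.le hn0.le
  nlinarith

end Vale.Agent.P254.AU
end

section

/-!
From a bound for `det Σ_U / |U|²` to the bodies `K` nearly filling an affine image of `U`.
-/

open MeasureTheory Set Matrix

namespace Vale.Agent.P254

variable {n : ℕ} {K U S : Set (Fin n → ℝ)}

/-- The bodies nearly filling an affine image of a body `U` with `det Σ_U / |U|² ≤ B`. -/
theorem near_of_bound (hn : 1 ≤ n) (hK : IsConvexBody K) (hS : IsSimplex S)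
    (hU : IsConvexBody U) {A : Matrix (Fin n) (Fin n) ℝ} (hA : A.det ≠ 0) {b : Fin n → ℝ}
    {s B : ℝ} (hKU : K ⊆ aff A b '' U)
    (hvol : (volume (aff A b '' U)).toReal ≤ s * (volume K).toReal)
    (hbody : (covMatrix U).det / (volume U).toReal ^ 2 ≤ B)
    (hnum : s ^ (n + 2) * B < FV.simpC n) :
    isoConst K < isoConst S := by
  have hn0 : 0 < n := by omega
  have hV := volume_pos_of_body hK
  have hVU := volume_pos_of_body hU
  set U' := aff A b '' U with hU'
  have hUb : IsConvexBody U' := isConvexBody_aff_image hA b hU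
  have hVU' := volume_pos_of_body hUb
  have h1 := det_cov_le_of_subset hn0 hK.2.1 hV hUb hKU
  have h2 : (covMatrix U').det / (volume U').toReal ^ 2
      = (covMatrix U).det / (volume U).toReal ^ 2 := by
    rw [hU', cov_aff_image hA b hU.2.1 hVU.ne', volume_aff_image hA b hU.2.1.measurableSet,
      det_mul, det_mul, det_transpose, mul_pow, sq_abs]
    field_simp
  set V := (volume K).toReal with hVd
  set W := (volume U').toReal with hWd
  have hr : W / V ≤ s := by
    rw [div_le_iff₀ hV]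
    linarith
  have hr0 : 0 < W / V := div_pos hVU' hV
  have hdU : 0 ≤ (covMatrix U').det / W ^ 2 :=
    div_nonneg (covMatrix_posSemidef hUb.2.1).det_nonneg (by positivity)
  have h3 : (covMatrix K).det / V ^ 2 ≤ (W / V) ^ (n + 2) * ((covMatrix U').det / W ^ 2) := by
    rw [div_le_iff₀ (by positivity)]
    refine h1.trans (le_of_eq ?_)
    rw [pow_add]
    field_simp
  have h4 : (covMatrix K).det / V ^ 2 ≤ s ^ (n + 2) * B := by
    refine h3.trans ?_
    rw [h2] at hdU ⊢
    exact mul_le_mul (pow_le_pow_left₀ hr0.le hr _) hbody hdU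
      (pow_nonneg (hr0.le.trans hr) _)
  rw [isoConst_simplex hS, isoConst, isoConst, FV.det_simplex (by omega)]
  have hn' : (0 : ℝ) < n := by exact_mod_cast hn0
  exact Real.rpow_lt_rpow (div_nonneg (covMatrix_posSemidef hK.2.1).det_nonneg (by positivity))
    (h4.trans_lt hnum) (by positivity)

/-- The case `U = K`. -/
theorem lt_of_bound (hn : 1 ≤ n) (hK : IsConvexBody K) (hS : IsSimplex S) {B : ℝ}
    (hbody : (covMatrix K).det / (volume K).toReal ^ 2 ≤ B) (hnum : B < FV.simpC n) :
    isoConst K < isoConst S := by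
  rw [isoConst_simplex hS, isoConst, isoConst, FV.det_simplex (by omega)]
  have hn' : (0 : ℝ) < n := by exact_mod_cast hn
  exact Real.rpow_lt_rpow (div_nonneg (covMatrix_posSemidef hK.2.1).det_nonneg (by positivity))
    (hbody.trans_lt hnum) (by positivity)

/-- A strict inequality settles the conjecture for `K` together with its equality case. -/
theorem conj_of_lt (hS : IsSimplex S) (h : isoConst K < isoConst S) :
    isoConst K ≤ isoConst S ∧ (isoConst K = isoConst S ↔ IsSimplex K) := by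
  refine ⟨h.le, fun h' => absurd h' h.ne, fun h' => ?_⟩
  rw [isoConst_simplex h', isoConst_simplex hS]

end Vale.Agent.P254
end

section

/-! P254, bodies inside a parallelepiped: variance of a log-concave density on an interval
(crossing argument against a truncated exponential). -/

open MeasureTheory Set

namespace Vale.Agent.P254.Par

namespace CrossH

theorem integrable_mul {F : ℝ → ℝ} {a b : ℝ} (hs : ∀ t, F t ≠ 0 → t ∈ Icc a b)
    (hi : Integrable F) (φ : ℝ → ℝ) (hφ : Continuous φ) : Integrable (fun t => φ t * F t) := by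
  obtain ⟨C, hC⟩ := (isCompact_Icc (a := a) (b := b)).exists_bound_of_continuousOn
    (f := φ) hφ.continuousOn
  refine (hi.norm.const_mul C).mono' (hφ.aestronglyMeasurable.mul hi.aestronglyMeasurable)
    (Filter.Eventually.of_forall fun t => ?_)
  by_cases h : F t = 0
  · simp [h]
  · rw [norm_mul]
    exact mul_le_mul_of_nonneg_right (hC t (hs t h)) (norm_nonneg _)

theorem integral_ind (φ : ℝ → ℝ) :
    (∫ t, (Icc (0 : ℝ) 1).indicator φ t) = ∫ t in (0 : ℝ)..1, φ t := by
  rw [integral_indicator measurableSet_Icc, intervalIntegral.integral_of_le zero_le_one,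
    integral_Icc_eq_integral_Ioc]

/-- a nonnegative integrable function with positive integral, weighted by a function positive off one point -/
theorem weight_pos {F w : ℝ → ℝ} {x : ℝ} (h0 : ∀ t, 0 ≤ F t) (hw : ∀ t, F t ≠ 0 → t ≠ x → 0 < w t)
    (hw0 : ∀ t, F t ≠ 0 → 0 ≤ w t)
    (hi : Integrable (fun t => w t * F t)) (hpos : 0 < ∫ t, F t) : 0 < ∫ t, w t * F t := by
  have hnn : ∀ t, 0 ≤ w t * F t := fun t => by
    by_cases h : F t = 0
    · simp [h]
    · exact mul_nonneg (hw0 t h) (h0 t)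
  refine lt_of_le_of_ne (integral_nonneg hnn) fun h => ?_
  have h1 := (integral_eq_zero_iff_of_nonneg hnn hi).1 h.symm
  have h2 : ∀ᵐ t : ℝ, t ≠ x := by
    have : (volume : Measure ℝ) {x} = 0 := by simp
    exact compl_mem_ae_iff.2 this
  have h3 : F =ᵐ[volume] 0 := by
    filter_upwards [h1, h2] with t ht htx
    by_contra hF
    have := mul_pos (hw t hF htx) (lt_of_le_of_ne (h0 t) (Ne.symm hF))
    simp only [Pi.zero_apply] at ht
    linarith
  rw [integral_congr_ae h3] at hpos
  simp at hpos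

theorem core
    (hv : ∀ l : ℝ, (∫ t in (0 : ℝ)..1, t ^ 2 * Real.exp (l * t)) * (∫ t in (0 : ℝ)..1, Real.exp (l * t))
      - (∫ t in (0 : ℝ)..1, t * Real.exp (l * t)) ^ 2
      ≤ 1 / 12 * (∫ t in (0 : ℝ)..1, Real.exp (l * t)) ^ 2)
    (hm : ∀ m : ℝ, 0 < m → m < 1 → ∃ l : ℝ,
      (∫ t in (0 : ℝ)..1, t * Real.exp (l * t)) = m * ∫ t in (0 : ℝ)..1, Real.exp (l * t))
    {F : ℝ → ℝ} (h0 : ∀ t, 0 ≤ F t) (hs : ∀ t, F t ≠ 0 → t ∈ Icc (0 : ℝ) 1) (hi : Integrable F)
    (hpos : 0 < ∫ t, F t)
    (hlc : ∀ s t, 0 < F s → 0 < F t → ∀ p : ℝ, 0 < p → p < 1 →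
      F s ^ (1 - p) * F t ^ p ≤ F ((1 - p) * s + p * t)) :
    (∫ t, t ^ 2 * F t) * (∫ t, F t) - (∫ t, t * F t) ^ 2 ≤ 1 / 12 * (∫ t, F t) ^ 2 := by
  have i1 : Integrable (fun t => t * F t) := integrable_mul hs hi (fun t => t) continuous_id
  have i2 : Integrable (fun t => t ^ 2 * F t) :=
    integrable_mul hs hi (fun t => t ^ 2) (continuous_pow 2)
  have i1' : Integrable (fun t => (1 - t) * F t) :=
    integrable_mul hs hi (fun t => 1 - t) (continuous_const.sub continuous_id)
  have hA1 : 0 < ∫ t, t * F t :=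
    weight_pos (x := 0) h0 (fun t ht hx => lt_of_le_of_ne (hs t ht).1 (Ne.symm hx))
      (fun t ht => (hs t ht).1) i1 hpos
  have hA1' : 0 < ∫ t, (1 - t) * F t :=
    weight_pos (x := 1) h0 (fun t ht hx => sub_pos.2 (lt_of_le_of_ne (hs t ht).2 hx))
      (fun t ht => sub_nonneg.2 (hs t ht).2) i1' hpos
  have hsub : (∫ t, (1 - t) * F t) = (∫ t, F t) - ∫ t, t * F t := by
    rw [← integral_sub hi i1]
    exact integral_congr_ae (Filter.Eventually.of_forall fun t => by simp only; ring)
  rw [hsub] at hA1'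
  set A0 := ∫ t, F t with hA0
  set A1 := ∫ t, t * F t with hA1d
  set A2 := ∫ t, t ^ 2 * F t with hA2
  obtain ⟨l, hl⟩ := hm (A1 / A0) (div_pos hA1 hpos) ((div_lt_one hpos).2 (by linarith))
  have hvl := hv l
  have hE0 : 0 < ∫ t in (0 : ℝ)..1, Real.exp (l * t) := by
    refine intervalIntegral.intervalIntegral_pos_of_pos ?_ (fun t => Real.exp_pos _) zero_lt_one
    exact (by fun_prop : Continuous fun t : ℝ => Real.exp (l * t)).intervalIntegrable _ _
  set E0 := ∫ t in (0 : ℝ)..1, Real.exp (l * t) with hE0d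
  set E1 := ∫ t in (0 : ℝ)..1, t * Real.exp (l * t) with hE1d
  set E2 := ∫ t in (0 : ℝ)..1, t ^ 2 * Real.exp (l * t) with hE2d
  set c := A0 / E0 with hc
  have hc0 : 0 < c := div_pos hpos hE0
  have hcE : c * E0 = A0 := by rw [hc]; field_simp
  have hcE1 : c * E1 = A1 := by
    rw [hl, hc]; field_simp
  set g : ℝ → ℝ := (Icc (0 : ℝ) 1).indicator (fun t => c * Real.exp (l * t)) with hg
  have hgs : ∀ t, g t ≠ 0 → t ∈ Icc (0 : ℝ) 1 := fun t ht => by
    by_contra h
    exact ht (indicator_of_notMem h _)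
  have hgi : Integrable g := by
    rw [hg, integrable_indicator_iff measurableSet_Icc]
    exact (by fun_prop : Continuous fun t : ℝ => c * Real.exp (l * t)).continuousOn.integrableOn_Icc
  have j1 : Integrable (fun t => t * g t) := integrable_mul hgs hgi (fun t => t) continuous_id
  have j2 : Integrable (fun t => t ^ 2 * g t) :=
    integrable_mul hgs hgi (fun t => t ^ 2) (continuous_pow 2)
  have hint : ∀ φ : ℝ → ℝ, (∫ t, φ t * g t) = c * ∫ t in (0 : ℝ)..1, φ t * Real.exp (l * t) := by
    intro φ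
    rw [← intervalIntegral.integral_const_mul, ← integral_ind]
    refine integral_congr_ae (Filter.Eventually.of_forall fun t => ?_)
    simp only [hg, indicator]
    split_ifs <;> ring
  have hg0 : (∫ t, g t) = A0 := by
    have := hint (fun _ => 1)
    simp only [one_mul] at this
    rw [this, ← hE0d, hcE]
  have hg1 : (∫ t, t * g t) = A1 := by
    rw [hint (fun t => t), ← hE1d, hcE1]
  have hg2 : (∫ t, t ^ 2 * g t) = c * E2 := hint (fun t => t ^ 2)
  -- crossing points
  have key : ∃ p q : ℝ, ∀ t, (t - p) * (t - q) * (F t - g t) ≤ 0 := by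
    set I : Set ℝ := {t | t ∈ Icc (0 : ℝ) 1 ∧ c * Real.exp (l * t) < F t} with hI
    have hgI : ∀ t, t ∈ Icc (0 : ℝ) 1 → g t = c * Real.exp (l * t) := fun t ht =>
      indicator_of_mem ht _
    have hout : ∀ t, t ∉ Icc (0 : ℝ) 1 → F t = 0 ∧ g t = 0 := fun t ht =>
      ⟨by by_contra h; exact ht (hs t h), indicator_of_notMem ht _⟩
    rcases I.eq_empty_or_nonempty with hIe | hIn
    · refine ⟨0, 0, fun t => ?_⟩
      have h1 : F t ≤ g t := by
        by_cases ht : t ∈ Icc (0 : ℝ) 1
        · rw [hgI t ht]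
          by_contra h
          have : t ∈ I := ⟨ht, not_le.1 h⟩
          rw [hIe] at this
          exact this
        · rw [(hout t ht).1, (hout t ht).2]
      have h2 : 0 ≤ (t - 0) * (t - 0) := mul_self_nonneg _
      exact mul_nonpos_of_nonneg_of_nonpos h2 (by linarith)
    · have hbb : BddBelow I := ⟨0, fun t ht => ht.1.1⟩
      have hba : BddAbove I := ⟨1, fun t ht => ht.1.2⟩
      refine ⟨sInf I, sSup I, fun t => ?_⟩
      by_cases ht : t ∈ Icc (0 : ℝ) 1
      swap
      · rw [(hout t ht).1, (hout t ht).2]; simp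
      by_cases htI : t ∈ I
      · have h1 : sInf I ≤ t := csInf_le hbb htI
        have h2 : t ≤ sSup I := le_csSup hba htI
        have h3 : g t < F t := by rw [hgI t ht]; exact htI.2
        have h4 : (t - sInf I) * (t - sSup I) ≤ 0 :=
          mul_nonpos_of_nonneg_of_nonpos (by linarith) (by linarith)
        exact mul_nonpos_of_nonpos_of_nonneg h4 (by linarith)
      · have h3 : F t ≤ g t := by
          rw [hgI t ht]
          by_contra h
          exact htI ⟨ht, not_le.1 h⟩
        have h4 : 0 ≤ (t - sInf I) * (t - sSup I) := by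
          by_contra hneg
          have hneg' := not_le.1 hneg
          have h5 : sInf I < t ∧ t < sSup I := by
            have hle : sInf I ≤ sSup I := csInf_le_csSup hIn hbb hba
            constructor
            · by_contra h
              have h6 : t ≤ sInf I := not_lt.1 h
              have : 0 ≤ (t - sInf I) * (t - sSup I) :=
                mul_nonneg_of_nonpos_of_nonpos (by linarith) (by linarith)
              linarith
            · by_contra h
              have h6 : sSup I ≤ t := not_lt.1 h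
              have : 0 ≤ (t - sInf I) * (t - sSup I) :=
                mul_nonneg (by linarith) (by linarith)
              linarith
          obtain ⟨u, hu, hut⟩ := exists_lt_of_csInf_lt hIn h5.1
          obtain ⟨v, hv', htv⟩ := exists_lt_of_lt_csSup hIn h5.2
          apply htI
          refine ⟨ht, ?_⟩
          have huv : u < v := hut.trans htv
          set p := (t - u) / (v - u) with hp
          have hp0 : 0 < p := div_pos (by linarith) (by linarith)
          have hp1 : p < 1 := (div_lt_one (by linarith)).2 (by linarith)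
          have hpt : (1 - p) * u + p * v = t := by
            have hvu : v - u ≠ 0 := (sub_pos.2 huv).ne'
            have h11 : p * (v - u) = t - u := by rw [hp]; exact div_mul_cancel₀ _ hvu
            linear_combination h11
          have hgu : 0 < c * Real.exp (l * u) := mul_pos hc0 (Real.exp_pos _)
          have hgv : 0 < c * Real.exp (l * v) := mul_pos hc0 (Real.exp_pos _)
          have h7 := hlc u v (hgu.trans hu.2) (hgv.trans hv'.2) p hp0 hp1
          rw [hpt] at h7
          refine lt_of_lt_of_le ?_ h7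
          have h8 : c * Real.exp (l * t) =
              (c * Real.exp (l * u)) ^ (1 - p) * (c * Real.exp (l * v)) ^ p := by
            rw [Real.mul_rpow hc0.le (Real.exp_pos _).le, Real.mul_rpow hc0.le (Real.exp_pos _).le,
              ← Real.exp_mul, ← Real.exp_mul]
            have h9 : c ^ (1 - p) * Real.exp (l * u * (1 - p)) * (c ^ p * Real.exp (l * v * p)) =
                (c ^ (1 - p) * c ^ p) * (Real.exp (l * u * (1 - p)) * Real.exp (l * v * p)) := by
              ring
            rw [h9, ← Real.rpow_add hc0, ← Real.exp_add]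
            have h10 : 1 - p + p = 1 := by ring
            rw [h10, Real.rpow_one]
            congr 2
            rw [← hpt]; ring
          rw [h8]
          exact mul_lt_mul'' (Real.rpow_lt_rpow hgu.le hu.2 (by linarith))
            (Real.rpow_lt_rpow hgv.le hv'.2 hp0) (Real.rpow_nonneg hgu.le _)
            (Real.rpow_nonneg hgv.le _)
        exact mul_nonpos_of_nonneg_of_nonpos h4 (by linarith)
  obtain ⟨p, q, hpq⟩ := key
  have hle : (∫ t, ((t ^ 2 * F t - t ^ 2 * g t) - (p + q) * (t * F t - t * g t)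
      + p * q * (F t - g t))) ≤ 0 := by
    refine integral_nonpos fun t => ?_
    have := hpq t
    simp only [Pi.zero_apply]
    nlinarith [this]
  have hexp : (∫ t, ((t ^ 2 * F t - t ^ 2 * g t) - (p + q) * (t * F t - t * g t)
      + p * q * (F t - g t))) = (A2 - c * E2) - (p + q) * (A1 - A1) + p * q * (A0 - A0) := by
    have k2 : Integrable (fun t => t ^ 2 * F t - t ^ 2 * g t) := i2.sub j2
    have k1 : Integrable (fun t => (p + q) * (t * F t - t * g t)) := (i1.sub j1).const_mul _
    have k0 : Integrable (fun t => p * q * (F t - g t)) := (hi.sub hgi).const_mul _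
    have k21 : Integrable (fun t => (t ^ 2 * F t - t ^ 2 * g t) - (p + q) * (t * F t - t * g t)) :=
      k2.sub k1
    rw [integral_add k21 k0, integral_sub k2 k1, integral_const_mul, integral_const_mul,
      integral_sub i2 j2, integral_sub i1 j1, integral_sub hi hgi, hg0, hg1, hg2]
  rw [hexp] at hle
  have hA2le : A2 ≤ c * E2 := by linarith
  have h1 : A2 * A0 ≤ (c * E2) * A0 := mul_le_mul_of_nonneg_right hA2le hpos.le
  have h2 : (c * E2) * A0 - A1 ^ 2 = c ^ 2 * (E2 * E0 - E1 ^ 2) := by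
    rw [← hcE, ← hcE1]; ring
  have h3 : c ^ 2 * (E2 * E0 - E1 ^ 2) ≤ c ^ 2 * (1 / 12 * E0 ^ 2) :=
    mul_le_mul_of_nonneg_left hvl (sq_nonneg c)
  have h4 : c ^ 2 * (1 / 12 * E0 ^ 2) = 1 / 12 * A0 ^ 2 := by rw [← hcE]; ring
  linarith

/-- C1, with the two facts on exponentials as hypotheses -/
theorem lc_var_of
    (hv : ∀ l : ℝ, (∫ t in (0 : ℝ)..1, t ^ 2 * Real.exp (l * t)) * (∫ t in (0 : ℝ)..1, Real.exp (l * t))
      - (∫ t in (0 : ℝ)..1, t * Real.exp (l * t)) ^ 2
      ≤ 1 / 12 * (∫ t in (0 : ℝ)..1, Real.exp (l * t)) ^ 2)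
    (hm : ∀ m : ℝ, 0 < m → m < 1 → ∃ l : ℝ,
      (∫ t in (0 : ℝ)..1, t * Real.exp (l * t)) = m * ∫ t in (0 : ℝ)..1, Real.exp (l * t))
    {f : ℝ → ℝ} {a b : ℝ} (hab : a < b) (h0 : ∀ t, 0 ≤ f t)
    (hs : ∀ t, f t ≠ 0 → a ≤ t ∧ t ≤ b) (hi : Integrable f)
    (hpos : 0 < ∫ t, f t)
    (hlc : ∀ s t, 0 < f s → 0 < f t → ∀ p : ℝ, 0 < p → p < 1 →
      f s ^ (1 - p) * f t ^ p ≤ f ((1 - p) * s + p * t)) :
    (∫ t, t ^ 2 * f t) * (∫ t, f t) - (∫ t, t * f t) ^ 2
      ≤ (b - a) ^ 2 / 12 * (∫ t, f t) ^ 2 := by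
  set L := b - a with hL
  have hL0 : 0 < L := sub_pos.2 hab
  have hsc : ∀ G : ℝ → ℝ, (∫ u, G (a + L * u)) = L⁻¹ * ∫ t, G t := by
    intro G
    have h1 := Measure.integral_comp_mul_left (fun t => G (a + t)) L
    rw [h1, abs_of_pos (inv_pos.2 hL0), smul_eq_mul, integral_add_left_eq_self (fun t => G t) a]
  have i1 : Integrable (fun t => t * f t) := integrable_mul hs hi (fun t => t) continuous_id
  have i2 : Integrable (fun t => t ^ 2 * f t) :=
    integrable_mul hs hi (fun t => t ^ 2) (continuous_pow 2)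
  have hFi : Integrable (fun u => f (a + L * u)) := by
    have h1 : Integrable (fun t => f (a + t)) := hi.comp_add_left a
    exact h1.comp_mul_left' hL0.ne'
  have e0 : (∫ u, f (a + L * u)) = L⁻¹ * ∫ t, f t := hsc f
  have e1 : (∫ u, u * f (a + L * u)) = L⁻¹ * (L⁻¹ * ((∫ t, t * f t) - a * ∫ t, f t)) := by
    have h1 := hsc (fun t => L⁻¹ * (t * f t - a * f t))
    have h2 : (∫ t, L⁻¹ * (t * f t - a * f t)) = L⁻¹ * ((∫ t, t * f t) - a * ∫ t, f t) := by
      rw [integral_const_mul, integral_sub i1 (hi.const_mul a), integral_const_mul]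
    rw [← h2, ← h1]
    refine integral_congr_ae (Filter.Eventually.of_forall fun u => ?_)
    simp only
    field_simp
    ring
  have e2 : (∫ u, u ^ 2 * f (a + L * u)) = L⁻¹ * (L⁻¹ ^ 2 * ((∫ t, t ^ 2 * f t)
      - 2 * a * (∫ t, t * f t) + a ^ 2 * ∫ t, f t)) := by
    have h1 := hsc (fun t => L⁻¹ ^ 2 * (t ^ 2 * f t - 2 * a * (t * f t) + a ^ 2 * f t))
    have k1 : Integrable (fun t => 2 * a * (t * f t)) := i1.const_mul _
    have k0 : Integrable (fun t => a ^ 2 * f t) := hi.const_mul _
    have k2 : Integrable (fun t => t ^ 2 * f t - 2 * a * (t * f t)) := i2.sub k1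
    have h2 : (∫ t, L⁻¹ ^ 2 * (t ^ 2 * f t - 2 * a * (t * f t) + a ^ 2 * f t)) =
        L⁻¹ ^ 2 * ((∫ t, t ^ 2 * f t) - 2 * a * (∫ t, t * f t) + a ^ 2 * ∫ t, f t) := by
      rw [integral_const_mul, integral_add k2 k0, integral_sub i2 k1, integral_const_mul,
        integral_const_mul]
    rw [← h2, ← h1]
    refine integral_congr_ae (Filter.Eventually.of_forall fun u => ?_)
    simp only
    field_simp
    ring
  have hc := core hv hm (F := fun u => f (a + L * u)) (fun u => h0 _) (fun u hu => by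
      have := hs _ hu
      constructor
      · have h1 : 0 ≤ L * u := by linarith
        exact nonneg_of_mul_nonneg_right h1 hL0
      · have h1 : L * u ≤ L * 1 := by rw [hL] at *; linarith
        exact le_of_mul_le_mul_left h1 hL0) hFi (by rw [e0]; positivity)
      (fun s t h1 h2 p hp0 hp1 => by
        have := hlc _ _ h1 h2 p hp0 hp1
        have h3 : a + L * ((1 - p) * s + p * t) = (1 - p) * (a + L * s) + p * (a + L * t) := by ring
        simp only [h3]
        exact this)
  rw [e0, e1, e2] at hc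
  set M0 := ∫ t, f t
  set M1 := ∫ t, t * f t
  set M2 := ∫ t, t ^ 2 * f t
  have h5 : L⁻¹ * (L⁻¹ ^ 2 * (M2 - 2 * a * M1 + a ^ 2 * M0)) * (L⁻¹ * M0)
      - (L⁻¹ * (L⁻¹ * (M1 - a * M0))) ^ 2 = (M2 * M0 - M1 ^ 2) / L ^ 4 := by
    field_simp
    ring
  have h6 : 1 / 12 * (L⁻¹ * M0) ^ 2 = (L ^ 2 / 12 * M0 ^ 2) / L ^ 4 := by
    field_simp
  rw [h5, h6] at hc
  exact (div_le_div_iff_of_pos_right (pow_pos hL0 4)).1 hc

end CrossH

end Vale.Agent.P254.Par
end

section

/-! P254, bodies inside a parallelepiped: variance of a log-concave density on an interval. -/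

open MeasureTheory Set

namespace Vale.Agent.P254.Par

theorem lc_var {f : ℝ → ℝ} {a b : ℝ} (hab : a < b) (h0 : ∀ t, 0 ≤ f t)
    (hs : ∀ t, f t ≠ 0 → a ≤ t ∧ t ≤ b) (_hm : Measurable f) (hi : Integrable f)
    (hpos : 0 < ∫ t, f t)
    (hlc : ∀ s t, 0 < f s → 0 < f t → ∀ p : ℝ, 0 < p → p < 1 →
      f s ^ (1 - p) * f t ^ p ≤ f ((1 - p) * s + p * t)) :
    (∫ t, t ^ 2 * f t) * (∫ t, f t) - (∫ t, t * f t) ^ 2
      ≤ (b - a) ^ 2 / 12 * (∫ t, f t) ^ 2 :=
  CrossH.lc_var_of exp_var (fun _ h0 h1 => exp_mean h0 h1) hab h0 hs hi hpos hlc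

end Vale.Agent.P254.Par
end
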