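import Mathlib
import Vale.Agent.P254.Bdl.B13
import Vale.Agent.P254.Bdl.B1
import Vale.Agent.P254.Bdl.B2
import Vale.Agent.P254.Bdl.B10
import Vale.Agent.P254.Bdl.B17
import Vale.Agent.P254.Bdl.B4
import Vale.Agent.P254.Bdl.B18
import Vale.Agent.P254.Bdl.B7
import Vale.Agent.P254.Bdl.B5
import Vale.Agent.P254.Unc.FinDefs
import Vale.Agent.P254.Bdl.B11
import Vale.Agent.P254.Bdl.B12
import Vale.Agent.P254.Bdl.B14
import Vale.Agent.P254.Bdl.B16
import Vale.Agent.P254.Defs

set_option linter.all false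

section

/-! # P227, block LIM, part 3: compactness of the class `C21` -/

open MeasureTheory Set Metric Filter Topology
open scoped ENNReal NNReal

namespace Vale.Agent.P227.M.Lim

variable {E : Type*} [NormedAddCommGroup E] [InnerProductSpace ℝ E] [FiniteDimensional ℝ E]

theorem M_nonneg_of {a b M : ℝ} {φ : E → ℝ} {G : E → E} {H : E → E →L[ℝ] E} (h : C21 a b M φ G H) (y v : E) :
    0 ≤ M * ‖v‖ := by
  have := h.lip (y + v) y
  rw [add_sub_cancel_left] at this
  exact (norm_nonneg _).trans this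

/-- closedness of the class under pointwise convergence -/
theorem C21.of_tendsto {a b M : ℝ} (ha : 0 ≤ a) (hb : 0 ≤ b) {φ : ℕ → E → ℝ} {G : ℕ → E → E} {H : ℕ → E → E →L[ℝ] E}
    (h : ∀ k, C21 a b M (φ k) (G k) (H k)) {φ' : E → ℝ} {G' : E → E} {H' : E → E →L[ℝ] E}
    (hφ : ∀ y, Tendsto (fun k => φ k y) atTop (𝓝 (φ' y))) (hG : ∀ y, Tendsto (fun k => G k y) atTop (𝓝 (G' y)))
    (hH : ∀ y, Tendsto (fun k => H k y) atTop (𝓝 (H' y))) : C21 a b M φ' G' H' := by
  have hM : ∀ v : E, 0 ≤ M * ‖v‖ := fun v => M_nonneg_of (h 0) 0 v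
  have hT1 : ∀ y v, ‖G' (y + v) - G' y - H' y v‖ ≤ M * ‖v‖ * ‖v‖ := by
    intro y v
    have h1 : Tendsto (fun k => ‖G k (y + v) - G k y - H k y v‖) atTop (𝓝 ‖G' (y + v) - G' y - H' y v‖) := by
      refine (((hG _).sub (hG _)).sub ?_).norm
      exact ((ContinuousLinearMap.apply ℝ E v).continuous.tendsto _).comp (hH y)
    exact le_of_tendsto' h1 fun k => (h k).G_taylor y v
  have hT2 : ∀ y v, |φ' (y + v) - φ' y - inner ℝ (G' y) v| ≤ b * ‖v‖ * ‖v‖ := by
    intro y v
    have h1 : Tendsto (fun k => |φ k (y + v) - φ k y - inner ℝ (G k y) v|) atTop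
        (𝓝 |φ' (y + v) - φ' y - inner ℝ (G' y) v|) :=
      (((hφ _).sub (hφ _)).sub ((hG y).inner tendsto_const_nhds)).abs
    exact le_of_tendsto' h1 fun k => (h k).phi_taylor ha hb y v
  refine ⟨fun y => ?_, fun y => ?_, fun y v => ?_, fun y v => ?_, fun y y' => ?_, fun y => ?_⟩
  · rw [hasGradientAt_iff_hasFDerivAt]
    rw [hasFDerivAt_iff_isLittleO_nhds_zero]
    refine Asymptotics.IsBigO.trans_isLittleO (g := fun v : E => ‖v‖ * ‖v‖) (Asymptotics.IsBigO.of_bound b (Eventually.of_forall fun v => ?_)) ?_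
    · have := hT2 y v
      rw [Real.norm_eq_abs, norm_mul, norm_norm]
      simpa [mul_assoc] using this
    · have h1 : (fun v : E => ‖v‖ * ‖v‖) =o[𝓝 0] fun v : E => ‖v‖ := by
        have h2 : (fun v : E => ‖v‖) =o[𝓝 0] fun _ : E => (1 : ℝ) := by
          rw [Asymptotics.isLittleO_one_iff]
          simpa using (continuous_norm.tendsto (0 : E))
        simpa using h2.mul_isBigO (Asymptotics.isBigO_refl (fun v : E => ‖v‖) (𝓝 0))
      exact h1.of_norm_right
  · rw [hasFDerivAt_iff_isLittleO_nhds_zero]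
    refine Asymptotics.IsBigO.trans_isLittleO (g := fun v : E => ‖v‖ * ‖v‖) (Asymptotics.IsBigO.of_bound M (Eventually.of_forall fun v => ?_)) ?_
    · have := hT1 y v
      rw [norm_mul, norm_norm]
      simpa [mul_assoc] using this
    · have h1 : (fun v : E => ‖v‖ * ‖v‖) =o[𝓝 0] fun v : E => ‖v‖ := by
        have h2 : (fun v : E => ‖v‖) =o[𝓝 0] fun _ : E => (1 : ℝ) := by
          rw [Asymptotics.isLittleO_one_iff]
          simpa using (continuous_norm.tendsto (0 : E))
        simpa using h2.mul_isBigO (Asymptotics.isBigO_refl (fun v : E => ‖v‖) (𝓝 0))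
      exact h1.of_norm_right
  · have h1 : Tendsto (fun k => (inner ℝ (H k y v) v : ℝ)) atTop (𝓝 (inner ℝ (H' y v) v)) :=
      Tendsto.inner (((ContinuousLinearMap.apply ℝ E v).continuous.tendsto _).comp (hH y)) tendsto_const_nhds
    exact ge_of_tendsto' h1 fun k => (h k).lower y v
  · have h1 : Tendsto (fun k => (inner ℝ (H k y v) v : ℝ)) atTop (𝓝 (inner ℝ (H' y v) v)) :=
      Tendsto.inner (((ContinuousLinearMap.apply ℝ E v).continuous.tendsto _).comp (hH y)) tendsto_const_nhds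
    exact le_of_tendsto' h1 fun k => (h k).upper y v
  · exact le_of_tendsto' ((hH y).sub (hH y')).norm fun k => (h k).lip y y'
  · exact tendsto_nhds_unique (hφ (-y)) (by simpa only [(h _).even] using hφ y)

/-- sequential compactness of the class -/
theorem exists_limit {a b M B : ℝ} (ha : 0 ≤ a) (hb : 0 ≤ b) {φ : ℕ → E → ℝ} {G : ℕ → E → E} {H : ℕ → E → E →L[ℝ] E}
    (h : ∀ k, C21 a b M (φ k) (G k) (H k)) (hB : ∀ k, |φ k 0| ≤ B) :
    ∃ ψ : ℕ → ℕ, StrictMono ψ ∧ ∃ (φ' : E → ℝ) (G' : E → E) (H' : E → E →L[ℝ] E), C21 a b M φ' G' H' ∧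
      (∀ y, Tendsto (fun k => φ (ψ k) y) atTop (𝓝 (φ' y))) ∧ (∀ y, Tendsto (fun k => G (ψ k) y) atTop (𝓝 (G' y))) ∧
      (∀ y, Tendsto (fun k => H (ψ k) y) atTop (𝓝 (H' y))) := by
  let F : ℕ → E → (E →L[ℝ] E) × E × ℝ := fun k y => (H k y, G k y, φ k y)
  obtain ⟨ψ, hψ, F', hF'⟩ := exists_subseq F (max b (max 0 B))
    (fun k => by
      simp only [F, Prod.norm_mk, (h k).G_zero, norm_zero]
      refine max_le_max ((h k).norm_le ha hb 0) (max_le_max le_rfl ?_)
      rw [Real.norm_eq_abs]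
      exact hB k)
    (fun R => max |M| (max b (b * R)))
    (fun R k y y' hy hy' => by
      have hN := norm_nonneg (y - y')
      have h1 : ‖H k y - H k y'‖ ≤ |M| * ‖y - y'‖ :=
        ((h k).lip y y').trans (mul_le_mul_of_nonneg_right (le_abs_self M) hN)
      have h2 : ‖G k y - G k y'‖ ≤ b * ‖y - y'‖ := (h k).G_lip ha hb y y'
      have h3 : ‖φ k y - φ k y'‖ ≤ (b * R) * ‖y - y'‖ := by
        obtain ⟨c, hc1, hc2⟩ := (h k).phi_mvt y' (y - y')
        rw [add_sub_cancel] at hc2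
        rw [hc2, Real.norm_eq_abs]
        refine (abs_real_inner_le_norm _ _).trans (mul_le_mul_of_nonneg_right ?_ hN)
        refine ((h k).G_norm_le ha hb _).trans (mul_le_mul_of_nonneg_left ?_ hb)
        have h4 : y' + c • (y - y') = (1 - c) • y' + c • y := by
          rw [smul_sub, sub_smul, one_smul]; abel
        rw [h4]
        calc ‖(1 - c) • y' + c • y‖ ≤ ‖(1 - c) • y'‖ + ‖c • y‖ := norm_add_le _ _
          _ = (1 - c) * ‖y'‖ + c * ‖y‖ := by
              rw [norm_smul, norm_smul, Real.norm_eq_abs, Real.norm_eq_abs, abs_of_pos hc1.1, abs_of_pos (by linarith [hc1.2])]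
          _ ≤ (1 - c) * R + c * R := by
              have := hc1.1
              have := hc1.2
              gcongr
          _ = R := by ring
      simp only [F, Prod.norm_def, Prod.fst_sub, Prod.snd_sub]
      refine max_le (h1.trans ?_) (max_le (h2.trans ?_) (h3.trans ?_))
      · exact mul_le_mul_of_nonneg_right (le_max_left _ _) hN
      · exact mul_le_mul_of_nonneg_right ((le_max_left _ _).trans (le_max_right _ _)) hN
      · exact mul_le_mul_of_nonneg_right ((le_max_right _ _).trans (le_max_right _ _)) hN)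
  have h1 : ∀ y, Tendsto (fun k => H (ψ k) y) atTop (𝓝 (F' y).1) := fun y => (continuous_fst.tendsto _).comp (hF' y)
  have h2 : ∀ y, Tendsto (fun k => G (ψ k) y) atTop (𝓝 (F' y).2.1) := fun y =>
    ((continuous_fst.comp continuous_snd).tendsto _).comp (hF' y)
  have h3 : ∀ y, Tendsto (fun k => φ (ψ k) y) atTop (𝓝 (F' y).2.2) := fun y =>
    ((continuous_snd.comp continuous_snd).tendsto _).comp (hF' y)
  exact ⟨ψ, hψ, fun y => (F' y).2.2, fun y => (F' y).2.1, fun y => (F' y).1,
    C21.of_tendsto ha hb (fun k => h (ψ k)) h3 h2 h1, h3, h2, h1⟩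

end Vale.Agent.P227.M.Lim
end

section

/-!
The strong isotropic constant conjecture for polytopes with at most `n + 2` vertices.
-/

open MeasureTheory Set Matrix

namespace Vale.Agent.P254.FV

variable {n : ℕ}

theorem isSimplex_face {v : Fin (n + 2) → Fin n → ℝ} {k : Fin (n + 2)} (hk : minor v k ≠ 0) :
    IsSimplex (face v k) := by
  have h : (edge fun j => v (k.succAbove j)).det ≠ 0 := by
    rw [← abs_pos, ← abs_minor]
    exact abs_pos.2 hk
  rw [face, ← image_edge]
  exact isSimplex_image h _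

theorem isSimplex_of_single {v : Fin (n + 2) → Fin n → ℝ} {c : Fin (n + 2) → ℝ}
    (hc : ∑ k, c k = 0) (hcv : ∀ a, ∑ k, c k * v k a = 0) {k : Fin (n + 2)} (hk : 0 < c k)
    (hj : ∀ j, j ≠ k → c j ≤ 0) (hm : minor v k ≠ 0) :
    IsSimplex (convexHull ℝ (range v)) := by
  have h : convexHull ℝ (range v) = face v k := by
    rw [hull_eq_iUnion' hc hcv ⟨k, hk⟩]
    apply Subset.antisymm
    · refine iUnion_subset fun j => ?_
      have : j.1 = k := by
        by_contra hne
        exact absurd j.2 (not_lt.2 (hj j.1 hne))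
      rw [this]
    · exact subset_iUnion (fun j : {k // 0 < c k} => face v j) ⟨k, hk⟩
  rw [h]
  exact isSimplex_face hm

theorem isoConst_pow (hn : 1 ≤ n) {K : Set (Fin n → ℝ)} {d : ℝ} (hd : 0 ≤ d)
    (h : (covMatrix K).det / (volume K).toReal ^ 2 = d) : isoConst K ^ (2 * n) = d := by
  rw [isoConst, h, ← Real.rpow_natCast, ← Real.rpow_mul hd]
  have : (1 / (2 * (n : ℝ))) * ((2 * n : ℕ) : ℝ) = 1 := by
    have : (n : ℝ) ≠ 0 := by positivity
    push_cast
    field_simp
  rw [this, Real.rpow_one]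

theorem few_vertices (hn : 1 ≤ n) (v : Fin (n + 2) → Fin n → ℝ)
    (hK : (interior (convexHull ℝ (range v))).Nonempty) {S : Set (Fin n → ℝ)} (hS : IsSimplex S) :
    isoConst (convexHull ℝ (range v)) ≤ isoConst S ∧
    (isoConst (convexHull ℝ (range v)) = isoConst S ↔ IsSimplex (convexHull ℝ (range v))) ∧
    ∀ c : Fin (n + 2) → ℝ, c ≠ 0 → ∑ i, c i = 0 → ∑ i, c i • v i = 0 →
      isoConst (convexHull ℝ (range v)) ^ (2 * n) = isoConst S ^ (2 * n) *
        (1 - (1 - ∑ i, (max (c i) 0 / ∑ j, max (c j) 0) ^ 2) *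
          (1 - ∑ i, (max (-c i) 0 / ∑ j, max (-c j) 0) ^ 2)) := by
  have hmin := exists_minor_ne hK
  have hpos := exists_pos_of_sum (sum_minor v) hmin
  have hneg : ∃ k, 0 < -minor v k :=
    exists_pos_of_sum (c := fun k => -minor v k)
      (by rw [Finset.sum_neg_distrib, sum_minor, neg_zero])
      (by obtain ⟨k, hk⟩ := hmin; exact ⟨k, neg_ne_zero.2 hk⟩)
  have hS0 := isoConst_simplex hS
  have hSd := det_simplex hn
  have hC := simpC_pos n
  have hKd := det_formula hn hpos
  set A := sqp (minor v) with hA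
  set B := sqp (fun k => -minor v k) with hB
  have hA1 : A ≤ 1 := sqp_le_one hpos
  have hB1 : B ≤ 1 := sqp_le_one hneg
  have hA0 : 0 < A := sqp_pos hpos
  have hB0 : 0 < B := sqp_pos hneg
  have hF1 : 1 - (1 - A) * (1 - B) ≤ 1 := by
    have := mul_nonneg (sub_nonneg.2 hA1) (sub_nonneg.2 hB1)
    linarith
  have hF0 : 0 < 1 - (1 - A) * (1 - B) := by nlinarith
  have hle : isoConst (convexHull ℝ (range v)) ≤ isoConst S := by
    rw [hS0, isoConst, isoConst, hKd, hSd]
    refine Real.rpow_le_rpow (by positivity) ?_ (by positivity)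
    nlinarith
  refine ⟨hle, ⟨fun heq => ?_, fun hs => ?_⟩, fun c hc0 hc hcv => ?_⟩
  · -- equality case
    have h1 : isoConst (convexHull ℝ (range v)) ^ (2 * n) =
        simpC n * (1 - (1 - A) * (1 - B)) := isoConst_pow hn (by positivity) hKd
    have h2 : isoConst S ^ (2 * n) = simpC n := by
      rw [hS0]
      exact isoConst_pow hn hC.le hSd
    rw [heq, h2] at h1
    have h3 : (1 - A) * (1 - B) = 0 := by
      have h4 : simpC n * ((1 - A) * (1 - B)) = 0 := by linarith
      rcases mul_eq_zero.1 h4 with h5 | h5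
      · exact absurd h5 hC.ne'
      · exact h5
    rcases mul_eq_zero.1 h3 with h4 | h4
    · obtain ⟨k, hk, hj⟩ := sqp_eq_one hpos (show sqp (minor v) = 1 by rw [← hA]; linarith)
      exact isSimplex_of_single (sum_minor v) (sum_minor_mul v) hk hj hk.ne'
    · obtain ⟨k, hk, hj⟩ := sqp_eq_one hneg
        (show sqp (fun k => -minor v k) = 1 by rw [← hB]; linarith)
      refine isSimplex_of_single (c := fun k => -minor v k)
        (by rw [Finset.sum_neg_distrib, sum_minor, neg_zero]) ?_ hk hj (neg_pos.1 hk).ne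
      intro a
      simp_rw [neg_mul]
      rw [Finset.sum_neg_distrib, sum_minor_mul, neg_zero]
  · rw [isoConst_simplex hs, hS0]
  · have hc0' : ∃ k, c k ≠ 0 := by
      by_contra hcon
      push Not at hcon
      exact hc0 (funext hcon)
    have hcv' : ∀ a, ∑ k, c k * v k a = 0 := by
      intro a
      have := congrFun hcv a
      rw [Finset.sum_apply] at this
      simpa using this
    have hf := det_formula' hn hmin hc0' hc hcv'
    have hfpos : 0 ≤ simpC n * (1 - (1 - sqp c) * (1 - sqp fun k => -c k)) := by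
      rw [← hf, hKd]
      positivity
    rw [isoConst_pow hn hfpos hf, hS0, isoConst_pow hn hC.le hSd]
    rfl

end Vale.Agent.P254.FV
end

section

/-!
Integration over free sums: the formula.
-/

open MeasureTheory Set Matrix
open scoped Pointwise

namespace Vale.Agent.P254.FV

variable {m n : ℕ}

/-- Fubini for compact sets -/
theorem fub {S : Set (ℝ × ((Fin m → ℝ) × (Fin n → ℝ)))} (hS : IsCompact S)
    {G : (Fin m → ℝ) × (Fin n → ℝ) → ℝ} (hG : Continuous G) :
    ∫ t : ℝ, ∫ w in {w | (t, w) ∈ S}, G w = ∫ w, (volume {t : ℝ | (t, w) ∈ S}).toReal * G w := by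
  have hi : Integrable (S.indicator (fun p => G p.2))
      ((volume : Measure ℝ).prod (volume : Measure ((Fin m → ℝ) × (Fin n → ℝ)))) := by
    rw [← Measure.volume_eq_prod]
    exact (integrable_indicator_iff hS.measurableSet).2
      ((hG.comp continuous_snd).continuousOn.integrableOn_compact hS)
  have h := integral_integral_swap (f := fun t w => S.indicator (fun p => G p.2) (t, w)) hi
  have e1 : ∀ t : ℝ, ∫ w, S.indicator (fun p => G p.2) (t, w) = ∫ w in {w | (t, w) ∈ S}, G w := by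
    intro t
    have hm : MeasurableSet {w | (t, w) ∈ S} :=
      (hS.isClosed.preimage (by fun_prop : Continuous fun w => (t, w))).measurableSet
    rw [← integral_indicator hm]
    congr 1
  have e2 : ∀ w, ∫ t : ℝ, S.indicator (fun p => G p.2) (t, w) =
      (volume {t : ℝ | (t, w) ∈ S}).toReal * G w := by
    intro w
    have hm : MeasurableSet {t : ℝ | (t, w) ∈ S} :=
      (hS.isClosed.preimage (by fun_prop : Continuous fun t : ℝ => (t, w))).measurableSet
    have e : (fun t : ℝ => S.indicator (fun p => G p.2) (t, w)) =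
        {t : ℝ | (t, w) ∈ S}.indicator (fun _ => G w) := by
      ext t
      rfl
    rw [e, integral_indicator hm, setIntegral_const, smul_eq_mul]
    rfl
  simp_rw [e1, e2] at h
  exact h

variable {K : Set (Fin m → ℝ)} {L : Set (Fin n → ℝ)}

theorem isCompact_sumP (hKc : IsCompact K) (hLc : IsCompact L) : IsCompact (sumP K L) := by
  have e : sumP K L = (fun p : ℝ × ((Fin m → ℝ) × (Fin n → ℝ)) =>
      ((1 - p.1) • p.2.1, p.1 • p.2.2)) '' (Icc (0 : ℝ) 1 ×ˢ (K ×ˢ L)) := by
    ext w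
    constructor
    · rintro ⟨t, ht, ⟨x, hx, hx'⟩, ⟨y, hy, hy'⟩⟩
      exact ⟨(t, (x, y)), ⟨ht, hx, hy⟩, Prod.ext hx' hy'⟩
    · rintro ⟨⟨t, x, y⟩, ⟨ht, hx, hy⟩, rfl⟩
      exact ⟨t, ht, ⟨x, hx, rfl⟩, ⟨y, hy, rfl⟩⟩
  rw [e]
  exact (isCompact_Icc.prod (hKc.prod hLc)).image (by fun_prop)

theorem int_sumP (hK : Convex ℝ K) (hKc : IsCompact K) (hK0 : (0 : Fin m → ℝ) ∈ K)
    (hL : Convex ℝ L) (hLc : IsCompact L) (hL0 : (0 : Fin n → ℝ) ∈ L)
    {f : (Fin m → ℝ) → ℝ} {g : (Fin n → ℝ) → ℝ} (hf : Continuous f) (hg : Continuous g) (a b : ℕ)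
    (hfa : ∀ (r : ℝ) (x : Fin m → ℝ), f (r • x) = r ^ a * f x)
    (hgb : ∀ (r : ℝ) (y : Fin n → ℝ), g (r • y) = r ^ b * g y) :
    ∫ w in sumP K L, f w.1 * g w.2 =
      ((m + a).factorial : ℝ) * (n + b).factorial / ((m + a + (n + b)).factorial : ℝ) *
        ((∫ x in K, f x) * ∫ y in L, g y) := by
  have hG : Continuous (fun w : (Fin m → ℝ) × (Fin n → ℝ) => f w.1 * g w.2) := by fun_prop
  set S : Set (ℝ × ((Fin m → ℝ) × (Fin n → ℝ))) :=
    {p | p.1 ∈ Icc (0 : ℝ) 1 ∧ p.2.1 ∈ (1 - p.1) • K ∧ p.2.2 ∈ p.1 • L} with hSdef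
  set R : Set (ℝ × ((Fin m → ℝ) × (Fin n → ℝ))) :=
    {p | p.1 ∈ Icc (0 : ℝ) 1 ∧ p.2 ∈ p.1 • sumP K L} with hRdef
  have hS : IsCompact S := by
    have e : S = (fun p : ℝ × ((Fin m → ℝ) × (Fin n → ℝ)) =>
        (p.1, ((1 - p.1) • p.2.1, p.1 • p.2.2))) '' (Icc (0 : ℝ) 1 ×ˢ (K ×ˢ L)) := by
      ext ⟨t, w⟩
      constructor
      · rintro ⟨ht, ⟨x, hx, hx'⟩, ⟨y, hy, hy'⟩⟩
        exact ⟨(t, (x, y)), ⟨ht, hx, hy⟩, Prod.ext rfl (Prod.ext hx' hy')⟩
      · rintro ⟨⟨t', x, y⟩, ⟨ht, hx, hy⟩, h⟩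
        simp only [Prod.mk.injEq] at h
        obtain ⟨rfl, rfl⟩ := h
        exact ⟨ht, ⟨x, hx, rfl⟩, ⟨y, hy, rfl⟩⟩
    rw [e]
    exact (isCompact_Icc.prod (hKc.prod hLc)).image (by fun_prop)
  have hR : IsCompact R := by
    have e : R = (fun p : ℝ × ((Fin m → ℝ) × (Fin n → ℝ)) =>
        (p.1, p.1 • p.2)) '' (Icc (0 : ℝ) 1 ×ˢ sumP K L) := by
      ext ⟨t, w⟩
      constructor
      · rintro ⟨ht, ⟨x, hx, hx'⟩⟩
        exact ⟨(t, x), ⟨ht, hx⟩, Prod.ext rfl hx'⟩
      · rintro ⟨⟨t', x⟩, ⟨ht, hx⟩, h⟩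
        simp only [Prod.mk.injEq] at h
        obtain ⟨rfl, rfl⟩ := h
        exact ⟨ht, x, hx, rfl⟩
    rw [e]
    exact (isCompact_Icc.prod (isCompact_sumP hKc hLc)).image (by fun_prop)
  have h1 := fub hS hG
  have h2 := fub hR hG
  have h3 : ∀ w : (Fin m → ℝ) × (Fin n → ℝ),
      volume {t : ℝ | (t, w) ∈ S} = volume {r : ℝ | (r, w) ∈ R} :=
    fun w => slice_eq hK hKc hK0 hL hLc hL0 w
  simp_rw [h3] at h1
  rw [← h2] at h1
  clear h2 h3
  have hae : ∀ c : ℝ, ∀ᵐ t : ℝ, t ≠ c := fun c => by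
    have : volume ({c} : Set ℝ) = 0 := measure_singleton c
    exact compl_mem_ae_iff.2 this
  have hL1 : ∫ t : ℝ, ∫ w in {w | (t, w) ∈ S}, f w.1 * g w.2 =
      (∫ t in (0 : ℝ)..1, (1 - t) ^ (m + a) * t ^ (n + b)) *
        ((∫ x in K, f x) * ∫ y in L, g y) := by
    rw [intervalIntegral.integral_of_le zero_le_one,
      ← integral_mul_const, ← integral_indicator measurableSet_Ioc]
    refine integral_congr_ae ?_
    filter_upwards [hae 0, hae 1] with t ht0 ht1
    by_cases ht : t ∈ Ioc (0 : ℝ) 1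
    · rw [indicator_of_mem ht]
      have ht' : t < 1 := lt_of_le_of_ne ht.2 ht1
      have e : {w : (Fin m → ℝ) × (Fin n → ℝ) | (t, w) ∈ S} = ((1 - t) • K) ×ˢ (t • L) := by
        ext w
        simp only [hSdef, mem_ofPred_eq, mem_prod]
        exact ⟨fun h => h.2, fun h => ⟨⟨ht.1.le, ht.2⟩, h⟩⟩
      rw [e, Measure.volume_eq_prod, setIntegral_prod_mul, scale_int hfa (by linarith),
        scale_int hgb ht.1]
      ring
    · rw [indicator_of_notMem ht]
      have e : {w : (Fin m → ℝ) × (Fin n → ℝ) | (t, w) ∈ S} = ∅ := by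
        ext w
        simp only [hSdef, mem_ofPred_eq, mem_empty_iff_false, iff_false]
        rintro ⟨h, _⟩
        exact ht ⟨lt_of_le_of_ne h.1 (Ne.symm ht0), h.2⟩
      rw [e]
      simp
  have hL2 : ∫ t : ℝ, ∫ w in {w | (t, w) ∈ R}, f w.1 * g w.2 =
      (∫ t in (0 : ℝ)..1, t ^ (m + a + (n + b))) * ∫ w in sumP K L, f w.1 * g w.2 := by
    rw [intervalIntegral.integral_of_le zero_le_one, ← integral_mul_const,
      ← integral_indicator measurableSet_Ioc]
    refine integral_congr_ae ?_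
    filter_upwards [hae 0] with t ht0
    by_cases ht : t ∈ Ioc (0 : ℝ) 1
    · rw [indicator_of_mem ht]
      have e : {w : (Fin m → ℝ) × (Fin n → ℝ) | (t, w) ∈ R} = t • sumP K L := by
        ext w
        simp only [hRdef, mem_ofPred_eq]
        exact ⟨fun h => h.2, fun h => ⟨⟨ht.1.le, ht.2⟩, h⟩⟩
      rw [e]
      have : ((volume : Measure (Fin m → ℝ)).prod
          (volume : Measure (Fin n → ℝ))).IsAddHaarMeasure :=
        Measure.prod.instIsAddHaarMeasure _ _
      have h8 := Measure.setIntegral_comp_smul_of_pos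
        ((volume : Measure (Fin m → ℝ)).prod (volume : Measure (Fin n → ℝ)))
        (fun w => f w.1 * g w.2) (sumP K L) ht.1
      rw [Module.finrank_prod, Module.finrank_fin_fun, Module.finrank_fin_fun,
        ← Measure.volume_eq_prod] at h8
      simp_rw [Prod.smul_fst, Prod.smul_snd, hfa, hgb] at h8
      have h9 : ∀ w : (Fin m → ℝ) × (Fin n → ℝ), t ^ a * f w.1 * (t ^ b * g w.2) =
          t ^ (a + b) * (f w.1 * g w.2) := fun w => by rw [pow_add]; ring
      simp_rw [h9] at h8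
      rw [integral_const_mul, smul_eq_mul] at h8
      have h10 : (t ^ (m + n)) ≠ 0 := (pow_pos ht.1 _).ne'
      have h11 : t ^ (m + a + (n + b)) = t ^ (m + n) * t ^ (a + b) := by
        rw [← pow_add]; congr 1; ring
      rw [h11, mul_assoc, h8]
      field_simp
    · rw [indicator_of_notMem ht]
      have e : {w : (Fin m → ℝ) × (Fin n → ℝ) | (t, w) ∈ R} = ∅ := by
        ext w
        simp only [hRdef, mem_ofPred_eq, mem_empty_iff_false, iff_false]
        rintro ⟨h, _⟩
        exact ht ⟨lt_of_le_of_ne h.1 (Ne.symm ht0), h.2⟩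
      rw [e]
      simp
  rw [hL1, hL2, beta_eq, integral_pow] at h1
  have h5 : ((m + a + (n + b) : ℕ) : ℝ) + 1 ≠ 0 := by positivity
  rw [Nat.factorial_succ] at h1
  push_cast at h1 h5
  simp only [one_pow, ne_eq, Nat.add_eq_zero_iff, one_ne_zero, and_false, not_false_eq_true,
    zero_pow, sub_zero] at h1
  have h6 : ((m + a + (n + b)).factorial : ℝ) ≠ 0 := by positivity
  field_simp at h1 ⊢
  linarith

end Vale.Agent.P254.FV
end

section

/-!
Free sums of convex bodies: geometry and moments.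
-/

open MeasureTheory Set Matrix
open scoped Pointwise

namespace Vale.Agent.P254.FV

variable {m n : ℕ}

/-- the free sum, in `ℝᵐ⁺ⁿ` -/
def sumS (K : Set (Fin m → ℝ)) (L : Set (Fin n → ℝ)) : Set (Fin (m + n) → ℝ) :=
  {z | ((fun i => z (Fin.castAdd n i)), (fun j => z (Fin.natAdd m j))) ∈ sumP K L}

theorem preimage_glue_sum (K : Set (Fin m → ℝ)) (L : Set (Fin n → ℝ)) :
    glue m n ⁻¹' sumS K L = sumP K L := by
  ext w
  simp only [mem_preimage, sumS, mem_ofPred_eq, glue_left, glue_right]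

variable {K : Set (Fin m → ℝ)} {L : Set (Fin n → ℝ)}

theorem isCompact_sumS (hKc : IsCompact K) (hLc : IsCompact L) : IsCompact (sumS K L) := by
  have h : sumS K L =
      (fun w : (Fin m → ℝ) × (Fin n → ℝ) => Fin.append w.1 w.2) '' (sumP K L) := by
    ext z
    constructor
    · intro h
      refine ⟨_, h, ?_⟩
      ext i
      refine Fin.addCases (fun j => ?_) (fun j => ?_) i
      · simp
      · simp
    · rintro ⟨⟨x, y⟩, h, rfl⟩
      simpa [sumS] using h
  rw [h]
  refine (isCompact_sumP hKc hLc).image ?_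
  refine continuous_pi fun i => ?_
  refine Fin.addCases (fun j => ?_) (fun j => ?_) i
  · simp only [Fin.append_left]; fun_prop
  · simp only [Fin.append_right]; fun_prop

theorem convex_sumP (hK : Convex ℝ K) (hL : Convex ℝ L) : Convex ℝ (sumP K L) := by
  rintro w ⟨t, ht, hx, hy⟩ w' ⟨t', ht', hx', hy'⟩ a b ha hb hab
  refine ⟨a * t + b * t', ⟨add_nonneg (mul_nonneg ha ht.1) (mul_nonneg hb ht'.1), ?_⟩, ?_, ?_⟩
  · nlinarith [ht.2, ht'.2]
  · have e : 1 - (a * t + b * t') = a * (1 - t) + b * (1 - t') := by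
      linear_combination (-1 : ℝ) * hab
    rw [e, hK.add_smul (mul_nonneg ha (by linarith [ht.2])) (mul_nonneg hb (by linarith [ht'.2])),
      mul_smul, mul_smul]
    exact add_mem_add (smul_mem_smul_set hx) (smul_mem_smul_set hx')
  · rw [hL.add_smul (mul_nonneg ha ht.1) (mul_nonneg hb ht'.1), mul_smul, mul_smul]
    exact add_mem_add (smul_mem_smul_set hy) (smul_mem_smul_set hy')

theorem convex_sumS (hK : Convex ℝ K) (hL : Convex ℝ L) : Convex ℝ (sumS K L) := by
  intro z hz z' hz' a b ha hb hab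
  exact convex_sumP hK hL hz hz' ha hb hab

theorem freeSum_eq (hK : Convex ℝ K) (hL : Convex ℝ L) (hK0 : (0 : Fin m → ℝ) ∈ K)
    (hL0 : (0 : Fin n → ℝ) ∈ L) : P254.freeSum K L = sumS K L := by
  apply Subset.antisymm
  · refine convexHull_min ?_ (convex_sumS hK hL)
    rintro z (⟨x, hx, rfl⟩ | ⟨y, hy, rfl⟩)
    · refine ⟨0, ⟨le_rfl, zero_le_one⟩, ?_, ?_⟩
      · simpa using hx
      · exact ⟨0, hL0, by ext j; simp⟩
    · refine ⟨1, ⟨zero_le_one, le_rfl⟩, ?_, ?_⟩
      · exact ⟨0, hK0, by ext j; simp⟩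
      · simpa using hy
  · rintro z ⟨t, ht, ⟨x, hx, hx'⟩, ⟨y, hy, hy'⟩⟩
    have h4 := (convex_convexHull ℝ ((fun x => Fin.append x 0) '' K ∪
      (fun y => Fin.append 0 y) '' L : Set (Fin (m + n) → ℝ)))
      (subset_convexHull ℝ _ (Or.inl (mem_image_of_mem (fun x => Fin.append x 0) hx)))
      (subset_convexHull ℝ _ (Or.inr (mem_image_of_mem (fun y => Fin.append 0 y) hy)))
      (sub_nonneg.2 ht.2) ht.1 (sub_add_cancel _ _)
    have e : (1 - t) • (Fin.append x 0 : Fin (m + n) → ℝ) + t • (Fin.append 0 y : Fin (m + n) → ℝ) =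
        z := by
      ext i
      refine Fin.addCases (fun j => ?_) (fun j => ?_) i
      · have := congrFun hx' j
        simpa using this
      · have := congrFun hy' j
        simpa using this
    rw [e] at h4
    exact h4

theorem int_sumS (hK : Convex ℝ K) (hKc : IsCompact K) (hK0 : (0 : Fin m → ℝ) ∈ K)
    (hL : Convex ℝ L) (hLc : IsCompact L) (hL0 : (0 : Fin n → ℝ) ∈ L)
    {F : (Fin (m + n) → ℝ) → ℝ}
    {f : (Fin m → ℝ) → ℝ} {g : (Fin n → ℝ) → ℝ} (h : ∀ w, F (glue m n w) = f w.1 * g w.2)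
    (hf : Continuous f) (hg : Continuous g) (a b : ℕ)
    (hfa : ∀ (r : ℝ) (x : Fin m → ℝ), f (r • x) = r ^ a * f x)
    (hgb : ∀ (r : ℝ) (y : Fin n → ℝ), g (r • y) = r ^ b * g y) :
    ∫ z in sumS K L, F z =
      ((m + a).factorial : ℝ) * (n + b).factorial / ((m + a + (n + b)).factorial : ℝ) *
        ((∫ x in K, f x) * ∫ y in L, g y) := by
  rw [← (glue_mp m n).setIntegral_preimage_emb (MeasurableEquiv.measurableEmbedding _) F,
    preimage_glue_sum]
  simp_rw [h]
  exact int_sumP hK hKc hK0 hL hLc hL0 hf hg a b hfa hgb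

/-- the coefficient -/
noncomputable def qq (m n : ℕ) : ℝ := (m.factorial : ℝ) * n.factorial / ((m + n).factorial : ℝ)

theorem qq_ne (m n : ℕ) : qq m n ≠ 0 := by unfold qq; positivity

theorem q10 (m n : ℕ) : ((m + 1).factorial : ℝ) * (n + 0).factorial /
    ((m + 1 + (n + 0)).factorial : ℝ) = qq m n * (((m : ℝ) + 1) / ((m : ℝ) + n + 1)) := by
  have e : m + 1 + (n + 0) = m + n + 1 := by ring
  rw [e, Nat.factorial_succ, Nat.factorial_succ, qq, add_zero]
  push_cast
  field_simp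

theorem q01 (m n : ℕ) : ((m + 0).factorial : ℝ) * (n + 1).factorial /
    ((m + 0 + (n + 1)).factorial : ℝ) = qq m n * (((n : ℝ) + 1) / ((m : ℝ) + n + 1)) := by
  have e : m + 0 + (n + 1) = m + n + 1 := by ring
  rw [e, Nat.factorial_succ, Nat.factorial_succ, qq, add_zero]
  push_cast
  field_simp

theorem q11 (m n : ℕ) : ((m + 1).factorial : ℝ) * (n + 1).factorial /
    ((m + 1 + (n + 1)).factorial : ℝ) =
      qq m n * (((m : ℝ) + 1) * ((n : ℝ) + 1) / (((m : ℝ) + n + 1) * ((m : ℝ) + n + 2))) := by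
  have e : m + 1 + (n + 1) = m + n + 1 + 1 := by ring
  rw [e, Nat.factorial_succ, Nat.factorial_succ, Nat.factorial_succ, Nat.factorial_succ, qq]
  push_cast
  have : ((m : ℝ) + n + 1 + 1) = (m : ℝ) + n + 2 := by ring
  rw [this]
  field_simp

theorem q20 (m n : ℕ) : ((m + 2).factorial : ℝ) * (n + 0).factorial /
    ((m + 2 + (n + 0)).factorial : ℝ) =
      qq m n * (((m : ℝ) + 1) * ((m : ℝ) + 2) / (((m : ℝ) + n + 1) * ((m : ℝ) + n + 2))) := by
  have e : m + 2 + (n + 0) = m + n + 1 + 1 := by ring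
  rw [e, Nat.factorial_succ (m + n + 1), Nat.factorial_succ (m + n), Nat.factorial_succ (m + 1),
    Nat.factorial_succ m, qq, add_zero]
  push_cast
  have : ((m : ℝ) + n + 1 + 1) = (m : ℝ) + n + 2 := by ring
  rw [this]
  have : ((m : ℝ) + 1 + 1) = (m : ℝ) + 2 := by ring
  rw [this]
  field_simp

theorem q02 (m n : ℕ) : ((m + 0).factorial : ℝ) * (n + 2).factorial /
    ((m + 0 + (n + 2)).factorial : ℝ) =
      qq m n * (((n : ℝ) + 1) * ((n : ℝ) + 2) / (((m : ℝ) + n + 1) * ((m : ℝ) + n + 2))) := by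
  have e : m + 0 + (n + 2) = m + n + 1 + 1 := by ring
  rw [e, Nat.factorial_succ (m + n + 1), Nat.factorial_succ (m + n), Nat.factorial_succ (n + 1),
    Nat.factorial_succ n, qq, add_zero]
  push_cast
  have : ((m : ℝ) + n + 1 + 1) = (m : ℝ) + n + 2 := by ring
  rw [this]
  have : ((n : ℝ) + 1 + 1) = (n : ℝ) + 2 := by ring
  rw [this]
  field_simp

theorem vol_sumS (hK : Convex ℝ K) (hKc : IsCompact K) (hK0 : (0 : Fin m → ℝ) ∈ K)
    (hL : Convex ℝ L) (hLc : IsCompact L) (hL0 : (0 : Fin n → ℝ) ∈ L) :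
    (volume (sumS K L)).toReal = qq m n * ((volume K).toReal * (volume L).toReal) := by
  have h := int_sumS hK hKc hK0 hL hLc hL0 (F := fun _ => 1) (f := fun _ => 1) (g := fun _ => 1)
    (fun w => by simp) continuous_const continuous_const 0 0 (fun r x => by simp)
    (fun r x => by simp)
  simpa [Measure.real, qq] using h

/-- the covariance matrix of the free sum, up to normalisation -/
noncomputable def covS (K : Set (Fin m → ℝ)) (L : Set (Fin n → ℝ)) :
    Matrix (Fin m ⊕ Fin n) (Fin m ⊕ Fin n) ℝ :=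
  fromBlocks
    ((((m : ℝ) + 1) * ((m : ℝ) + 2)) • covMatrix K +
      ((m : ℝ) + 1) • vecMulVec (centroid K) (centroid K)) 0 0
    ((((n : ℝ) + 1) * ((n : ℝ) + 2)) • covMatrix L +
      ((n : ℝ) + 1) • vecMulVec (centroid L) (centroid L)) -
  (1 / ((m : ℝ) + n + 1)) • vecMulVec
    (Sum.elim (((m : ℝ) + 1) • centroid K) (((n : ℝ) + 1) • centroid L))
    (Sum.elim (((m : ℝ) + 1) • centroid K) (((n : ℝ) + 1) • centroid L))

theorem cov_sumS (hK : IsConvexBody K) (hK0 : (0 : Fin m → ℝ) ∈ K)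
    (hL : IsConvexBody L) (hL0 : (0 : Fin n → ℝ) ∈ L) :
    covMatrix (sumS K L) = (1 / (((m : ℝ) + n + 1) * ((m : ℝ) + n + 2))) •
      (covS K L).submatrix finSumFinEquiv.symm finSumFinEquiv.symm := by
  have hV := (vol_pos hK).ne'
  have hW := (vol_pos hL).ne'
  have hq := qq_ne m n
  have hvol := vol_sumS hK.1 hK.2.1 hK0 hL.1 hL.2.1 hL0
  have hVW : (volume (sumS K L)).toReal ≠ 0 := by
    rw [hvol]
    exact mul_ne_zero hq (mul_ne_zero hV hW)
  have hc := isCompact_sumS hK.2.1 hL.2.1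
  have hN1 : ((m : ℝ) + n + 1) ≠ 0 := by positivity
  have hN2 : ((m : ℝ) + n + 2) ≠ 0 := by positivity
  have hcl : ∀ i : Fin m, centroid (sumS K L) (Fin.castAdd n i) =
      ((m : ℝ) + 1) / ((m : ℝ) + n + 1) * centroid K i := by
    intro i
    have h := int_sumS hK.1 hK.2.1 hK0 hL.1 hL.2.1 hL0 (F := fun z => z (Fin.castAdd n i))
      (f := fun x => x i) (g := fun _ => 1) (fun w => by simp [glue_left]) (by fun_prop)
      (by fun_prop) 1 0 (fun r x => by simp) (fun r x => by simp)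
    rw [q10] at h
    rw [centroid, hvol, h, setIntegral_const, smul_eq_mul, mul_one, Measure.real, centroid]
    field_simp
  have hcr : ∀ j : Fin n, centroid (sumS K L) (Fin.natAdd m j) =
      ((n : ℝ) + 1) / ((m : ℝ) + n + 1) * centroid L j := by
    intro j
    have h := int_sumS hK.1 hK.2.1 hK0 hL.1 hL.2.1 hL0 (F := fun z => z (Fin.natAdd m j))
      (f := fun _ => 1) (g := fun y => y j) (fun w => by simp [glue_right]) (by fun_prop)
      (by fun_prop) 0 1 (fun r x => by simp) (fun r x => by simp)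
    rw [q01] at h
    rw [centroid, hvol, h, setIntegral_const, smul_eq_mul, mul_one, Measure.real, centroid]
    field_simp
  have h12 : ∀ (i : Fin m) (j : Fin n),
      covMatrix (sumS K L) (Fin.castAdd n i) (Fin.natAdd m j) =
        -((((m : ℝ) + 1) * ((n : ℝ) + 1)) / (((m : ℝ) + n + 1) ^ 2 * ((m : ℝ) + n + 2))) *
          (centroid K i * centroid L j) := by
    intro i j
    have h := int_sumS hK.1 hK.2.1 hK0 hL.1 hL.2.1 hL0
      (F := fun z => z (Fin.castAdd n i) * z (Fin.natAdd m j))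
      (f := fun x => x i) (g := fun y => y j) (fun w => by simp [glue_left, glue_right])
      (by fun_prop) (by fun_prop) 1 1 (fun r x => by simp) (fun r x => by simp)
    rw [q11] at h
    rw [cov_eq hc hVW, hcl, hcr, hvol, h, centroid, centroid]
    field_simp
    ring
  ext i j
  refine Fin.addCases (fun i' => ?_) (fun i' => ?_) i
  · refine Fin.addCases (fun j' => ?_) (fun j' => ?_) j
    · have h := int_sumS hK.1 hK.2.1 hK0 hL.1 hL.2.1 hL0
        (F := fun z => z (Fin.castAdd n i') * z (Fin.castAdd n j'))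
        (f := fun x => x i' * x j') (g := fun _ => 1) (fun w => by simp [glue_left])
        (by fun_prop) (by fun_prop) 2 0 (fun r x => by simp; ring) (fun r x => by simp)
      rw [q20] at h
      rw [cov_eq hc hVW, hcl, hcl, hvol, h, setIntegral_const, smul_eq_mul, mul_one,
        Measure.real]
      simp only [covS, Matrix.smul_apply, submatrix_apply, finSumFinEquiv_symm_apply_castAdd,
        Matrix.sub_apply, fromBlocks_apply₁₁, vecMulVec_apply, Sum.elim_inl, Matrix.add_apply,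
        Pi.smul_apply, smul_eq_mul]
      rw [cov_eq hK.2.1 hV]
      field_simp
      ring
    · rw [h12]
      simp only [covS, Matrix.smul_apply, submatrix_apply, finSumFinEquiv_symm_apply_castAdd,
        finSumFinEquiv_symm_apply_natAdd, Matrix.zero_apply,
        Matrix.sub_apply, fromBlocks_apply₁₂, vecMulVec_apply, Sum.elim_inl, Sum.elim_inr,
        Pi.smul_apply, smul_eq_mul]
      field_simp
      ring
  · refine Fin.addCases (fun j' => ?_) (fun j' => ?_) j
    · rw [covMatrix_symm, h12]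
      simp only [covS, Matrix.smul_apply, submatrix_apply, finSumFinEquiv_symm_apply_castAdd,
        finSumFinEquiv_symm_apply_natAdd, Matrix.zero_apply,
        Matrix.sub_apply, fromBlocks_apply₂₁, vecMulVec_apply, Sum.elim_inl, Sum.elim_inr,
        Pi.smul_apply, smul_eq_mul]
      field_simp
      ring
    · have h := int_sumS hK.1 hK.2.1 hK0 hL.1 hL.2.1 hL0
        (F := fun z => z (Fin.natAdd m i') * z (Fin.natAdd m j'))
        (f := fun _ => 1) (g := fun y => y i' * y j') (fun w => by simp [glue_right])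
        (by fun_prop) (by fun_prop) 0 2 (fun r x => by simp) (fun r x => by simp; ring)
      rw [q02] at h
      rw [cov_eq hc hVW, hcr, hcr, hvol, h, setIntegral_const, smul_eq_mul, mul_one,
        Measure.real]
      simp only [covS, Matrix.smul_apply, submatrix_apply, finSumFinEquiv_symm_apply_natAdd,
        Matrix.sub_apply, fromBlocks_apply₂₂, vecMulVec_apply, Sum.elim_inr, Matrix.add_apply,
        Pi.smul_apply, smul_eq_mul]
      rw [cov_eq hL.2.1 hW]
      field_simp
      ring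

end Vale.Agent.P254.FV
end

section

/-!
Free sums of convex bodies: the normalised determinant.
-/

open MeasureTheory Set Matrix
open scoped Pointwise

namespace Vale.Agent.P254.FV

variable {m n : ℕ} {K : Set (Fin m → ℝ)} {L : Set (Fin n → ℝ)}

theorem det_covS {η : Fin m → ℝ} {θ : Fin n → ℝ}
    (h1 : covMatrix K *ᵥ η = (1 / ((m : ℝ) + 2)) • centroid K)
    (h2 : covMatrix L *ᵥ θ = (1 / ((n : ℝ) + 2)) • centroid L)
    (hf1 : 1 + centroid K ⬝ᵥ η ≠ 0) (hf2 : 1 + centroid L ⬝ᵥ θ ≠ 0) :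
    (covS K L).det =
      (((m : ℝ) + 1) * ((m : ℝ) + 2)) ^ m * ((covMatrix K).det * (1 + centroid K ⬝ᵥ η)) *
      ((((n : ℝ) + 1) * ((n : ℝ) + 2)) ^ n * ((covMatrix L).det * (1 + centroid L ⬝ᵥ θ))) *
      (1 - 1 / ((m : ℝ) + n + 1) *
        (((m : ℝ) + 1) * (centroid K ⬝ᵥ η) / (1 + centroid K ⬝ᵥ η) +
          ((n : ℝ) + 1) * (centroid L ⬝ᵥ θ) / (1 + centroid L ⬝ᵥ θ))) := by
  set X1 := (((m : ℝ) + 1) * ((m : ℝ) + 2)) • covMatrix K +
      ((m : ℝ) + 1) • vecMulVec (centroid K) (centroid K) with hX1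
  set X2 := (((n : ℝ) + 1) * ((n : ℝ) + 2)) • covMatrix L +
      ((n : ℝ) + 1) • vecMulVec (centroid L) (centroid L) with hX2
  set w : Fin m ⊕ Fin n → ℝ :=
    Sum.elim (((m : ℝ) + 1) • centroid K) (((n : ℝ) + 1) • centroid L) with hw
  set ζ : Fin m ⊕ Fin n → ℝ := Sum.elim ((1 / (1 + centroid K ⬝ᵥ η)) • η)
    ((1 / (1 + centroid L ⬝ᵥ θ)) • θ) with hζ
  have hD : fromBlocks X1 0 0 X2 *ᵥ ζ = w := by
    rw [hζ, fromBlocks_mulVec]
    simp only [Sum.elim_comp_inl, Sum.elim_comp_inr, zero_mulVec, add_zero, zero_add]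
    rw [hX1, hX2, X_mulVec h1 hf1, X_mulVec h2 hf2]
  have e : covS K L = fromBlocks X1 0 0 X2 * (1 + vecMulVec ((-(1 / ((m : ℝ) + n + 1))) • ζ) w) := by
    rw [Matrix.mul_add, Matrix.mul_one, mul_vecMulVec, mulVec_smul, hD, smul_vecMulVec, neg_smul,
      ← sub_eq_add_neg]
    rfl
  rw [e, det_mul, det_fromBlocks_zero₁₂, det_one_add_vecMulVec', hX1, hX2, det_X h1, det_X h2,
    dotProduct_smul, hw, hζ, sumElim_dotProduct_sumElim]
  simp only [smul_dotProduct, dotProduct_smul, smul_eq_mul]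
  ring

theorem exists_eta (hK : IsConvexBody K) :
    ∃ η : Fin m → ℝ, covMatrix K *ᵥ η = (1 / ((m : ℝ) + 2)) • centroid K := by
  refine ⟨(covMatrix K)⁻¹ *ᵥ ((1 / ((m : ℝ) + 2)) • centroid K), ?_⟩
  rw [mulVec_mulVec, mul_nonsing_inv _ (isUnit_iff_ne_zero.2 (covMatrix_posDef hK).det_pos.ne'),
    one_mulVec]

theorem Dn_sumS (hm : 1 ≤ m) (hn : 1 ≤ n) (hK : IsConvexBody K) (hK0 : (0 : Fin m → ℝ) ∈ K)
    (hL : IsConvexBody L) (hL0 : (0 : Fin n → ℝ) ∈ L) :
    ∃ T : ℝ, 0 ≤ T ∧ T ≤ 1 ∧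
      Dn (sumS K L) * (simpC m * simpC n) = Dn K * Dn L * T * simpC (m + n) := by
  obtain ⟨η, h1⟩ := exists_eta hK
  obtain ⟨θ, h2⟩ := exists_eta hL
  obtain ⟨ha0, ha1⟩ := kls hm hK hK0 h1
  obtain ⟨hb0, hb1⟩ := kls hn hL hL0 h2
  have hV := (vol_pos hK).ne'
  have hW := (vol_pos hL).ne'
  have hd := det_covS h1 h2 (by linarith) (by linarith)
  set a := centroid K ⬝ᵥ η with ha
  set b := centroid L ⬝ᵥ θ with hb
  have hm0 : (0 : ℝ) < (m : ℝ) + 1 := by positivity
  have hn0 : (0 : ℝ) < (n : ℝ) + 1 := by positivity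
  have hA0 : 0 ≤ (1 + a) / ((m : ℝ) + 1) := by positivity
  have hB0 : 0 ≤ (1 + b) / ((n : ℝ) + 1) := by positivity
  have hA1 : (1 + a) / ((m : ℝ) + 1) ≤ 1 := (div_le_one hm0).2 (by linarith)
  have hB1 : (1 + b) / ((n : ℝ) + 1) ≤ 1 := (div_le_one hn0).2 (by linarith)
  refine ⟨(1 + a) / ((m : ℝ) + 1) + (1 + b) / ((n : ℝ) + 1) -
    (1 + a) / ((m : ℝ) + 1) * ((1 + b) / ((n : ℝ) + 1)), by nlinarith, by nlinarith, ?_⟩
  unfold Dn
  rw [cov_sumS hK hK0 hL hL0, det_smul, Fintype.card_fin, det_submatrix_equiv_self, hd,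
    vol_sumS hK.1 hK.2.1 hK0 hL.1 hL.2.1 hL0]
  unfold simpC qq
  push_cast
  have h3 : (1 : ℝ) + a ≠ 0 := by positivity
  have h4 : (1 : ℝ) + b ≠ 0 := by positivity
  have h5 : ((m : ℝ) + n + 1) ≠ 0 := by positivity
  have h6 : (((m : ℝ) + n + 1) * ((m : ℝ) + n + 2)) ^ (m + n) ≠ 0 := by positivity
  have h7 : (((m : ℝ) + 1) * ((m : ℝ) + 2)) ^ m ≠ 0 := by positivity
  have h8 : (((n : ℝ) + 1) * ((n : ℝ) + 2)) ^ n ≠ 0 := by positivity
  have h9 : (m.factorial : ℝ) ≠ 0 := by positivity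
  have h10 : (n.factorial : ℝ) ≠ 0 := by positivity
  have h11 : ((m + n).factorial : ℝ) ≠ 0 := by positivity
  rw [one_div, inv_pow]
  generalize (((m : ℝ) + n + 1) * ((m : ℝ) + n + 2)) ^ (m + n) = P at h6 ⊢
  generalize (((m : ℝ) + 1) * ((m : ℝ) + 2)) ^ m = P1 at h7 ⊢
  generalize (((n : ℝ) + 1) * ((n : ℝ) + 2)) ^ n = P2 at h8 ⊢
  generalize (m.factorial : ℝ) = F1 at h9 ⊢
  generalize (n.factorial : ℝ) = F2 at h10 ⊢
  generalize ((m + n).factorial : ℝ) = F at h11 ⊢
  generalize (volume K).toReal = V at hV ⊢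
  generalize (volume L).toReal = W at hW ⊢
  generalize (covMatrix K).det = d1
  generalize (covMatrix L).det = d2
  clear_value a b
  field_simp
  ring

/-- embedding as the first factor -/
def inL (m n : ℕ) : (Fin m → ℝ) →ₗ[ℝ] (Fin (m + n) → ℝ) where
  toFun x := Fin.append x 0
  map_add' x y := by
    ext i
    refine Fin.addCases (fun j => ?_) (fun j => ?_) i <;> simp
  map_smul' r x := by
    ext i
    refine Fin.addCases (fun j => ?_) (fun j => ?_) i <;> simp

/-- embedding as the second factor -/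
def inR (m n : ℕ) : (Fin n → ℝ) →ₗ[ℝ] (Fin (m + n) → ℝ) where
  toFun y := Fin.append 0 y
  map_add' x y := by
    ext i
    refine Fin.addCases (fun j => ?_) (fun j => ?_) i <;> simp
  map_smul' r x := by
    ext i
    refine Fin.addCases (fun j => ?_) (fun j => ?_) i <;> simp

theorem freeSum_simplex (hK : IsSimplex K) (hL : IsSimplex L) :
    ∃ u : Fin (m + n + 2) → (Fin (m + n) → ℝ), P254.freeSum K L = convexHull ℝ (range u) := by
  obtain ⟨v, _, rfl⟩ := hK
  obtain ⟨w, _, rfl⟩ := hL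
  let e : Fin (m + n + 2) ≃ Fin (m + 1) ⊕ Fin (n + 1) :=
    (finCongr (by omega : m + n + 2 = (m + 1) + (n + 1))).trans finSumFinEquiv.symm
  refine ⟨Sum.elim (inL m n ∘ v) (inR m n ∘ w) ∘ e, ?_⟩
  rw [e.surjective.range_comp, Set.Sum.elim_range, range_comp, range_comp]
  have e1 : P254.freeSum (convexHull ℝ (range v)) (convexHull ℝ (range w)) =
      convexHull ℝ (inL m n '' convexHull ℝ (range v) ∪ inR m n '' convexHull ℝ (range w)) := rfl
  rw [e1, LinearMap.image_convexHull, LinearMap.image_convexHull, convexHull_convexHull_union_left,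
    convexHull_convexHull_union_right]

end Vale.Agent.P254.FV
end

section

/-!
The conjecture for one convex body, in terms of the normalised determinant, and its closure
properties.
-/

open MeasureTheory Set Matrix

namespace Vale.Agent.P254.FV

variable {m n : ℕ}

theorem Dn_nonneg {K : Set (Fin n → ℝ)} (hK : IsConvexBody K) : 0 ≤ Dn K :=
  div_nonneg (covMatrix_posSemidef hK.2.1).det_nonneg (by positivity)

theorem isoConst_eq (K : Set (Fin n → ℝ)) : isoConst K = Dn K ^ (1 / (2 * (n : ℝ))) := rfl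

theorem isSimplex_stdS : IsSimplex (stdS n) :=
  ⟨stdV n, affineIndependent_stdV, stdS_eq_convexHull⟩

theorem Dn_stdS (hn : 1 ≤ n) : Dn (stdS n) = simpC n := det_simplex hn

/-- the conjecture for `K`, in terms of the normalised determinant -/
structure Good {n : ℕ} (K : Set (Fin n → ℝ)) : Prop where
  one_le : 1 ≤ n
  body : IsConvexBody K
  le : Dn K ≤ simpC n
  eq : Dn K = simpC n → IsSimplex K

theorem good_of {K : Set (Fin n → ℝ)} (hn : 1 ≤ n) (hK : IsConvexBody K)
    (h : ∀ S : Set (Fin n → ℝ), IsSimplex S →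
      isoConst K ≤ isoConst S ∧ (isoConst K = isoConst S ↔ IsSimplex K)) : Good K := by
  obtain ⟨h1, h2⟩ := h (stdS n) isSimplex_stdS
  have he : (0 : ℝ) < 1 / (2 * (n : ℝ)) := by positivity
  refine ⟨hn, hK, ?_, fun h3 => h2.1 ?_⟩
  · rw [isoConst_eq, isoConst_eq, Dn_stdS hn,
      Real.rpow_le_rpow_iff (Dn_nonneg hK) (simpC_pos n).le he] at h1
    exact h1
  · rw [isoConst_eq, isoConst_eq, Dn_stdS hn, h3]

theorem Good.iso {K S : Set (Fin n → ℝ)} (hK : Good K) (hS : IsSimplex S) :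
    isoConst K ≤ isoConst S ∧ (isoConst K = isoConst S ↔ IsSimplex K) := by
  have he : (0 : ℝ) < 1 / (2 * (n : ℝ)) := by
    have := hK.one_le
    positivity
  have hS' : isoConst S = simpC n ^ (1 / (2 * (n : ℝ))) := by
    rw [isoConst_simplex hS, isoConst_eq, Dn_stdS hK.one_le]
  refine ⟨?_, fun h => hK.eq ?_, fun h => ?_⟩
  · rw [hS', isoConst_eq]
    exact Real.rpow_le_rpow (Dn_nonneg hK.body) hK.le he.le
  · rw [hS', isoConst_eq] at h
    exact (Real.rpow_left_inj (Dn_nonneg hK.body) (simpC_pos n).le he.ne').1 h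
  · rw [isoConst_simplex h, isoConst_simplex hS]

theorem isSimplex_aff {K : Set (Fin n → ℝ)} (hK : IsSimplex K) {A : Matrix (Fin n) (Fin n) ℝ}
    (hA : A.det ≠ 0) (b : Fin n → ℝ) : IsSimplex (aff A b '' K) := by
  obtain ⟨A', b', hA', rfl⟩ := hK.exists_aff
  have e : aff A b '' (aff A' b' '' stdS n) = aff (A * A') (A *ᵥ b' + b) '' stdS n := by
    rw [← image_comp]
    congr 1
    ext x i
    simp [aff, mulVec_add, mulVec_mulVec, add_assoc]
  rw [e]
  exact isSimplex_image (by rw [det_mul]; exact mul_ne_zero hA hA') _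

theorem Good.aff {K : Set (Fin n → ℝ)} (hK : Good K) {A : Matrix (Fin n) (Fin n) ℝ}
    (hA : A.det ≠ 0) (b : Fin n → ℝ) : Good (aff A b '' K) := by
  have hV := (vol_pos hK.body).ne'
  have hb : IsConvexBody (P254.aff A b '' K) := by
    refine body_of_vol ?_ (isCompact_aff_image A b hK.body.2.1) ?_
    · rw [← coe_affMap]
      exact hK.body.1.affine_image _
    · rw [volume_aff_image hA b hK.body.2.1.measurableSet]
      exact mul_ne_zero (abs_ne_zero.2 hA) hV
  have hD : Dn (P254.aff A b '' K) = Dn K := by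
    unfold Dn
    rw [cov_aff_image hA b hK.body.2.1 hV, volume_aff_image hA b hK.body.2.1.measurableSet,
      det_mul, det_mul, det_transpose, mul_pow, sq_abs]
    field_simp
  exact ⟨hK.one_le, hb, hD.le.trans hK.le, fun h => isSimplex_aff (hK.eq (hD ▸ h)) hA b⟩

theorem Good.pyramid {K : Set (Fin n → ℝ)} (hK : Good K) : Good (P254.pyramid K) := by
  have hne : K.Nonempty := hK.body.2.2.mono interior_subset
  have hD := Dn_pyr hK.body.2.1 (vol_pos hK.body).ne'
  rw [← pyramid_eq hK.body.1 hne] at hD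
  have hC := simpC_pos n
  have hC' := simpC_pos (n + 1)
  refine ⟨by omega, body_pyramid hK.body, ?_, fun h => isSimplex_pyramid (hK.eq ?_)⟩
  · have h1 : Dn (P254.pyramid K) * simpC n ≤ simpC (n + 1) * simpC n := by
      rw [hD]
      nlinarith [hK.le]
    exact le_of_mul_le_mul_right h1 hC
  · rw [h, mul_comm] at hD
    exact (mul_right_cancel₀ hC'.ne' hD).symm

theorem Good.prod {K : Set (Fin m → ℝ)} {L : Set (Fin n → ℝ)} (hK : Good K) (hL : Good L) :
    Good (directProd K L) := by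
  have hD := Dn_prod hK.body hL.body
  have h1 : Dn K * Dn L ≤ simpC m * simpC n :=
    mul_le_mul hK.le hL.le (Dn_nonneg hL.body) (simpC_pos m).le
  have h2 := (simpC_mul_le m n).2 hK.one_le hL.one_le
  refine ⟨by have := hK.one_le; omega, body_prod hK.body hL.body, ?_, fun h => ?_⟩
  · rw [hD]; linarith
  · rw [hD] at h; linarith

theorem Good.freeSum {K : Set (Fin m → ℝ)} {L : Set (Fin n → ℝ)} (hK : Good K) (hL : Good L)
    (hK0 : (0 : Fin m → ℝ) ∈ K) (hL0 : (0 : Fin n → ℝ) ∈ L) : Good (P254.freeSum K L) := by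
  have hm := hK.one_le
  have hn := hL.one_le
  have hbody : IsConvexBody (P254.freeSum K L) := by
    rw [freeSum_eq hK.body.1 hL.body.1 hK0 hL0]
    refine body_of_vol (convex_sumS hK.body.1 hL.body.1) (isCompact_sumS hK.body.2.1 hL.body.2.1) ?_
    rw [vol_sumS hK.body.1 hK.body.2.1 hK0 hL.body.1 hL.body.2.1 hL0]
    exact mul_ne_zero (qq_ne m n) (mul_ne_zero (vol_pos hK.body).ne' (vol_pos hL.body).ne')
  obtain ⟨T, hT0, hT1, hD⟩ := Dn_sumS hm hn hK.body hK0 hL.body hL0
  rw [← freeSum_eq hK.body.1 hL.body.1 hK0 hL0] at hD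
  have hCm := simpC_pos m
  have hCn := simpC_pos n
  have hC := simpC_pos (m + n)
  have hDK := Dn_nonneg hK.body
  have hDL := Dn_nonneg hL.body
  have h1 : Dn K * Dn L ≤ simpC m * simpC n := mul_le_mul hK.le hL.le hDL hCm.le
  have h2 : Dn K * Dn L * T ≤ simpC m * simpC n := by
    nlinarith [mul_nonneg hDK hDL]
  refine ⟨by omega, hbody, ?_, fun h => ?_⟩
  · have h3 : Dn (P254.freeSum K L) * (simpC m * simpC n) ≤
        simpC (m + n) * (simpC m * simpC n) := by
      rw [hD]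
      nlinarith
    exact le_of_mul_le_mul_right h3 (mul_pos hCm hCn)
  · rw [h, mul_comm] at hD
    have h3 : simpC m * simpC n = Dn K * Dn L * T := mul_right_cancel₀ hC.ne' hD
    have h4 : simpC m * simpC n ≤ Dn K * Dn L := by
      nlinarith [mul_nonneg hDK hDL]
    have h5 : Dn K = simpC m := by
      refine le_antisymm hK.le ?_
      by_contra hlt
      rw [not_le] at hlt
      nlinarith [hL.le]
    have h6 : Dn L = simpC n := by
      refine le_antisymm hL.le ?_
      by_contra hlt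
      rw [not_le] at hlt
      nlinarith [hK.le]
    obtain ⟨u, hu⟩ := freeSum_simplex (hK.eq h5) (hL.eq h6)
    have hgood : Good (P254.freeSum K L) := by
      refine good_of (by omega) hbody fun S hS => ?_
      have hne := hbody.2.2
      rw [hu] at hne ⊢
      obtain ⟨r1, r2, _⟩ := few_vertices (by omega) u hne hS
      exact ⟨r1, r2⟩
    exact hgood.eq h

theorem lt_conj {K S : Set (Fin n → ℝ)} (hS : IsSimplex S) (h : isoConst K < isoConst S) :
    isoConst K ≤ isoConst S ∧ (isoConst K = isoConst S ↔ IsSimplex K) :=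
  ⟨h.le, fun h1 => absurd h1 h.ne, fun h1 => by rw [isoConst_simplex h1, isoConst_simplex hS]⟩

end Vale.Agent.P254.FV
end

section

open MeasureTheory Set Matrix Filter Topology
open scoped Pointwise

namespace Vale.Agent.P254

variable {n : ℕ} {K : Set (Fin n → ℝ)}

lemma regionStatement (hn : 0 < n) {ε : ℝ} (hε : 0 ≤ ε)
    (hε4 : ε * ((n : ℝ) * (n + 1) * (n + 2) * (n + 3)) ≤ 4) : RegionStatement n ε := by
  intro K hKc hKv hsub h0 hj hnear
  rcases Nat.lt_or_ge n 2 with h2 | h2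
  · -- dimension one: `K` is the whole segment
    have h1 : n = 1 := by omega
    subst h1
    have : stdS 1 ⊆ K := by
      intro x hx
      have hx0 := hx.1 0
      have hx1 : x 0 ≤ 1 := by have := hx.2; simpa using this
      have := hKv (hj 0) h0 (sub_nonneg.mpr hx1) hx0 (by ring)
      convert this using 1
      ext i
      have hi : i = 0 := Subsingleton.elim _ _
      subst hi
      simp
    have e : stdS 1 \ K = ∅ := sdiff_eq_empty.mpr this
    rw [e]
    simp
  · have hP : Pos K ε := by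
      refine ⟨hKv, hKc.isClosed, hsub, h0, hj, fun x hx => ?_⟩
      have := hnear x hx
      convert this using 1
      ext i
      simp only [bar, Pi.add_apply, Pi.smul_apply, Pi.sub_apply, smul_eq_mul]
      ring
    have := hP.total h2 hε hε4
    exact this

/-- **The simplex is a strict local maximizer of the isotropic constant.** -/
theorem main (hn : 1 ≤ n) {T S : Set (Fin n → ℝ)} (hK : IsConvexBody K) (hT : IsSimplex T)
    (hKT : K ⊆ T)
    (hvol : (1 - 1 / ((n : ℝ) + 2) ^ (5 * n)) * (volume T).toReal ≤ (volume K).toReal)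
    (hS : IsSimplex S) :
    isoConst K ≤ isoConst S ∧ (isoConst K = isoConst S ↔ IsSimplex K) := by
  have hn0 : (0 : ℝ) < n := by exact_mod_cast hn
  set ε : ℝ := 4 / ((n : ℝ) * (n + 1) * (n + 2) * (n + 3)) with hεd
  have hε : 0 < ε := by positivity
  have hε4 : ε * ((n : ℝ) * (n + 1) * (n + 2) * (n + 3)) ≤ 4 := by
    rw [hεd, div_mul_cancel₀]
    positivity
  refine assembly hn hε (regionStatement hn hε.le hε4) ?_ hK hT hKT hvol hS
  have e1 : ε / (n + 1 + ε) = 4 / (((n : ℝ) + 1) * (n * (n + 1) * (n + 2) * (n + 3)) + 4) := by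
    rw [hεd]; field_simp
  have h1 : 1 / ((n : ℝ) + 2) ^ 5 < ε / (n + 1 + ε) := by
    rw [e1, div_lt_div_iff₀ (by positivity) (by positivity)]
    nlinarith [pow_pos hn0 2, pow_pos hn0 3, pow_pos hn0 4, pow_pos hn0 5]
  have h2 : 1 / ((n : ℝ) + 2) ^ (5 * n) = (1 / ((n : ℝ) + 2) ^ 5) ^ n := by
    rw [div_pow, one_pow, pow_mul]
  rw [h2]
  exact pow_lt_pow_left₀ h1 (by positivity) (by omega)

end Vale.Agent.P254
end

section

/-!
P254, bodies near unconditional bodies: comparison of the second moments.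
-/

open MeasureTheory Set Matrix

namespace Vale.Agent.P254.EX

open Unc Unc.FB

variable {n : ℕ}

/-- the second moments -/
noncomputable def mom (K : Set (Fin n → ℝ)) (k : Fin n) : ℝ :=
  (volume K).toReal⁻¹ * ∫ x in K, x k ^ 2

lemma mom_eq {K : Set (Fin n → ℝ)} (hK : IsConvexBody K) (k : Fin n) :
    mom K k = covMatrix K k k + centroid K k ^ 2 := by
  have h := cov_shift hK.2.1 (volume_pos_of_body hK).ne' (fun _ => 0) k k
  simp only [sub_zero] at h
  rw [mom, pow_two, ← h]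
  simp only [pow_two]

lemma cov_pos {K : Set (Fin n → ℝ)} (hK : IsConvexBody K) (k : Fin n) : 0 < covMatrix K k k :=
  (covMatrix_posDef hK).diag_pos

lemma mom_pos {K : Set (Fin n → ℝ)} (hK : IsConvexBody K) (k : Fin n) : 0 < mom K k := by
  rw [mom_eq hK]
  have := cov_pos hK k
  positivity

/-- Hadamard -/
lemma det_le_prod_mom (hn : 0 < n) {K : Set (Fin n → ℝ)} (hK : IsConvexBody K) :
    (covMatrix K).det ≤ ∏ k, mom K k := by
  have hn0 : (0 : ℝ) < n := by exact_mod_cast hn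
  have hB : (Matrix.diagonal fun k => (mom K k)⁻¹).PosSemidef :=
    PosSemidef.diagonal fun k => (inv_pos.2 (mom_pos hK k)).le
  have h := det_mul_det_le hn hB (covMatrix_posSemidef hK.2.1)
  rw [det_diagonal] at h
  have htr : ((Matrix.diagonal fun k => (mom K k)⁻¹) * covMatrix K).trace =
      ∑ k, (mom K k)⁻¹ * covMatrix K k k := by
    simp only [trace, diag_apply, diagonal_mul]
  have h1 : ∑ k, (mom K k)⁻¹ * covMatrix K k k ≤ n := by
    have : ∑ _k : Fin n, (1 : ℝ) = n := by simp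
    rw [← this]
    refine Finset.sum_le_sum fun k _ => ?_
    rw [inv_mul_le_iff₀ (mom_pos hK k), mul_one, mom_eq hK]
    have := sq_nonneg (centroid K k)
    linarith
  have h0 : 0 ≤ ∑ k, (mom K k)⁻¹ * covMatrix K k k :=
    Finset.sum_nonneg fun k _ => mul_nonneg (inv_pos.2 (mom_pos hK k)).le (cov_pos hK k).le
  have h2 : (((Matrix.diagonal fun k => (mom K k)⁻¹) * covMatrix K).trace / n) ^ n ≤ 1 := by
    rw [htr]
    exact pow_le_one₀ (by positivity) (by rw [div_le_one hn0]; exact h1)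
  have hp : 0 < ∏ k, mom K k := Finset.prod_pos fun k _ => mom_pos hK k
  rw [Finset.prod_inv_distrib, inv_mul_eq_div] at h
  have h3 := h.trans h2
  rwa [div_le_one hp] at h3

lemma log_vol {VU VK : ℝ} (hK : 0 < VK) (hU : 0 < VU)
    (hq : (1 - 1 / 10 ^ 24) ^ n * VU ≤ VK) :
    Real.log (VU / VK) ≤ n * (101 / 10 ^ 26) := by
  have hq0 : (0 : ℝ) < 1 - 1 / 10 ^ 24 := by norm_num
  have h1 : VU / VK ≤ ((1 - 1 / 10 ^ 24 : ℝ)⁻¹) ^ n := by
    rw [inv_pow, div_le_iff₀ hK, inv_mul_eq_div, le_div_iff₀ (by positivity), mul_comm]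
    exact hq
  have h2 := Real.log_le_log (div_pos hU hK) h1
  rw [Real.log_pow] at h2
  have h3 := Real.log_le_sub_one_of_pos (inv_pos.2 hq0)
  have h4 : ((1 : ℝ) - 1 / 10 ^ 24)⁻¹ - 1 ≤ 101 / 10 ^ 26 := by norm_num
  exact h2.trans (mul_le_mul_of_nonneg_left (h3.trans h4) (Nat.cast_nonneg n))

lemma log_1e8 : Real.log (2 * 5e7) ≤ 19 := by
  rw [Real.log_le_iff_le_exp (by norm_num)]
  have h1 := Real.exp_one_gt_d9
  have h2 : Real.exp 19 = Real.exp 1 ^ 19 := by
    rw [← Real.exp_nat_mul]; norm_num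
  rw [h2]
  have h3 : (2.7 : ℝ) ^ 19 ≤ Real.exp 1 ^ 19 := by
    gcongr
    linarith
  refine le_trans ?_ h3
  norm_num

theorem core {U K : Set (Fin n → ℝ)} (hU : IsConvexBody U) (hu : Uncond U)
    (hK : IsConvexBody K) (hKU : K ⊆ U)
    (hq : (1 - 1 / 10 ^ 24) ^ n * (volume U).toReal ≤ (volume K).toReal) :
    ∏ k, mom K k ≤ Real.exp (n * (245 / 10000)) * ∏ k, mom U k := by
  have hVK := volume_pos_of_body hK
  have hVU := volume_pos_of_body hU
  have hσ := fun k => mom_pos hU k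
  have hm := fun k => mom_pos hK k
  set b : Fin n → ℝ := fun k =>
    (volume K).toReal⁻¹ * ∫ x in K, Real.log (1 + x k ^ 2 / (5e7 * mom U k)) with hb
  have hρ : ∀ k, 0 < 5e7 * mom U k := fun k => by have := hσ k; positivity
  have hlog := log_vol hVK hVU hq
  have hUpsi : ∀ k, (volume U).toReal⁻¹ * ∫ x in U, psi (5e7 * mom U k) (x k) ≤ 1 / 5e7 := by
    intro k
    have h1 : ∫ x in U, psi (5e7 * mom U k) (x k) ≤ ∫ x in U, x k ^ 2 / (5e7 * mom U k) := by
      refine setIntegral_mono ?_ ?_ fun x => psi_le (hρ k) _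
      · exact ((psi_cont (hρ k)).comp
          (continuous_apply k)).continuousOn.integrableOn_compact hU.2.1
      · exact (by fun_prop : Continuous fun x : Fin n → ℝ =>
          x k ^ 2 / (5e7 * mom U k)).continuousOn.integrableOn_compact hU.2.1
    rw [integral_div] at h1
    calc (volume U).toReal⁻¹ * ∫ x in U, psi (5e7 * mom U k) (x k)
        ≤ (volume U).toReal⁻¹ * ((∫ x in U, x k ^ 2) / (5e7 * mom U k)) := by
          apply mul_le_mul_of_nonneg_left h1 (by positivity)
      _ = mom U k / (5e7 * mom U k) := by rw [mom]; ring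
      _ = 1 / 5e7 := by
          have := (hσ k).ne'
          field_simp
  have h1 : ∀ S : Finset (Fin n), ∑ k ∈ S, (5e7 * b k) ≤ S.card + n * (57 / 100000) := by
    intro S
    have hj := jen hU hu hK.2.1 hVK hVU hKU (a := 177 / 10 ^ 15) (by norm_num) (by norm_num)
      (fun k => 5e7 * mom U k) hρ S
    have e1 : ∑ k ∈ S, (volume K).toReal⁻¹ * ∫ x in K, psi (5e7 * mom U k) (x k) =
        ∑ k ∈ S, b k := rfl
    have e2 : ∑ k ∈ S, (volume U).toReal⁻¹ * ∫ x in U, psi (5e7 * mom U k) (x k) ≤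
        S.card * (1 / 5e7) := by
      rw [← nsmul_eq_mul, ← Finset.sum_const]
      exact Finset.sum_le_sum fun k _ => hUpsi k
    have e3 : (S.card : ℝ) ≤ n := by
      have := Finset.card_le_univ S
      rw [Fintype.card_fin] at this
      exact_mod_cast this
    rw [e1] at hj
    rw [← Finset.mul_sum]
    have hn0 : (0 : ℝ) ≤ n := Nat.cast_nonneg n
    norm_num at hj e2 hlog ⊢
    linarith
  have h2 : ∀ k, Real.log (mom K k / mom U k) ≤ 19 + 8e-6 * (5e7 * b k) := by
    intro k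
    have hA := leafA hK.1 hK.2.1 hVK k (hρ k)
    change mom K k ≤ 2 * (5e7 * mom U k) * Real.exp (400 * b k) at hA
    have h3 : mom K k / mom U k ≤ 2 * 5e7 * Real.exp (400 * b k) := by
      rw [div_le_iff₀ (hσ k)]
      linarith
    have h4 := Real.log_le_log (div_pos (hm k) (hσ k)) h3
    rw [Real.log_mul (by norm_num) (Real.exp_pos _).ne', Real.log_exp] at h4
    have h5 := log_1e8
    have h6 : (8e-6 : ℝ) * (5e7 * b k) = 400 * b k := by ring
    rw [h6]
    linarith
  have h3 : ∀ k, 5e7 * b k ≤ 2 → mom K k / mom U k ≤ 5e7 * b k + 0.01284 := by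
    intro k hk
    have hB := leafB hK.1 hK.2.1 hVK k (hσ k) hk
    rw [div_le_iff₀ (hσ k), mul_comm]
    exact hB
  have hs := sumS (fun k => mom K k / mom U k) (fun k => 5e7 * b k) (ε₁ := 57 / 100000)
    (ε₂ := 0.01284) (L := 19) (c := 8e-6) (fun k => div_pos (hm k) (hσ k)) (by norm_num)
    (by norm_num) (by norm_num) h1 h2 h3
  have hn0 : (0 : ℝ) ≤ n := Nat.cast_nonneg n
  have h4 : ∑ k, Real.log (mom K k / mom U k) ≤ n * (245 / 10000) := by
    refine hs.trans (mul_le_mul_of_nonneg_left ?_ hn0)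
    norm_num
  have h5 : ∏ k, (mom K k / mom U k) ≤ Real.exp (n * (245 / 10000)) := by
    have e : ∏ k, (mom K k / mom U k) = Real.exp (∑ k, Real.log (mom K k / mom U k)) := by
      rw [Real.exp_sum]
      exact Finset.prod_congr rfl fun k _ => (Real.exp_log (div_pos (hm k) (hσ k))).symm
    rw [e]
    exact Real.exp_le_exp.2 h4
  rw [Finset.prod_div_distrib, div_le_iff₀ (Finset.prod_pos fun k _ => hσ k)] at h5
  exact h5

end Vale.Agent.P254.EX
end

section

/-!
P254: the strong isotropic constant conjecture for the bodies at a dimension-free distance from the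
unconditional bodies.
-/

open MeasureTheory Set Matrix

namespace Vale.Agent.P254.EX

open Unc Unc.FB

variable {n : ℕ}

lemma exp_le : Real.exp (245 / 10000) * ((1 - 1 / 10 ^ 24 : ℝ)⁻¹) ^ 2 ≤ 1026 / 1000 := by
  have h := Real.add_one_le_exp (-(245 / 10000) : ℝ)
  rw [Real.exp_neg] at h
  have h1 : Real.exp (245 / 10000) ≤ (1 - 245 / 10000)⁻¹ := by
    rw [le_inv_comm₀ (Real.exp_pos _) (by norm_num)]
    linarith
  calc Real.exp (245 / 10000) * ((1 - 1 / 10 ^ 24 : ℝ)⁻¹) ^ 2
      ≤ (1 - 245 / 10000)⁻¹ * ((1 - 1 / 10 ^ 24 : ℝ)⁻¹) ^ 2 := by gcongr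
    _ ≤ 1026 / 1000 := by norm_num

theorem iso_lt (hUNC : UNCR n) (hn : 2 ≤ n) {U K S : Set (Fin n → ℝ)} (hU : IsConvexBody U)
    (hu : Uncond U) (hK : IsConvexBody K) (hS : IsSimplex S) (hKU : K ⊆ U)
    (hq : (1 - 1 / 10 ^ 24) ^ n * (volume U).toReal ≤ (volume K).toReal) :
    isoConst K < isoConst S := by
  have hn0 : 0 < n := by omega
  have hVK := volume_pos_of_body hK
  have hVU := volume_pos_of_body hU
  have hcore := core hU hu hK hKU hq
  have hdet := det_le_prod_mom hn0 hK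
  have hbody := unc_body hUNC hU hu
  have hdU : (covMatrix U).det = ∏ k, mom U k := by
    rw [cov_diag hu, det_diagonal]
    rfl
  have h1 : (covMatrix K).det ≤ Real.exp (n * (245 / 10000)) * (covMatrix U).det := by
    rw [hdU]
    exact hdet.trans hcore
  set V := (volume K).toReal with hVd
  set W := (volume U).toReal with hWd
  set q : ℝ := 1 - 1 / 10 ^ 24 with hqd
  have hq0 : 0 < q := by rw [hqd]; norm_num
  have hr : W / V ≤ (q⁻¹) ^ n := by
    rw [inv_pow, div_le_iff₀ hVK, inv_mul_eq_div, le_div_iff₀ (by positivity), mul_comm]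
    exact hq
  have hr0 : 0 < W / V := div_pos hVU hVK
  have hdU0 : 0 ≤ (covMatrix U).det / W ^ 2 :=
    div_nonneg (covMatrix_posSemidef hU.2.1).det_nonneg (by positivity)
  have h3 : (covMatrix K).det / V ^ 2 ≤
      Real.exp (n * (245 / 10000)) * (W / V) ^ 2 * ((covMatrix U).det / W ^ 2) := by
    rw [div_le_iff₀ (by positivity)]
    refine h1.trans (le_of_eq ?_)
    field_simp
  have h4 : (covMatrix K).det / V ^ 2
      ≤ (1026 / 1000) ^ n * (((n : ℝ) + 1) / (8 * (n + 2))) ^ n := by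
    refine h3.trans ?_
    refine mul_le_mul ?_ hbody hdU0 (by positivity)
    calc Real.exp (n * (245 / 10000)) * (W / V) ^ 2
        ≤ Real.exp (n * (245 / 10000)) * ((q⁻¹) ^ n) ^ 2 := by
          gcongr
      _ = (Real.exp (245 / 10000) * (q⁻¹) ^ 2) ^ n := by
          rw [Real.exp_nat_mul, mul_pow, ← pow_mul, ← pow_mul, mul_comm n 2]
      _ ≤ (1026 / 1000) ^ n := by
          refine pow_le_pow_left₀ (by positivity) ?_ n
          rw [hqd]
          exact exp_le
  have h5 : ∀ θ : ℝ, ((n : ℝ) + 1) ^ (2 * n + 1) * θ < 8 ^ n * (n.factorial : ℝ) ^ 2 →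
      θ * (((n : ℝ) + 1) / (8 * (n + 2))) ^ n < FV.simpC n := by
    intro θ hθ
    unfold FV.simpC
    rw [div_pow, mul_pow, mul_pow, lt_div_iff₀ (by positivity), ← mul_div_assoc,
      div_mul_eq_mul_div, div_lt_iff₀ (by positivity)]
    have e1 : θ * ((n : ℝ) + 1) ^ n
        * (((n : ℝ) + 1) * (((n : ℝ) + 1) ^ n * ((n : ℝ) + 2) ^ n))
        = ((n : ℝ) + 1) ^ (2 * n + 1) * θ * ((n : ℝ) + 2) ^ n := by
      ring
    have e2 : (n.factorial : ℝ) ^ 2 * (8 ^ n * ((n : ℝ) + 2) ^ n)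
        = 8 ^ n * (n.factorial : ℝ) ^ 2 * ((n : ℝ) + 2) ^ n := by ring
    rw [e1, e2]
    exact mul_lt_mul_of_pos_right hθ (by positivity)
  rw [isoConst_simplex hS, isoConst, isoConst, FV.det_simplex (by omega)]
  have hn' : (0 : ℝ) < n := by exact_mod_cast hn0
  exact Real.rpow_lt_rpow (div_nonneg (covMatrix_posSemidef hK.2.1).det_nonneg (by positivity))
    (h4.trans_lt (h5 _ (pow_lt_fac hn))) (by positivity)

/-- the affine version -/
theorem near_exp (hUNC : UNCR n) (hn : 2 ≤ n) {U K S : Set (Fin n → ℝ)} (hU : IsConvexBody U)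
    (hu : Uncond U) (hK : IsConvexBody K) (hS : IsSimplex S) {A : Matrix (Fin n) (Fin n) ℝ}
    (hA : A.det ≠ 0) {b : Fin n → ℝ} (hKU : K ⊆ aff A b '' U)
    (hq : (1 - 1 / 10 ^ 24) ^ n * (volume (aff A b '' U)).toReal ≤ (volume K).toReal) :
    isoConst K < isoConst S := by
  have hunit : IsUnit A.det := isUnit_iff_ne_zero.mpr hA
  have hu' : (A⁻¹).det ≠ 0 := by
    rw [det_nonsing_inv, Ring.inverse_eq_inv']
    exact inv_ne_zero hA
  set K' : Set (Fin n → ℝ) := aff A⁻¹ (-(A⁻¹ *ᵥ b)) '' K with hK'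
  have hback : ∀ x, aff A⁻¹ (-(A⁻¹ *ᵥ b)) (aff A b x) = x := by
    intro x
    rw [aff_aff, nonsing_inv_mul _ hunit]
    simp [aff]
  have hforth : ∀ x, aff A b (aff A⁻¹ (-(A⁻¹ *ᵥ b)) x) = x := by
    intro x
    rw [aff_aff, mul_nonsing_inv _ hunit]
    simp only [aff, mulVec_neg, mulVec_mulVec, mul_nonsing_inv _ hunit, one_mulVec]
    abel
  have e : K = aff A b '' K' := by
    rw [hK', ← image_comp]
    have : aff A b ∘ aff A⁻¹ (-(A⁻¹ *ᵥ b)) = id := by
      ext1 x
      exact hforth x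
    rw [this, image_id]
  have hK'b : IsConvexBody K' := isConvexBody_aff_image hu' _ hK
  have hsub : K' ⊆ U := by
    rintro _ ⟨x, hx, rfl⟩
    obtain ⟨u, hu1, rfl⟩ := hKU hx
    rw [hback]
    exact hu1
  have hdpos : 0 < |A.det| := abs_pos.mpr hA
  have hvol : (1 - 1 / 10 ^ 24) ^ n * (volume U).toReal ≤ (volume K').toReal := by
    rw [e, volume_aff_image hA b hU.2.1.measurableSet,
      volume_aff_image hA b hK'b.2.1.measurableSet] at hq
    have h1 : |A.det| * ((1 - 1 / 10 ^ 24) ^ n * (volume U).toReal) ≤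
        |A.det| * (volume K').toReal := by
      calc _ = (1 - 1 / 10 ^ 24) ^ n * (|A.det| * (volume U).toReal) := by ring
        _ ≤ _ := hq
    exact le_of_mul_le_mul_left h1 hdpos
  have h := iso_lt hUNC hn hU hu hK'b hS hsub hvol
  rw [e, isoConst_aff_image hA b hK'b.2.1 (volume_pos_of_body hK'b).ne']
  exact h

/-- The strong isotropic constant conjecture near the unconditional bodies. -/
theorem top_exp (hUNC : UNCR n) (hn : 1 ≤ n) {K S : Set (Fin n → ℝ)}
    (hK : IsConvexBody K) (hS : IsSimplex S)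
    (h : ∃ (A : Matrix (Fin n) (Fin n) ℝ) (b : Fin n → ℝ) (U : Set (Fin n → ℝ)), A.det ≠ 0 ∧
      IsConvexBody U ∧ Uncond U ∧ K ⊆ (fun x => A *ᵥ x + b) '' U ∧
      min (79 / 80) ((1 - 1 / 10 ^ 24) ^ n) * (volume ((fun x => A *ᵥ x + b) '' U)).toReal ≤
        (volume K).toReal) :
    isoConst K ≤ isoConst S ∧ (isoConst K = isoConst S ↔ IsSimplex K) ∧
      (2 ≤ n → isoConst K < isoConst S) := by
  obtain ⟨A, b, U, hA, hU, hu, hKU, hvol⟩ := h
  rcases min_choice (79 / 80 : ℝ) ((1 - 1 / 10 ^ 24) ^ n) with hm | hm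
  · rw [hm] at hvol
    exact top_near hUNC hn hK hS ⟨A, b, U, hA, hU, hu, hKU, hvol⟩
  · rw [hm] at hvol
    rcases Nat.lt_or_ge n 2 with h2 | h2
    · have h1 : n = 1 := by omega
      subst h1
      have hKs := isSimplex_of_dim_one hK
      have e : isoConst K = isoConst S := by rw [isoConst_simplex hKs, isoConst_simplex hS]
      exact ⟨e.le, ⟨fun _ => hKs, fun _ => e⟩, fun h => absurd h (by norm_num)⟩
    · have hlt := near_exp hUNC h2 hU hu hK hS hA hKU hvol
      refine ⟨hlt.le, ⟨fun h' => absurd h' hlt.ne, fun h' => ?_⟩, fun _ => hlt⟩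
      rw [isoConst_simplex h', isoConst_simplex hS]

end Vale.Agent.P254.EX
end

section

/-!
P254: the Banach-Mazur form of the theorem for the neighbourhood of the unconditional bodies.
-/

open MeasureTheory Set Matrix

namespace Vale.Agent.P254.EX

open Unc Unc.FB

variable {n : ℕ}

lemma vol_of_bm {K W : Set (Fin n → ℝ)} (hK : IsCompact K) (hW : MeasurableSet W)
    {z : Fin n → ℝ} {r : ℝ} (hr0 : 0 < r) (hr : r * (1 - 1 / 10 ^ 24) ≤ 1) (hWK : W ⊆ K) :
    (1 - 1 / 10 ^ 24) ^ n * (volume ((fun x => z + r • x) '' W)).toReal ≤ (volume K).toReal := by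
  have hq0 : (0 : ℝ) < 1 - 1 / 10 ^ 24 := by norm_num
  have e : (fun x => z + r • x) '' W = aff (r • (1 : Matrix (Fin n) (Fin n) ℝ)) z '' W := by
    refine image_congr fun x _ => ?_
    simp only [aff, smul_mulVec, one_mulVec]
    rw [add_comm]
  have hd : (r • (1 : Matrix (Fin n) (Fin n) ℝ)).det = r ^ n := by
    rw [det_smul, det_one, Fintype.card_fin, mul_one]
  rw [e, volume_aff_image (by rw [hd]; positivity) z hW, hd, abs_of_pos (by positivity)]
  have h1 : (volume W).toReal ≤ (volume K).toReal :=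
    ENNReal.toReal_mono hK.measure_lt_top.ne (measure_mono hWK)
  have h2 : (r * (1 - 1 / 10 ^ 24)) ^ n ≤ 1 := pow_le_one₀ (by positivity) hr
  calc (1 - 1 / 10 ^ 24) ^ n * (r ^ n * (volume W).toReal)
      = (r * (1 - 1 / 10 ^ 24)) ^ n * (volume W).toReal := by rw [mul_pow]; ring
    _ ≤ 1 * (volume W).toReal := by gcongr
    _ ≤ _ := by rw [one_mul]; exact h1

/-- the two forms of the hypothesis at once -/
theorem top_bm (hUNC : UNCR n) (hn : 1 ≤ n) {K S : Set (Fin n → ℝ)}
    (hK : IsConvexBody K) (hS : IsSimplex S)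
    (h : ∃ (A : Matrix (Fin n) (Fin n) ℝ) (b : Fin n → ℝ) (U : Set (Fin n → ℝ)), A.det ≠ 0 ∧
      IsConvexBody U ∧ Uncond U ∧
      ((K ⊆ (fun x => A *ᵥ x + b) '' U ∧
        min (79 / 80) ((1 - 1 / 10 ^ 24) ^ n) * (volume ((fun x => A *ᵥ x + b) '' U)).toReal ≤
          (volume K).toReal) ∨
      (∃ (z : Fin n → ℝ) (r : ℝ), 0 < r ∧ r * (1 - 1 / 10 ^ 24) ≤ 1 ∧
        (fun x => A *ᵥ x + b) '' U ⊆ K ∧
        K ⊆ (fun x => z + r • x) '' ((fun x => A *ᵥ x + b) '' U)))) :
    isoConst K ≤ isoConst S ∧ (isoConst K = isoConst S ↔ IsSimplex K) ∧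
      (2 ≤ n → isoConst K < isoConst S) := by
  obtain ⟨A, b, U, hA, hU, hu, ⟨h1, h2⟩ | ⟨z, r, hr0, hr, h1, h2⟩⟩ := h
  · exact top_exp hUNC hn hK hS ⟨A, b, U, hA, hU, hu, h1, h2⟩
  · have e : (fun x => z + r • x) '' ((fun x => A *ᵥ x + b) '' U) =
        (fun x => (r • A) *ᵥ x + (z + r • b)) '' U := by
      rw [← image_comp]
      refine image_congr fun x _ => ?_
      simp only [Function.comp_apply, smul_mulVec, smul_add]
      abel
    have hv := vol_of_bm (z := z) hK.2.1
      (isCompact_aff_image A b hU.2.1).measurableSet hr0 hr h1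
    change (1 - 1 / 10 ^ 24) ^ n *
      (volume ((fun x => z + r • x) '' ((fun x => A *ᵥ x + b) '' U))).toReal ≤ _ at hv
    rw [e] at hv h2
    refine top_exp hUNC hn hK hS ⟨r • A, z + r • b, U, ?_, hU, hu, h2, ?_⟩
    · rw [det_smul, Fintype.card_fin]
      exact mul_ne_zero (by positivity) hA
    · refine le_trans ?_ hv
      exact mul_le_mul_of_nonneg_right (min_le_right _ _) ENNReal.toReal_nonneg

end Vale.Agent.P254.EX
end

section

open MeasureTheory Set
open scoped NNReal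

namespace Vale.Agent.P254.Unc

/-- E0 -/
theorem unc_zero : UNC 0 := by
  intro L _ hne _ _
  have : L = univ := by
    obtain ⟨x, hx⟩ := hne
    ext y
    simp [Subsingleton.elim y x, hx]
  subst this
  simp

end Vale.Agent.P254.Unc
end

section

open MeasureTheory Set

namespace Vale.Agent.P254.Unc

/-- Bridge between the cube form `UNC` and the form `UNCR` for compact sets of the orthant. -/
theorem uncr_of_unc {n : ℕ} (h : UNC n) : UNCR n := fun K hc hK hne hD =>
  unc_real h K hK hc hne (fun x hx k => hD.1 x hx k)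
    (fun x hx y hy => hD.2 x hx y (fun k => (hy k).1) (fun k => (hy k).2))

end Vale.Agent.P254.Unc
end

section

/-! P254-UNC: the volume inequality `|K| ≥ ∏ 2 E x_k` in all dimensions. -/

namespace Vale.Agent.P254.Unc

/-- `|L| ≥ ∏ 2 E x_k` in all dimensions, in the cube. -/
theorem unc_all (n : ℕ) : UNC n := by
  induction n with
  | zero => exact unc_zero
  | succ n ih => exact unc_succ n (cx_of_cxs n (cxs_of_unc n ih))

/-- `|K| ≥ ∏ 2 E x_k` for all compact convex sets of the orthant closed downwards. -/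
theorem uncr_all (n : ℕ) : UNCR n := uncr_of_unc (unc_all n)

end Vale.Agent.P254.Unc
end

section

/-!
P254, almost unconditional bodies: the bound of the isotropic constant of the bodies which are
symmetric in all but `q` coordinates.
-/

open MeasureTheory Set Matrix

namespace Vale.Agent.P254.AU

open Vale.Agent.P254.Unc

variable {n : ℕ}

lemma uncond_of_flip {K : Set (Fin n → ℝ)}
    (h : ∀ i, ∀ x ∈ K, Function.update x i (-x i) ∈ K) : Uncond K := by
  classical
  intro x hx y hy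
  have key : ∀ S : Finset (Fin n), (fun i => if i ∈ S then y i else x i) ∈ K := by
    intro S
    induction S using Finset.induction_on with
    | empty => simpa using hx
    | insert j S hj ih =>
      rcases abs_eq_abs.1 (hy j) with h1 | h1
      · convert ih using 1
        funext i
        by_cases hi : i = j
        · subst hi; simp [hj, h1]
        · simp [hi]
      · convert h j _ ih using 1
        funext i
        by_cases hi : i = j
        · subst hi; simp [hj, h1]
        · simp [hi]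
  simpa using key Finset.univ

theorem au_flip (hUNC : UNCR n) (T : Finset (Fin n)) : ∀ {K : Set (Fin n → ℝ)},
    IsConvexBody K → (∀ i, i ∉ T → ∀ x ∈ K, Function.update x i (-x i) ∈ K) →
    (covMatrix K).det / (volume K).toReal ^ 2 ≤
      (((n : ℝ) + 1) * (n + 2) / 2) ^ T.card * (((n : ℝ) + 1) / (8 * ((n : ℝ) + 2))) ^ n := by
  induction T using Finset.induction_on with
  | empty =>
    intro K hK h
    have := unc_body hUNC hK (uncond_of_flip fun i => h i (by simp))
    simpa using this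
  | insert j T hj ih =>
    intro K hK h
    obtain ⟨hS, hvol⟩ := isConvexBody_St hK j
    have h1 := ih hS (by
      intro i hi
      by_cases hij : i = j
      · subst hij
        intro x hx
        exact St_symm i hx (by rw [abs_neg])
      · exact St_symm' j hij (h i (by simp [hij, hi])))
    have h2 := det_cov_le_St hK j
    have hV := volume_pos_of_body hK
    rw [hvol] at h1
    rw [Finset.card_insert_of_notMem hj, pow_succ]
    have h3 : (covMatrix K).det / (volume K).toReal ^ 2 ≤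
        (((n : ℝ) + 1) * (n + 2) / 2) * ((covMatrix (St j K)).det / (volume K).toReal ^ 2) := by
      rw [← mul_div_assoc]
      exact div_le_div_of_nonneg_right h2 (by positivity)
    refine h3.trans ?_
    have h4 := mul_le_mul_of_nonneg_left h1
      (show (0 : ℝ) ≤ ((n : ℝ) + 1) * (n + 2) / 2 by positivity)
    refine h4.trans (le_of_eq ?_)
    ring

/-- **Almost unconditional bodies.** If the convex body `K` is symmetric with respect to the
coordinate hyperplanes of the coordinates in `S`, then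
`det Cov / |K| ^ 2 ≤ ((n + 1)(n + 2) / 2) ^ (n - |S|) ((n + 1) / (8 (n + 2))) ^ n`. -/
theorem au_body {K : Set (Fin n → ℝ)} (hK : IsConvexBody K) (S : Finset (Fin n))
    (hsym : ∀ x ∈ K, ∀ y : Fin n → ℝ, (∀ i ∈ S, |y i| = |x i|) → (∀ i, i ∉ S → y i = x i) → y ∈ K) :
    (covMatrix K).det / (volume K).toReal ^ 2 ≤
      (((n : ℝ) + 1) * (n + 2) / 2) ^ (n - S.card) *
        (((n : ℝ) + 1) / (8 * ((n : ℝ) + 2))) ^ n := by
  classical
  have h := au_flip (uncr_all n) Sᶜ hK (by
    intro i hi x hx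
    rw [Finset.mem_compl, not_not] at hi
    refine hsym x hx _ (fun k hk => ?_) (fun k hk => ?_)
    · by_cases hki : k = i
      · subst hki; simp
      · rw [Function.update_of_ne hki]
    · have hki : k ≠ i := by
        rintro rfl
        exact hk hi
      rw [Function.update_of_ne hki])
  rwa [Finset.card_compl, Fintype.card_fin] at h

end Vale.Agent.P254.AU
end

section

/-!
P254: the bodies which become (affine images of) unconditional bodies after `q` Steiner
symmetrizations.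
-/

open MeasureTheory Set Matrix

namespace Vale.Agent.P254.AU

open Vale.Agent.P254.Unc

/-- `Alm q K`: the convex body `K` becomes an affine image of an unconditional body by `q` Steiner
symmetrizations (in arbitrary directions). -/
inductive Alm {n : ℕ} : ℕ → Set (Fin n → ℝ) → Prop
  | unc {K : Set (Fin n → ℝ)} (hK : IsConvexBody K) (hu : Uncond K) : Alm 0 K
  | aff {q : ℕ} {K : Set (Fin n → ℝ)} (A : Matrix (Fin n) (Fin n) ℝ) (b : Fin n → ℝ)
      (hA : A.det ≠ 0) (hK : Alm q K) : Alm q ((fun x => A *ᵥ x + b) '' K)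
  | ste {q : ℕ} {K : Set (Fin n → ℝ)} (hK : IsConvexBody K) (j : Fin n) (h : Alm q (St j K)) :
      Alm (q + 1) K

theorem Alm.body {n q : ℕ} {K : Set (Fin n → ℝ)} (h : Alm q K) : IsConvexBody K := by
  induction h with
  | unc hK _ => exact hK
  | aff A b hA _ ih => exact isConvexBody_aff_image hA b ih
  | ste hK _ _ _ => exact hK

theorem Alm.bound {n q : ℕ} {K : Set (Fin n → ℝ)} (h : Alm q K) :
    (covMatrix K).det / (volume K).toReal ^ 2 ≤
      (((n : ℝ) + 1) * (n + 2) / 2) ^ q * (((n : ℝ) + 1) / (8 * ((n : ℝ) + 2))) ^ n := by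
  induction h with
  | unc hK hu =>
    have := unc_body (uncr_all n) hK hu
    simpa using this
  | @aff q K A b hA hK ih =>
    have hb := hK.body
    have hV := volume_pos_of_body hb
    have e : (covMatrix ((fun x => A *ᵥ x + b) '' K)).det /
        (volume ((fun x => A *ᵥ x + b) '' K)).toReal ^ 2 =
        (covMatrix K).det / (volume K).toReal ^ 2 := by
      have h1 := cov_aff_image hA b hb.2.1 hV.ne'
      have h2 := volume_aff_image hA b hb.2.1.measurableSet
      have h0 : (fun x => A *ᵥ x + b) = Vale.Agent.P254.aff A b := rfl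
      rw [h0, h1, h2, det_mul, det_mul, det_transpose, mul_pow, sq_abs]
      field_simp
    rw [e]
    exact ih
  | @ste q K hK j _ ih =>
    obtain ⟨_, hvol⟩ := isConvexBody_St hK j
    have h2 := det_cov_le_St hK j
    have hV := volume_pos_of_body hK
    rw [hvol] at ih
    rw [pow_succ]
    have h3 : (covMatrix K).det / (volume K).toReal ^ 2 ≤
        (((n : ℝ) + 1) * (n + 2) / 2) * ((covMatrix (St j K)).det / (volume K).toReal ^ 2) := by
      rw [← mul_div_assoc]
      exact div_le_div_of_nonneg_right h2 (by positivity)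
    refine h3.trans ?_
    have h4 := mul_le_mul_of_nonneg_left ih
      (show (0 : ℝ) ≤ ((n : ℝ) + 1) * (n + 2) / 2 by positivity)
    refine h4.trans (le_of_eq ?_)
    ring

theorem alm_of_flip {n : ℕ} (T : Finset (Fin n)) : ∀ {K : Set (Fin n → ℝ)},
    IsConvexBody K → (∀ i, i ∉ T → ∀ x ∈ K, Function.update x i (-x i) ∈ K) → Alm T.card K := by
  induction T using Finset.induction_on with
  | empty =>
    intro K hK h
    exact Alm.unc hK (uncond_of_flip fun i => h i (by simp))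
  | insert j T hj ih =>
    intro K hK h
    rw [Finset.card_insert_of_notMem hj]
    refine Alm.ste hK j (ih (isConvexBody_St hK j).1 ?_)
    intro i hi
    by_cases hij : i = j
    · subst hij
      intro x hx
      exact St_symm i hx (by rw [abs_neg])
    · exact St_symm' j hij (h i (by simp [hij, hi]))

/-- The bodies which are symmetric with respect to the coordinate hyperplanes of the coordinates in
`S` become unconditional after `n - |S|` Steiner symmetrizations. -/
theorem alm_of_sym {n : ℕ} {K : Set (Fin n → ℝ)} (hK : IsConvexBody K) (S : Finset (Fin n))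
    (hsym : ∀ x ∈ K, ∀ y : Fin n → ℝ, (∀ i ∈ S, |y i| = |x i|) → (∀ i, i ∉ S → y i = x i) → y ∈ K) :
    Alm (n - S.card) K := by
  classical
  have h := alm_of_flip Sᶜ hK (by
    intro i hi x hx
    rw [Finset.mem_compl, not_not] at hi
    refine hsym x hx _ (fun k hk => ?_) (fun k hk => ?_)
    · by_cases hki : k = i
      · subst hki; simp
      · rw [Function.update_of_ne hki]
    · have hki : k ≠ i := by
        rintro rfl
        exact hk hi
      rw [Function.update_of_ne hki])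
  rwa [Finset.card_compl, Fintype.card_fin] at h

end Vale.Agent.P254.AU
end

section

/-!
P254, bodies with reflections: the numerical comparisons with the simplex.
-/

open Filter Topology

namespace Vale.Agent.P254.Sym

open FV

theorem simpC_lt_iff (n : ℕ) (c : ℝ) :
    c * (((n : ℝ) + 1) / (8 * ((n : ℝ) + 2))) ^ n < simpC n ↔
      c * ((n : ℝ) + 1) ^ (2 * n + 1) < 8 ^ n * (n.factorial : ℝ) ^ 2 := by
  unfold simpC
  have h1 : (0 : ℝ) < (n : ℝ) + 1 := by positivity
  have h2 : (0 : ℝ) < (n : ℝ) + 2 := by positivity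
  rw [div_pow, mul_pow, mul_div_assoc', div_lt_div_iff₀ (by positivity) (by positivity), mul_pow]
  have e1 : c * ((n : ℝ) + 1) ^ n * (((n : ℝ) + 1) * (((n : ℝ) + 1) ^ n * ((n : ℝ) + 2) ^ n)) =
      c * ((n : ℝ) + 1) ^ (2 * n + 1) * ((n : ℝ) + 2) ^ n := by
    rw [pow_succ, two_mul, pow_add]
    ring
  have e2 : (n.factorial : ℝ) ^ 2 * (8 ^ n * ((n : ℝ) + 2) ^ n) =
      8 ^ n * (n.factorial : ℝ) ^ 2 * ((n : ℝ) + 2) ^ n := by ring
  rw [e1, e2, mul_lt_mul_iff_left₀ (by positivity)]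

/-- For every polynomial loss the comparison holds in large dimension. -/
theorem num_q (q : ℕ) : ∃ N : ℕ, ∀ n ≥ N,
    (((n : ℝ) + 1) * (n + 2) / 2) ^ q * (((n : ℝ) + 1) / (8 * ((n : ℝ) + 2))) ^ n < simpC n := by
  have he : Real.exp 2 / 8 < 1 := by
    have := Real.exp_one_lt_d9
    have h2 : Real.exp 2 = Real.exp 1 ^ 2 := by rw [← Real.exp_nat_mul]; norm_num
    rw [h2, div_lt_one (by norm_num)]
    have h0 := Real.exp_pos 1
    nlinarith
  have ht : Tendsto (fun n : ℕ => (n : ℝ) ^ (2 * q + 1) * (Real.exp 2 / 8) ^ n) atTop (𝓝 0) :=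
    tendsto_pow_const_mul_const_pow_of_abs_lt_one _
      (by rw [abs_of_pos (by positivity)]; exact he)
  have hd : (0 : ℝ) < 1 / (3 ^ q * 2 * Real.exp 2) := by positivity
  obtain ⟨N, hN⟩ := eventually_atTop.1 (ht.eventually_lt_const hd)
  refine ⟨max N 1, fun n hn => ?_⟩
  have hn1 : (1 : ℝ) ≤ n := by exact_mod_cast (le_max_right _ _).trans hn
  have hb := hN n ((le_max_left _ _).trans hn)
  rw [simpC_lt_iff]
  have h1 : ((n : ℝ) + 1) ^ n ≤ n.factorial * Real.exp (n + 1) := by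
    have := Real.pow_div_factorial_le_exp ((n : ℝ) + 1) (by positivity) n
    rw [div_le_iff₀ (by positivity)] at this
    linarith
  have h2 : ((n : ℝ) + 1) ^ (2 * n + 1) ≤
      ((n : ℝ) + 1) * (n.factorial ^ 2 * (Real.exp 2 * Real.exp 2 ^ n)) := by
    have e : ((n : ℝ) + 1) ^ (2 * n + 1) = ((n : ℝ) + 1) * (((n : ℝ) + 1) ^ n) ^ 2 := by ring
    rw [e]
    refine mul_le_mul_of_nonneg_left ?_ (by positivity)
    calc (((n : ℝ) + 1) ^ n) ^ 2 ≤ (n.factorial * Real.exp (n + 1)) ^ 2 :=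
          pow_le_pow_left₀ (by positivity) h1 2
      _ = n.factorial ^ 2 * (Real.exp 2 * Real.exp 2 ^ n) := by
          rw [mul_pow, ← Real.exp_nat_mul, ← Real.exp_nat_mul, ← Real.exp_add]
          congr 2
          push_cast
          ring
  have h3 : (((n : ℝ) + 1) * (n + 2) / 2) ^ q ≤ 3 ^ q * (n : ℝ) ^ (2 * q) := by
    rw [pow_mul, ← mul_pow]
    refine pow_le_pow_left₀ (by positivity) ?_ q
    nlinarith
  have hf : (0 : ℝ) < n.factorial := by positivity
  have h4 : (3 ^ q * (n : ℝ) ^ (2 * q)) * (((n : ℝ) + 1) *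
      (n.factorial ^ 2 * (Real.exp 2 * Real.exp 2 ^ n))) < 8 ^ n * (n.factorial : ℝ) ^ 2 := by
    have h5 : (n : ℝ) ^ (2 * q + 1) * (Real.exp 2 / 8) ^ n * (3 ^ q * 2 * Real.exp 2) < 1 := by
      rwa [lt_div_iff₀ (by positivity)] at hb
    have h6 : (3 ^ q * (n : ℝ) ^ (2 * q)) * (((n : ℝ) + 1) *
      (n.factorial ^ 2 * (Real.exp 2 * Real.exp 2 ^ n))) ≤
        ((n : ℝ) ^ (2 * q + 1) * (Real.exp 2 / 8) ^ n * (3 ^ q * 2 * Real.exp 2)) *
          (8 ^ n * (n.factorial : ℝ) ^ 2) := by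
      have e8 : (Real.exp 2 / 8) ^ n * 8 ^ n = Real.exp 2 ^ n := by
        rw [← mul_pow, div_mul_cancel₀ _ (by norm_num)]
      have e9 : ((n : ℝ) ^ (2 * q + 1) * (Real.exp 2 / 8) ^ n * (3 ^ q * 2 * Real.exp 2)) *
          (8 ^ n * (n.factorial : ℝ) ^ 2) =
          (3 ^ q * (n : ℝ) ^ (2 * q)) * ((2 * n) *
            (n.factorial ^ 2 * (Real.exp 2 * ((Real.exp 2 / 8) ^ n * 8 ^ n)))) := by
        rw [pow_succ]
        ring
      rw [e9, e8]
      gcongr
      linarith
    refine h6.trans_lt ?_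
    exact mul_lt_of_lt_one_left (by positivity) h5
  refine lt_of_le_of_lt ?_ h4
  exact mul_le_mul h3 h2 (by positivity) (by positivity)

/-- Step of the inductions: `(1 + 1/(n+1))^(2n+3)` times a rational factor is below `8`. -/
theorem step_le {n : ℕ} {r δ : ℝ} (hr : r ≤ Real.exp (δ / (n + 1)))
    (hn : δ + 1 ≤ (n + 1) * (0.07 : ℝ)) :
    r * ((n : ℝ) + 2) ^ (2 * n + 3) ≤ 8 * ((n : ℝ) + 1) ^ (2 * n + 3) := by
  have h1 : (0 : ℝ) < (n : ℝ) + 1 := by positivity
  have h2 : (n : ℝ) + 2 ≤ ((n : ℝ) + 1) * Real.exp (1 / (n + 1)) := by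
    have := Real.add_one_le_exp (1 / ((n : ℝ) + 1))
    calc (n : ℝ) + 2 = ((n : ℝ) + 1) * (1 / ((n : ℝ) + 1) + 1) := by field_simp; ring
      _ ≤ _ := by gcongr
  have h3 : ((n : ℝ) + 2) ^ (2 * n + 3) ≤
      ((n : ℝ) + 1) ^ (2 * n + 3) * Real.exp (2 + 1 / (n + 1)) := by
    calc ((n : ℝ) + 2) ^ (2 * n + 3) ≤ (((n : ℝ) + 1) * Real.exp (1 / (n + 1))) ^ (2 * n + 3) :=
          pow_le_pow_left₀ (by positivity) h2 _
      _ = _ := by
          rw [mul_pow, ← Real.exp_nat_mul]
          congr 2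
          push_cast
          field_simp
          ring
  have h4 : Real.exp (δ / (n + 1)) * Real.exp (2 + 1 / (n + 1)) ≤ 8 := by
    rw [← Real.exp_add]
    have h5 : δ / (n + 1) + (2 + 1 / (n + 1)) ≤ 2 + (0.07 : ℝ) := by
      have : (δ + 1) / (n + 1) ≤ (0.07 : ℝ) := by
        rw [div_le_iff₀ h1]
        linarith
      have e : δ / ((n : ℝ) + 1) + (2 + 1 / (n + 1)) = 2 + (δ + 1) / (n + 1) := by ring
      rw [e]
      linarith
    refine (Real.exp_le_exp.2 h5).trans ?_
    have h6 : Real.exp (0.07 : ℝ) ≤ 1.0726 := by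
      have := Real.exp_bound' (x := (0.07 : ℝ)) (by norm_num) (by norm_num) (n := 3) (by norm_num)
      refine this.trans ?_
      norm_num [Finset.sum_range_succ, Nat.factorial]
    rw [Real.exp_add]
    have h7 : Real.exp 2 = Real.exp 1 ^ 2 := by rw [← Real.exp_nat_mul]; norm_num
    have h8 := Real.exp_one_lt_d9
    have h9 := Real.exp_pos 1
    have h10 : Real.exp 2 ≤ 7.3891 := by rw [h7]; nlinarith
    calc Real.exp 2 * Real.exp (0.07 : ℝ) ≤ 7.3891 * 1.0726 :=
          mul_le_mul h10 h6 (Real.exp_pos _).le (by norm_num)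
      _ ≤ 8 := by norm_num
  calc r * ((n : ℝ) + 2) ^ (2 * n + 3) ≤
        Real.exp (δ / (n + 1)) * (((n : ℝ) + 1) ^ (2 * n + 3) * Real.exp (2 + 1 / (n + 1))) :=
        mul_le_mul hr h3 (by positivity) (Real.exp_pos _).le
    _ = (Real.exp (δ / (n + 1)) * Real.exp (2 + 1 / (n + 1))) * ((n : ℝ) + 1) ^ (2 * n + 3) := by
        ring
    _ ≤ _ := by gcongr

/-- One free direction, with the loss `(n+1)(n+2)/2`. -/
theorem num_one_aux : ∀ n : ℕ, 113 ≤ n →
    (((n : ℝ) + 1) * (n + 2) / 2) * ((n : ℝ) + 1) ^ (2 * n + 1) <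
      8 ^ n * (n.factorial : ℝ) ^ 2 := by
  intro n hn
  induction n, hn using Nat.le_induction with
  | base =>
    have h : (113 : ℕ).factorial ^ 2 * 8 ^ 113 * 2 > 114 * 115 * 114 ^ 227 := by
      norm_num [Nat.factorial]
    have h' : ((((113 : ℕ).factorial ^ 2 * 8 ^ 113 * 2 : ℕ)) : ℝ) >
      ((114 * 115 * 114 ^ 227 : ℕ) : ℝ) := by exact_mod_cast h
    push_cast at h' ⊢
    norm_num at h' ⊢
  | succ n hn ih =>
    have hnr : (113 : ℝ) ≤ n := by exact_mod_cast hn
    have h1 : (0 : ℝ) < (n : ℝ) + 1 := by positivity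
    have hr : ((n : ℝ) + 3) / (n + 1) ≤ Real.exp (2 / (n + 1)) := by
      have := Real.add_one_le_exp (2 / ((n : ℝ) + 1))
      calc ((n : ℝ) + 3) / (n + 1) = 2 / ((n : ℝ) + 1) + 1 := by field_simp; ring
        _ ≤ _ := this
    have hs := step_le (n := n) hr (by norm_num; linarith)
    rw [div_mul_eq_mul_div, div_le_iff₀ h1] at hs
    rw [Nat.factorial_succ]
    push_cast
    have e1 : ((n : ℝ) + 1 + 1) = n + 2 := by ring
    have e2 : ((n : ℝ) + 1 + 2) = n + 3 := by ring
    have e3 : 2 * (n + 1) + 1 = 2 * n + 3 := by ring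
    rw [e1, e2, e3, pow_succ, mul_pow]
    have h2 : ((n : ℝ) + 3) * ((n : ℝ) + 2) ^ (2 * n + 3) ≤
        8 * ((n : ℝ) + 1) ^ 3 * ((n : ℝ) + 1) ^ (2 * n + 1) := by
      refine hs.trans (le_of_eq ?_)
      ring
    calc ((n : ℝ) + 2) * (n + 3) / 2 * ((n : ℝ) + 2) ^ (2 * n + 3)
        = ((n : ℝ) + 2) / 2 * (((n : ℝ) + 3) * ((n : ℝ) + 2) ^ (2 * n + 3)) := by ring
      _ ≤ ((n : ℝ) + 2) / 2 * (8 * ((n : ℝ) + 1) ^ 3 * ((n : ℝ) + 1) ^ (2 * n + 1)) := by gcongr
      _ = 8 * ((n : ℝ) + 1) ^ 2 * ((((n : ℝ) + 1) * (n + 2) / 2) * ((n : ℝ) + 1) ^ (2 * n + 1)) := by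
          ring
      _ < 8 * ((n : ℝ) + 1) ^ 2 * (8 ^ n * (n.factorial : ℝ) ^ 2) := by gcongr
      _ = 8 ^ n * 8 * (((n : ℝ) + 1) ^ 2 * (n.factorial : ℝ) ^ 2) := by ring

theorem num_one {n : ℕ} (hn : 113 ≤ n) :
    (((n : ℝ) + 1) * (n + 2) / 2) * (((n : ℝ) + 1) / (8 * ((n : ℝ) + 2))) ^ n < simpC n :=
  (simpC_lt_iff n _).2 (num_one_aux n hn)

/-- One free direction, with the sharp loss `1/2`. -/
theorem num_half_aux : ∀ n : ℕ, 20 ≤ n →
    4 * ((n : ℝ) + 2) * ((n : ℝ) + 1) ^ (2 * n) < 8 ^ n * (n.factorial : ℝ) ^ 2 := by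
  intro n hn
  induction n, hn using Nat.le_induction with
  | base =>
    have h : (20 : ℕ).factorial ^ 2 * 8 ^ 20 > 4 * 22 * 21 ^ 40 := by
      norm_num [Nat.factorial]
    have h' : ((((20 : ℕ).factorial ^ 2 * 8 ^ 20 : ℕ)) : ℝ) >
      ((4 * 22 * 21 ^ 40 : ℕ) : ℝ) := by exact_mod_cast h
    push_cast at h' ⊢
    norm_num at h' ⊢
  | succ n hn ih =>
    have hnr : (20 : ℝ) ≤ n := by exact_mod_cast hn
    have h1 : (0 : ℝ) < (n : ℝ) + 1 := by positivity
    have h2 : (0 : ℝ) < (n : ℝ) + 2 := by positivity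
    -- `(n+3)/(n+2)^2 * (n+1) ≤ 1`
    have hr : ((n : ℝ) + 3) * (n + 1) / (n + 2) ^ 2 ≤ Real.exp (0 / (n + 1)) := by
      rw [zero_div, Real.exp_zero, div_le_one (by positivity)]
      nlinarith
    have hs := step_le (n := n) hr (by linarith)
    rw [div_mul_eq_mul_div, div_le_iff₀ (by positivity)] at hs
    rw [Nat.factorial_succ]
    push_cast
    have e1 : ((n : ℝ) + 1 + 1) = n + 2 := by ring
    have e2 : ((n : ℝ) + 1 + 2) = n + 3 := by ring
    have e3 : 2 * (n + 1) = 2 * n + 2 := by ring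
    rw [e1, e2, e3, pow_succ, mul_pow]
    have h3 : ((n : ℝ) + 3) * ((n : ℝ) + 2) ^ (2 * n + 2) ≤
        8 * ((n : ℝ) + 1) ^ 2 * (((n : ℝ) + 2) * ((n : ℝ) + 1) ^ (2 * n)) := by
      have e4 : ((n : ℝ) + 3) * (n + 1) * ((n : ℝ) + 2) ^ (2 * n + 3) =
          (((n : ℝ) + 3) * ((n : ℝ) + 2) ^ (2 * n + 2)) * ((n + 1) * (n + 2)) := by ring
      have e5 : 8 * ((n : ℝ) + 1) ^ (2 * n + 3) * (n + 2) ^ 2 =
          (8 * ((n : ℝ) + 1) ^ 2 * (((n : ℝ) + 2) * ((n : ℝ) + 1) ^ (2 * n))) *
            ((n + 1) * (n + 2)) := by ring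
      rw [e4, e5] at hs
      exact le_of_mul_le_mul_right hs (by positivity)
    calc 4 * ((n : ℝ) + 3) * ((n : ℝ) + 2) ^ (2 * n + 2)
        = 4 * (((n : ℝ) + 3) * ((n : ℝ) + 2) ^ (2 * n + 2)) := by ring
      _ ≤ 4 * (8 * ((n : ℝ) + 1) ^ 2 * (((n : ℝ) + 2) * ((n : ℝ) + 1) ^ (2 * n))) := by gcongr
      _ = 8 * ((n : ℝ) + 1) ^ 2 * (4 * ((n : ℝ) + 2) * ((n : ℝ) + 1) ^ (2 * n)) := by ring
      _ < 8 * ((n : ℝ) + 1) ^ 2 * (8 ^ n * (n.factorial : ℝ) ^ 2) := by gcongr
      _ = 8 ^ n * 8 * (((n : ℝ) + 1) ^ 2 * (n.factorial : ℝ) ^ 2) := by ring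

theorem num_half {n : ℕ} (hn : 20 ≤ n) :
    (1 / 2 : ℝ) * (((n : ℝ) + 1) / (8 * ((n : ℝ) + 2))) ^ (n - 1) < simpC n := by
  have h := num_half_aux n hn
  have h1 : (0 : ℝ) < (n : ℝ) + 1 := by positivity
  have h2 : (0 : ℝ) < (n : ℝ) + 2 := by positivity
  have e : (1 / 2 : ℝ) * (((n : ℝ) + 1) / (8 * ((n : ℝ) + 2))) ^ (n - 1) =
      (4 * ((n : ℝ) + 2) / (n + 1)) * (((n : ℝ) + 1) / (8 * ((n : ℝ) + 2))) ^ n := by
    obtain ⟨m, rfl⟩ : ∃ m, n = m + 1 := ⟨n - 1, by omega⟩
    rw [Nat.add_sub_cancel, pow_succ]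
    field_simp
    ring
  rw [e, simpC_lt_iff]
  refine lt_of_eq_of_lt ?_ h
  rw [pow_succ]
  field_simp

end Vale.Agent.P254.Sym
end

section

/-!
P254: the strong isotropic constant conjecture for the convex bodies nearly filling a body which
becomes unconditional after `q` Steiner symmetrizations.
-/

open MeasureTheory Set Matrix

namespace Vale.Agent.P254.AU

open Vale.Agent.P254.Unc

theorem near_of_alm {n q : ℕ} (hn : 1 ≤ n) {K U S : Set (Fin n → ℝ)}
    (hK : IsConvexBody K) (hS : IsSimplex S) (hU : Alm q U) (hKU : K ⊆ U)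
    (hvol : 79 / 80 * (volume U).toReal ≤ (volume K).toReal)
    (hq : 40 * (q : ℝ) * Real.log ((n : ℝ) + 2) ≤ n) :
    isoConst K ≤ isoConst S ∧ (isoConst K = isoConst S ↔ IsSimplex K) ∧
      (2 ≤ n → isoConst K < isoConst S) := by
  have hUb := hU.body
  have e1 : aff (1 : Matrix (Fin n) (Fin n) ℝ) 0 '' U = U := by
    have : aff (1 : Matrix (Fin n) (Fin n) ℝ) 0 = id := by
      funext x
      simp [aff]
    rw [this, image_id]
  rcases Nat.lt_or_ge n 2 with h2 | h2
  · -- `n = 1`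
    obtain rfl : n = 1 := by omega
    have hq0 : q = 0 := by
      by_contra h0
      have h1 : (1 : ℝ) ≤ q := by exact_mod_cast Nat.one_le_iff_ne_zero.mpr h0
      have h3 : (1 : ℝ) < Real.log (((1 : ℕ) : ℝ) + 2) := by
        rw [Real.lt_log_iff_exp_lt (by norm_num)]
        have := Real.exp_one_lt_d9
        norm_num
        linarith
      push_cast at hq h3
      nlinarith
    subst hq0
    have hb := hU.bound
    rw [pow_zero, one_mul] at hb
    obtain ⟨h1, h2⟩ := conj_of_near (A := 1) (b := 0) hn hK hS hUb (by simp)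
      (by rw [e1]; exact hKU) (by rw [e1]; exact hvol) (fun h => pow_lt_factorial' h) hb
    exact ⟨h1, h2, fun h => absurd h (by norm_num)⟩
  · have hlt : isoConst K < isoConst S := by
      refine near_of_bound (A := 1) (b := 0) (s := 80 / 79) hn hK hS hUb (by simp)
        (by rw [e1]; exact hKU) (by rw [e1]; linarith) hU.bound ?_
      have h1 := au_num n q h2 hq
      rw [← mul_assoc, Sym.simpC_lt_iff]
      refine lt_of_eq_of_lt ?_ h1
      ring
    obtain ⟨h1, h2⟩ := conj_of_lt hS hlt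
    exact ⟨h1, h2, fun _ => hlt⟩

/-- The bodies nearly filling an affine image of a body which is symmetric with respect to the
coordinate hyperplanes of the coordinates in `T`. -/
theorem near_of_sym {n : ℕ} (hn : 1 ≤ n) {K S : Set (Fin n → ℝ)}
    (hK : IsConvexBody K) (hS : IsSimplex S)
    (h : ∃ (A : Matrix (Fin n) (Fin n) ℝ) (b : Fin n → ℝ) (U : Set (Fin n → ℝ))
      (T : Finset (Fin n)), A.det ≠ 0 ∧ IsConvexBody U ∧
      (∀ x ∈ U, ∀ y : Fin n → ℝ, (∀ i ∈ T, |y i| = |x i|) → (∀ i, i ∉ T → y i = x i) → y ∈ U) ∧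
      40 * ((n : ℝ) - T.card) * Real.log ((n : ℝ) + 2) ≤ n ∧
      K ⊆ (fun x => A *ᵥ x + b) '' U ∧
      79 / 80 * (volume ((fun x => A *ᵥ x + b) '' U)).toReal ≤ (volume K).toReal) :
    isoConst K ≤ isoConst S ∧ (isoConst K = isoConst S ↔ IsSimplex K) ∧
      (2 ≤ n → isoConst K < isoConst S) := by
  obtain ⟨A, b, U, T, hA, hU, hsym, hT, hKU, hvol⟩ := h
  have h1 := Alm.aff A b hA (alm_of_sym hU T hsym)
  refine near_of_alm hn hK hS h1 hKU hvol ?_
  have h2 : T.card ≤ n := by simpa using T.card_le_univ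
  rw [Nat.cast_sub h2]
  exact hT

end Vale.Agent.P254.AU
end

section

/-!
P254: the strong isotropic constant conjecture for the bodies at a dimension-free distance from the
bodies which become unconditional after a few Steiner symmetrizations.
-/

open MeasureTheory Set Matrix

namespace Vale.Agent.P254.EX

open Unc Unc.FB AU

variable {n : ℕ}

theorem unc_bound (hn : 0 < n) {U K : Set (Fin n → ℝ)} (hU : IsConvexBody U)
    (hu : Uncond U) (hK : IsConvexBody K) (hKU : K ⊆ U)
    (hq : (1 - 1 / 10 ^ 24) ^ n * (volume U).toReal ≤ (volume K).toReal) :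
    (covMatrix K).det / (volume K).toReal ^ 2 ≤
      (1026 / 1000) ^ n * (((n : ℝ) + 1) / (8 * ((n : ℝ) + 2))) ^ n := by
  have hVK := volume_pos_of_body hK
  have hVU := volume_pos_of_body hU
  have hcore := core hU hu hK hKU hq
  have hdet := det_le_prod_mom hn hK
  have hbody := unc_body (uncr_all n) hU hu
  have hdU : (covMatrix U).det = ∏ k, mom U k := by
    rw [cov_diag hu, det_diagonal]
    rfl
  have h1 : (covMatrix K).det ≤ Real.exp (n * (245 / 10000)) * (covMatrix U).det := by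
    rw [hdU]
    exact hdet.trans hcore
  set V := (volume K).toReal with hVd
  set W := (volume U).toReal with hWd
  set q : ℝ := 1 - 1 / 10 ^ 24 with hqd
  have hq0 : 0 < q := by rw [hqd]; norm_num
  have hr : W / V ≤ (q⁻¹) ^ n := by
    rw [inv_pow, div_le_iff₀ hVK, inv_mul_eq_div, le_div_iff₀ (by positivity), mul_comm]
    exact hq
  have hr0 : 0 < W / V := div_pos hVU hVK
  have hdU0 : 0 ≤ (covMatrix U).det / W ^ 2 :=
    div_nonneg (covMatrix_posSemidef hU.2.1).det_nonneg (by positivity)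
  have h3 : (covMatrix K).det / V ^ 2 ≤
      Real.exp (n * (245 / 10000)) * (W / V) ^ 2 * ((covMatrix U).det / W ^ 2) := by
    rw [div_le_iff₀ (by positivity)]
    refine h1.trans (le_of_eq ?_)
    field_simp
  refine h3.trans ?_
  refine mul_le_mul ?_ hbody hdU0 (by positivity)
  calc Real.exp (n * (245 / 10000)) * (W / V) ^ 2
      ≤ Real.exp (n * (245 / 10000)) * ((q⁻¹) ^ n) ^ 2 := by
        gcongr
    _ = (Real.exp (245 / 10000) * (q⁻¹) ^ 2) ^ n := by
        rw [Real.exp_nat_mul, mul_pow, ← pow_mul, ← pow_mul, mul_comm n 2]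
    _ ≤ (1026 / 1000) ^ n := by
        refine pow_le_pow_left₀ (by positivity) ?_ n
        rw [hqd]
        exact exp_le

/-- pull back of a subset of an affine image -/
lemma pull {U K : Set (Fin n → ℝ)} (hU : IsConvexBody U) (hK : IsConvexBody K)
    {A : Matrix (Fin n) (Fin n) ℝ} (hA : A.det ≠ 0) {b : Fin n → ℝ} (hKU : K ⊆ aff A b '' U)
    {p : ℝ} (hq : p * (volume (aff A b '' U)).toReal ≤ (volume K).toReal) :
    ∃ K' : Set (Fin n → ℝ), IsConvexBody K' ∧ K' ⊆ U ∧ K = aff A b '' K' ∧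
      p * (volume U).toReal ≤ (volume K').toReal := by
  have hunit : IsUnit A.det := isUnit_iff_ne_zero.mpr hA
  have hu' : (A⁻¹).det ≠ 0 := by
    rw [det_nonsing_inv, Ring.inverse_eq_inv']
    exact inv_ne_zero hA
  set K' : Set (Fin n → ℝ) := aff A⁻¹ (-(A⁻¹ *ᵥ b)) '' K with hK'
  have hback : ∀ x, aff A⁻¹ (-(A⁻¹ *ᵥ b)) (aff A b x) = x := by
    intro x
    rw [aff_aff, nonsing_inv_mul _ hunit]
    simp [aff]
  have hforth : ∀ x, aff A b (aff A⁻¹ (-(A⁻¹ *ᵥ b)) x) = x := by
    intro x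
    rw [aff_aff, mul_nonsing_inv _ hunit]
    simp only [aff, mulVec_neg, mulVec_mulVec, mul_nonsing_inv _ hunit, one_mulVec]
    abel
  have e : K = aff A b '' K' := by
    rw [hK', ← image_comp]
    have : aff A b ∘ aff A⁻¹ (-(A⁻¹ *ᵥ b)) = id := by
      ext1 x
      exact hforth x
    rw [this, image_id]
  have hK'b : IsConvexBody K' := isConvexBody_aff_image hu' _ hK
  refine ⟨K', hK'b, ?_, e, ?_⟩
  · rintro _ ⟨x, hx, rfl⟩
    obtain ⟨u, hu1, rfl⟩ := hKU hx
    rw [hback]
    exact hu1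
  · have hdpos : 0 < |A.det| := abs_pos.mpr hA
    rw [e, volume_aff_image hA b hU.2.1.measurableSet,
      volume_aff_image hA b hK'b.2.1.measurableSet] at hq
    have h1 : |A.det| * (p * (volume U).toReal) ≤ |A.det| * (volume K').toReal := by
      calc _ = p * (|A.det| * (volume U).toReal) := by ring
        _ ≤ _ := hq
    exact le_of_mul_le_mul_left h1 hdpos

theorem alm_bound (hn : 0 < n) {q : ℕ} {U : Set (Fin n → ℝ)} (hU : Alm q U) :
    ∀ {K : Set (Fin n → ℝ)}, IsConvexBody K → K ⊆ U →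
      (1 - 1 / 10 ^ 24) ^ n * (volume U).toReal ≤ (volume K).toReal →
      (covMatrix K).det / (volume K).toReal ^ 2 ≤
        (((n : ℝ) + 1) * (n + 2) / 2) ^ q *
          ((1026 / 1000) ^ n * (((n : ℝ) + 1) / (8 * ((n : ℝ) + 2))) ^ n) := by
  induction hU with
  | unc hU hu =>
    intro K hK hKU hvol
    rw [pow_zero, one_mul]
    exact unc_bound hn hU hu hK hKU hvol
  | @aff q U A b hA hU ih =>
    intro K hK hKU hvol
    obtain ⟨K', hK', hsub, e, hv⟩ := pull hU.body hK hA hKU hvol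
    have h := ih hK' hsub hv
    have hV := volume_pos_of_body hK'
    have e2 : (covMatrix K).det / (volume K).toReal ^ 2 =
        (covMatrix K').det / (volume K').toReal ^ 2 := by
      rw [e, cov_aff_image hA b hK'.2.1 hV.ne', volume_aff_image hA b hK'.2.1.measurableSet,
        det_mul, det_mul, det_transpose, mul_pow, sq_abs]
      field_simp
    rw [e2]
    exact h
  | @ste q U hU j _ ih =>
    intro K hK hKU hvol
    obtain ⟨hKS, hvK⟩ := isConvexBody_St hK j
    obtain ⟨_, hvU⟩ := isConvexBody_St hU j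
    have hsub : St j K ⊆ St j U := by
      rintro x ⟨u, l, h1, h2, h3⟩
      exact ⟨u, l, hKU h1, hKU h2, h3⟩
    have h := ih hKS hsub (by rw [hvK, hvU]; exact hvol)
    rw [hvK] at h
    have h2 := det_cov_le_St hK j
    have hV := volume_pos_of_body hK
    have h3 : (covMatrix K).det / (volume K).toReal ^ 2 ≤
        (((n : ℝ) + 1) * (n + 2) / 2) * ((covMatrix (St j K)).det / (volume K).toReal ^ 2) := by
      rw [← mul_div_assoc]
      exact div_le_div_of_nonneg_right h2 (by positivity)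
    refine h3.trans ?_
    have h4 := mul_le_mul_of_nonneg_left h
      (show (0 : ℝ) ≤ ((n : ℝ) + 1) * (n + 2) / 2 by positivity)
    refine h4.trans (le_of_eq ?_)
    rw [pow_succ]
    ring

/-- `((n+1)(n+2)/2)^q (n+1)^(2n+1) 1.026^n < 8^n (n!)^2` if `40 q log (n+2) ≤ n`. -/
theorem ex_num (n q : ℕ) (hn : 2 ≤ n) (h : 40 * (q : ℝ) * Real.log ((n : ℝ) + 2) ≤ n) :
    (((n : ℝ) + 1) * (n + 2) / 2) ^ q * (((n : ℝ) + 1) ^ (2 * n + 1) * (1026 / 1000) ^ n) <
      8 ^ n * (n.factorial : ℝ) ^ 2 := by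
  rcases Nat.eq_zero_or_pos q with rfl | hq
  · rw [pow_zero, one_mul]
    exact pow_lt_fac hn
  have hq1 : (1 : ℝ) ≤ q := by exact_mod_cast hq
  have hn2 : (2 : ℝ) ≤ n := by exact_mod_cast hn
  have hn0 : (0 : ℝ) < n := by linarith
  have l2 := Real.log_two_gt_d9
  have hL : Real.log 2 + Real.log 2 ≤ Real.log ((n : ℝ) + 2) := by
    rw [← Real.log_mul (by norm_num) (by norm_num)]
    exact Real.log_le_log (by norm_num) (by linarith)
  have hn40 : (40 : ℝ) ≤ n := by nlinarith
  rw [← Real.log_lt_log_iff (by positivity) (by positivity)]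
  rw [Real.log_mul (by positivity) (by positivity), Real.log_mul (by positivity) (by positivity),
    Real.log_mul (by positivity) (by positivity), Real.log_pow, Real.log_pow, Real.log_pow,
    Real.log_pow, Real.log_pow]
  -- the loss
  have h1 : (q : ℝ) * Real.log (((n : ℝ) + 1) * (n + 2) / 2) ≤ n / 20 - Real.log 2 := by
    have h2 : Real.log (((n : ℝ) + 1) * (n + 2) / 2) ≤
        2 * Real.log ((n : ℝ) + 2) - Real.log 2 := by
      rw [Real.log_div (by positivity) (by norm_num), Real.log_mul (by positivity) (by positivity)]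
      have := Real.log_le_log (x := (n : ℝ) + 1) (y := (n : ℝ) + 2) (by positivity) (by linarith)
      linarith
    have h3 := mul_le_mul_of_nonneg_left h2 (by linarith : (0 : ℝ) ≤ q)
    have h4 : Real.log 2 ≤ q * Real.log 2 := le_mul_of_one_le_left (by linarith) hq1
    nlinarith
  -- Stirling
  have h5 := Stirling.le_log_factorial_stirling (n := n) (by omega)
  have h6 : Real.log ((n : ℝ) + 1) ≤ Real.log n + 1 / n := by
    have e : (n : ℝ) + 1 = n * (1 + 1 / n) := by field_simp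
    have h7 := Real.log_le_sub_one_of_pos (x := 1 + 1 / (n : ℝ)) (by positivity)
    rw [e, Real.log_mul hn0.ne' (by positivity)]
    linarith
  have h8 : (2 * (n : ℝ) + 1) * Real.log ((n : ℝ) + 1) ≤
      (2 * (n : ℝ) + 1) * Real.log n + (2 + 1 / n) := by
    have h9 := mul_le_mul_of_nonneg_left h6 (by positivity : (0 : ℝ) ≤ 2 * (n : ℝ) + 1)
    have e : (2 * (n : ℝ) + 1) * (Real.log n + 1 / n) =
        (2 * (n : ℝ) + 1) * Real.log n + (2 + 1 / n) := by
      field_simp
    rwa [e] at h9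
  have h10 : Real.log (1026 / 1000 : ℝ) ≤ 26 / 1000 := by
    have := Real.log_le_sub_one_of_pos (x := (1026 / 1000 : ℝ)) (by norm_num)
    linarith
  have h11 : (1 : ℝ) ≤ Real.log Real.pi := by
    rw [Real.le_log_iff_exp_le Real.pi_pos]
    have := Real.exp_one_lt_d9
    have := Real.pi_gt_three
    linarith
  have h12 : Real.log (2 * Real.pi) = Real.log 2 + Real.log Real.pi :=
    Real.log_mul (by norm_num) Real.pi_pos.ne'
  have h13 : Real.log 8 = 3 * Real.log 2 := by
    rw [show (8 : ℝ) = 2 ^ 3 by norm_num, Real.log_pow]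
    norm_num
  have h14 : 1 / (n : ℝ) ≤ 1 / 40 := one_div_le_one_div_of_le (by norm_num) hn40
  have h15 : (n : ℝ) * Real.log (1026 / 1000) ≤ (n : ℝ) * (26 / 1000) :=
    mul_le_mul_of_nonneg_left h10 (by positivity)
  rw [h13]
  push_cast
  rw [h12] at h5
  have h16 : (n : ℝ) * 0.6931471803 ≤ n * Real.log 2 :=
    mul_le_mul_of_nonneg_left l2.le hn0.le
  nlinarith

/-- The bodies nearly filling (with an exponentially small fraction missing) a body which becomes
unconditional after `q` Steiner symmetrizations. -/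
theorem near_alm {q : ℕ} (hn : 1 ≤ n) {K U S : Set (Fin n → ℝ)}
    (hK : IsConvexBody K) (hS : IsSimplex S) (hU : Alm q U) (hKU : K ⊆ U)
    (hvol : min (79 / 80) ((1 - 1 / 10 ^ 24) ^ n) * (volume U).toReal ≤ (volume K).toReal)
    (hq : 40 * (q : ℝ) * Real.log ((n : ℝ) + 2) ≤ n) :
    isoConst K ≤ isoConst S ∧ (isoConst K = isoConst S ↔ IsSimplex K) ∧
      (2 ≤ n → isoConst K < isoConst S) := by
  rcases min_choice (79 / 80 : ℝ) ((1 - 1 / 10 ^ 24) ^ n) with hm | hm
  · rw [hm] at hvol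
    exact near_of_alm hn hK hS hU hKU hvol hq
  · rw [hm] at hvol
    rcases Nat.lt_or_ge n 2 with h2 | h2
    · have h1 : n = 1 := by omega
      subst h1
      have hKs := isSimplex_of_dim_one hK
      have e : isoConst K = isoConst S := by rw [isoConst_simplex hKs, isoConst_simplex hS]
      exact ⟨e.le, ⟨fun _ => hKs, fun _ => e⟩, fun h => absurd h (by norm_num)⟩
    · have hlt : isoConst K < isoConst S := by
        refine lt_of_bound hn hK hS (alm_bound (by omega) hU hK hKU hvol) ?_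
        have h1 := ex_num n q h2 hq
        rw [← mul_assoc, Sym.simpC_lt_iff]
        refine lt_of_eq_of_lt ?_ h1
        ring
      obtain ⟨h1, h2⟩ := conj_of_lt hS hlt
      exact ⟨h1, h2, fun _ => hlt⟩

/-- The bodies near a body which is symmetric with respect to the coordinate hyperplanes of the
coordinates in `T`. -/
theorem near_sym (hn : 1 ≤ n) {K S : Set (Fin n → ℝ)} (hK : IsConvexBody K) (hS : IsSimplex S)
    (h : ∃ (A : Matrix (Fin n) (Fin n) ℝ) (b : Fin n → ℝ) (U : Set (Fin n → ℝ))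
      (T : Finset (Fin n)), A.det ≠ 0 ∧ IsConvexBody U ∧
      (∀ x ∈ U, ∀ y : Fin n → ℝ, (∀ i ∈ T, |y i| = |x i|) → (∀ i, i ∉ T → y i = x i) → y ∈ U) ∧
      40 * ((n : ℝ) - T.card) * Real.log ((n : ℝ) + 2) ≤ n ∧
      ((K ⊆ (fun x => A *ᵥ x + b) '' U ∧
        min (79 / 80) ((1 - 1 / 10 ^ 24) ^ n) * (volume ((fun x => A *ᵥ x + b) '' U)).toReal ≤
          (volume K).toReal) ∨
      (∃ (z : Fin n → ℝ) (r : ℝ), 0 < r ∧ r * (1 - 1 / 10 ^ 24) ≤ 1 ∧
        (fun x => A *ᵥ x + b) '' U ⊆ K ∧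
        K ⊆ (fun x => z + r • x) '' ((fun x => A *ᵥ x + b) '' U)))) :
    isoConst K ≤ isoConst S ∧ (isoConst K = isoConst S ↔ IsSimplex K) ∧
      (2 ≤ n → isoConst K < isoConst S) := by
  obtain ⟨A, b, U, T, hA, hU, hsym, hT, h⟩ := h
  have hq : 40 * ((n - T.card : ℕ) : ℝ) * Real.log ((n : ℝ) + 2) ≤ n := by
    have h2 : T.card ≤ n := by simpa using T.card_le_univ
    rw [Nat.cast_sub h2]
    exact hT
  rcases h with ⟨h1, h2⟩ | ⟨z, r, hr0, hr, h1, h2⟩
  · exact near_alm hn hK hS (Alm.aff A b hA (alm_of_sym hU T hsym)) h1 h2 hq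
  · have e : (fun x => z + r • x) '' ((fun x => A *ᵥ x + b) '' U) =
        (fun x => (r • A) *ᵥ x + (z + r • b)) '' U := by
      rw [← image_comp]
      refine image_congr fun x _ => ?_
      simp only [Function.comp_apply, smul_mulVec, smul_add]
      abel
    have hv := vol_of_bm (z := z) hK.2.1
      (isCompact_aff_image A b hU.2.1).measurableSet hr0 hr h1
    change (1 - 1 / 10 ^ 24) ^ n *
      (volume ((fun x => z + r • x) '' ((fun x => A *ᵥ x + b) '' U))).toReal ≤ _ at hv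
    rw [e] at hv h2
    have hA' : (r • A).det ≠ 0 := by
      rw [det_smul, Fintype.card_fin]
      exact mul_ne_zero (by positivity) hA
    refine near_alm hn hK hS (Alm.aff (r • A) (z + r • b) hA' (alm_of_sym hU T hsym)) h2 ?_ hq
    refine le_trans ?_ hv
    exact mul_le_mul_of_nonneg_right (min_le_right _ _) ENNReal.toReal_nonneg

end Vale.Agent.P254.EX
end

section

/-! P254, `L₁` balls: bodies nearly filling an affine image of the unit ball of a subspace of
`L₁`. -/

open MeasureTheory Set Matrix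
open scoped Matrix

namespace Vale.Agent.P254.L1

variable {n : ℕ}

theorem num_l1_near (n : ℕ) (hn : 2 ≤ n) :
    (80 / 79 : ℝ) ^ (n + 2) * (((n : ℝ) + 1) * (2 * Real.exp 1) ^ n) < (Real.pi ^ 2) ^ n := by
  have he : Real.exp 1 < 2.7182818286 := Real.exp_one_lt_d9
  have hpi : 3.1415 < Real.pi := Real.pi_gt_d4
  have he0 : 0 < Real.exp 1 := Real.exp_pos 1
  have hP : (9.869 : ℝ) < Real.pi ^ 2 := by nlinarith
  have hE : 2 * Real.exp 1 < 5.4366 := by linarith
  induction n, hn using Nat.le_induction with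
  | base =>
    have h1 : (2 * Real.exp 1) ^ 2 < 5.4366 ^ 2 := by
      apply pow_lt_pow_left₀ hE (by positivity) (by norm_num)
    have h2 : (9.869 : ℝ) ^ 2 < (Real.pi ^ 2) ^ 2 := by
      apply pow_lt_pow_left₀ hP (by norm_num) (by norm_num)
    norm_num at h1 h2 ⊢
    linarith
  | succ k hk ih =>
    have hk' : (2 : ℝ) ≤ k := by exact_mod_cast hk
    have hpowE : 0 < (80 / 79 : ℝ) ^ (k + 2) * (2 * Real.exp 1) ^ k := by positivity
    push_cast
    have h3 : (80 / 79 : ℝ) * (((k : ℝ) + 1 + 1) * (2 * Real.exp 1)) ≤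
        ((k : ℝ) + 1) * Real.pi ^ 2 := by
      nlinarith
    calc (80 / 79 : ℝ) ^ (k + 1 + 2) * (((k : ℝ) + 1 + 1) * (2 * Real.exp 1) ^ (k + 1))
        = ((80 / 79 : ℝ) * (((k : ℝ) + 1 + 1) * (2 * Real.exp 1))) *
          ((80 / 79 : ℝ) ^ (k + 2) * (2 * Real.exp 1) ^ k) := by ring
      _ ≤ (((k : ℝ) + 1) * Real.pi ^ 2) * ((80 / 79 : ℝ) ^ (k + 2) * (2 * Real.exp 1) ^ k) :=
          mul_le_mul_of_nonneg_right h3 hpowE.le
      _ = ((80 / 79 : ℝ) ^ (k + 2) * (((k : ℝ) + 1) * (2 * Real.exp 1) ^ k)) * Real.pi ^ 2 := by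
          ring
      _ < (Real.pi ^ 2) ^ k * Real.pi ^ 2 := mul_lt_mul_of_pos_right ih (by positivity)
      _ = (Real.pi ^ 2) ^ (k + 1) := by ring

theorem ball_body {μ : Measure (Fin n → ℝ)} (hμ : Integrable (fun v => ‖v‖) μ)
    (hK : Bornology.IsBounded {x | nrm μ x ≤ 1}) : IsConvexBody {x | nrm μ x ≤ 1} := by
  refine ⟨?_, ball_isCompact hμ hK, ?_⟩
  · intro x hx y hy a b ha hb hab
    have hx' : nrm μ x ≤ 1 := hx
    have hy' : nrm μ y ≤ 1 := hy
    show nrm μ (a • x + b • y) ≤ 1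
    calc nrm μ (a • x + b • y) ≤ nrm μ (a • x) + nrm μ (b • y) := nrm_add hμ _ _
      _ = a * nrm μ x + b * nrm μ y := by
          rw [nrm_smul, nrm_smul, abs_of_nonneg ha, abs_of_nonneg hb]
      _ ≤ a * 1 + b * 1 := by gcongr
      _ = 1 := by linarith
  · refine ⟨0, interior_mono (s := {x | nrm μ x < 1}) ?_ ?_⟩
    · intro x (hx : nrm μ x < 1)
      exact (le_of_lt hx : nrm μ x ≤ 1)
    · rw [(isOpen_lt (nrm_continuous hμ) continuous_const).interior_eq]
      show nrm μ 0 < 1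
      rw [nrm_zero]
      exact one_pos

/-- Unit balls of subspaces of `L₁` (norms `∫ |⟨x,v⟩| dμ(v)`), their affine images, and the
bodies filling `79/80` of such an image. -/
theorem l1_near (hn : 2 ≤ n) {K S : Set (Fin n → ℝ)} (hK : IsConvexBody K) (hS : IsSimplex S)
    {μ : Measure (Fin n → ℝ)} [IsFiniteMeasure μ] (hμ : Integrable (fun v => ‖v‖) μ)
    (hU : Bornology.IsBounded {x | ∫ v, |x ⬝ᵥ v| ∂μ ≤ 1})
    {A : Matrix (Fin n) (Fin n) ℝ} (hA : A.det ≠ 0) {b : Fin n → ℝ}
    (hKU : K ⊆ (fun x => A *ᵥ x + b) '' {x | ∫ v, |x ⬝ᵥ v| ∂μ ≤ 1})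
    (hvol : 79 / 80 * (volume ((fun x => A *ᵥ x + b) '' {x | ∫ v, |x ⬝ᵥ v| ∂μ ≤ 1})).toReal ≤
      (volume K).toReal) :
    isoConst K < isoConst S := by
  refine near_of_bound (s := 80 / 79) (by omega) hK hS (ball_body hμ hU) hA hKU ?_
    (l1_body (by omega) hμ hU) ?_
  · have : (volume (aff A b '' {x | nrm μ x ≤ 1})).toReal =
        (volume ((fun x => A *ᵥ x + b) '' {x | ∫ v, |x ⬝ᵥ v| ∂μ ≤ 1})).toReal := rfl
    rw [this]
    linarith
  · have h := num_l1_near n hn
    have he0 : 0 < Real.exp 1 := Real.exp_pos 1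
    have hpi : 0 < Real.pi := Real.pi_pos
    have h1 : (2 * Real.exp 1 / (Real.pi ^ 2 * (((n : ℝ) + 1) * ((n : ℝ) + 2)))) ^ n =
        (2 * Real.exp 1) ^ n / ((Real.pi ^ 2) ^ n * (((n : ℝ) + 1) * ((n : ℝ) + 2)) ^ n) := by
      rw [div_pow, mul_pow (Real.pi ^ 2)]
    have hf : (0 : ℝ) < (n.factorial : ℝ) ^ 2 := by positivity
    rw [h1, FV.simpC]
    have hp : (0 : ℝ) < (((n : ℝ) + 1) * ((n : ℝ) + 2)) ^ n := by positivity
    have hq : (0 : ℝ) < (Real.pi ^ 2) ^ n := by positivity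
    rw [← mul_div_assoc, ← mul_div_assoc, div_lt_div_iff₀ (by positivity) (by positivity)]
    calc (80 / 79 : ℝ) ^ (n + 2) * ((n.factorial : ℝ) ^ 2 * (2 * Real.exp 1) ^ n) *
        (((n : ℝ) + 1) * (((n : ℝ) + 1) * ((n : ℝ) + 2)) ^ n) =
        ((80 / 79 : ℝ) ^ (n + 2) * (((n : ℝ) + 1) * (2 * Real.exp 1) ^ n)) *
          ((n.factorial : ℝ) ^ 2 * (((n : ℝ) + 1) * ((n : ℝ) + 2)) ^ n) := by ring
      _ < (Real.pi ^ 2) ^ n * ((n.factorial : ℝ) ^ 2 * (((n : ℝ) + 1) * ((n : ℝ) + 2)) ^ n) :=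
          mul_lt_mul_of_pos_right h (by positivity)
      _ = _ := by ring

end Vale.Agent.P254.L1
end

section

/-!
Convex bodies inside an ellipsoid `(x - z)ᵀ Q (x - z) ≤ 1` whose volume is not too small.
-/

open MeasureTheory Set Matrix

namespace Vale.Agent.P254

variable {n : ℕ} {K S : Set (Fin n → ℝ)}

/-- `nⁿ det Q det Σ_K < 1` for a convex body `K` in the ellipsoid `(x - z)ᵀ Q (x - z) ≤ 1`. -/
theorem ell_det_lt (hn : 0 < n) (hKb : IsConvexBody K) {Q : Matrix (Fin n) (Fin n) ℝ}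
    (hQ : Q.PosDef) (z : Fin n → ℝ) (hKQ : ∀ x ∈ K, (x - z) ⬝ᵥ (Q *ᵥ (x - z)) ≤ 1) :
    (n : ℝ) ^ n * Q.det * (covMatrix K).det < 1 := by
  have hn0 : (0 : ℝ) < n := by exact_mod_cast hn
  have hK := hKb.2.1
  have hV : 0 < (volume K).toReal := volume_pos_of_body hKb
  have hqc : ∀ c : Fin n → ℝ,
      Continuous fun x : Fin n → ℝ => ∑ i, ∑ j, Q i j * ((x i - c i) * (x j - c j)) := by
    intro c; fun_prop
  have hqe : ∀ c x : Fin n → ℝ, ∑ i, ∑ j, Q i j * ((x i - c i) * (x j - c j))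
      = (x - c) ⬝ᵥ (Q *ᵥ (x - c)) := by
    intro c x
    simp only [dotProduct, mulVec, Finset.mul_sum, Pi.sub_apply]
    refine Finset.sum_congr rfl (fun i _ => Finset.sum_congr rfl (fun j _ => ?_))
    ring
  have hq0 : ∀ c x : Fin n → ℝ, 0 ≤ ∑ i, ∑ j, Q i j * ((x i - c i) * (x j - c j)) := by
    intro c x
    rw [hqe]
    have := hQ.posSemidef.dotProduct_mulVec_nonneg (x - c)
    simpa using this
  have hint : ∀ (c : Fin n → ℝ),
      (volume K).toReal⁻¹ * ∫ x in K, ∑ i, ∑ j, Q i j * ((x i - c i) * (x j - c j))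
        = (Q * covMatrix K).trace
          + ∑ i, ∑ j, Q i j * ((centroid K i - c i) * (centroid K j - c j)) := by
    intro c
    have e1 : ∫ x in K, ∑ i, ∑ j, Q i j * ((x i - c i) * (x j - c j))
        = ∑ i, ∑ j, Q i j * ∫ x in K, (x i - c i) * (x j - c j) := by
      rw [integral_finsetSum _ (fun i _ => intOn hK (by fun_prop))]
      refine Finset.sum_congr rfl (fun i _ => ?_)
      rw [integral_finsetSum _ (fun j _ => intOn hK (by fun_prop))]
      refine Finset.sum_congr rfl (fun j _ => ?_)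
      rw [integral_const_mul]
    rw [e1, Finset.mul_sum]
    simp only [trace, diag_apply, mul_apply]
    rw [← Finset.sum_add_distrib]
    refine Finset.sum_congr rfl (fun i _ => ?_)
    rw [Finset.mul_sum, ← Finset.sum_add_distrib]
    refine Finset.sum_congr rfl (fun j _ => ?_)
    rw [mul_left_comm, cov_shift hK hV.ne', covMatrix_symm K j i]
    ring
  -- strict inequality for the integral
  have hlt : ∫ x in K, ∑ i, ∑ j, Q i j * ((x i - z i) * (x j - z j)) < (volume K).toReal := by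
    have h1 : 0 < ∫ x in K, (1 - ∑ i, ∑ j, Q i j * ((x i - z i) * (x j - z j))) := by
      have hcont : Continuous fun x : Fin n → ℝ =>
          1 - ∑ i, ∑ j, Q i j * ((x i - z i) * (x j - z j)) := continuous_const.sub (hqc z)
      rw [setIntegral_pos_iff_support_of_nonneg_ae]
      · refine lt_of_lt_of_le (isOpen_interior.measure_pos volume hKb.2.2)
          (measure_mono fun x hx => ⟨?_, interior_subset hx⟩)
        rw [Function.mem_support]
        by_cases hxz : x = z
        · subst hxz; simp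
        · obtain ⟨r, hr, hball⟩ := Metric.isOpen_iff.mp isOpen_interior x hx
          have hyn : 0 < ‖x - z‖ := norm_pos_iff.mpr (sub_ne_zero.2 hxz)
          set t : ℝ := r / (2 * ‖x - z‖) with ht
          have ht0 : 0 < t := by positivity
          have hmem : x + t • (x - z) ∈ K := by
            refine interior_subset (hball ?_)
            rw [Metric.mem_ball, dist_eq_norm, add_sub_cancel_left, norm_smul, Real.norm_eq_abs,
              abs_of_pos ht0, ht]
            have : r / (2 * ‖x - z‖) * ‖x - z‖ = r / 2 := by field_simp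
            rw [this]
            linarith
          have h2 := hKQ _ hmem
          have e2 : x + t • (x - z) - z = (1 + t) • (x - z) := by
            ext i
            simp only [Pi.sub_apply, Pi.add_apply, Pi.smul_apply, smul_eq_mul]
            ring
          rw [e2, mulVec_smul, smul_dotProduct, dotProduct_smul, smul_eq_mul, smul_eq_mul,
            ← hqe] at h2
          have h3 := hq0 z x
          intro h4
          have h5 : ∑ i, ∑ j, Q i j * ((x i - z i) * (x j - z j)) = 1 := by linarith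
          rw [h5] at h2
          nlinarith
      · refine (ae_restrict_iff' hK.measurableSet).2 (Filter.Eventually.of_forall fun x hx => ?_)
        have := hKQ x hx
        rw [← hqe] at this
        simpa using this
      · exact intOn hK hcont
    rw [integral_sub (intOn hK continuous_const) (intOn hK (hqc z)), setIntegral_const,
      smul_eq_mul, mul_one, Measure.real] at h1
    linarith
  have h1 := hint z
  have h4 := hq0 z (centroid K)
  have h6 : (Q * covMatrix K).trace < 1 := by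
    have h8 := mul_lt_mul_of_pos_left hlt (inv_pos.mpr hV)
    rw [h1, inv_mul_cancel₀ hV.ne'] at h8
    linarith
  have hKP := covMatrix_posSemidef hK
  have h9 := det_mul_det_le hn hQ.posSemidef hKP
  have h10 : 0 ≤ (Q * covMatrix K).trace / n := by
    have h11 := hint (centroid K)
    have hz : ∑ i : Fin n, ∑ j : Fin n, Q i j * ((centroid K i - centroid K i) *
        (centroid K j - centroid K j)) = 0 := by simp
    rw [hz, add_zero] at h11
    rw [← h11]
    exact div_nonneg (mul_nonneg (inv_nonneg.mpr hV.le) (integral_nonneg (hq0 _))) hn0.le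
  have h11 : (Q * covMatrix K).trace / n < 1 / n := div_lt_div_of_pos_right h6 hn0
  have h12 := h9.trans_lt (pow_lt_pow_left₀ h11 h10 hn.ne')
  rw [one_div, inv_pow] at h12
  have hnn : (0 : ℝ) < (n : ℝ) ^ n := by positivity
  calc (n : ℝ) ^ n * Q.det * (covMatrix K).det = (n : ℝ) ^ n * (Q.det * (covMatrix K).det) := by ring
    _ < (n : ℝ) ^ n * ((n : ℝ) ^ n)⁻¹ := mul_lt_mul_of_pos_left h12 hnn
    _ = 1 := mul_inv_cancel₀ hnn.ne'

/-- the class (E): a convex body in the ellipsoid `(x - z)ᵀ Q (x - z) ≤ 1` with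
`(n+1)ⁿ⁺¹ (n+2)ⁿ ≤ |K|² det Q nⁿ (n!)²` has `L_K < L_simplex`. -/
theorem ell_lt (hn : 1 ≤ n) (hK : IsConvexBody K) (hS : IsSimplex S)
    {Q : Matrix (Fin n) (Fin n) ℝ} (hQ : Q.PosDef) (z : Fin n → ℝ)
    (hKQ : ∀ x ∈ K, (x - z) ⬝ᵥ (Q *ᵥ (x - z)) ≤ 1)
    (hvol : ((n : ℝ) + 1) ^ (n + 1) * ((n : ℝ) + 2) ^ n ≤
      (volume K).toReal ^ 2 * Q.det * ((n : ℝ) ^ n * (n.factorial : ℝ) ^ 2)) :
    isoConst K < isoConst S := by
  have hn0 : (0 : ℝ) < n := by exact_mod_cast hn
  have h1 := ell_det_lt (by omega) hK hQ z hKQ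
  have hV := volume_pos_of_body hK
  have hd : 0 < Q.det := hQ.det_pos
  have h2 : (covMatrix K).det / (volume K).toReal ^ 2 < FV.simpC n := by
    unfold FV.simpC
    rw [div_lt_div_iff₀ (by positivity) (by positivity)]
    have hc0 : 0 ≤ (covMatrix K).det := (covMatrix_posSemidef hK.2.1).det_nonneg
    have e : ((n : ℝ) + 1) * (((n : ℝ) + 1) * ((n : ℝ) + 2)) ^ n
        = ((n : ℝ) + 1) ^ (n + 1) * ((n : ℝ) + 2) ^ n := by
      rw [mul_pow]; ring
    rw [e]
    calc (covMatrix K).det * (((n : ℝ) + 1) ^ (n + 1) * ((n : ℝ) + 2) ^ n)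
        ≤ (covMatrix K).det * ((volume K).toReal ^ 2 * Q.det *
          ((n : ℝ) ^ n * (n.factorial : ℝ) ^ 2)) := mul_le_mul_of_nonneg_left hvol hc0
      _ = ((n : ℝ) ^ n * Q.det * (covMatrix K).det) *
          ((n.factorial : ℝ) ^ 2 * (volume K).toReal ^ 2) := by ring
      _ < 1 * ((n.factorial : ℝ) ^ 2 * (volume K).toReal ^ 2) :=
          mul_lt_mul_of_pos_right h1 (by positivity)
      _ = _ := one_mul _
  rw [isoConst_simplex hS, isoConst, isoConst, FV.det_simplex (by omega)]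
  exact Real.rpow_lt_rpow (div_nonneg (covMatrix_posSemidef hK.2.1).det_nonneg (by positivity))
    h2 (by positivity)

/-- The strong isotropic constant conjecture with its equality case for the class (E). -/
theorem ell_conj (hn : 1 ≤ n) (hK : IsConvexBody K) (hS : IsSimplex S)
    {Q : Matrix (Fin n) (Fin n) ℝ} (hQ : Q.PosDef) (z : Fin n → ℝ)
    (hKQ : ∀ x ∈ K, (x - z) ⬝ᵥ (Q *ᵥ (x - z)) ≤ 1)
    (hvol : ((n : ℝ) + 1) ^ (n + 1) * ((n : ℝ) + 2) ^ n ≤
      (volume K).toReal ^ 2 * Q.det * ((n : ℝ) ^ n * (n.factorial : ℝ) ^ 2)) :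
    isoConst K ≤ isoConst S ∧ (isoConst K = isoConst S ↔ IsSimplex K) :=
  conj_of_lt hS (ell_lt hn hK hS hQ z hKQ hvol)

end Vale.Agent.P254
end

section

/-! P254/FV1: the volume inequality with one free variable, in all dimensions. -/

namespace Vale.Agent.P254.FV1

open Unc

theorem cx_all (n : ℕ) : CX n := cx_of_cxs n (cxs_of_unc n (unc_all n))

theorem fcx_all (n : ℕ) : FCX n := fcx_of_cx n (cx_all n)

theorem func_all (n : ℕ) : FUNC n :=
  func_of_fcx_of n (fun L => exists_supconvF L) (fun L => fub_zeroF L) (fun L => fub_sec L)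
    (fcx_all n)

theorem funcr_all (n : ℕ) : FUNCR (n + 1) := funcr_of_func n (func_all n)

end Vale.Agent.P254.FV1
end

section

/-! P254/FV1, final theorems: bodies symmetric in all coordinates but one. -/

open MeasureTheory Set Matrix

namespace Vale.Agent.P254.FV1

/-- The bound for the bodies symmetric in all coordinates but one (`n = d + 1 ≥ 2`). -/
theorem sym1_bound {d : ℕ} (hd : 1 ≤ d) {U : Set (Fin (d + 1) → ℝ)} (hU : IsConvexBody U)
    (hs : Sym1 U) :
    (covMatrix U).det / (volume U).toReal ^ 2 ≤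
      ((d : ℝ) + 1) ^ 2 / (2 * ((d : ℝ) + 2) * ((d : ℝ) + 3)) *
        (((d : ℝ) + 2) / (8 * ((d : ℝ) + 3))) ^ d := by
  obtain ⟨m, rfl⟩ : ∃ m, d = m + 1 := ⟨d - 1, by omega⟩
  exact fv_body (funcr_all m) hU hs

/-- The bodies filling `299/300` of an affine image of a body symmetric in all coordinates but
one, `n ≥ 19`. -/
theorem sym1_near {d : ℕ} (hd : 18 ≤ d) {K U S : Set (Fin (d + 1) → ℝ)} (hK : IsConvexBody K)
    (hS : IsSimplex S) (hU : IsConvexBody U) (hs : Sym1 U)
    {A : Matrix (Fin (d + 1)) (Fin (d + 1)) ℝ} (hA : A.det ≠ 0) {b : Fin (d + 1) → ℝ}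
    (hKU : K ⊆ (fun x => A *ᵥ x + b) '' U)
    (hvol : 299 / 300 * (volume ((fun x => A *ᵥ x + b) '' U)).toReal ≤ (volume K).toReal) :
    isoConst K < isoConst S := by
  refine near_of_bound (by omega) hK hS hU hA hKU (s := 300 / 299) ?_
    (sym1_bound (by omega) hU hs) (NF.fv_num_real' hd)
  have h : 299 / 300 * (volume (aff A b '' U)).toReal ≤ (volume K).toReal := hvol
  linarith

end Vale.Agent.P254.FV1
end

section

/-!
P254, bodies inside a parallelepiped, leaf C2: the marginal density of a convex body is log-concave.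
-/

open MeasureTheory Set
open scoped ENNReal

namespace Vale.Agent.P254.Par

/-- The section of `K` by `x i = t`. -/
def margSec {m : ℕ} (K : Set (Fin (m + 1) → ℝ)) (i : Fin (m + 1)) (t : ℝ) : Set (Fin m → ℝ) :=
  {y | i.insertNth (α := fun _ => ℝ) t y ∈ K}

lemma margSec_vol_lt {m : ℕ} {K : Set (Fin (m + 1) → ℝ)} (hK : IsCompact K) (i : Fin (m + 1))
    (t : ℝ) : volume (margSec K i t) < ∞ := by
  have hc : Continuous fun (x : Fin (m + 1) → ℝ) (k : Fin m) => x (i.succAbove k) := by fun_prop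
  refine lt_of_le_of_lt (measure_mono ?_) (hK.image hc).measure_lt_top
  intro y hy
  refine ⟨_, hy, ?_⟩
  funext k
  simp

theorem marg_succ {m : ℕ} {K : Set (Fin (m + 1) → ℝ)} (hKc : IsCompact K) (hKv : Convex ℝ K)
    (i : Fin (m + 1)) :
    ∃ f : ℝ → ℝ, (∀ t, 0 ≤ f t) ∧ Measurable f ∧ Integrable f ∧
      (∀ t, f t ≠ 0 → ∃ x ∈ K, x i = t) ∧
      (∀ s t, 0 < f s → 0 < f t → ∀ p : ℝ, 0 < p → p < 1 →
        f s ^ (1 - p) * f t ^ p ≤ f ((1 - p) * s + p * t)) ∧
      ∀ φ : ℝ → ℝ, Continuous φ → ∫ x in K, φ (x i) = ∫ t, φ t * f t := by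
  set e := MeasurableEquiv.piFinSuccAbove (fun _ : Fin (m + 1) => ℝ) i with he
  have hvp : MeasurePreserving e volume volume :=
    volume_preserving_piFinSuccAbove (fun _ : Fin (m + 1) => ℝ) i
  have hes : ∀ (t : ℝ) (y : Fin m → ℝ), e.symm (t, y) = i.insertNth (α := fun _ => ℝ) t y :=
    fun t y => rfl
  have hKm : MeasurableSet K := hKc.measurableSet
  have hEm : MeasurableSet (e.symm ⁻¹' K) := e.symm.measurable hKm
  have hsec : ∀ t, Prod.mk t ⁻¹' (e.symm ⁻¹' K) = margSec K i t := fun t => rfl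
  have hSm : ∀ t, MeasurableSet (margSec K i t) := fun t => by
    rw [← hsec]
    exact measurable_prodMk_left hEm
  have hmeas : Measurable fun t => volume (margSec K i t) := by
    have := measurable_measure_prodMk_left (ν := (volume : Measure (Fin m → ℝ))) hEm
    exact this
  have htot : ∫⁻ t, volume (margSec K i t) = volume K := by
    have h1 : volume K = volume (e.symm ⁻¹' K) :=
      (hvp.symm.measure_preimage hKm.nullMeasurableSet).symm
    rw [h1]
    exact (Measure.prod_apply hEm).symm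
  refine ⟨fun t => (volume (margSec K i t)).toReal, fun t => ENNReal.toReal_nonneg,
    hmeas.ennreal_toReal, ?_, ?_, ?_, ?_⟩
  · refine integrable_toReal_of_lintegral_ne_top hmeas.aemeasurable ?_
    rw [htot]
    exact hKc.measure_lt_top.ne
  · intro t ht
    have : (margSec K i t).Nonempty := by
      rw [nonempty_iff_ne_empty]
      rintro h
      exact ht (by simp [h])
    obtain ⟨y, hy⟩ := this
    exact ⟨_, hy, by simp⟩
  · intro s t _ _ p hp0 hp1
    have hb := Unc.bm_mul (s := 1 - p) (t := p) (by linarith) hp0 (by ring) (hSm s) (hSm t)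
      (hSm ((1 - p) * s + p * t)) (by
        intro a ha b hb
        have h1 : (1 - p) • i.insertNth (α := fun _ => ℝ) s a +
            p • i.insertNth (α := fun _ => ℝ) t b ∈ K :=
          hKv ha hb (by linarith) hp0.le (by ring)
        have h2 : (1 - p) • i.insertNth (α := fun _ => ℝ) s a +
            p • i.insertNth (α := fun _ => ℝ) t b =
            i.insertNth (α := fun _ => ℝ) ((1 - p) * s + p * t) ((1 - p) • a + p • b) := by
          funext j
          refine i.succAboveCases ?_ (fun k => ?_) j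
          · simp
          · simp
        show i.insertNth (α := fun _ => ℝ) ((1 - p) * s + p * t) ((1 - p) • a + p • b) ∈ K
        rw [← h2]
        exact h1)
    have h3 := ENNReal.toReal_mono (margSec_vol_lt hKc i _).ne hb
    rwa [ENNReal.toReal_mul, ← ENNReal.toReal_rpow, ← ENNReal.toReal_rpow] at h3
  · intro φ hφ
    have hg : Continuous fun x : Fin (m + 1) → ℝ => φ (x i) := hφ.comp (continuous_apply i)
    have hint : Integrable (K.indicator fun x => φ (x i)) volume :=
      (hg.continuousOn.integrableOn_compact hKc).integrable_indicator hKm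
    rw [← integral_indicator hKm]
    have h1 := hvp.symm.integral_comp' (g := K.indicator fun x => φ (x i))
    rw [← h1]
    have hint2 : Integrable (fun q : ℝ × (Fin m → ℝ) => K.indicator (fun x => φ (x i)) (e.symm q))
        (volume.prod volume) :=
      (hvp.symm.integrable_comp_emb (MeasurableEquiv.measurableEmbedding _)).2 hint
    change ∫ q : ℝ × (Fin m → ℝ), K.indicator (fun x => φ (x i)) (e.symm q)
      ∂(volume.prod volume) = _
    rw [integral_prod _ hint2]
    refine integral_congr_ae (Filter.Eventually.of_forall fun t => ?_)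
    simp only
    have e2 : ∀ y : Fin m → ℝ, K.indicator (fun x => φ (x i)) (e.symm (t, y)) =
        (margSec K i t).indicator (fun _ => φ t) y := by
      intro y
      rw [hes]
      by_cases h : i.insertNth (α := fun _ => ℝ) t y ∈ K
      · rw [indicator_of_mem h, indicator_of_mem (show y ∈ margSec K i t from h)]
        simp
      · rw [indicator_of_notMem h, indicator_of_notMem (show y ∉ margSec K i t from h)]
    simp_rw [e2]
    rw [integral_indicator (hSm t), setIntegral_const, smul_eq_mul, mul_comm]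
    rfl

/-- C2: the marginal density of a convex body is log-concave. -/
theorem marg {n : ℕ} {K : Set (Fin n → ℝ)} (hK : IsConvexBody K) (i : Fin n) :
    ∃ f : ℝ → ℝ, (∀ t, 0 ≤ f t) ∧ Measurable f ∧ Integrable f ∧
      (∀ t, f t ≠ 0 → ∃ x ∈ K, x i = t) ∧
      (∀ s t, 0 < f s → 0 < f t → ∀ p : ℝ, 0 < p → p < 1 →
        f s ^ (1 - p) * f t ^ p ≤ f ((1 - p) * s + p * t)) ∧
      ∀ φ : ℝ → ℝ, Continuous φ → ∫ x in K, φ (x i) = ∫ t, φ t * f t := by
  cases n with
  | zero => exact i.elim0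
  | succ m => exact marg_succ hK.2.1 hK.1 i

end Vale.Agent.P254.Par
end

section

/-!
P254: convex bodies inside a parallelepiped.
-/

open MeasureTheory Set Matrix

namespace Vale.Agent.P254.Par

theorem par_var {n : ℕ} {K : Set (Fin n → ℝ)} (hK : IsConvexBody K) (i : Fin n) {a b : ℝ}
    (h : ∀ x ∈ K, a ≤ x i ∧ x i ≤ b) : covMatrix K i i ≤ (b - a) ^ 2 / 12 := by
  have hV := volume_pos_of_body hK
  have hab : a < b := by
    obtain ⟨x, hx⟩ := hK.2.2
    obtain ⟨r, hr, hball⟩ := Metric.isOpen_iff.mp isOpen_interior x hx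
    have hmem : ∀ s : ℝ, |s| < r → Function.update x i (x i + s) ∈ K := by
      intro s hs
      refine interior_subset (hball ?_)
      rw [Metric.mem_ball, dist_pi_lt_iff hr]
      intro j
      by_cases hj : j = i
      · subst hj
        simp [hs]
      · simp [Function.update_of_ne hj, hr]
    have h1 := h _ (hmem (r / 2) (by rw [abs_of_pos (by linarith)]; linarith))
    have h2 := h _ (hmem (-(r / 2)) (by rw [abs_neg, abs_of_pos (by linarith)]; linarith))
    simp only [Function.update_self] at h1 h2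
    linarith [h1.2, h2.1]
  obtain ⟨f, h0, hm, hi, hs, hlc, hφ⟩ := marg hK i
  have e0 : (volume K).toReal = ∫ t, f t := by
    have := hφ (fun _ => 1) continuous_const
    simpa [Measure.real] using this
  have e1 : ∫ x in K, x i = ∫ t, t * f t := hφ (fun t => t) continuous_id
  have e2 : ∫ x in K, x i * x i = ∫ t, t ^ 2 * f t := by
    have := hφ (fun t => t * t) (continuous_id.mul continuous_id)
    rw [this]
    exact integral_congr_ae (Filter.Eventually.of_forall fun t => by ring)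
  have hsup : ∀ t, f t ≠ 0 → a ≤ t ∧ t ≤ b := by
    intro t ht
    obtain ⟨x, hx, rfl⟩ := hs t ht
    exact h x hx
  have key := lc_var hab h0 hsup hm hi (e0 ▸ hV) hlc
  rw [← e0, ← e1, ← e2] at key
  rw [cov_eq hK.2.1 hV.ne']
  simp only [centroid]
  have hV2 : 0 < (volume K).toReal ^ 2 := by positivity
  rw [← mul_le_mul_iff_of_pos_right hV2]
  refine le_trans (le_of_eq ?_) key
  field_simp

theorem par_det {n : ℕ} (hn : 0 < n) {K : Set (Fin n → ℝ)} (hK : IsConvexBody K)
    (h : K ⊆ Icc 0 1) : (12 : ℝ) ^ n * (covMatrix K).det ≤ 1 := by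
  have hn0 : (0 : ℝ) < n := by exact_mod_cast hn
  have hpsd := covMatrix_posSemidef hK.2.1
  have h1 := det_le_trace_pow hn hpsd
  have h2 : (covMatrix K).trace ≤ n * (1 / 12) := by
    simp only [trace, diag_apply]
    refine (Finset.sum_le_sum (g := fun _ => (1 : ℝ) / 12) fun i _ => ?_).trans ?_
    · have := par_var hK i (a := 0) (b := 1) fun x hx => ⟨(h hx).1 i, (h hx).2 i⟩
      simpa using this
    · simp
  have h3 : 0 ≤ (covMatrix K).trace := hpsd.trace_nonneg
  have h4 : (covMatrix K).trace / n ≤ 1 / 12 := by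
    rw [div_le_iff₀ hn0]; linarith
  have h5 := h1.trans (pow_le_pow_left₀ (div_nonneg h3 hn0.le) h4 n)
  calc (12 : ℝ) ^ n * (covMatrix K).det ≤ 12 ^ n * (1 / 12) ^ n :=
        mul_le_mul_of_nonneg_left h5 (by positivity)
    _ = 1 := by rw [← mul_pow]; norm_num

theorem par_lt {n : ℕ} (hn : 1 ≤ n) {K S : Set (Fin n → ℝ)} (hK : IsConvexBody K)
    (hS : IsSimplex S) {A : Matrix (Fin n) (Fin n) ℝ} (hA : A.det ≠ 0) (b : Fin n → ℝ)
    (hKQ : K ⊆ aff A b '' Icc 0 1)
    (hvol : ((n : ℝ) + 1) ^ (n + 1) * ((n : ℝ) + 2) ^ n *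
      (volume (aff A b '' Icc 0 1)).toReal ^ 2 <
      12 ^ n * (n.factorial : ℝ) ^ 2 * (volume K).toReal ^ 2) :
    isoConst K < isoConst S := by
  have hn0 : (0 : ℝ) < n := by exact_mod_cast hn
  have hu : IsUnit A.det := isUnit_iff_ne_zero.2 hA
  have hdi : (A⁻¹).det ≠ 0 := by
    rw [det_nonsing_inv, Ring.inverse_eq_inv']
    exact inv_ne_zero hA
  set K' : Set (Fin n → ℝ) := aff A⁻¹ (-(A⁻¹ *ᵥ b)) '' K with hK'
  have hcomp : ∀ x, aff A b (aff A⁻¹ (-(A⁻¹ *ᵥ b)) x) = x := by
    intro x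
    simp only [aff, mulVec_add, mulVec_neg, mulVec_mulVec, mul_nonsing_inv _ hu, one_mulVec]
    simp
  have hcomp' : ∀ x, aff A⁻¹ (-(A⁻¹ *ᵥ b)) (aff A b x) = x := by
    intro x
    simp only [aff, mulVec_add, mulVec_mulVec, nonsing_inv_mul _ hu, one_mulVec]
    simp
  have hKK : K = aff A b '' K' := by
    rw [hK', image_image]
    simp only [hcomp, image_id']
  have hKb : IsConvexBody K' := isConvexBody_aff_image hdi _ hK
  have hsub : K' ⊆ Icc 0 1 := by
    rintro y ⟨x, hx, rfl⟩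
    obtain ⟨z, hz, rfl⟩ := hKQ hx
    rw [hcomp']
    exact hz
  have h1 := par_det (by omega) hKb hsub
  have hV' := volume_pos_of_body hKb
  have hiso : isoConst K = isoConst K' := by
    rw [hKK]
    exact isoConst_aff_image hA b hKb.2.1 hV'.ne'
  have hvK : (volume K).toReal = |A.det| * (volume K').toReal := by
    rw [hKK]
    exact volume_aff_image hA b hKb.2.1.measurableSet
  have hvQ : (volume (aff A b '' Icc 0 1)).toReal = |A.det| := by
    rw [volume_aff_image hA b measurableSet_Icc]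
    simp [Real.volume_Icc_pi]
  rw [hvK, hvQ] at hvol
  have hdp : 0 < |A.det| ^ 2 := by positivity
  have h2 : (((n : ℝ) + 1) ^ (n + 1) * ((n : ℝ) + 2) ^ n) * |A.det| ^ 2 <
      (12 ^ n * (n.factorial : ℝ) ^ 2 * (volume K').toReal ^ 2) * |A.det| ^ 2 := by
    calc _ < _ := hvol
      _ = _ := by ring
  have h3 := lt_of_mul_lt_mul_right h2 hdp.le
  have hc0 : 0 ≤ (covMatrix K').det := (covMatrix_posSemidef hKb.2.1).det_nonneg
  have h4 : (covMatrix K').det / (volume K').toReal ^ 2 < FV.simpC n := by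
    unfold FV.simpC
    rw [div_lt_div_iff₀ (by positivity) (by positivity)]
    have e : ((n : ℝ) + 1) * (((n : ℝ) + 1) * ((n : ℝ) + 2)) ^ n
        = ((n : ℝ) + 1) ^ (n + 1) * ((n : ℝ) + 2) ^ n := by
      rw [mul_pow]; ring
    rw [e]
    rcases hc0.eq_or_lt with hc | hc
    · rw [← hc, zero_mul]
      positivity
    · calc (covMatrix K').det * (((n : ℝ) + 1) ^ (n + 1) * ((n : ℝ) + 2) ^ n)
          < (covMatrix K').det * (12 ^ n * (n.factorial : ℝ) ^ 2 * (volume K').toReal ^ 2) :=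
            mul_lt_mul_of_pos_left h3 hc
        _ = (12 ^ n * (covMatrix K').det) * ((n.factorial : ℝ) ^ 2 * (volume K').toReal ^ 2) := by
            ring
        _ ≤ 1 * ((n.factorial : ℝ) ^ 2 * (volume K').toReal ^ 2) :=
            mul_le_mul_of_nonneg_right h1 (by positivity)
        _ = _ := one_mul _
  rw [hiso, isoConst_simplex hS, isoConst, isoConst, FV.det_simplex (by omega)]
  exact Real.rpow_lt_rpow (div_nonneg hc0 (by positivity)) h4 (by positivity)

end Vale.Agent.P254.Par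
end

section

/-!
The strong isotropic constant conjecture for the class `Cls`.
-/

open MeasureTheory Set Matrix

namespace Vale.Agent.P254.FV

variable {m n : ℕ}

theorem of_sandwich (hn : 1 ≤ n) {K T S : Set (Fin n → ℝ)} (hK : IsConvexBody K)
    (hS : IsSimplex S) (hT : IsSimplex T) (h1 : T ∩ momentEllipsoid T ⊆ K)
    (h2 : K ⊆ T ∪ momentEllipsoid T) :
    isoConst K ≤ isoConst S ∧ (isoConst K = isoConst S ↔ IsSimplex K) := by
  obtain ⟨r1, r2⟩ := sandwich hn hK hT h1 h2
  have e : isoConst S = isoConst T := by rw [isoConst_simplex hS, isoConst_simplex hT]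
  rw [e]
  refine ⟨r1, fun h3 => ?_, fun h3 => ?_⟩
  · rw [r2.mp h3]; exact hT
  · rw [isoConst_simplex h3, isoConst_simplex hT]

theorem of_close (hn : 1 ≤ n) {K S : Set (Fin n → ℝ)} (hK : IsConvexBody K) (hS : IsSimplex S)
    (hclose : (∃ T : Set (Fin n → ℝ), IsSimplex T ∧ K ⊆ T ∧
        (1 - 1 / ((n : ℝ) + 2) ^ (4 * n)) * (volume T).toReal ≤ (volume K).toReal) ∨
      (∃ T : Set (Fin n → ℝ), ∃ z : Fin n → ℝ, ∃ r : ℝ, 0 < r ∧ r ≤ 1 + 1 / ((n : ℝ) + 2) ^ 5 ∧
        IsSimplex T ∧ T ⊆ K ∧ K ⊆ (fun x => z + r • x) '' T)) :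
    isoConst K ≤ isoConst S ∧ (isoConst K = isoConst S ↔ IsSimplex K) := by
  obtain ⟨⟨T₀, h1, h2, h3, h4⟩, h5⟩ := main_q hn hK hS hclose
  refine ⟨?_, h5⟩
  have hS0 : 0 ≤ isoConst S := by
    rw [isoConst_simplex hS]
    exact (isoConst_stdS_pos (by omega)).le
  refine h4.trans ?_
  have hT₀ : 0 < (volume T₀).toReal := by
    obtain ⟨A0, b0, hA0, rfl⟩ := h1.exists_aff
    rw [volume_aff_image hA0 b0 isCompact_stdS.measurableSet]
    exact mul_pos (abs_pos.mpr hA0) volume_stdS_pos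
  have hT₀fin : volume T₀ ≠ ⊤ := by
    intro h
    rw [h] at hT₀
    simp at hT₀
  have hle : (volume K).toReal / (volume T₀).toReal ≤ 1 :=
    (div_le_one hT₀).mpr (ENNReal.toReal_mono hT₀fin (measure_mono h2))
  have hn0 : (0 : ℝ) < n := by exact_mod_cast hn
  have : 0 ≤ (1 - (volume K).toReal / (volume T₀).toReal) / (2 * (n : ℝ) ^ 2) :=
    div_nonneg (by linarith) (by positivity)
  nlinarith

theorem ball_conj (hn : 1 ≤ n) {K S : Set (Fin n → ℝ)} (hK : IsConvexBody K) (hS : IsSimplex S)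
    {A : Matrix (Fin n) (Fin n) ℝ} {b : Fin n → ℝ} (hA : A.det ≠ 0)
    (hsub : K ⊆ cImg A b {x | x ⬝ᵥ x ≤ 1})
    (hvol : ((n : ℝ) + 1) ^ (n + 1) * (n + 2) ^ n * A.det ^ 2 ≤
      n ^ n * n.factorial ^ 2 * cVol K ^ 2) :
    isoConst K ≤ isoConst S ∧ (isoConst K = isoConst S ↔ IsSimplex K) := by
  have hu : IsUnit A.det := isUnit_iff_ne_zero.2 hA
  refine ell_conj hn hK hS (Q := (A⁻¹)ᵀ * A⁻¹) ?_ b ?_ ?_
  · have h1 := Matrix.PosDef.conjTranspose_mul_self (A⁻¹) (by
      apply Matrix.mulVec_injective_iff_isUnit.mpr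
      rw [Matrix.isUnit_iff_isUnit_det, det_nonsing_inv]
      simpa using hA)
    rwa [conjTranspose_eq_transpose_of_trivial] at h1
  · intro x hx
    obtain ⟨y, hy, rfl⟩ := hsub hx
    simp only [add_sub_cancel_right]
    have e1 : ((A⁻¹)ᵀ * A⁻¹) *ᵥ (A *ᵥ y) = (A⁻¹)ᵀ *ᵥ y := by
      rw [mulVec_mulVec, Matrix.mul_assoc, nonsing_inv_mul _ hu, Matrix.mul_one]
    rw [e1, dotProduct_mulVec, vecMul_transpose, mulVec_mulVec, nonsing_inv_mul _ hu, one_mulVec]
    exact hy
  · rw [det_mul, det_transpose, det_nonsing_inv, Ring.inverse_eq_inv']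
    have e : (volume K).toReal = cVol K := rfl
    rw [e]
    have h2 : 0 < A.det ^ 2 := by positivity
    have e2 : cVol K ^ 2 * (A.det⁻¹ * A.det⁻¹) * ((n : ℝ) ^ n * (n.factorial : ℝ) ^ 2) =
        (n : ℝ) ^ n * (n.factorial : ℝ) ^ 2 * cVol K ^ 2 / A.det ^ 2 := by
      field_simp
    rw [e2, le_div_iff₀ h2]
    exact hvol

theorem cube_conj (hn : 1 ≤ n) {K S : Set (Fin n → ℝ)} (hK : IsConvexBody K) (hS : IsSimplex S)
    {A : Matrix (Fin n) (Fin n) ℝ} {b : Fin n → ℝ} (hA : A.det ≠ 0)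
    (hsub : K ⊆ cImg A b (Icc 0 1))
    (hvol : ((n : ℝ) + 1) ^ (n + 1) * (n + 2) ^ n * A.det ^ 2 <
      12 ^ n * n.factorial ^ 2 * cVol K ^ 2) :
    isoConst K ≤ isoConst S ∧ (isoConst K = isoConst S ↔ IsSimplex K) := by
  refine lt_conj hS (Par.par_lt hn hK hS hA b hsub ?_)
  rw [volume_aff_image hA b measurableSet_Icc, Real.volume_Icc_pi_toReal zero_le_one]
  simpa [sq_abs, cVol] using hvol

theorem cImg_smul_one (r : ℝ) (z : Fin n → ℝ) (T : Set (Fin n → ℝ)) :
    cImg (r • 1) z T = (fun x => z + r • x) '' T := by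
  unfold cImg
  congr 1
  ext x i
  simp [Matrix.smul_mulVec, add_comm]

theorem Cls.good {K : Set (Fin n → ℝ)} (h : Cls n K) : Good K := by
  induction h with
  | near hn hU hT h =>
    obtain ⟨hK, A, b, hA, hsub, hvol⟩ := h
    exact good_of hn hK fun S hS =>
      let r := EX.near_sym hn hK hS ⟨A, b, _, _, hA, hU.1, hU.2, hT, Or.inl ⟨hsub, hvol⟩⟩
      ⟨r.1, r.2.1⟩
  | oneFree hn hU h =>
    obtain ⟨hK, A, b, hA, hsub, hvol⟩ := h
    refine good_of (by omega) hK fun S hS => lt_conj hS ?_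
    refine FV1.sym1_near hn hK hS hU.1 ?_ hA hsub hvol
    intro x hx y h0 hk
    refine hU.2 x hx y (fun i hi => ?_) (fun i hi => ?_)
    · obtain ⟨j, rfl⟩ := Fin.exists_succ_eq.2 (Finset.ne_of_mem_erase hi)
      exact hk j
    · have : i = 0 := by simpa using hi
      rw [this]
      exact h0
  | l1 hn h1 h2 h3 h =>
    obtain ⟨hK, A, b, hA, hsub, hvol⟩ := h
    exact good_of (by omega) hK fun S hS =>
      lt_conj hS (L1.l1_near hn hK hS h2 h3 hA hsub hvol)
  | ball hn hK hA hsub hvol =>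
    exact good_of hn hK fun S hS => ball_conj hn hK hS hA hsub hvol
  | cube hn hK hA hsub hvol =>
    exact good_of hn hK fun S hS => cube_conj hn hK hS hA hsub hvol
  | fewVertices hn hK =>
    exact good_of hn hK fun S hS =>
      let r := few_vertices hn _ hK.2.2 hS
      ⟨r.1, r.2.1⟩
  | sandwiched hn hK hT h1 h2 =>
    exact good_of hn hK fun S hS =>
      of_sandwich hn hK hS hT h1 h2
  | nearSimplex hn hT h =>
    obtain ⟨hK, A, b, hA, hsub, hvol⟩ := h
    exact good_of hn hK fun S hS =>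
      of_close hn hK hS (Or.inl ⟨_, isSimplex_aff hT hA b, hsub, hvol⟩)
  | closeSimplex hn hK hr0 hr hT h1 h2 =>
    rw [cImg_smul_one] at h2
    exact good_of hn hK fun S hS => of_close hn hK hS (Or.inr ⟨_, _, _, hr0, hr, hT, h1, h2⟩)
  | affine hA _ ih => exact ih.aff hA _
  | pyramid _ ih => exact ih.pyramid
  | prod _ _ ih1 ih2 => exact ih1.prod ih2
  | freeSum hK0 hL0 _ _ ih1 ih2 => exact ih1.freeSum ih2 hK0 hL0

end Vale.Agent.P254.FV
end
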